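import Vale.Agent.P193.MathlibUsed

set_option linter.all false

section

section


/-! file Defs -/

section FileDefs
/-!
Boone-Higman project: common definitions (algebra side).
-/

namespace Vale.Agent.P193.BH

/-- finitely presented algebra over the field with two elements -/
def FPAlg (A : Type) [Ring A] [Algebra (ZMod 2) A] : Prop :=
  ∃ (ι : Type) (_ : Finite ι) (f : FreeAlgebra (ZMod 2) ι →ₐ[ZMod 2] A)
    (s : Set (FreeAlgebra (ZMod 2) ι)),
    Function.Surjective f ∧ s.Finite ∧ ∀ x, f x = 0 ↔ x ∈ TwoSidedIdeal.span s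

/-- every nonzero element can be multiplied to one -/
def PI (A : Type) [Ring A] : Prop := ∀ a : A, a ≠ 0 → ∃ p q : A, p * a * q = 1

/-- the center is `{0, 1}` -/
def CenterTriv (A : Type) [Ring A] : Prop :=
  ∀ c : A, (∀ a, c * a = a * c) → c = 0 ∨ c = 1

/-- infinite sum ring structure -/
structure InfSum (A : Type) [Ring A] where
  x0 : A
  x1 : A
  y0 : A
  y1 : A
  φ : A →+* A
  h00 : y0 * x0 = 1
  h11 : y1 * x1 = 1
  h01 : y0 * x1 = 0
  h10 : y1 * x0 = 0
  hs : x0 * y0 + x1 * y1 = 1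
  hφ : ∀ a, φ a = x0 * a * y0 + x1 * φ a * y1

/-- a copy of the Leavitt algebra relations (two generators) -/
structure Leav (A : Type) [Ring A] where
  s : Bool → A
  t : Bool → A
  ts : ∀ a b, t a * s b = if a = b then 1 else 0
  st : s false * t false + s true * t true = 1

/-- `s_w = s_{w_1} ... s_{w_d}` -/
def Leav.sw {A : Type} [Ring A] (L : Leav A) : List Bool → A
  | [] => 1
  | b :: w => L.s b * L.sw w

/-- `t_w = t_{w_d} ... t_{w_1}` -/
def Leav.tw {A : Type} [Ring A] (L : Leav A) : List Bool → A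
  | [] => 1
  | b :: w => L.tw w * L.t b

/-- bounded support property -/
def Leav.Tiny {A : Type} [Ring A] (L : Leav A) : Prop :=
  ∀ r : A, ∃ C : ℕ, ∀ (d : ℕ) (w : List.Vector Bool d),
    Set.ncard {w' : List.Vector Bool d | L.tw w'.1 * r * L.sw w.1 ≠ 0} ≤ C ∧
    Set.ncard {w' : List.Vector Bool d | L.tw w.1 * r * L.sw w'.1 ≠ 0} ≤ C

/-- separation property of a spanning set -/
def Sep (R : Type) [Ring R] [Algebra (ZMod 2) R] (M : Set R) : Prop :=
  1 ∈ M ∧ Submodule.span (ZMod 2) M = ⊤ ∧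
    ∀ m ∈ M, ∀ T : Finset R, (T : Set R) ⊆ M → m ∉ T →
      ∃ p q : R, p * m * q = 1 ∧ ∀ t ∈ T, p * t * q = 0

/-- cone algebra structure: `C` is a set of pairs (isometry, its left inverse) -/
structure Cone (B : Type) [Ring B] [Algebra (ZMod 2) B] (C : Set (B × B)) : Prop where
  one : ((1 : B), (1 : B)) ∈ C
  inv : ∀ c ∈ C, c.2 * c.1 = 1
  mul : ∀ c ∈ C, ∀ d ∈ C, (c.1 * d.1, d.2 * c.2) ∈ C
  K1 : ∀ b : B, ∃ l : List (B × B), (∀ c ∈ l, c ∈ C) ∧ (l.map fun c => c.1 * c.2).sum = 1 ∧
    ∀ c ∈ l, b * c.1 ∈ Submodule.span (ZMod 2) (Prod.fst '' C)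
  K2 : ∀ c ∈ C, ∀ T : Finset B, (T : Set B) ⊆ Prod.fst '' C → c.1 ∉ T →
    ∃ d ∈ C, ∀ t ∈ T, d.2 * c.2 * t * d.1 = 0

end Vale.Agent.P193.BH

end FileDefs

/-! file FPQuot -/

section FileFPQuot
/-! algebras given by finitely many generators and relations are finitely presented -/

namespace Vale.Agent.P193.BH

/-- the kernel of the quotient map to `RingQuot r` -/
theorem ringQuot_mk_eq_zero_iff (ι : Type)
    (r : FreeAlgebra (ZMod 2) ι → FreeAlgebra (ZMod 2) ι → Prop)
    (x : FreeAlgebra (ZMod 2) ι) :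
    RingQuot.mkAlgHom (ZMod 2) r x = 0 ↔
      x ∈ TwoSidedIdeal.span {z | ∃ a b, r a b ∧ z = a - b} := by
  set s : Set (FreeAlgebra (ZMod 2) ι) := {z | ∃ a b, r a b ∧ z = a - b} with hs
  constructor
  · intro hx
    have key : ∀ ⦃a b : FreeAlgebra (ZMod 2) ι⦄, r a b →
        (TwoSidedIdeal.span s).ringCon.mk' a = (TwoSidedIdeal.span s).ringCon.mk' b := by
      intro a b hab
      have h1 : a - b ∈ TwoSidedIdeal.span s := TwoSidedIdeal.subset_span ⟨a, b, hab, rfl⟩
      have h2 : (TwoSidedIdeal.span s).ringCon a b := by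
        rw [TwoSidedIdeal.rel_iff]
        exact h1
      exact (RingCon.eq _).mpr h2
    have h3 : RingQuot.lift ⟨(TwoSidedIdeal.span s).ringCon.mk', key⟩
        (RingQuot.mkRingHom r x) = (TwoSidedIdeal.span s).ringCon.mk' x := by
      simp
    have h4 : RingQuot.mkRingHom r x = 0 := by
      rw [← RingQuot.mkAlgHom_coe (ZMod 2) r]
      exact hx
    rw [h4, map_zero] at h3
    have h5 : (TwoSidedIdeal.span s).ringCon x 0 := by
      apply (RingCon.eq _).mp
      change (TwoSidedIdeal.span s).ringCon.mk' x = (TwoSidedIdeal.span s).ringCon.mk' 0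
      rw [← h3, map_zero]
    rw [TwoSidedIdeal.rel_iff] at h5
    simpa using h5
  · intro hx
    have h1 : TwoSidedIdeal.span s ≤
        TwoSidedIdeal.ker (RingQuot.mkAlgHom (ZMod 2) r : FreeAlgebra (ZMod 2) ι →+* RingQuot r) := by
      rw [TwoSidedIdeal.span_le]
      rintro z ⟨a, b, hab, rfl⟩
      rw [SetLike.mem_coe, TwoSidedIdeal.mem_ker]
      have h6 : RingQuot.mkAlgHom (ZMod 2) r a = RingQuot.mkAlgHom (ZMod 2) r b :=
        RingQuot.mkAlgHom_rel (ZMod 2) hab
      change RingQuot.mkAlgHom (ZMod 2) r (a - b) = 0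
      rw [map_sub, h6, sub_self]
    have h2 := h1 hx
    rw [TwoSidedIdeal.mem_ker] at h2
    exact h2

/-- finite presentations -/
theorem fpAlg_ringQuot (ι : Type) [Finite ι]
    (r : FreeAlgebra (ZMod 2) ι → FreeAlgebra (ZMod 2) ι → Prop)
    (hr : {p : FreeAlgebra (ZMod 2) ι × FreeAlgebra (ZMod 2) ι | r p.1 p.2}.Finite) :
    FPAlg (RingQuot r) := by
  refine ⟨ι, inferInstance, RingQuot.mkAlgHom (ZMod 2) r, {z | ∃ a b, r a b ∧ z = a - b},
    RingQuot.mkAlgHom_surjective (ZMod 2) r, ?_, fun x => ringQuot_mk_eq_zero_iff ι r x⟩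
  refine (hr.image fun p => p.1 - p.2).subset ?_
  rintro z ⟨a, b, hab, rfl⟩
  exact ⟨(a, b), hab, rfl⟩

end Vale.Agent.P193.BH

end FileFPQuot
end
end

section

section


/-! file St -/

section FileSt
/-!
Steinberg groups over a (noncommutative) ring: definition and basic calculus.
Commutators are `⁅a, b⁆ = a * b * a⁻¹ * b⁻¹`.
-/

namespace Vale.Agent.P193.BH

open Matrix
open scoped commutatorElement

variable {ι κ : Type} {A B : Type} [Ring A] [Ring B]

/-- Steinberg relators; `x_ii(a)` is declared trivial -/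
inductive StRel (ι A : Type) [Ring A] : FreeGroup (ι × ι × A) → Prop
  | diag (i : ι) (a : A) : StRel ι A (FreeGroup.of (i, i, a))
  | add (i j : ι) (a b : A) : i ≠ j → StRel ι A
      (FreeGroup.of (i, j, a) * FreeGroup.of (i, j, b) * (FreeGroup.of (i, j, a + b))⁻¹)
  | comm (i j k : ι) (a b : A) : i ≠ j → j ≠ k → i ≠ k → StRel ι A
      (⁅FreeGroup.of (i, j, a), FreeGroup.of (j, k, b)⁆ * (FreeGroup.of (i, k, a * b))⁻¹)
  | disj (i j k l : ι) (a b : A) : i ≠ j → k ≠ l → j ≠ k → i ≠ l → StRel ι A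
      ⁅FreeGroup.of (i, j, a), FreeGroup.of (k, l, b)⁆

/-- the Steinberg group -/
def St (ι A : Type) [Ring A] : Type := PresentedGroup {r : FreeGroup (ι × ι × A) | StRel ι A r}

noncomputable instance : Group (St ι A) := inferInstanceAs (Group (PresentedGroup _))

namespace St

/-- the generators -/
noncomputable def x (i j : ι) (a : A) : St ι A := PresentedGroup.of (i, j, a)

theorem rel_eq_one {r : FreeGroup (ι × ι × A)} (h : StRel ι A r) :
    (PresentedGroup.mk {r : FreeGroup (ι × ι × A) | StRel ι A r} r : St ι A) = 1 :=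
  PresentedGroup.one_of_mem h

@[simp] theorem x_diag (i : ι) (a : A) : (x i i a : St ι A) = 1 := rel_eq_one (.diag i a)

theorem x_add (i j : ι) (a b : A) : (x i j (a + b) : St ι A) = x i j a * x i j b := by
  by_cases h : i = j
  · subst h; simp
  · have := rel_eq_one (.add i j a b h)
    simp only [map_mul, map_inv] at this
    exact (mul_inv_eq_one.1 this).symm

theorem x_comm {i j k : ι} (hij : i ≠ j) (hjk : j ≠ k) (hik : i ≠ k) (a b : A) :
    ⁅(x i j a : St ι A), x j k b⁆ = x i k (a * b) := by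
  have := rel_eq_one (.comm i j k a b hij hjk hik)
  simp only [map_mul, map_commutatorElement, map_inv] at this
  exact mul_inv_eq_one.1 this

theorem x_disj {i j k l : ι} (hjk : j ≠ k) (hil : i ≠ l) (a b : A) :
    ⁅(x i j a : St ι A), x k l b⁆ = 1 := by
  by_cases h1 : i = j
  · subst h1; simp
  by_cases h2 : k = l
  · subst h2; simp
  have := rel_eq_one (.disj i j k l a b h1 h2 hjk hil)
  simp only [map_commutatorElement] at this
  exact this

theorem commute_x {i j k l : ι} (hjk : j ≠ k) (hil : i ≠ l) (a b : A) :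
    Commute (x i j a : St ι A) (x k l b) :=
  commutatorElement_eq_one_iff_commute.1 (x_disj hjk hil a b)

@[simp] theorem x_zero (i j : ι) : (x i j (0 : A) : St ι A) = 1 := by
  have := x_add i j (0 : A) 0
  simpa using this

theorem x_neg (i j : ι) (a : A) : (x i j (-a) : St ι A) = (x i j a)⁻¹ := by
  have := x_add i j (-a) a
  simp only [neg_add_cancel, x_zero] at this
  exact eq_inv_of_mul_eq_one_left this.symm

/-- universal property -/
noncomputable def lift {H : Type*} [Group H] (X : ι → ι → A → H)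
    (hd : ∀ i a, X i i a = 1)
    (ha : ∀ i j a b, i ≠ j → X i j (a + b) = X i j a * X i j b)
    (hc : ∀ i j k a b, i ≠ j → j ≠ k → i ≠ k → ⁅X i j a, X j k b⁆ = X i k (a * b))
    (hc' : ∀ i j k l a b, i ≠ j → k ≠ l → j ≠ k → i ≠ l → ⁅X i j a, X k l b⁆ = 1) :
    St ι A →* H :=
  PresentedGroup.toGroup (f := fun p : ι × ι × A => X p.1 p.2.1 p.2.2) (by
    intro r hr
    cases hr with
    | diag i a => simp [hd]
    | add i j a b h => simp [ha i j a b h]
    | comm i j k a b h1 h2 h3 => simp [map_commutatorElement, hc i j k a b h1 h2 h3]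
    | disj i j k l a b h1 h2 h3 h4 => simp [map_commutatorElement, hc' i j k l a b h1 h2 h3 h4])

@[simp] theorem lift_x {H : Type*} [Group H] (X : ι → ι → A → H) (hd) (ha) (hc) (hc')
    (i j : ι) (a : A) : lift X hd ha hc hc' (x i j a) = X i j a := by
  exact PresentedGroup.toGroup.of _

/-- two homs agreeing on the generators are equal -/
theorem hom_ext {H : Type*} [Group H] {f g : St ι A →* H}
    (h : ∀ i j a, i ≠ j → f (x i j a) = g (x i j a)) : f = g := by
  refine PresentedGroup.ext ?_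
  rintro ⟨i, j, a⟩
  by_cases hij : i = j
  · subst hij
    have h1 : (PresentedGroup.of (i, i, a) : St ι A) = 1 := x_diag i a
    change f (x i i a) = g (x i i a)
    simp only [x_diag, map_one]
  · exact h i j a hij

theorem closure_x : Subgroup.closure {g : St ι A | ∃ i j a, i ≠ j ∧ g = x i j a} = ⊤ := by
  rw [eq_top_iff]
  have h := PresentedGroup.closure_range_of {r : FreeGroup (ι × ι × A) | StRel ι A r}
  intro g _
  have hg : g ∈ Subgroup.closure (Set.range (PresentedGroup.of :
      ι × ι × A → PresentedGroup {r : FreeGroup (ι × ι × A) | StRel ι A r})) := by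
    rw [h]; trivial
  refine (Subgroup.closure_le _).2 ?_ hg
  rintro _ ⟨⟨i, j, a⟩, rfl⟩
  by_cases hij : i = j
  · subst hij
    have : (PresentedGroup.of (i, i, a) : St ι A) = 1 := x_diag i a
    change (PresentedGroup.of (i, i, a) : St ι A) ∈ _
    rw [this]; exact one_mem _
  · exact Subgroup.subset_closure ⟨i, j, a, hij, rfl⟩

/-- induction: every element is a product of generators (list version) -/
theorem exists_list (g : St ι A) : ∃ l : List (ι × ι × A), (∀ p ∈ l, p.1 ≠ p.2.1) ∧
    g = (l.map fun p => x p.1 p.2.1 p.2.2).prod := by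
  have hg : g ∈ Subgroup.closure {g : St ι A | ∃ i j a, i ≠ j ∧ g = x i j a} := by
    rw [closure_x]; trivial
  induction hg using Subgroup.closure_induction with
  | mem y hy =>
    obtain ⟨i, j, a, hij, rfl⟩ := hy
    exact ⟨[(i, j, a)], by simpa only [List.mem_cons, List.not_mem_nil, or_false, ne_eq, forall_eq] using hij, by simp⟩
  | one => exact ⟨[], by simp, by simp⟩
  | mul y z _ _ hy hz =>
    obtain ⟨l, hl, rfl⟩ := hy
    obtain ⟨m, hm, rfl⟩ := hz
    refine ⟨l ++ m, ?_, by simp only [List.map_append, List.prod_append]⟩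
    intro p hp
    rcases List.mem_append.1 hp with h | h
    · exact hl p h
    · exact hm p h
  | inv y _ hy =>
    obtain ⟨l, hl, rfl⟩ := hy
    refine ⟨(l.map fun p => (p.1, p.2.1, -p.2.2)).reverse, ?_, ?_⟩
    · intro p hp
      simp only [List.mem_reverse, List.mem_map] at hp
      obtain ⟨q, hq, rfl⟩ := hp
      exact hl q hq
    · rw [List.prod_inv_reverse, List.map_reverse, List.map_map, List.map_map]
      congr 2
      apply List.map_congr_left
      intro p _
      simp [x_neg]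

/-- the subgroup generated by the generators with both indices in `V` -/
noncomputable def sub (V : Set ι) : Subgroup (St ι A) :=
  Subgroup.closure {g | ∃ i j a, i ∈ V ∧ j ∈ V ∧ i ≠ j ∧ g = x i j a}

theorem x_mem_sub {V : Set ι} {i j : ι} (hi : i ∈ V) (hj : j ∈ V) (a : A) :
    (x i j a : St ι A) ∈ (sub V : Subgroup (St ι A)) := by
  by_cases hij : i = j
  · subst hij; simp only [x_diag, one_mem]
  · exact Subgroup.subset_closure ⟨i, j, a, hi, hj, hij, rfl⟩

theorem sub_mono {V W : Set ι} (h : V ⊆ W) :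
    (sub V : Subgroup (St ι A)) ≤ sub W := by
  refine (Subgroup.closure_le _).2 ?_
  rintro _ ⟨i, j, a, hi, hj, -, rfl⟩
  exact x_mem_sub (h hi) (h hj) a

/-- functoriality for non-unital ring homs -/
noncomputable def map (ψ : A →ₙ+* B) : St ι A →* St ι B :=
  lift (fun i j a => x i j (ψ a)) (by simp)
    (by intro i j a b _; simp [x_add])
    (by intro i j k a b h1 h2 h3; simp [x_comm h1 h2 h3])
    (by intro i j k l a b _ _ h3 h4; exact x_disj h3 h4 _ _)

@[simp] theorem map_x (ψ : A →ₙ+* B) (i j : ι) (a : A) :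
    map ψ (x i j a : St ι A) = x i j (ψ a) := lift_x _ _ _ _ _ _ _ _

theorem map_mem_sub (ψ : A →ₙ+* B) {V : Set ι} {g : St ι A}
    (hg : g ∈ (sub V : Subgroup (St ι A))) : map ψ g ∈ (sub V : Subgroup (St ι B)) := by
  have : (sub V : Subgroup (St ι A)) ≤ (sub V : Subgroup (St ι B)).comap (map ψ) := by
    refine (Subgroup.closure_le _).2 ?_
    rintro _ ⟨i, j, a, hi, hj, -, rfl⟩
    simpa using x_mem_sub hi hj (ψ a)
  exact this hg

end St

/-! ### transvections -/

section tv
variable [Fintype ι] [DecidableEq ι]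

theorem single_mul_self_of_ne {i j : ι} (h : i ≠ j) (a b : A) :
    Matrix.single i j a * Matrix.single i j b = 0 := by
  rw [Matrix.single_mul_single_of_ne _ _ _ _ (Ne.symm h)]

theorem one_add_single_mul {i j : ι} (h : i ≠ j) (a b : A) :
    (1 + Matrix.single i j a) * (1 + Matrix.single i j b) = 1 + Matrix.single i j (a + b) := by
  rw [mul_add, add_mul, add_mul, single_mul_self_of_ne h, mul_one, one_mul, mul_one, add_zero,
    add_assoc, ← Matrix.single_add]

/-- the transvection `1 + a E_ij` as a unit (`1` if `i = j`) -/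
def tv (i j : ι) (a : A) : (Matrix ι ι A)ˣ :=
  if h : i = j then 1 else
    { val := 1 + Matrix.single i j a
      inv := 1 + Matrix.single i j (-a)
      val_inv := by rw [one_add_single_mul h]; simp
      inv_val := by rw [one_add_single_mul h]; simp }

theorem tv_val {i j : ι} (h : i ≠ j) (a : A) :
    ((tv i j a : (Matrix ι ι A)ˣ) : Matrix ι ι A) = 1 + Matrix.single i j a := by
  simp [tv, h]

theorem tv_inv {i j : ι} (h : i ≠ j) (a : A) :
    (((tv i j a)⁻¹ : (Matrix ι ι A)ˣ) : Matrix ι ι A) = 1 + Matrix.single i j (-a) := by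
  simp only [tv, h, dite_false]; rfl

@[simp] theorem tv_diag (i : ι) (a : A) : (tv i i a : (Matrix ι ι A)ˣ) = 1 := by simp [tv]

theorem tv_add (i j : ι) (a b : A) : (tv i j (a + b) : (Matrix ι ι A)ˣ) = tv i j a * tv i j b := by
  by_cases h : i = j
  · subst h; simp
  · apply Units.ext
    rw [Units.val_mul, tv_val h, tv_val h, tv_val h, one_add_single_mul h]

theorem tv_comm {i j k : ι} (hij : i ≠ j) (hjk : j ≠ k) (hik : i ≠ k) (a b : A) :
    ⁅(tv i j a : (Matrix ι ι A)ˣ), tv j k b⁆ = tv i k (a * b) := by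
  apply Units.ext
  rw [commutatorElement_def, Units.val_mul, Units.val_mul, Units.val_mul, tv_inv hij, tv_inv hjk,
    tv_val hij, tv_val hjk, tv_val hik]
  have e1 : ∀ (c d : A), Matrix.single j k c * Matrix.single i j d = 0 := fun c d =>
    Matrix.single_mul_single_of_ne _ _ _ _ hik.symm _
  have e2 : ∀ (c d : A), Matrix.single i j c * Matrix.single i j d = 0 :=
    single_mul_self_of_ne hij
  have e3 : ∀ (c d : A), Matrix.single j k c * Matrix.single j k d = 0 :=
    single_mul_self_of_ne hjk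
  have e4 : ∀ (c d : A), Matrix.single i k c * Matrix.single i j d = 0 := fun c d =>
    Matrix.single_mul_single_of_ne _ _ _ _ hik.symm _
  have e5 : ∀ (c d : A), Matrix.single i k c * Matrix.single j k d = 0 := fun c d =>
    Matrix.single_mul_single_of_ne _ _ _ _ hjk.symm _
  have e6 : ∀ (c d : A), Matrix.single i j c * Matrix.single j k d = Matrix.single i k (c * d) :=
    fun c d => Matrix.single_mul_single_same _ _ _ _ _
  have n1 : ∀ c : A, Matrix.single i j (-c) = -Matrix.single i j c := fun c =>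
    (Matrix.single_neg _ _ _).symm
  have n2 : ∀ c : A, Matrix.single j k (-c) = -Matrix.single j k c := fun c =>
    (Matrix.single_neg _ _ _).symm
  simp only [mul_add, add_mul, mul_one, one_mul, e1, e2, e3, e4, e5, e6, add_zero, zero_mul,
    n1, n2, mul_neg, neg_mul, neg_neg, neg_zero]
  abel

theorem tv_disj {i j k l : ι} (hjk : j ≠ k) (hil : i ≠ l) (a b : A) :
    ⁅(tv i j a : (Matrix ι ι A)ˣ), tv k l b⁆ = 1 := by
  by_cases h1 : i = j
  · subst h1; simp
  by_cases h2 : k = l
  · subst h2; simp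
  rw [commutatorElement_eq_one_iff_mul_comm]
  apply Units.ext
  rw [Units.val_mul, Units.val_mul, tv_val h1, tv_val h2]
  simp only [mul_add, add_mul, mul_one, one_mul,
    Matrix.single_mul_single_of_ne _ _ _ _ hjk, Matrix.single_mul_single_of_ne _ _ _ _ hil.symm]
  abel

/-- the natural map from the Steinberg group to invertible matrices -/
noncomputable def St.toGL : St ι A →* (Matrix ι ι A)ˣ :=
  St.lift (fun i j a => tv i j a) tv_diag (fun i j a b _ => tv_add i j a b)
    (fun _ _ _ a b h1 h2 h3 => tv_comm h1 h2 h3 a b)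
    (fun _ _ _ _ a b _ _ h3 h4 => tv_disj h3 h4 a b)

@[simp] theorem St.toGL_x (i j : ι) (a : A) :
    St.toGL (St.x i j a : St ι A) = tv i j a := St.lift_x _ _ _ _ _ _ _ _

/-- the elementary group -/
noncomputable def EGrp (ι A : Type) [Ring A] [Fintype ι] [DecidableEq ι] :
    Subgroup (Matrix ι ι A)ˣ := (St.toGL : St ι A →* (Matrix ι ι A)ˣ).range

theorem tv_mem_EGrp (i j : ι) (a : A) : (tv i j a : (Matrix ι ι A)ˣ) ∈ EGrp ι A :=
  ⟨St.x i j a, by simp⟩

theorem EGrp_eq_closure : EGrp ι A =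
    Subgroup.closure {g | ∃ (i j : ι) (a : A), i ≠ j ∧ g = tv i j a} := by
  apply le_antisymm
  · rintro _ ⟨g, rfl⟩
    obtain ⟨l, hl, rfl⟩ := St.exists_list g
    rw [map_list_prod, List.map_map]
    refine Subgroup.list_prod_mem _ ?_
    intro y hy
    obtain ⟨p, hp, rfl⟩ := List.mem_map.1 hy
    exact Subgroup.subset_closure ⟨p.1, p.2.1, p.2.2, hl p hp, by simp⟩
  · refine (Subgroup.closure_le _).2 ?_
    rintro _ ⟨i, j, a, -, rfl⟩
    exact tv_mem_EGrp i j a

end tv

end Vale.Agent.P193.BH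

end FileSt

/-! file Key -/

section FileKey
/-! A2, A3: column and row actions, key lemma -/

namespace Vale.Agent.P193.BH

open Matrix
open scoped commutatorElement

variable {ι A : Type} [Ring A]

namespace St

/-! ### small conjugation rules -/

theorem conj_left {i j l : ι} (hij : i ≠ j) (hjl : j ≠ l) (hil : i ≠ l) (a b : A) :
    (x i j a : St ι A) * x j l b * (x i j a)⁻¹ = x i l (a * b) * x j l b := by
  have h := x_comm hij hjl hil a b
  rw [commutatorElement_def] at h
  rw [← h]; group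

theorem conj_right {i j k : ι} (hki : k ≠ i) (hij : i ≠ j) (hkj : k ≠ j) (a b : A) :
    (x i j a : St ι A) * x k i b * (x i j a)⁻¹ = x k j (-(b * a)) * x k i b := by
  have h := x_comm hki hij hkj b a
  rw [commutatorElement_def] at h
  rw [x_neg, ← h]; group

theorem conj_of_commute {G : Type*} [Group G] {a b : G} (h : Commute a b) : a * b * a⁻¹ = b := by
  rw [h.eq, mul_inv_cancel_right]

theorem commute_col (i k j : ι) (a b : A) : Commute (x i j a : St ι A) (x k j b) := by
  by_cases hi : i = j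
  · subst hi; simp
  by_cases hk : k = j
  · subst hk; simp
  exact commute_x (Ne.symm hk) hi a b

theorem commute_row (i k j : ι) (a b : A) : Commute (x j i a : St ι A) (x j k b) := by
  by_cases hi : i = j
  · subst hi; simp
  by_cases hk : k = j
  · subst hk; simp
  exact commute_x hi (Ne.symm hk) a b

/-! ### the column and row homomorphisms -/

section cols
variable [Fintype ι]

/-- one parameter subgroup -/
noncomputable def xHom (i j : ι) : Multiplicative A →* St ι A where
  toFun a := x i j (Multiplicative.toAdd a)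
  map_one' := x_zero i j
  map_mul' a b := x_add i j _ _

/-- the column `j` homomorphism, multiplicative form -/
noncomputable def colHom (j : ι) : (ι → Multiplicative A) →* St ι A :=
  MonoidHom.noncommPiCoprod (fun i => xHom i j) (fun i k _ a b => commute_col i k j (Multiplicative.toAdd a) (Multiplicative.toAdd b))

/-- the row `j` homomorphism, multiplicative form -/
noncomputable def rowHom (j : ι) : (ι → Multiplicative A) →* St ι A :=
  MonoidHom.noncommPiCoprod (fun i => xHom j i) (fun i k _ a b => commute_row i k j (Multiplicative.toAdd a) (Multiplicative.toAdd b))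

/-- `T j a = prod_i x_ij (a_i)` -/
noncomputable def T (j : ι) (a : ι → A) : St ι A := colHom j fun i => Multiplicative.ofAdd (a i)

/-- `T' j b = prod_i x_ji (b_i)` -/
noncomputable def T' (j : ι) (a : ι → A) : St ι A := rowHom j fun i => Multiplicative.ofAdd (a i)

theorem T_add (j : ι) (a b : ι → A) : T j (a + b) = T j a * T j b :=
  (colHom j).map_mul _ _

theorem T'_add (j : ι) (a b : ι → A) : T' j (a + b) = T' j a * T' j b :=
  (rowHom j).map_mul _ _

@[simp] theorem T_zero (j : ι) : T j (0 : ι → A) = 1 := (colHom j).map_one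

@[simp] theorem T'_zero (j : ι) : T' j (0 : ι → A) = 1 := (rowHom j).map_one

variable [DecidableEq ι]

theorem T_single (j i : ι) (a : A) : T j (Pi.single i a) = x i j a := by
  have h := MonoidHom.noncommPiCoprod_mulSingle (fun i : ι => (xHom i j : Multiplicative A →* _))
    (hcomm := fun i k _ a b => commute_col i k j (Multiplicative.toAdd a) (Multiplicative.toAdd b)) i (Multiplicative.ofAdd a)
  refine Eq.trans ?_ h
  refine congrArg (colHom j) ?_
  funext k
  by_cases hk : k = i
  · subst hk; simp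
  · simp [hk]

theorem T'_single (j i : ι) (a : A) : T' j (Pi.single i a) = x j i a := by
  have h := MonoidHom.noncommPiCoprod_mulSingle (fun i : ι => (xHom j i : Multiplicative A →* _))
    (hcomm := fun i k _ a b => commute_row i k j (Multiplicative.toAdd a) (Multiplicative.toAdd b)) i (Multiplicative.ofAdd a)
  refine Eq.trans ?_ h
  refine congrArg (rowHom j) ?_
  funext k
  by_cases hk : k = i
  · subst hk; simp
  · simp [hk]

theorem vec_induction {P : (ι → A) → Prop} (h0 : P 0) (hadd : ∀ a b, P a → P b → P (a + b))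
    (hs : ∀ i c, P (Pi.single i c)) (a : ι → A) : P a := by
  have h : ∑ i, Pi.single i (a i) = a := Finset.univ_sum_single a
  rw [← h]
  exact Finset.sum_induction _ P hadd h0 fun i _ => hs i (a i)

/-- A2, columns -/
theorem conj_T {j : ι} {g : St ι A} (hg : g ∈ (sub {k | k ≠ j} : Subgroup (St ι A))) (a : ι → A) :
    g * T j a * g⁻¹ = T j ((St.toGL g : Matrix ι ι A) *ᵥ a) := by
  induction hg using Subgroup.closure_induction generalizing a with
  | mem y hy =>
    obtain ⟨k, l, r, hk, hl, hkl, rfl⟩ := hy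
    simp only [Set.mem_ofPred_eq] at hk hl
    rw [toGL_x, tv_val hkl]
    induction a using vec_induction with
    | h0 => simp
    | hadd a b ha hb =>
      rw [mulVec_add, T_add, T_add, ← ha, ← hb]; group
    | hs i c =>
      rw [T_single, add_mulVec, one_mulVec, T_add, T_single]
      by_cases hi : i = l
      · subst hi
        have : (Matrix.single k i r : Matrix ι ι A) *ᵥ Pi.single i c = Pi.single k (r * c) := by
          funext m
          by_cases hm : m = k
          · subst hm; simp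
          · simp [hm, Ne.symm hm]
        rw [this, T_single, conj_left hkl hl hk]
        exact (commute_col _ _ _ _ _).eq
      · have : (Matrix.single k l r : Matrix ι ι A) *ᵥ Pi.single i c = 0 := by
          funext m
          simp only [mulVec_single, Pi.smul_apply, col_apply, Ne.symm hi, and_false, not_false_eq_true, single_apply_of_ne, smul_zero, Pi.zero_apply]
        rw [this, T_zero, mul_one]
        by_cases hij : i = j
        · subst hij; simp
        exact conj_of_commute (commute_x (Ne.symm hi) hk _ _)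
  | one => simp only [one_mul, inv_one, mul_one, map_one, Units.val_one, one_mulVec]
  | mul y z _ _ hy hz =>
    rw [map_mul, Units.val_mul, ← mulVec_mulVec, ← hy, ← hz]; group
  | inv y _ hy =>
    have h := hy ((((St.toGL y)⁻¹ : (Matrix ι ι A)ˣ) : Matrix ι ι A) *ᵥ a)
    rw [mulVec_mulVec, ← Units.val_mul, mul_inv_cancel, Units.val_one, one_mulVec] at h
    rw [map_inv, ← h]; group

/-- A2, rows -/
theorem conj_T' {j : ι} {g : St ι A} (hg : g ∈ (sub {k | k ≠ j} : Subgroup (St ι A))) (a : ι → A) :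
    g * T' j a * g⁻¹ = T' j (a ᵥ* (((St.toGL g)⁻¹ : (Matrix ι ι A)ˣ) : Matrix ι ι A)) := by
  induction hg using Subgroup.closure_induction generalizing a with
  | mem y hy =>
    obtain ⟨k, l, r, hk, hl, hkl, rfl⟩ := hy
    simp only [Set.mem_ofPred_eq] at hk hl
    rw [toGL_x, tv_inv hkl]
    induction a using vec_induction with
    | h0 => simp
    | hadd a b ha hb =>
      rw [add_vecMul, T'_add, T'_add, ← ha, ← hb]; group
    | hs i c =>
      rw [T'_single, vecMul_add, vecMul_one, T'_add, T'_single]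
      by_cases hi : i = k
      · subst hi
        have : Pi.single i c ᵥ* (Matrix.single i l (-r) : Matrix ι ι A) =
            Pi.single l (-(c * r)) := by
          funext m
          by_cases hm : m = l
          · subst hm; simp
          · simp [hm, Ne.symm hm]
        rw [this, T'_single, conj_right (Ne.symm hk) hkl (Ne.symm hl)]
        exact (commute_row _ _ _ _ _).eq
      · have : Pi.single i c ᵥ* (Matrix.single k l (-r) : Matrix ι ι A) = 0 := by
          funext m
          simp [Ne.symm hi]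
        rw [this, T'_zero, mul_one]
        by_cases hij : i = j
        · subst hij; simp only [x_diag, mul_one, mul_inv_cancel]
        exact conj_of_commute (commute_x hl (Ne.symm hi) _ _)
  | one => simp only [one_mul, inv_one, mul_one, map_one, Units.val_one, vecMul_one]
  | mul y z _ _ hy hz =>
    rw [map_mul, _root_.mul_inv_rev (St.toGL y), Units.val_mul, ← vecMul_vecMul, ← hy, ← hz]
    group
  | inv y _ hy =>
    have h := hy (a ᵥ* (St.toGL y : Matrix ι ι A))
    rw [vecMul_vecMul, ← Units.val_mul, mul_inv_cancel, Units.val_one, vecMul_one] at h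
    rw [map_inv, inv_inv, ← h]; group

/-- A3, step 1 -/
theorem central_of_toGL {j : ι} {g : St ι A} (hg : g ∈ (sub {k | k ≠ j} : Subgroup (St ι A)))
    (h1 : St.toGL g = 1) (h : St ι A) : g * h = h * g := by
  have hc : ∀ (i : ι) (a : A), Commute g (x i j a) := by
    intro i a
    have h2 := conj_T hg (Pi.single i a)
    rw [h1, Units.val_one, one_mulVec, T_single] at h2
    exact mul_inv_eq_iff_eq_mul.1 h2
  have hr : ∀ (i : ι) (a : A), Commute g (x j i a) := by
    intro i a
    have h2 := conj_T' hg (Pi.single i a)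
    rw [h1, inv_one, Units.val_one, vecMul_one, T'_single] at h2
    exact mul_inv_eq_iff_eq_mul.1 h2
  have hx : ∀ (k l : ι) (a : A), Commute g (x k l a) := by
    intro k l a
    by_cases hkl : k = l
    · subst hkl; simp
    by_cases hk : k = j
    · subst hk; exact hr l a
    by_cases hl : l = j
    · subst hl; exact hc k a
    rw [← mul_one a, ← x_comm hk (Ne.symm hl) hkl a 1, commutatorElement_def]
    exact (((hc k a).mul_right (hr l 1)).mul_right (hc k a).inv_right).mul_right (hr l 1).inv_right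
  obtain ⟨l, -, rfl⟩ := exists_list h
  have : ∀ l : List (ι × ι × A), Commute g (l.map fun p => x p.1 p.2.1 p.2.2).prod := by
    intro l
    induction l with
    | nil => simp
    | cons p l ih => simpa only [List.map_cons, List.prod_cons] using (hx _ _ _).mul_right ih
  exact (this l).eq

end cols

/-! ### step 2: the elements `W` -/

section W

/-- `w_i` -/
noncomputable def wel (i j : ι) (p q : A) : St ι A :=
  x i j p * x j i q * x i j p * x i j 1 * x j i 1 * x i j 1

theorem conj_pair_left {i j l : ι} (hij : i ≠ j) (hil : i ≠ l) (hjl : j ≠ l) (a u v : A) :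
    (x i j a : St ι A) * (x i l u * x j l v) * (x i j a)⁻¹ = x i l (u + a * v) * x j l v := by
  have h1 : (x i j a : St ι A) * x i l u * (x i j a)⁻¹ = x i l u :=
    conj_of_commute (commute_x (Ne.symm hij) hil _ _)
  have h2 := conj_left hij hjl hil a v
  calc (x i j a : St ι A) * (x i l u * x j l v) * (x i j a)⁻¹
      = (x i j a * x i l u * (x i j a)⁻¹) * (x i j a * x j l v * (x i j a)⁻¹) := by group
    _ = _ := by rw [h1, h2, x_add, mul_assoc]

theorem conj_pair_right {k i j : ι} (hij : i ≠ j) (hki : k ≠ i) (hkj : k ≠ j) (a u v : A) :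
    (x i j a : St ι A) * (x k i u * x k j v) * (x i j a)⁻¹ = x k i u * x k j (v - u * a) := by
  have h1 : (x i j a : St ι A) * x k j v * (x i j a)⁻¹ = x k j v :=
    conj_of_commute (commute_x (Ne.symm hkj) hij _ _)
  have h2 := conj_right hki hij hkj a u
  calc (x i j a : St ι A) * (x k i u * x k j v) * (x i j a)⁻¹
      = (x i j a * x k i u * (x i j a)⁻¹) * (x i j a * x k j v * (x i j a)⁻¹) := by group
    _ = x k j (-(u * a)) * x k i u * x k j v := by rw [h1, h2]
    _ = x k i u * x k j (-(u * a)) * x k j v := by rw [(commute_row _ _ _ _ _).eq]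
    _ = _ := by rw [mul_assoc, ← x_add, sub_eq_add_neg, add_comm v]

theorem wel_conj (i j : ι) (p q : A) (z : St ι A) :
    wel i j p q * z * (wel i j p q)⁻¹ = x i j p * (x j i q * (x i j p * (x i j 1 *
      (x j i 1 * (x i j 1 * z * (x i j 1)⁻¹) * (x j i 1)⁻¹) * (x i j 1)⁻¹) *
        (x i j p)⁻¹) * (x j i q)⁻¹) * (x i j p)⁻¹ := by
  unfold wel; group

theorem conj_pair_left' {i j l : ι} (hij : i ≠ j) (hil : i ≠ l) (hjl : j ≠ l) (a u v : A) :
    (x j i a : St ι A) * (x i l u * x j l v) * (x j i a)⁻¹ = x i l u * x j l (v + a * u) := by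
  rw [(commute_col i j l u v).eq, conj_pair_left (Ne.symm hij) hjl hil,
    (commute_col i j l u (v + a * u)).eq]

theorem conj_pair_right' {k i j : ι} (hij : i ≠ j) (hki : k ≠ i) (hkj : k ≠ j) (a u v : A) :
    (x j i a : St ι A) * (x k i u * x k j v) * (x j i a)⁻¹ = x k i (u - v * a) * x k j v := by
  rw [(commute_row i j k u v).eq, conj_pair_right (Ne.symm hij) hkj hki,
    (commute_row i j k (u - v * a) v).eq]

variable [CharP A 2]

theorem wel_left {i j l : ι} (hij : i ≠ j) (hil : i ≠ l) (hjl : j ≠ l) {p q : A} (hqp : q * p = 1)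
    (r : A) : wel i j p q * x i l r * (wel i j p q)⁻¹ = x i l (p * r) := by
  have h2 : ∀ a : A, a + a = 0 := CharTwo.add_self_eq_zero
  have e1 : q * (p * r) = r := by rw [← mul_assoc, hqp, one_mul]
  rw [wel_conj]
  have hz : (x i l r : St ι A) = x i l r * x j l 0 := by simp
  rw [hz, conj_pair_left hij hil hjl, conj_pair_left' hij hil hjl, conj_pair_left hij hil hjl,
    conj_pair_left hij hil hjl, conj_pair_left' hij hil hjl, conj_pair_left hij hil hjl]
  simp [e1, h2]

theorem wel_right {k i j : ι} (hij : i ≠ j) (hki : k ≠ i) (hkj : k ≠ j) {p q : A}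
    (hqp : q * p = 1)
    (r : A) : wel i j p q * x k i r * (wel i j p q)⁻¹ = x k i (r * q) := by
  have hn : ∀ a : A, -a = a := CharTwo.neg_eq
  have e1 : r * q * p = r := by rw [mul_assoc, hqp, mul_one]
  rw [wel_conj]
  have hz : (x k i r : St ι A) = x k i r * x k j 0 := by simp
  rw [hz, conj_pair_right hij hki hkj, conj_pair_right' hij hki hkj, conj_pair_right hij hki hkj,
    conj_pair_right hij hki hkj, conj_pair_right' hij hki hkj, conj_pair_right hij hki hkj]
  simp [hn, e1]

omit [CharP A 2] in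
theorem wel_disj {k l i j : ι} (hki : k ≠ i) (hkj : k ≠ j) (hli : l ≠ i) (hlj : l ≠ j) (p q : A)
    (r : A) : wel i j p q * x k l r * (wel i j p q)⁻¹ = x k l r := by
  refine conj_of_commute ?_
  have h1 : ∀ a, Commute (x i j a : St ι A) (x k l r) := fun a =>
    commute_x (Ne.symm hkj) (Ne.symm hli) _ _
  have h2 : ∀ a, Commute (x j i a : St ι A) (x k l r) := fun a =>
    commute_x (Ne.symm hki) (Ne.symm hlj) _ _
  exact (((((h1 _).mul_left (h2 _)).mul_left (h1 _)).mul_left (h1 _)).mul_left (h2 _)).mul_left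
    (h1 _)

/-- the elements `W_J` -/
theorem exists_WJ [DecidableEq ι] (j : ι) {p q : A} (hqp : q * p = 1) (J : Finset ι) (hJ : j ∉ J) :
    ∃ W : St ι A, ∀ k l r, k ≠ j → l ≠ j → k ≠ l → W * x k l r * W⁻¹ =
      x k l ((if k ∈ J then p else 1) * r * (if l ∈ J then q else 1)) := by
  induction J using Finset.induction_on with
  | empty => exact ⟨1, by simp⟩
  | insert i J hi ih =>
    obtain ⟨W, hW⟩ := ih fun h => hJ (Finset.mem_insert_of_mem h)
    have hij : i ≠ j := fun h => hJ (h ▸ Finset.mem_insert_self i J)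
    refine ⟨wel i j p q * W, fun k l r hk hl hkl => ?_⟩
    have e : wel i j p q * W * x k l r * (wel i j p q * W)⁻¹ =
        wel i j p q * (W * x k l r * W⁻¹) * (wel i j p q)⁻¹ := by group
    rw [e, hW k l r hk hl hkl]
    by_cases hki : k = i
    · subst hki
      rw [wel_left hij hkl (Ne.symm hl) hqp]
      simp [hi, Finset.mem_insert, Ne.symm hkl, mul_assoc]
    · by_cases hli : l = i
      · subst hli
        rw [wel_right hij hki hk hqp]
        simp only [ite_mul, one_mul, hi, ↓reduceIte, mul_one, mul_assoc, Finset.mem_insert, hkl, false_or, or_false]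
      · rw [wel_disj hki hk hli hl]
        simp [Finset.mem_insert, hki, hli]

/-- the non unital endomorphism `r ↦ p r q` -/
def psi {p q : A} (hqp : q * p = 1) : A →ₙ+* A where
  toFun r := p * r * q
  map_mul' a b := by
    calc p * (a * b) * q = p * a * 1 * b * q := by simp [mul_assoc]
      _ = p * a * q * (p * b * q) := by rw [← hqp]; simp only [mul_assoc]
  map_zero' := by simp
  map_add' a b := by simp [mul_add, add_mul]

omit [CharP A 2] in
theorem psi_apply {p q : A} (hqp : q * p = 1) (r : A) : psi hqp r = p * r * q := rfl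

theorem exists_W [Fintype ι] [DecidableEq ι] (j : ι) {p q : A} (hqp : q * p = 1) :
    ∃ W : St ι A, ∀ h ∈ (sub {k | k ≠ j} : Subgroup (St ι A)), W * h * W⁻¹ = map (psi hqp) h := by
  obtain ⟨W, hW⟩ := exists_WJ j hqp (Finset.univ.erase j) (by simp only [Finset.mem_erase, ne_eq, not_true_eq_false, Finset.mem_univ, and_true, not_false_eq_true])
  refine ⟨W, fun h hh => ?_⟩
  induction hh using Subgroup.closure_induction with
  | mem y hy =>
    obtain ⟨k, l, r, hk, hl, hkl, rfl⟩ := hy
    simp only [Set.mem_ofPred_eq] at hk hl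
    rw [hW k l r hk hl hkl, map_x, psi_apply]
    simp only [Finset.mem_erase, ne_eq, hk, not_false_eq_true, Finset.mem_univ, and_self, ↓reduceIte, hl]
  | one => simp only [mul_one, mul_inv_cancel, map_one]
  | mul y z _ _ hy hz => rw [map_mul, ← hy, ← hz]; group
  | inv y _ hy => rw [map_inv, ← hy]; group

theorem map_psi_of_toGL [Fintype ι] [DecidableEq ι] {j : ι} {g : St ι A}
    (hg : g ∈ (sub {k | k ≠ j} : Subgroup (St ι A)))
    (h1 : St.toGL g = 1) {p q : A} (hqp : q * p = 1) : map (psi hqp) g = g := by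
  obtain ⟨W, hW⟩ := exists_W j hqp
  rw [← hW g hg, ← central_of_toGL hg h1 W, mul_inv_cancel_right]

end W

/-! ### step 3: orthogonal homomorphisms -/

section orth
variable {B : Type} [Ring B]

theorem map_commute {ψ ψ' : A →ₙ+* B} (h : ∀ a b, ψ a * ψ' b = 0) (h' : ∀ a b, ψ' b * ψ a = 0)
    (h3 : ∀ i j : ι, ∃ k, k ≠ i ∧ k ≠ j) (g g' : St ι A) : Commute (map ψ g) (map ψ' g') := by
  have hA : ∀ i j k l a b, ¬(j = k ∧ i = l) →
      Commute (x i j (ψ a) : St ι B) (x k l (ψ' b)) := by
    intro i j k l a b hne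
    by_cases hij : i = j
    · subst hij; simp
    by_cases hkl : k = l
    · subst hkl; simp
    by_cases hjk : j = k
    · subst hjk
      have hil : i ≠ l := fun h => hne ⟨rfl, h⟩
      rw [← commutatorElement_eq_one_iff_commute, x_comm hij hkl hil, h, x_zero]
    · by_cases hil : i = l
      · subst hil
        refine Commute.symm ?_
        rw [← commutatorElement_eq_one_iff_commute, x_comm hkl hij (Ne.symm hjk), h', x_zero]
      · exact commute_x hjk hil _ _
  have hB : ∀ i j k l a b, Commute (x i j (ψ a) : St ι B) (x k l (ψ' b)) := by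
    intro i j k l a b
    by_cases hh : j = k ∧ i = l
    · obtain ⟨rfl, rfl⟩ := hh
      by_cases hij : i = j
      · subst hij; simp
      obtain ⟨m, hmi, hmj⟩ := h3 i j
      have e : (x i j (ψ a) : St ι B) = ⁅x i m (ψ a), x m j (ψ 1)⁆ := by
        rw [x_comm (Ne.symm hmi) hmj hij, ← map_mul, mul_one]
      rw [e, commutatorElement_def]
      have c1 := hA i m j i a b (by simp [hmj])
      have c2 := hA m j j i 1 b (by simp [hmi])
      exact ((c1.mul_left c2).mul_left c1.inv_left).mul_left c2.inv_left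
    · exact hA i j k l a b hh
  have hC : ∀ i j a, Commute (x i j (ψ a) : St ι B) (map ψ' g') := by
    intro i j a
    obtain ⟨l, -, rfl⟩ := exists_list g'
    induction l with
    | nil => simp only [List.map_nil, List.prod_nil, map_one, Commute.one_right]
    | cons p l ih => 
      rw [List.map_cons, List.prod_cons, map_mul, map_x]
      exact (hB _ _ _ _ _ _).mul_right ih
  obtain ⟨l, -, rfl⟩ := exists_list g
  induction l with
  | nil => simp
  | cons p l ih => 
    rw [List.map_cons, List.prod_cons, map_mul, map_x]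
    exact (hC _ _ _).mul_left ih

theorem map_add' {ψ ψ' χ : A →ₙ+* B} (h : ∀ a b, ψ a * ψ' b = 0) (h' : ∀ a b, ψ' b * ψ a = 0)
    (hχ : ∀ a, χ a = ψ a + ψ' a)
    (h3 : ∀ i j : ι, ∃ k, k ≠ i ∧ k ≠ j) (g : St ι A) : map χ g = map ψ g * map ψ' g := by
  obtain ⟨l, -, rfl⟩ := exists_list g
  induction l with
  | nil => simp only [List.map_nil, List.prod_nil, map_one, mul_one]
  | cons p l ih =>
    rw [List.map_cons, List.prod_cons, map_mul, ih, map_mul, map_mul, map_x, hχ, x_add,
      ← map_x ψ, ← map_x ψ']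
    have hc := (map_commute h h' h3 (l.map fun p => x p.1 p.2.1 p.2.2).prod
      (x p.1 p.2.1 p.2.2)).eq
    simp only [mul_assoc]
    rw [← mul_assoc (map ψ' _) (map ψ _), ← hc]
    simp only [mul_assoc]

theorem map_comp_apply {C : Type} [Ring C] (ψ : A →ₙ+* B) (ψ' : B →ₙ+* C) (g : St ι A) :
    map ψ' (map ψ g) = map (ψ'.comp ψ) g := by
  have : (map ψ').comp (map ψ) = (map (ψ'.comp ψ) : St ι A →* _) := by
    refine hom_ext fun i j a _ => ?_
    simp only [MonoidHom.coe_comp, Function.comp_apply, map_x, NonUnitalRingHom.comp_apply]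
  exact DFunLike.congr_fun this g

theorem toGL_map [Fintype ι] [DecidableEq ι] (φ : A →+* B) (g : St ι A) :
    St.toGL (map φ.toNonUnitalRingHom g) = Units.map (φ.mapMatrix : Matrix ι ι A →+* _).toMonoidHom (St.toGL g) := by
  have : (St.toGL).comp (map φ.toNonUnitalRingHom) =
      (Units.map (φ.mapMatrix : Matrix ι ι A →+* Matrix ι ι B).toMonoidHom).comp St.toGL := by
    refine hom_ext fun i j a hij => ?_
    apply Units.ext
    simp only [MonoidHom.comp_apply, map_x, toGL_x, tv_val hij, Units.coe_map]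
    simp only [RingHom.toMonoidHom_eq_coe, MonoidHom.coe_coe, map_add, RingHom.mapMatrix_apply, map_zero, map_one, Matrix.map_one, map_single, add_right_inj]
    rfl
  exact DFunLike.congr_fun this g

end orth

end St

/-- A3 (KEY): an element of the Steinberg group written without the index `j` and with trivial
matrix is trivial (infinite sum ring, characteristic two). -/
theorem key [Fintype ι] [DecidableEq ι] [CharP A 2] (I : InfSum A)
    (h3 : 3 ≤ Fintype.card ι) (j : ι) {g : St ι A} (hg : g ∈ (St.sub {k | k ≠ j} : Subgroup (St ι A)))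
    (h1 : St.toGL g = 1) : g = 1 := by
  have h3' : ∀ i j : ι, ∃ k, k ≠ i ∧ k ≠ j := by
    intro i k
    by_contra hcon
    push Not at hcon
    have : (Finset.univ : Finset ι) ⊆ {i, k} := by
      intro m _
      by_cases hm : m = i
      · simp [hm]
      · simp [hcon m hm]
    have := (Finset.card_le_card this).trans Finset.card_le_two
    rw [Finset.card_univ] at this
    omega
  set φ : A →ₙ+* A := I.φ.toNonUnitalRingHom with hφ
  set g' := St.map φ g with hg'
  have hg'1 : g' ∈ (St.sub {k | k ≠ j} : Subgroup (St ι A)) := St.map_mem_sub _ hg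
  have hg'2 : St.toGL g' = 1 := by rw [hg', hφ, St.toGL_map, h1, map_one]
  have e1 := St.map_psi_of_toGL hg h1 I.h00
  have e2 := St.map_psi_of_toGL hg'1 hg'2 I.h11
  have e3 : g' = St.map (St.psi I.h00) g * St.map ((St.psi I.h11).comp φ) g := by
    refine St.map_add' ?_ ?_ ?_ h3' g
    · intro a b
      change I.x0 * a * I.y0 * (I.x1 * φ b * I.y1) = 0
      rw [show I.x0 * a * I.y0 * (I.x1 * φ b * I.y1) = I.x0 * a * (I.y0 * I.x1) * φ b * I.y1 by
        simp only [mul_assoc], I.h01]
      simp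
    · intro a b
      change I.x1 * φ b * I.y1 * (I.x0 * a * I.y0) = 0
      rw [show I.x1 * φ b * I.y1 * (I.x0 * a * I.y0) = I.x1 * φ b * (I.y1 * I.x0) * a * I.y0 by
        simp only [mul_assoc], I.h10]
      simp
    · intro a
      exact I.hφ a
  rw [← St.map_comp_apply, ← hg', e1, e2] at e3
  exact (right_eq_mul.1 e3)

end Vale.Agent.P193.BH

end FileKey

/-! file Blow -/

section FileBlow
/-!
A4 (blow up).  A family `X p q a` defined for indices `p, q` in different blocks and satisfying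
the Steinberg relations there extends to a homomorphism from the Steinberg group.
-/

namespace Vale.Agent.P193.BH

open scoped commutatorElement

section grp
variable {H : Type*} [Group H]

/-- basic identity -/
theorem comm_identity {a b c : H} (hac : Commute a c) (hde : Commute ⁅a, b⁆ ⁅b, c⁆) :
    ⁅a, ⁅b, c⁆⁆ * ⁅b, c⁆ = ⁅b, c⁆ * ⁅⁅a, b⁆, c⁆ := by
  have h1 : ⁅a, ⁅b, c⁆⁆ * ⁅b, c⁆ = a * ⁅b, c⁆ * a⁻¹ := by
    rw [commutatorElement_def a ⁅b, c⁆]; group
  have h2 : a * ⁅b, c⁆ * a⁻¹ = ⁅⁅a, b⁆ * b, c⁆ := by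
    have e1 : ⁅a, b⁆ * b = a * b * a⁻¹ := by rw [commutatorElement_def]; group
    have e2 : a * c * a⁻¹ = c := by rw [hac.eq]; group
    rw [e1]
    nth_rewrite 2 [← e2]
    rw [commutatorElement_def, commutatorElement_def]; group
  have h3 : ⁅⁅a, b⁆ * b, c⁆ = ⁅a, b⁆ * ⁅b, c⁆ * ⁅a, b⁆⁻¹ * ⁅⁅a, b⁆, c⁆ := by
    rw [commutatorElement_def (⁅a, b⁆ * b) c, commutatorElement_def b c,
      commutatorElement_def ⁅a, b⁆ c]; group
  rw [h1, h2, h3, hde.eq]; group

theorem comm_G1 {a b c : H} (hac : Commute a c) (hde : Commute ⁅a, b⁆ ⁅b, c⁆)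
    (h : Commute ⁅⁅a, b⁆, c⁆ ⁅b, c⁆) : ⁅a, ⁅b, c⁆⁆ = ⁅⁅a, b⁆, c⁆ := by
  have := comm_identity hac hde
  rw [← h.eq] at this
  exact mul_right_cancel this

theorem comm_G2 {a b c : H} (hac : Commute a c) (hde : Commute ⁅a, b⁆ ⁅b, c⁆)
    (h : Commute ⁅a, ⁅b, c⁆⁆ ⁅b, c⁆) : ⁅⁅a, b⁆, c⁆ = ⁅a, ⁅b, c⁆⁆ := by
  have := comm_identity hac hde
  rw [h.eq] at this
  exact (mul_left_cancel this).symm

theorem commute_commutator {a b c : H} (h1 : Commute a c) (h2 : Commute b c) :
    Commute ⁅a, b⁆ c := by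
  rw [commutatorElement_def]
  exact ((h1.mul_left h2).mul_left h1.inv_left).mul_left h2.inv_left

end grp

/-- a partial Steinberg family with respect to blocks -/
structure IsBlk {Ω I A H : Type*} [Ring A] [Group H] (bl : Ω → I) (X : Ω → Ω → A → H) :
    Prop where
  add : ∀ p q a b, bl p ≠ bl q → X p q (a + b) = X p q a * X p q b
  comm : ∀ p q r a b, bl p ≠ bl q → bl q ≠ bl r → bl p ≠ bl r →
    ⁅X p q a, X q r b⁆ = X p r (a * b)
  disj : ∀ p q s t a b, bl p ≠ bl q → bl s ≠ bl t → q ≠ s → p ≠ t →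
    Commute (X p q a) (X s t b)
  three : ∀ p q : Ω, ∃ r : Ω, bl r ≠ bl p ∧ bl r ≠ bl q
  mid : ∀ p r s t : Ω, bl p = bl r → p ≠ r → ∃ q, bl q ≠ bl p ∧ q ≠ s ∧ q ≠ t

namespace IsBlk

variable {Ω I A H : Type*} [Ring A] [Group H] {bl : Ω → I} {X : Ω → Ω → A → H}

theorem ne_of_bl {p q : Ω} (h : bl p ≠ bl q) : p ≠ q := fun e => h (e ▸ rfl)

/-- Claim 1 -/
theorem claim1 (hX : IsBlk bl X) {p q r s t : Ω} (hpq : bl p ≠ bl q) (hqr : bl q ≠ bl r)
    (hst : bl s ≠ bl t) (h1 : s ≠ r) (h2 : t ≠ p) (h3 : s ≠ q) (h4 : t ≠ q) (l m n : A) :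
    Commute ⁅X p q l, X q r m⁆ (X s t n) :=
  commute_commutator (hX.disj p q s t l n hpq hst h3.symm h2.symm)
    (hX.disj q r s t m n hqr hst h1.symm h4.symm)

/-- Claim 2 -/
theorem claim2 (hX : IsBlk bl X) {p q q' r : Ω} (hpr : bl p = bl r) (hne : p ≠ r)
    (hpq : bl p ≠ bl q) (hpq' : bl p ≠ bl q') (hqq' : bl q ≠ bl q') (l m n : A) :
    ⁅X p q l, X q r (m * n)⁆ = ⁅X p q' (l * m), X q' r n⁆ := by
  have hqr : bl q ≠ bl r := fun h => hpq (hpr.trans h.symm)
  have hq'r : bl q' ≠ bl r := fun h => hpq' (hpr.trans h.symm)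
  have e1 : ⁅X p q l, X q q' m⁆ = X p q' (l * m) := hX.comm p q q' l m hpq hqq' hpq'
  have e2 : ⁅X q q' m, X q' r n⁆ = X q r (m * n) := hX.comm q q' r m n hqq' hq'r hqr
  have hac : Commute (X p q l) (X q' r n) :=
    hX.disj _ _ _ _ _ _ hpq hq'r (ne_of_bl hqq') hne
  have hde : Commute ⁅X p q l, X q q' m⁆ ⁅X q q' m, X q' r n⁆ := by
    rw [e1, e2]
    exact hX.disj _ _ _ _ _ _ hpq' hqr (ne_of_bl hqq').symm hne
  have hf : Commute ⁅⁅X p q l, X q q' m⁆, X q' r n⁆ ⁅X q q' m, X q' r n⁆ := by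
    rw [e1, e2]
    exact hX.claim1 hpq' hq'r hqr (ne_of_bl hqr) hne.symm (ne_of_bl hqq') (ne_of_bl hq'r).symm
      _ _ _
  have := comm_G1 hac hde hf
  rw [e1, e2] at this
  exact this

/-- a chosen element in another block -/
noncomputable def md (hX : IsBlk bl X) (p : Ω) : Ω := (hX.three p p).choose

theorem md_spec (hX : IsBlk bl X) (p : Ω) : bl (hX.md p) ≠ bl p := (hX.three p p).choose_spec.1

open Classical in
/-- the extended family -/
noncomputable def Y (hX : IsBlk bl X) (p r : Ω) (a : A) : H :=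
  if bl p ≠ bl r then X p r a else if p = r then 1 else ⁅X p (hX.md p) a, X (hX.md p) r 1⁆

theorem Y_cross (hX : IsBlk bl X) {p r : Ω} (h : bl p ≠ bl r) (a : A) : hX.Y p r a = X p r a := by
  simp [Y, h]

theorem Y_diag (hX : IsBlk bl X) (p : Ω) (a : A) : hX.Y p p a = 1 := by
  simp [Y]

theorem Y_same (hX : IsBlk bl X) {p r : Ω} (h : bl p = bl r) (hne : p ≠ r) (a : A) :
    hX.Y p r a = ⁅X p (hX.md p) a, X (hX.md p) r 1⁆ := by
  simp [Y, h, hne]

/-- independence of the middle -/
theorem Yc (hX : IsBlk bl X) {p q r : Ω} (h : bl p = bl r) (hne : p ≠ r) (hq : bl q ≠ bl p)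
    (l m : A) : ⁅X p q l, X q r m⁆ = hX.Y p r (l * m) := by
  rw [hX.Y_same h hne]
  have hm := hX.md_spec p
  by_cases hqm : bl q = bl (hX.md p)
  · obtain ⟨q', h1, h2⟩ := hX.three p q
    have e1 := hX.claim2 h hne hq.symm h1.symm h2.symm l m 1
    have e2 := hX.claim2 h hne h1.symm hm.symm (by rw [← hqm]; exact h2) (l * m) 1 1
    rw [mul_one] at e1
    rw [mul_one, mul_one] at e2
    rw [e1, e2]
  · have e1 := hX.claim2 h hne hq.symm hm.symm hqm l m 1
    rw [mul_one] at e1
    rw [e1]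

theorem Yc1 (hX : IsBlk bl X) {p q r : Ω} (h : bl p = bl r) (hne : p ≠ r) (hq : bl q ≠ bl p)
    (a : A) : hX.Y p r a = ⁅X p q a, X q r 1⁆ := by
  rw [hX.Yc h hne hq, mul_one]

theorem Y_add (hX : IsBlk bl X) (p r : Ω) (a b : A) :
    hX.Y p r (a + b) = hX.Y p r a * hX.Y p r b := by
  by_cases h : bl p = bl r
  · by_cases hne : p = r
    · subst hne; simp [Y_diag]
    · have key : ∀ c d : A, hX.Y p r (c + d) = hX.Y p r d * hX.Y p r c := by
        intro c d
        obtain ⟨q', h1, h2⟩ := hX.three p (hX.md p)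
        have hm := hX.md_spec p
        rw [hX.Y_same h hne, hX.add _ _ _ _ hm.symm]
        have e : ⁅X p (hX.md p) c * X p (hX.md p) d, X (hX.md p) r 1⁆ =
            X p (hX.md p) c * ⁅X p (hX.md p) d, X (hX.md p) r 1⁆ * (X p (hX.md p) c)⁻¹ *
              ⁅X p (hX.md p) c, X (hX.md p) r 1⁆ := by
          simp only [commutatorElement_def]; group
        rw [e, ← hX.Y_same h hne, ← hX.Y_same h hne]
        have hc : Commute (hX.Y p r d) (X p (hX.md p) c) := by
          rw [hX.Yc1 h hne h1]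
          exact hX.claim1 h1.symm (fun e => h1 (e.trans h.symm)) hm.symm hne
            (ne_of_bl hm) (ne_of_bl h1).symm (ne_of_bl h2).symm _ _ _
        rw [← hc.eq]; group
      rw [add_comm, key]
  · rw [hX.Y_cross h, hX.Y_cross h, hX.Y_cross h, hX.add _ _ _ _ h]

theorem Y_disj_aux (hX : IsBlk bl X) {p q s t : Ω} (hst : bl s ≠ bl t)
    (hqs : q ≠ s) (hpt : p ≠ t) (a b : A) : Commute (hX.Y p q a) (X s t b) := by
  by_cases hpq : p = q
  · subst hpq; rw [hX.Y_diag]; exact Commute.one_left _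
  by_cases h : bl p = bl q
  · obtain ⟨m, h1, h2, h3⟩ := hX.mid p q s t h hpq
    rw [hX.Yc1 h hpq h1]
    exact hX.claim1 h1.symm (fun e => h1 (e.trans h.symm)) hst hqs.symm hpt.symm h2.symm
      h3.symm _ _ _
  · rw [hX.Y_cross h]
    exact hX.disj _ _ _ _ _ _ h hst hqs hpt

theorem Y_disj (hX : IsBlk bl X) {p q s t : Ω}
    (hqs : q ≠ s) (hpt : p ≠ t) (a b : A) : Commute (hX.Y p q a) (hX.Y s t b) := by
  by_cases hst : s = t
  · subst hst; rw [hX.Y_diag s]; exact Commute.one_right _
  by_cases h : bl s = bl t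
  · obtain ⟨m, h1, h2, h3⟩ := hX.mid s t p q h hst
    rw [hX.Yc1 h hst h1]
    exact (commute_commutator (hX.Y_disj_aux h1.symm hqs h2.symm _ _).symm
      (hX.Y_disj_aux (fun e => h1 (e.trans h.symm)) h3.symm hpt _ _).symm).symm
  · rw [hX.Y_cross h]
    exact hX.Y_disj_aux h hqs hpt _ _

theorem Y_comm (hX : IsBlk bl X) {p q r : Ω} (hpq : p ≠ q) (hqr : q ≠ r) (hpr : p ≠ r)
    (a b : A) : ⁅hX.Y p q a, hX.Y q r b⁆ = hX.Y p r (a * b) := by
  by_cases b1 : bl p = bl q
  · by_cases b2 : bl q = bl r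
    · -- all in the same block
      obtain ⟨u, hu, -⟩ := hX.three p p
      have hur : bl u ≠ bl r := fun e => hu (e.trans (b1.trans b2).symm)
      have huq : bl u ≠ bl q := fun e => hu (e.trans b1.symm)
      -- case (iv) for u, q, r
      have e1 : ⁅X u q 1, hX.Y q r b⁆ = X u r (1 * b) := by
        obtain ⟨v, hv1, hv2⟩ := hX.three q u
        have hvr : bl v ≠ bl r := fun e => hv1 (e.trans b2.symm)
        rw [hX.Yc1 b2 hqr hv1]
        have f1 : ⁅X u q 1, X q v b⁆ = X u v (1 * b) :=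
          hX.comm _ _ _ _ _ huq hv1.symm hv2.symm
        have f2 : ⁅X q v b, X v r 1⁆ = hX.Y q r b := by rw [← hX.Yc1 b2 hqr hv1]
        have hac : Commute (X u q (1 : A)) (X v r 1) :=
          hX.disj _ _ _ _ _ _ huq hvr (ne_of_bl hv1).symm (ne_of_bl hur)
        have hde : Commute ⁅X u q 1, X q v b⁆ ⁅X q v b, X v r 1⁆ := by
          rw [f1, f2]
          exact (hX.Y_disj_aux hv2.symm (ne_of_bl hur).symm (ne_of_bl hv1).symm _ _).symm
        have g : ⁅⁅X u q 1, X q v b⁆, X v r 1⁆ = X u r (1 * b) := by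
          rw [f1, hX.comm _ _ _ _ _ hv2.symm hvr hur, mul_one]
        have hf : Commute ⁅⁅X u q 1, X q v b⁆, X v r 1⁆ ⁅X q v b, X v r 1⁆ := by
          rw [g, f2]
          exact (hX.Y_disj_aux hur (ne_of_bl hur).symm hqr _ _).symm
        rw [comm_G1 hac hde hf, g]
      have hYpq : ⁅X p u a, X u q 1⁆ = hX.Y p q a := by rw [hX.Yc1 b1 hpq hu]
      have hac : Commute (X p u a) (hX.Y q r b) :=
        (hX.Y_disj_aux hu.symm (Ne.symm hpr) (ne_of_bl huq).symm _ _).symm
      have hde : Commute ⁅X p u a, X u q 1⁆ ⁅X u q 1, hX.Y q r b⁆ := by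
        rw [hYpq, e1]
        exact hX.Y_disj_aux hur (ne_of_bl huq).symm hpr _ _
      have g : ⁅X p u a, ⁅X u q 1, hX.Y q r b⁆⁆ = hX.Y p r (a * b) := by
        rw [e1, hX.Yc (b1.trans b2) hpr hu, one_mul]
      have hf : Commute ⁅X p u a, ⁅X u q 1, hX.Y q r b⁆⁆ ⁅X u q 1, hX.Y q r b⁆ := by
        rw [g, e1]
        exact hX.Y_disj_aux hur (ne_of_bl hur).symm hpr _ _
      rw [← hYpq, comm_G2 hac hde hf, g]
    · -- p ~ q, r other
      have hprb : bl p ≠ bl r := fun e => b2 (b1.symm.trans e)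
      obtain ⟨u, hu1, hu2⟩ := hX.three p r
      have huq : bl u ≠ bl q := fun e => hu1 (e.trans b1.symm)
      rw [hX.Y_cross b2, hX.Y_cross hprb]
      have hYpq : ⁅X p u a, X u q 1⁆ = hX.Y p q a := by rw [hX.Yc1 b1 hpq hu1]
      have f2 : ⁅X u q 1, X q r b⁆ = X u r (1 * b) := hX.comm _ _ _ _ _ huq b2 hu2
      have hac : Commute (X p u a) (X q r b) :=
        hX.disj _ _ _ _ _ _ hu1.symm b2 (ne_of_bl huq) hpr
      have hde : Commute ⁅X p u a, X u q 1⁆ ⁅X u q 1, X q r b⁆ := by
        rw [hYpq, f2]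
        exact hX.Y_disj_aux hu2 (ne_of_bl huq).symm hpr _ _
      have g : ⁅X p u a, ⁅X u q 1, X q r b⁆⁆ = X p r (a * b) := by
        rw [f2, hX.comm _ _ _ _ _ hu1.symm hu2 hprb, one_mul]
      have hf : Commute ⁅X p u a, ⁅X u q 1, X q r b⁆⁆ ⁅X u q 1, X q r b⁆ := by
        rw [g, f2]
        exact hX.disj _ _ _ _ _ _ hprb hu2 (ne_of_bl hu2).symm hpr
      rw [← hYpq, comm_G2 hac hde hf, g]
  · by_cases b2 : bl q = bl r
    · -- q ~ r, p other
      have hprb : bl p ≠ bl r := fun e => b1 (e.trans b2.symm)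
      obtain ⟨v, hv1, hv2⟩ := hX.three q p
      have hvr : bl v ≠ bl r := fun e => hv1 (e.trans b2.symm)
      rw [hX.Y_cross b1, hX.Y_cross hprb, hX.Yc1 b2 hqr hv1]
      have f1 : ⁅X p q a, X q v b⁆ = X p v (a * b) :=
        hX.comm _ _ _ _ _ b1 hv1.symm hv2.symm
      have f2 : ⁅X q v b, X v r 1⁆ = hX.Y q r b := by rw [← hX.Yc1 b2 hqr hv1]
      have hac : Commute (X p q a) (X v r 1) :=
        hX.disj _ _ _ _ _ _ b1 hvr (ne_of_bl hv1).symm hpr
      have hde : Commute ⁅X p q a, X q v b⁆ ⁅X q v b, X v r 1⁆ := by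
        rw [f1, f2]
        exact (hX.Y_disj_aux hv2.symm (Ne.symm hpr) (ne_of_bl hv1).symm _ _).symm
      have g : ⁅⁅X p q a, X q v b⁆, X v r 1⁆ = X p r (a * b) := by
        rw [f1, hX.comm _ _ _ _ _ hv2.symm hvr hprb, mul_one]
      have hf : Commute ⁅⁅X p q a, X q v b⁆, X v r 1⁆ ⁅X q v b, X v r 1⁆ := by
        rw [g, f2]
        exact (hX.Y_disj_aux hprb (Ne.symm hpr) hqr _ _).symm
      rw [comm_G1 hac hde hf, g]
    · by_cases b3 : bl p = bl r
      · rw [hX.Y_cross b1, hX.Y_cross b2, hX.Yc b3 hpr (Ne.symm b1)]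
      · rw [hX.Y_cross b1, hX.Y_cross b2, hX.Y_cross b3, hX.comm _ _ _ _ _ b1 b2 b3]

end IsBlk

/-- A4, abstract form -/
theorem IsBlk.exists_hom {Ω I A : Type} {H : Type*} [Ring A] [Group H] {bl : Ω → I}
    {X : Ω → Ω → A → H} (hX : IsBlk bl X) :
    ∃ f : St Ω A →* H, ∀ p q a, bl p ≠ bl q → f (St.x p q a) = X p q a := by
  refine ⟨St.lift (fun p q a => hX.Y p q a) (fun p a => hX.Y_diag p a)
    (fun p q a b _ => hX.Y_add p q a b) (fun p q r a b h1 h2 h3 => hX.Y_comm h1 h2 h3 a b)
    (fun p q s t a b _ _ h3 h4 =>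
      commutatorElement_eq_one_iff_commute.2 (hX.Y_disj h3 h4 a b)), ?_⟩
  intro p q a h
  rw [St.lift_x, hX.Y_cross h]

/-- A4: the blow up homomorphism -/
theorem exists_blowup {I W A : Type} [Ring A] [DecidableEq W]
    (hI : ∀ i j : I, ∃ k, k ≠ i ∧ k ≠ j)
    (s t : W → A) (hts : ∀ a b, t a * s b = if a = b then 1 else 0) :
    ∃ ν : St (I × W) A →* St I A, ∀ i j a b (r : A), i ≠ j →
      ν (St.x (i, a) (j, b) r) = St.x i j (s a * r * t b) := by
  have h0 : ∀ a b, a ≠ b → t a * s b = 0 := fun a b h => by simp [hts, h]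
  have h1 : ∀ a, t a * s a = 1 := fun a => by simp [hts]
  have hX : IsBlk (Prod.fst : I × W → I)
      (fun p q (r : A) => (St.x p.1 q.1 (s p.2 * r * t q.2) : St I A)) := by
    constructor
    · rintro p q a b h
      rw [mul_add, add_mul, St.x_add]
    · rintro ⟨i, a⟩ ⟨j, b⟩ ⟨k, c⟩ l m hij hjk hik
      simp only at hij hjk hik ⊢
      rw [St.x_comm hij hjk hik]
      congr 1
      calc s a * l * t b * (s b * m * t c) = s a * l * (t b * s b) * m * t c := by
            simp only [mul_assoc]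
        _ = s a * (l * m) * t c := by rw [h1]; simp only [mul_assoc, one_mul]
    · rintro ⟨i, a⟩ ⟨j, b⟩ ⟨i', a'⟩ ⟨j', b'⟩ l m hij hi'j' hne1 hne2
      simp only at hij hi'j' ⊢
      by_cases e1 : j = i'
      · subst e1
        have hba : b ≠ a' := fun e => hne1 (by rw [e])
        by_cases e2 : i = j'
        · subst e2
          have hab : b' ≠ a := fun e => hne2 (by rw [e])
          obtain ⟨k, hki, hkj⟩ := hI i j
          have e3 : (St.x i j (s a * l * t b) : St I A) =
              ⁅St.x i k (s a * l * t b), St.x k j (s b * t b)⁆ := by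
            rw [St.x_comm hki.symm hkj hij]
            congr 1
            calc s a * l * t b = s a * l * (t b * s b) * t b := by rw [h1, mul_one]
              _ = s a * l * t b * (s b * t b) := by simp only [mul_assoc]
          rw [e3]
          apply commute_commutator
          · apply Commute.symm
            rw [← commutatorElement_eq_one_iff_commute, St.x_comm hi'j' hki.symm hkj.symm]
            have : s a' * m * t b' * (s a * l * t b) = 0 := by
              calc s a' * m * t b' * (s a * l * t b) = s a' * m * (t b' * s a) * l * t b := by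
                    simp only [mul_assoc]
                _ = 0 := by rw [h0 _ _ hab]; simp
            rw [this, St.x_zero]
          · rw [← commutatorElement_eq_one_iff_commute, St.x_comm hkj hi'j' hki]
            have : s b * t b * (s a' * m * t b') = 0 := by
              calc s b * t b * (s a' * m * t b') = s b * (t b * s a') * m * t b' := by
                    simp only [mul_assoc]
                _ = 0 := by rw [h0 _ _ hba]; simp
            rw [this, St.x_zero]
        · rw [← commutatorElement_eq_one_iff_commute, St.x_comm hij hi'j' e2]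
          have : s a * l * t b * (s a' * m * t b') = 0 := by
            calc s a * l * t b * (s a' * m * t b') = s a * l * (t b * s a') * m * t b' := by
                  simp only [mul_assoc]
              _ = 0 := by rw [h0 _ _ hba]; simp
          rw [this, St.x_zero]
      · by_cases e2 : i = j'
        · subst e2
          have hab : b' ≠ a := fun e => hne2 (by rw [e])
          apply Commute.symm
          rw [← commutatorElement_eq_one_iff_commute, St.x_comm hi'j' hij (Ne.symm e1)]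
          have : s a' * m * t b' * (s a * l * t b) = 0 := by
            calc s a' * m * t b' * (s a * l * t b) = s a' * m * (t b' * s a) * l * t b := by
                  simp only [mul_assoc]
              _ = 0 := by rw [h0 _ _ hab]; simp
          rw [this, St.x_zero]
        · exact St.commute_x e1 e2 _ _
    · intro p q
      obtain ⟨k, h1, h2⟩ := hI p.1 q.1
      exact ⟨(k, p.2), h1, h2⟩
    · rintro ⟨i, a⟩ ⟨i', b⟩ u v h hne
      simp only at h ⊢
      subst h
      have hab : a ≠ b := fun e => hne (by rw [e])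
      obtain ⟨j, hj, -⟩ := hI i i
      obtain ⟨k, hk1, hk2⟩ := hI i j
      by_cases c1 : ((j, a) : I × W) ≠ u ∧ (j, a) ≠ v
      · exact ⟨(j, a), hj, c1.1, c1.2⟩
      by_cases c2 : ((j, b) : I × W) ≠ u ∧ (j, b) ≠ v
      · exact ⟨(j, b), hj, c2.1, c2.2⟩
      refine ⟨(k, a), hk1, ?_, ?_⟩
      · rintro rfl
        have h3 : (j, a) = v := by
          by_contra h
          exact c1 ⟨fun e => hk2 (congrArg Prod.fst e).symm, h⟩
        have h4 : (j, b) = v := by
          by_contra h
          exact c2 ⟨fun e => hk2 (congrArg Prod.fst e).symm, h⟩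
        exact hab (congrArg Prod.snd (h3.trans h4.symm))
      · rintro rfl
        have h3 : (j, a) = u := by
          by_contra h
          exact c1 ⟨h, fun e => hk2 (congrArg Prod.fst e).symm⟩
        have h4 : (j, b) = u := by
          by_contra h
          exact c2 ⟨h, fun e => hk2 (congrArg Prod.fst e).symm⟩
        exact hab (congrArg Prod.snd (h3.trans h4.symm))
  obtain ⟨f, hf⟩ := hX.exists_hom
  exact ⟨f, fun i j a b r h => hf (i, a) (j, b) r h⟩

end Vale.Agent.P193.BH

end FileBlow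

/-! file Nu -/

section FileNu
/-! A4: blow up homomorphism -/

namespace Vale.Agent.P193.BH

variable {ι A : Type} [Ring A]

/-- A4: `ν : St (ι × W) A → St ι A` with `ν x_{(i,a),(j,b)}(r) = x_ij(s_a r t_b)` for `i ≠ j`. -/
theorem exists_nu [Fintype ι] [DecidableEq ι] (h3 : 3 ≤ Fintype.card ι)
    (W : Type) [Fintype W] [DecidableEq W] (s t : W → A)
    (hts : ∀ a b, t a * s b = if a = b then 1 else 0) (_hst : ∑ a, s a * t a = 1) :
    ∃ ν : St (ι × W) A →* St ι A, ∀ (i j : ι) (a b : W) (r : A), i ≠ j →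
      ν (St.x (i, a) (j, b) r) = St.x i j (s a * r * t b) := by
  refine exists_blowup (fun i j => ?_) s t hts
  have hcard : ({i, j} : Finset ι).card < Fintype.card ι :=
    lt_of_le_of_lt (Finset.card_le_two) (by omega)
  obtain ⟨k, hk⟩ := Finset.exists_mem_notMem_of_card_lt_card
    (s := {i, j}) (t := Finset.univ) (by simpa only [Finset.card_univ] using hcard)
  simp only [Finset.mem_insert, Finset.mem_singleton, not_or] at hk
  exact ⟨k, hk.2.1, hk.2.2⟩

end Vale.Agent.P193.BH

end FileNu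

/-! file Inj1 -/

section FileInj1
/-! A5, first part: words of the Leavitt algebra, matrix actions, slide lemma, element `h` -/

namespace Vale.Agent.P193.BH

open Matrix
open scoped commutatorElement

section leav
variable {A : Type} [Ring A] (L : Leav A)

theorem Leav.tw_sw : ∀ (w w' : List Bool), w.length = w'.length →
    L.tw w * L.sw w' = if w = w' then 1 else 0
  | [], [], _ => by simp only [tw, sw, mul_one, ↓reduceIte]
  | b :: w, b' :: w', h => by
    have ih := Leav.tw_sw w w' (by simpa using h)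
    simp only [Leav.tw, Leav.sw]
    rw [mul_assoc, ← mul_assoc (L.t b), L.ts]
    by_cases hb : b = b'
    · subst hb; simp [ih]
    · simp [hb]

/-- splitting off the first letter -/
def consEq (d : ℕ) : Bool × List.Vector Bool d ≃ List.Vector Bool (d + 1) where
  toFun p := p.1 ::ᵥ p.2
  invFun v := (v.head, v.tail)
  left_inv := by rintro ⟨b, w⟩; simp
  right_inv := by intro v; simp

theorem Leav.sum_sw_tw (d : ℕ) : ∑ w : List.Vector Bool d, L.sw w.1 * L.tw w.1 = 1 := by
  induction d with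
  | zero =>
    have h : ∀ w : List.Vector Bool 0, w = List.Vector.nil := fun w => List.Vector.eq_nil w
    rw [Fintype.sum_eq_single List.Vector.nil (fun w hw => absurd (h w) hw)]
    simp [Leav.sw, Leav.tw]
  | succ d ih =>
    rw [← Equiv.sum_comp (consEq d), Fintype.sum_prod_type]
    have h : ∀ b : Bool, ∑ w : List.Vector Bool d,
        L.sw ((consEq d) (b, w)).1 * L.tw ((consEq d) (b, w)).1 = L.s b * L.t b := by
      intro b
      have e : ∀ w : List.Vector Bool d, L.sw ((consEq d) (b, w)).1 * L.tw ((consEq d) (b, w)).1 =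
          L.s b * (L.sw w.1 * L.tw w.1) * L.t b := by
        rintro ⟨w, hw⟩
        change L.s b * L.sw w * (L.tw w * L.t b) = _
        simp only [mul_assoc]
      rw [Finset.sum_congr rfl (fun w _ => e w), ← Finset.sum_mul, ← Finset.mul_sum, ih, mul_one]
    rw [Finset.sum_congr rfl (fun b _ => h b), Fintype.sum_bool, add_comm]
    exact L.st

theorem Leav.Tiny.unif {L : Leav A} (hL : L.Tiny) {S : Set A} (hS : S.Finite) :
    ∃ C : ℕ, ∀ r ∈ S, ∀ (d : ℕ) (w : List.Vector Bool d),
      Set.ncard {w' : List.Vector Bool d | L.tw w'.1 * r * L.sw w.1 ≠ 0} ≤ C ∧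
      Set.ncard {w' : List.Vector Bool d | L.tw w.1 * r * L.sw w'.1 ≠ 0} ≤ C := by
  choose f hf using hL
  refine ⟨hS.toFinset.sup f, fun r hr d w => ?_⟩
  have h : f r ≤ hS.toFinset.sup f := Finset.le_sup (by simpa using hr)
  exact ⟨(hf r d w).1.trans h, (hf r d w).2.trans h⟩

end leav

section act
variable {Ω A : Type} [Ring A] [Fintype Ω] [DecidableEq Ω]

theorem tv_mulVec {i j : Ω} (h : i ≠ j) (a : A) (x : Ω → A) :
    (tv i j a : (Matrix Ω Ω A)ˣ).val *ᵥ x = x + Pi.single i (a * x j) := by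
  rw [tv_val h, Matrix.add_mulVec, Matrix.one_mulVec]
  congr 1
  ext p
  by_cases hp : p = i
  · subst hp
    simp only [mulVec, dotProduct, single_apply, true_and, ite_mul, zero_mul, Finset.sum_ite_eq, Finset.mem_univ, ↓reduceIte, Pi.single_eq_same]
  · simp only [mulVec, dotProduct, Ne.symm hp, false_and, not_false_eq_true, single_apply_of_ne, zero_mul, Finset.sum_const_zero, ne_eq, hp, Pi.single_eq_of_ne]

theorem tv_vecMul {i j : Ω} (h : i ≠ j) (a : A) (x : Ω → A) :
    x ᵥ* (tv i j a : (Matrix Ω Ω A)ˣ).val = x + Pi.single j (x i * a) := by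
  rw [tv_val h, Matrix.vecMul_add, Matrix.vecMul_one]
  congr 1
  ext p
  by_cases hp : p = j
  · subst hp
    simp only [vecMul, dotProduct, single_apply, and_true, mul_ite, mul_zero, Finset.sum_ite_eq, Finset.mem_univ, ↓reduceIte, Pi.single_eq_same]
  · simp only [vecMul, dotProduct, Ne.symm hp, and_false, not_false_eq_true, single_apply_of_ne, mul_zero, Finset.sum_const_zero, ne_eq, hp, Pi.single_eq_of_ne]

/-- unit matrices fixing the basis column and the basis row number `γ` -/
def Fx (γ : Ω) : Subgroup (Matrix Ω Ω A)ˣ where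
  carrier := {N | N.val *ᵥ Pi.single γ 1 = Pi.single γ 1 ∧ Pi.single γ 1 ᵥ* N.val = Pi.single γ 1}
  mul_mem' := by
    rintro N M ⟨h1, h2⟩ ⟨h3, h4⟩
    refine ⟨?_, ?_⟩
    · rw [Units.val_mul, ← Matrix.mulVec_mulVec, h3, h1]
    · rw [Units.val_mul, ← Matrix.vecMul_vecMul, h2, h4]
  one_mem' := by
    refine ⟨?_, ?_⟩
    · rw [Units.val_one, Matrix.one_mulVec]
    · rw [Units.val_one, Matrix.vecMul_one]
  inv_mem' := by
    rintro N ⟨h1, h2⟩
    refine ⟨?_, ?_⟩
    · conv_lhs => rw [← h1]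
      rw [Matrix.mulVec_mulVec, Units.inv_mul, Matrix.one_mulVec]
    · conv_lhs => rw [← h2]
      rw [Matrix.vecMul_vecMul, Units.mul_inv, Matrix.vecMul_one]

theorem tv_mem_Fx {i j γ : Ω} (hi : i ≠ γ) (hj : j ≠ γ) (a : A) :
    (tv i j a : (Matrix Ω Ω A)ˣ) ∈ (Fx γ : Subgroup (Matrix Ω Ω A)ˣ) := by
  by_cases hij : i = j
  · subst hij; rw [tv_diag]; exact one_mem _
  · refine ⟨?_, ?_⟩
    · rw [tv_mulVec hij, Pi.single_eq_of_ne hj, mul_zero, Pi.single_zero, add_zero]
    · rw [tv_vecMul hij, Pi.single_eq_of_ne hi, zero_mul, Pi.single_zero, add_zero]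

theorem toGL_mem_Fx {V : Set Ω} {δ : Ω} (hδ : δ ∉ V) {g : St Ω A}
    (hg : g ∈ (St.sub V : Subgroup (St Ω A))) : St.toGL g ∈ (Fx δ : Subgroup (Matrix Ω Ω A)ˣ) := by
  have : (St.sub V : Subgroup (St Ω A)) ≤ (Fx δ).comap St.toGL := by
    refine (Subgroup.closure_le _).2 ?_
    rintro _ ⟨i, j, a, hi, hj, -, rfl⟩
    change St.toGL _ ∈ Fx δ
    rw [St.toGL_x]
    exact tv_mem_Fx (by rintro rfl; exact hδ hi) (by rintro rfl; exact hδ hj) a
  exact this hg

theorem Fx_mul_single {N : (Matrix Ω Ω A)ˣ} {γ : Ω} (h : N ∈ (Fx γ : Subgroup (Matrix Ω Ω A)ˣ))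
    (q : Ω) (c : A) : N.val * Matrix.single γ q c = Matrix.single γ q c := by
  have h1 : ∀ p, N.val p γ = (Pi.single γ 1 : Ω → A) p := by
    intro p
    have := congrFun h.1 p
    rw [Matrix.mulVec_single_one] at this
    exact this
  ext p q'
  rw [Matrix.mul_apply]
  by_cases hq : q = q'
  · subst hq
    rw [Finset.sum_eq_single γ]
    · rw [h1]
      by_cases hp : p = γ
      · subst hp; simp
      · simp [Matrix.single_apply, hp, Ne.symm hp]
    · intro b _ hb
      simp [Matrix.single_apply, Ne.symm hb]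
    · simp only [Finset.mem_univ, not_true_eq_false, single_apply_same, IsEmpty.forall_iff]
  · simp only [hq, and_false, not_false_eq_true, single_apply_of_ne, mul_zero, Finset.sum_const_zero]

theorem Fx_single_mul {N : (Matrix Ω Ω A)ˣ} {γ : Ω} (h : N ∈ (Fx γ : Subgroup (Matrix Ω Ω A)ˣ))
    (p : Ω) (c : A) : Matrix.single p γ c * N.val = Matrix.single p γ c := by
  have h1 : ∀ q, N.val γ q = (Pi.single γ 1 : Ω → A) q := by
    intro q
    have := congrFun h.2 q
    rw [Matrix.single_one_vecMul] at this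
    exact this
  ext p' q
  rw [Matrix.mul_apply]
  by_cases hp : p = p'
  · subst hp
    rw [Finset.sum_eq_single γ]
    · rw [h1]
      by_cases hq : q = γ
      · subst hq; simp
      · simp [Matrix.single_apply, hq, Ne.symm hq]
    · intro b _ hb
      simp [Matrix.single_apply, Ne.symm hb]
    · simp only [Finset.mem_univ, not_true_eq_false, single_apply_same, IsEmpty.forall_iff]
  · simp only [hp, false_and, not_false_eq_true, single_apply_of_ne, zero_mul, Finset.sum_const_zero]

theorem swap_val [CharP A 2] {γ δ : Ω} (h : γ ≠ δ) :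
    (tv γ δ (1 : A) * tv δ γ 1 * tv γ δ 1 : (Matrix Ω Ω A)ˣ).val =
      1 + Matrix.single γ δ 1 + Matrix.single δ γ 1 + Matrix.single γ γ 1 +
        Matrix.single δ δ 1 := by
  have h2 : (Matrix.single γ δ 1 : Matrix Ω Ω A) + Matrix.single γ δ 1 = 0 := by
    rw [← Matrix.single_add, CharTwo.add_self_eq_zero, Matrix.single_zero]
  have e1 : (Matrix.single γ δ 1 : Matrix Ω Ω A) * Matrix.single δ γ 1 = Matrix.single γ γ 1 := by
    rw [Matrix.single_mul_single_same, mul_one]
  have e2 : (Matrix.single δ γ 1 : Matrix Ω Ω A) * Matrix.single γ δ 1 = Matrix.single δ δ 1 := by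
    rw [Matrix.single_mul_single_same, mul_one]
  have e3 : (Matrix.single γ δ 1 : Matrix Ω Ω A) * Matrix.single γ δ 1 = 0 := by
    rw [Matrix.single_mul_single_of_ne _ _ _ _ h.symm]
  have e4 : (Matrix.single γ γ 1 : Matrix Ω Ω A) * Matrix.single γ δ 1 = Matrix.single γ δ 1 := by
    rw [Matrix.single_mul_single_same, mul_one]
  rw [Units.val_mul, Units.val_mul, tv_val h, tv_val h.symm]
  generalize (Matrix.single γ δ 1 : Matrix Ω Ω A) = X at *
  generalize (Matrix.single δ γ 1 : Matrix Ω Ω A) = Y at *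
  generalize (Matrix.single γ γ 1 : Matrix Ω Ω A) = Z at *
  generalize (Matrix.single δ δ 1 : Matrix Ω Ω A) = W at *
  calc (1 + X) * (1 + Y) * (1 + X) = 1 + X + Y + X * Y + Y * X + (X + X) + X * X + X * Y * X
        - X := by noncomm_ring
    _ = _ := by rw [e1, e2, e3, e4, h2]; abel

end act

end Vale.Agent.P193.BH

end FileInj1

/-! file Inj2 -/

section FileInj2
/-! A5, second part: slide lemma and the element `h` -/

namespace Vale.Agent.P193.BH

open Matrix
open scoped commutatorElement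

section slide
variable {Ω A : Type} [Ring A] [CharP A 2]

theorem St.x_sq (i j : Ω) (a : A) : (St.x i j a : St Ω A) * St.x i j a = 1 := by
  rw [← St.x_add, CharTwo.add_self_eq_zero, St.x_zero]

theorem St.x_inv (i j : Ω) (a : A) : (St.x i j a : St Ω A)⁻¹ = St.x i j a :=
  inv_eq_of_mul_eq_one_left (St.x_sq i j a)

theorem St.cj_left {i j k : Ω} (hij : i ≠ j) (hjk : j ≠ k) (hik : i ≠ k) (a b : A) :
    (St.x i j a : St Ω A) * St.x j k b * (St.x i j a)⁻¹ = St.x i k (a * b) * St.x j k b := by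
  rw [← St.x_comm hij hjk hik, commutatorElement_def]; group

theorem St.cj_right {i j k : Ω} (hij : i ≠ j) (hjk : j ≠ k) (hik : i ≠ k) (a b : A) :
    (St.x j k b : St Ω A) * St.x i j a * (St.x j k b)⁻¹ = St.x i k (a * b) * St.x i j a := by
  have h1 : (St.x i j a : St Ω A) * St.x j k b * (St.x i j a)⁻¹ * (St.x j k b)⁻¹ =
      St.x i k (a * b) := by
    rw [← St.x_comm hij hjk hik, commutatorElement_def]
  have h2 : (St.x j k b : St Ω A) * St.x i j a * (St.x j k b)⁻¹ = (St.x i k (a * b))⁻¹ *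
      St.x i j a := by
    rw [← h1]; group
  rw [h2, St.x_inv]

theorem St.commute_conj {g h : St Ω A} (c : Commute g h) : g * h * g⁻¹ = h := by
  rw [c.eq]; group

/-- the swap element -/
noncomputable def St.tau (γ δ : Ω) : St Ω A := St.x γ δ 1 * St.x δ γ 1 * St.x γ δ 1

theorem St.tau_conj (γ δ : Ω) (g : St Ω A) : St.tau γ δ * g * (St.tau γ δ)⁻¹ =
    St.x γ δ 1 * (St.x δ γ 1 * (St.x γ δ 1 * g * (St.x γ δ 1)⁻¹) * (St.x δ γ 1)⁻¹) *
      (St.x γ δ 1)⁻¹ := by
  simp only [St.tau]; group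

omit [CharP A 2] in
theorem St.conj_mul' (g a b : St Ω A) : g * (a * b) * g⁻¹ = (g * a * g⁻¹) * (g * b * g⁻¹) := by
  group

theorem St.tau_conj_row {γ δ q : Ω} (h : γ ≠ δ) (h1 : q ≠ γ) (h2 : q ≠ δ) (r : A) :
    St.tau γ δ * St.x γ q r * (St.tau γ δ)⁻¹ = (St.x δ q r : St Ω A) := by
  rw [St.tau_conj, St.commute_conj (St.commute_x h.symm h1.symm _ _),
    St.cj_left h.symm h1.symm h2.symm, one_mul, St.conj_mul' (St.x γ δ 1),
    St.cj_left h h2.symm h1.symm,
    St.commute_conj (St.commute_x h.symm h1.symm _ _), one_mul]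
  rw [(St.commute_x h2 h1.symm r r : Commute (St.x γ q r : St Ω A) (St.x δ q r)).eq, mul_assoc,
    St.x_sq, mul_one]

theorem St.tau_conj_col {γ δ p : Ω} (h : γ ≠ δ) (h1 : p ≠ γ) (h2 : p ≠ δ) (r : A) :
    St.tau γ δ * St.x p γ r * (St.tau γ δ)⁻¹ = (St.x p δ r : St Ω A) := by
  rw [St.tau_conj, St.cj_right h1 h h2, mul_one, St.conj_mul' (St.x δ γ 1),
    St.cj_right h2 h.symm h1, mul_one,
    St.commute_conj (St.commute_x h1.symm h.symm _ _)]
  rw [(St.commute_x h1.symm h2 r r : Commute (St.x p γ r : St Ω A) (St.x p δ r)).eq,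
    mul_assoc (St.x p δ r), St.x_sq, mul_one, St.commute_conj (St.commute_x h2.symm h _ _)]

theorem St.tau_conj_other {γ δ p q : Ω} (hp1 : p ≠ γ) (hp2 : p ≠ δ)
    (hq1 : q ≠ γ) (hq2 : q ≠ δ) (r : A) :
    St.tau γ δ * St.x p q r * (St.tau γ δ)⁻¹ = (St.x p q r : St Ω A) := by
  rw [St.tau_conj, St.commute_conj (St.commute_x hp2.symm hq1.symm _ _),
    St.commute_conj (St.commute_x hp1.symm hq2.symm _ _),
    St.commute_conj (St.commute_x hp2.symm hq1.symm _ _)]

end slide

section slide2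
variable {Ω A : Type} [Ring A] [Fintype Ω] [DecidableEq Ω] [CharP A 2]

/-- SLIDE -/
theorem slide (I : InfSum A) (h3 : 3 ≤ Fintype.card Ω) {γ δ δ' : Ω} {V : Set Ω}
    (h1 : γ ≠ δ) (h2 : γ ≠ δ') (h12 : δ ≠ δ') (hδ : δ ∉ V) (hδ' : δ' ∉ V) {g : St Ω A}
    (hg : g ∈ (St.sub V : Subgroup (St Ω A))) (hfix : St.toGL g ∈ (Fx γ : Subgroup (Matrix Ω Ω A)ˣ)) :
    g ∈ (St.sub {k | k ≠ γ} : Subgroup (St Ω A)) := by
  have hc : St.tau γ δ * g * (St.tau γ δ)⁻¹ ∈ (St.sub {k | k ≠ γ} : Subgroup (St Ω A)) := by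
    have : (St.sub V : Subgroup (St Ω A)) ≤
        (St.sub {k | k ≠ γ} : Subgroup (St Ω A)).comap (MulAut.conj (St.tau γ δ)).toMonoidHom := by
      refine (Subgroup.closure_le _).2 ?_
      rintro _ ⟨p, q, a, hp, hq, hpq, rfl⟩
      change St.tau γ δ * St.x p q a * (St.tau γ δ)⁻¹ ∈
        (St.sub {k | k ≠ γ} : Subgroup (St Ω A))
      have hp2 : p ≠ δ := by rintro rfl; exact hδ hp
      have hq2 : q ≠ δ := by rintro rfl; exact hδ hq
      by_cases hp1 : p = γ
      · subst hp1
        rw [St.tau_conj_row h1 hpq.symm hq2]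
        exact St.x_mem_sub h1.symm hpq.symm a
      · by_cases hq1 : q = γ
        · subst hq1
          rw [St.tau_conj_col h1 hp1 hp2]
          exact St.x_mem_sub hp1 h1.symm a
        · rw [St.tau_conj_other hp1 hp2 hq1 hq2]
          exact St.x_mem_sub hp1 hq1 a
    exact this hg
  have hcomm : ⁅(St.tau γ δ : St Ω A), g⁆ = 1 := by
    refine key I h3 δ' ?_ ?_
    · have hg' : g ∈ (St.sub {k | k ≠ δ'} : Subgroup (St Ω A)) := by
        refine St.sub_mono ?_ hg
        rintro k hk rfl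
        exact hδ' hk
      have ht : (St.tau γ δ : St Ω A) ∈ (St.sub {k | k ≠ δ'} : Subgroup (St Ω A)) :=
        mul_mem (mul_mem (St.x_mem_sub h2 h12 _) (St.x_mem_sub h12 h2 _)) (St.x_mem_sub h2 h12 _)
      rw [commutatorElement_def]
      exact mul_mem (mul_mem (mul_mem ht hg') (inv_mem ht)) (inv_mem hg')
    · rw [map_commutatorElement, commutatorElement_eq_one_iff_mul_comm]
      have hfixδ := toGL_mem_Fx hδ hg
      have ht : (St.toGL (St.tau γ δ : St Ω A)) = tv γ δ (1 : A) * tv δ γ 1 * tv γ δ 1 := by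
        simp [St.tau]
      apply Units.ext
      rw [Units.val_mul, Units.val_mul, ht, swap_val h1]
      simp only [add_mul, one_mul, Fx_single_mul hfixδ, Fx_single_mul hfix, mul_add, mul_one, Fx_mul_single hfix, Fx_mul_single hfixδ]
  rw [commutatorElement_eq_one_iff_commute] at hcomm
  rw [St.commute_conj hcomm] at hc
  exact hc

/-- column elements -/
theorem exists_colElt (γ' : Ω) (u : Ω → A) (S : Finset Ω) (hS : γ' ∉ S) :
    ∃ a ∈ (St.sub (↑S ∪ {γ'}) : Subgroup (St Ω A)),
      (∀ x, (St.toGL a).val *ᵥ x = fun p => x p + if p ∈ S then u p * x γ' else 0) ∧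
      (∀ y, y ᵥ* (St.toGL a).val = y + Pi.single γ' (∑ p ∈ S, y p * u p)) ∧
      St.toGL a * St.toGL a = 1 := by
  induction S using Finset.induction_on with
  | empty =>
    refine ⟨1, one_mem _, ?_, ?_, ?_⟩
    · intro x; simp only [map_one, Units.val_one, one_mulVec, Finset.notMem_empty, ↓reduceIte, add_zero]
    · intro y; simp only [map_one, Units.val_one, vecMul_one, Finset.sum_empty, Pi.single_zero, add_zero]
    · simp only [map_one, mul_one]
  | insert i S hi ih =>
    obtain ⟨a, ha, h1, h2, h3⟩ := ih (fun h => hS (Finset.mem_insert_of_mem h))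
    have hiγ : i ≠ γ' := by
      rintro rfl; exact hS (Finset.mem_insert_self _ _)
    refine ⟨St.x i γ' (u i) * a, mul_mem (St.x_mem_sub (by simp) (by simp) _)
      (St.sub_mono ?_ ha), ?_, ?_, ?_⟩
    · intro k hk
      rcases hk with hk | hk
      · exact Or.inl (by simpa using Or.inr hk)
      · exact Or.inr hk
    · intro x
      rw [map_mul, Units.val_mul, ← Matrix.mulVec_mulVec, h1, St.toGL_x, tv_mulVec hiγ]
      have hγS : γ' ∉ S := fun h => hS (Finset.mem_insert_of_mem h)
      ext p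
      by_cases hp : p = i
      · subst hp
        simp [hi, hγS]
      · simp [hp]
    · intro y
      rw [map_mul, Units.val_mul, ← Matrix.vecMul_vecMul, St.toGL_x, tv_vecMul hiγ, h2,
        Finset.sum_insert hi]
      have hγS : γ' ∉ S := fun h => hS (Finset.mem_insert_of_mem h)
      have : ∑ p ∈ S, (y + Pi.single γ' (y i * u i) : Ω → A) p * u p = ∑ p ∈ S, y p * u p := by
        refine Finset.sum_congr rfl (fun p hp => ?_)
        have hpγ : p ≠ γ' := by rintro rfl; exact hγS hp
        simp [hpγ]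
      rw [this, add_assoc, ← Pi.single_add]
    · -- square
      have hcomm : Commute (St.toGL (St.x i γ' (u i) : St Ω A)) (St.toGL a) := by
        have hsub : (St.sub (↑S ∪ {γ'}) : Subgroup (St Ω A)) = St.sub (↑S ∪ {γ'}) := rfl
        apply Units.ext
        have : ∀ x, ((St.toGL (St.x i γ' (u i) : St Ω A)).val * (St.toGL a).val) *ᵥ x =
            ((St.toGL a).val * (St.toGL (St.x i γ' (u i) : St Ω A)).val) *ᵥ x := by
          intro x
          rw [← Matrix.mulVec_mulVec, ← Matrix.mulVec_mulVec, h1, h1, St.toGL_x, tv_mulVec hiγ,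
            tv_mulVec hiγ]
          have hγS : γ' ∉ S := fun h => hS (Finset.mem_insert_of_mem h)
          ext p
          by_cases hp : p = i
          · subst hp
            simp [hi, hγS, hiγ.symm]
          · simp [hp, hγS, hiγ.symm]
        ext p q
        have := congrFun (this (Pi.single q 1)) p
        simpa only [St.toGL_x, Units.val_mul, mulVec_single, MulOpposite.op_one, Pi.smul_apply, col_apply,     one_smul] using this
      rw [map_mul]
      calc St.toGL (St.x i γ' (u i)) * St.toGL a * (St.toGL (St.x i γ' (u i)) * St.toGL a)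
          = St.toGL (St.x i γ' (u i)) * (St.toGL a * St.toGL (St.x i γ' (u i))) * St.toGL a := by
            simp only [mul_assoc]
        _ = St.toGL (St.x i γ' (u i)) * (St.toGL (St.x i γ' (u i)) * St.toGL a) * St.toGL a := by
            rw [hcomm.eq]
        _ = (St.toGL (St.x i γ' (u i)) * St.toGL (St.x i γ' (u i))) * (St.toGL a * St.toGL a) := by
            simp only [mul_assoc]
        _ = 1 := by rw [h3, mul_one, ← map_mul, St.x_sq, map_one]

/-- row elements -/
theorem exists_rowElt (γ' : Ω) (v : Ω → A) (S : Finset Ω) (hS : γ' ∉ S) :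
    ∃ b ∈ (St.sub (↑S ∪ {γ'}) : Subgroup (St Ω A)),
      (∀ x, (St.toGL b).val *ᵥ x = x + Pi.single γ' (∑ p ∈ S, v p * x p)) ∧
      (∀ y, y ᵥ* (St.toGL b).val = fun p => y p + if p ∈ S then y γ' * v p else 0) ∧
      St.toGL b * St.toGL b = 1 := by
  induction S using Finset.induction_on with
  | empty =>
    refine ⟨1, one_mem _, ?_, ?_, ?_⟩
    · intro x; simp only [map_one, Units.val_one, one_mulVec, Finset.sum_empty, Pi.single_zero, add_zero]
    · intro y; simp only [map_one, Units.val_one, vecMul_one, Finset.notMem_empty, ↓reduceIte, add_zero]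
    · simp only [map_one, mul_one]
  | insert i S hi ih =>
    obtain ⟨b, hb, h1, h2, h3⟩ := ih (fun h => hS (Finset.mem_insert_of_mem h))
    have hiγ : i ≠ γ' := by
      rintro rfl; exact hS (Finset.mem_insert_self _ _)
    have hγS : γ' ∉ S := fun h => hS (Finset.mem_insert_of_mem h)
    refine ⟨b * St.x γ' i (v i), mul_mem (St.sub_mono ?_ hb) (St.x_mem_sub (by simp) (by simp) _),
      ?_, ?_, ?_⟩
    · intro k hk
      rcases hk with hk | hk
      · exact Or.inl (by simpa using Or.inr hk)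
      · exact Or.inr hk
    · intro x
      rw [map_mul, Units.val_mul, ← Matrix.mulVec_mulVec, St.toGL_x, tv_mulVec hiγ.symm, h1,
        Finset.sum_insert hi]
      have : ∑ p ∈ S, v p * (x + Pi.single γ' (v i * x i) : Ω → A) p = ∑ p ∈ S, v p * x p := by
        refine Finset.sum_congr rfl (fun p hp => ?_)
        have hpγ : p ≠ γ' := by rintro rfl; exact hγS hp
        simp [hpγ]
      rw [this, add_assoc, ← Pi.single_add]
    · intro y
      rw [map_mul, Units.val_mul, ← Matrix.vecMul_vecMul, h2, St.toGL_x, tv_vecMul hiγ.symm]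
      ext p
      by_cases hp : p = i
      · subst hp
        simp [hi, hγS]
      · simp [hp]
    · have hcomm : Commute (St.toGL (St.x γ' i (v i) : St Ω A)) (St.toGL b) := by
        apply Units.ext
        have : ∀ y, y ᵥ* ((St.toGL (St.x γ' i (v i) : St Ω A)).val * (St.toGL b).val) =
            y ᵥ* ((St.toGL b).val * (St.toGL (St.x γ' i (v i) : St Ω A)).val) := by
          intro y
          rw [← Matrix.vecMul_vecMul, ← Matrix.vecMul_vecMul, h2, h2, St.toGL_x,
            tv_vecMul hiγ.symm, tv_vecMul hiγ.symm]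
          ext p
          by_cases hp : p = i
          · subst hp
            simp [hi, hγS, hiγ.symm]
          · simp [hp, hγS, hiγ.symm]
        ext p q
        have := congrFun (this (Pi.single p 1)) q
        simpa using this
      rw [map_mul]
      calc St.toGL b * St.toGL (St.x γ' i (v i)) * (St.toGL b * St.toGL (St.x γ' i (v i)))
          = St.toGL b * (St.toGL (St.x γ' i (v i)) * St.toGL b) * St.toGL (St.x γ' i (v i)) := by
            simp only [mul_assoc]
        _ = St.toGL b * (St.toGL b * St.toGL (St.x γ' i (v i))) * St.toGL (St.x γ' i (v i)) := by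
            rw [hcomm.eq]
        _ = (St.toGL b * St.toGL b) * (St.toGL (St.x γ' i (v i)) * St.toGL (St.x γ' i (v i))) := by
            simp only [mul_assoc]
        _ = 1 := by rw [h3, one_mul, ← map_mul, St.x_sq, map_one]

end slide2

end Vale.Agent.P193.BH

end FileInj2

/-! file Inj -/

section FileInj
/-! A5: unstable injectivity -/

namespace Vale.Agent.P193.BH

open Matrix
open scoped commutatorElement

section helt
variable {Ω A : Type} [Ring A] [Fintype Ω] [DecidableEq Ω] [CharP A 2]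

theorem St.tau_inv (γ δ : Ω) : (St.tau γ δ : St Ω A)⁻¹ = St.tau γ δ := by
  simp only [St.tau, _root_.mul_inv_rev, St.x_inv, mul_assoc]

omit [CharP A 2] in
theorem single_two [CharP A 2] (γ : Ω) : (Pi.single γ 1 : Ω → A) + Pi.single γ 1 = 0 := by
  rw [← Pi.single_add, CharTwo.add_self_eq_zero, Pi.single_zero]

theorem tau_mulVec {γ δ : Ω} (h : γ ≠ δ) :
    (St.toGL (St.tau γ δ : St Ω A)).val *ᵥ Pi.single γ 1 = Pi.single δ 1 := by
  have e : (St.toGL (St.tau γ δ : St Ω A)).val =
      (tv γ δ (1 : A)).val * ((tv δ γ (1 : A)).val * (tv γ δ (1 : A)).val) := by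
    simp [St.tau, mul_assoc]
  have s1 : (tv γ δ (1 : A)).val *ᵥ (Pi.single γ 1 : Ω → A) = Pi.single γ 1 := by
    rw [tv_mulVec h, Pi.single_eq_of_ne h.symm, mul_zero, Pi.single_zero, add_zero]
  have s2 : (tv δ γ (1 : A)).val *ᵥ (Pi.single γ 1 : Ω → A) = Pi.single γ 1 + Pi.single δ 1 := by
    rw [tv_mulVec h.symm, Pi.single_eq_same, mul_one]
  have s3 : (tv γ δ (1 : A)).val *ᵥ (Pi.single γ 1 + Pi.single δ 1 : Ω → A) = Pi.single δ 1 := by
    rw [tv_mulVec h, Pi.add_apply, Pi.single_eq_same, Pi.single_eq_of_ne h.symm, zero_add, mul_one,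
      add_right_comm, single_two, zero_add]
  rw [e, ← Matrix.mulVec_mulVec, ← Matrix.mulVec_mulVec, s1, s2, s3]

theorem vecMul_tau {γ δ : Ω} (h : γ ≠ δ) :
    Pi.single γ 1 ᵥ* (St.toGL (St.tau γ δ : St Ω A)).val = Pi.single δ 1 := by
  have e : (St.toGL (St.tau γ δ : St Ω A)).val =
      (tv γ δ (1 : A)).val * (tv δ γ (1 : A)).val * (tv γ δ (1 : A)).val := by
    simp [St.tau]
  have s1 : (Pi.single γ 1 : Ω → A) ᵥ* (tv γ δ (1 : A)).val = Pi.single γ 1 + Pi.single δ 1 := by
    rw [tv_vecMul h, Pi.single_eq_same, mul_one]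
  have s2 : (Pi.single γ 1 + Pi.single δ 1 : Ω → A) ᵥ* (tv δ γ (1 : A)).val = Pi.single δ 1 := by
    rw [tv_vecMul h.symm, Pi.add_apply, Pi.single_eq_same, Pi.single_eq_of_ne h.symm, zero_add,
      mul_one, add_right_comm, single_two, zero_add]
  have s3 : (Pi.single δ 1 : Ω → A) ᵥ* (tv γ δ (1 : A)).val = Pi.single δ 1 := by
    rw [tv_vecMul h, Pi.single_eq_of_ne h, zero_mul, Pi.single_zero, add_zero]
  rw [e, ← Matrix.vecMul_vecMul, ← Matrix.vecMul_vecMul, s1, s2, s3]

/-- the element `h` -/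
theorem exists_h {γ γ' : Ω} (hne : γ ≠ γ') (u v : Ω → A) (hu : u γ' = 0) (hv : v γ' = 0)
    (huv : v ⬝ᵥ u = 1) :
    ∃ h ∈ (St.sub ({p | u p ≠ 0} ∪ {p | v p ≠ 0} ∪ {γ, γ'}) : Subgroup (St Ω A)),
      (St.toGL h).val *ᵥ Pi.single γ 1 = u ∧
      Pi.single γ 1 ᵥ* ((St.toGL h)⁻¹ : (Matrix Ω Ω A)ˣ).val = v := by
  classical
  obtain ⟨a, ha, ha1, ha2, ha3⟩ := exists_colElt γ' u (Finset.univ.filter fun p => u p ≠ 0)
    (by simpa only [ne_eq, Finset.mem_filter, Finset.mem_univ, true_and, Decidable.not_not] using hu)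
  obtain ⟨b, hb, hb1, hb2, hb3⟩ := exists_rowElt γ' v (Finset.univ.filter fun p => v p ≠ 0)
    (by simpa only [ne_eq, Finset.mem_filter, Finset.mem_univ, true_and, Decidable.not_not] using hv)
  have hA : ∀ x, (St.toGL a).val *ᵥ x = x + fun p => u p * x γ' := by
    intro x
    rw [ha1]
    ext p
    by_cases hp : u p = 0
    · simp only [ne_eq, Finset.mem_filter, Finset.mem_univ, hp, not_true_eq_false, and_false, ↓reduceIte, add_zero, Pi.add_apply, zero_mul]
    · simp only [ne_eq, Finset.mem_filter, Finset.mem_univ, hp, not_false_eq_true, and_self, ↓reduceIte, Pi.add_apply]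
  have hA' : ∀ y, y ᵥ* (St.toGL a).val = y + Pi.single γ' (y ⬝ᵥ u) := by
    intro y
    rw [ha2]
    congr 2
    rw [dotProduct, Finset.sum_filter_of_ne]
    intro p _ hp h0
    exact hp (by rw [h0, mul_zero])
  have hB : ∀ x, (St.toGL b).val *ᵥ x = x + Pi.single γ' (v ⬝ᵥ x) := by
    intro x
    rw [hb1]
    congr 2
    rw [dotProduct, Finset.sum_filter_of_ne]
    intro p _ hp h0
    exact hp (by rw [h0, zero_mul])
  have hB' : ∀ y, y ᵥ* (St.toGL b).val = y + fun p => y γ' * v p := by
    intro y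
    rw [hb2]
    ext p
    by_cases hp : v p = 0
    · simp only [ne_eq, Finset.mem_filter, Finset.mem_univ, hp, not_true_eq_false, and_false, ↓reduceIte, add_zero, Pi.add_apply, mul_zero]
    · simp only [ne_eq, Finset.mem_filter, Finset.mem_univ, hp, not_false_eq_true, and_self, ↓reduceIte, Pi.add_apply]
  have two : ∀ x : Ω → A, x + x = 0 := fun x => by
    ext p; simp [CharTwo.add_self_eq_zero]
  have hainv : (St.toGL a)⁻¹ = St.toGL a := inv_eq_of_mul_eq_one_left ha3
  have hbinv : (St.toGL b)⁻¹ = St.toGL b := inv_eq_of_mul_eq_one_left hb3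
  refine ⟨a * b * a * St.tau γ γ', ?_, ?_, ?_⟩
  · have s1 : a ∈ (St.sub ({p | u p ≠ 0} ∪ {p | v p ≠ 0} ∪ {γ, γ'}) : Subgroup (St Ω A)) := by
      refine St.sub_mono ?_ ha
      intro k hk
      rcases hk with hk | hk
      · exact Or.inl (Or.inl (by simpa only [ne_eq, Set.mem_ofPred_eq, Finset.coe_filter, Finset.mem_univ, true_and] using hk))
      · exact Or.inr (Or.inr hk)
    have s2 : b ∈ (St.sub ({p | u p ≠ 0} ∪ {p | v p ≠ 0} ∪ {γ, γ'}) : Subgroup (St Ω A)) := by
      refine St.sub_mono ?_ hb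
      intro k hk
      rcases hk with hk | hk
      · exact Or.inl (Or.inr (by simpa only [ne_eq, Set.mem_ofPred_eq, Finset.coe_filter, Finset.mem_univ, true_and] using hk))
      · exact Or.inr (Or.inr hk)
    have g1 : γ ∈ ({p | u p ≠ 0} ∪ {p | v p ≠ 0} ∪ {γ, γ'} : Set Ω) := Or.inr (Or.inl rfl)
    have g2 : γ' ∈ ({p | u p ≠ 0} ∪ {p | v p ≠ 0} ∪ {γ, γ'} : Set Ω) := Or.inr (Or.inr rfl)
    exact mul_mem (mul_mem (mul_mem s1 s2) s1) (mul_mem (mul_mem (St.x_mem_sub g1 g2 _)
      (St.x_mem_sub g2 g1 _)) (St.x_mem_sub g1 g2 _))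
  · have e : (St.toGL (a * b * a * St.tau γ γ')).val = (St.toGL a).val * ((St.toGL b).val *
        ((St.toGL a).val * (St.toGL (St.tau γ γ')).val)) := by
      simp only [mul_assoc, map_mul, Units.val_mul]
    rw [e, ← Matrix.mulVec_mulVec, ← Matrix.mulVec_mulVec, ← Matrix.mulVec_mulVec,
      tau_mulVec hne, hA (Pi.single γ' 1), Pi.single_eq_same]
    have e1 : (fun p => u p * (1 : A)) = u := by ext p; simp
    rw [e1, hB, dotProduct_add, huv, dotProduct_single, hv, zero_mul, zero_add,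
      add_right_comm, two, zero_add, hA, hu]
    ext p; simp
  · have e : ((St.toGL (a * b * a * St.tau γ γ'))⁻¹ : (Matrix Ω Ω A)ˣ).val =
        (St.toGL (St.tau γ γ')).val * (St.toGL a).val * (St.toGL b).val * (St.toGL a).val := by
      rw [map_mul, map_mul, map_mul, _root_.mul_inv_rev, _root_.mul_inv_rev,
        _root_.mul_inv_rev, hainv, hbinv,
        ← map_inv, St.tau_inv]
      simp [mul_assoc]
    rw [e, ← Matrix.vecMul_vecMul, ← Matrix.vecMul_vecMul, ← Matrix.vecMul_vecMul,
      vecMul_tau hne, hA' (Pi.single γ' 1), single_dotProduct, hu, mul_zero, Pi.single_zero,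
      add_zero, hB', Pi.single_eq_same]
    have e1 : (fun p => (1 : A) * v p) = v := by ext p; simp
    rw [e1, hA', add_dotProduct, huv, single_dotProduct, hu, mul_zero, zero_add, add_right_comm,
      two, zero_add]

end helt

section main
variable {ι A : Type} [Ring A] [Fintype ι] [DecidableEq ι]

theorem Leav.tw_sw_vec (L : Leav A) {d : ℕ} (a b : List.Vector Bool d) :
    L.tw a.1 * L.sw b.1 = if a = b then 1 else 0 := by
  rw [L.tw_sw a.1 b.1 (by rw [a.2, b.2])]
  by_cases h : a = b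
  · subst h; simp
  · rw [if_neg h, if_neg]
    exact fun e => h (Subtype.ext e)

/-- blown up matrices -/
noncomputable def theta (L : Leav A) (d : ℕ) : Matrix ι ι A →+*
    Matrix (ι × List.Vector Bool d) (ι × List.Vector Bool d) A where
  toFun M := Matrix.of fun p q => L.tw p.2.1 * M p.1 q.1 * L.sw q.2.1
  map_one' := by
    ext ⟨i, a⟩ ⟨j, b⟩
    by_cases hij : i = j
    · subst hij
      simp [Matrix.one_apply, L.tw_sw_vec]
    · simp [Matrix.one_apply, hij]
  map_zero' := by
    ext p q; simp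
  map_add' M N := by
    ext p q; simp [mul_add, add_mul]
  map_mul' M N := by
    ext ⟨i, a⟩ ⟨k, c⟩
    simp only [Matrix.of_apply, Matrix.mul_apply, Fintype.sum_prod_type]
    rw [Finset.mul_sum, Finset.sum_mul]
    refine Finset.sum_congr rfl (fun j _ => ?_)
    have : ∀ b : List.Vector Bool d, L.tw a.1 * M i j * L.sw b.1 * (L.tw b.1 * N j k * L.sw c.1) =
        L.tw a.1 * M i j * (L.sw b.1 * L.tw b.1) * (N j k * L.sw c.1) := by
      intro b; simp only [mul_assoc]
    rw [Finset.sum_congr rfl (fun b _ => this b), ← Finset.sum_mul, ← Finset.mul_sum,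
      L.sum_sw_tw, mul_one]
    simp only [mul_assoc]

theorem theta_apply (L : Leav A) (d : ℕ) (M : Matrix ι ι A) (p q : ι × List.Vector Bool d) :
    theta L d M p q = L.tw p.2.1 * M p.1 q.1 * L.sw q.2.1 := rfl

/-- lifting one letter -/
theorem exists_letter (L : Leav A) (d : ℕ) {i j : ι} (hij : i ≠ j) (r : A)
    (ν : St (ι × List.Vector Bool d) A →* St ι A)
    (hν : ∀ (i j : ι) (a b : List.Vector Bool d) (r : A), i ≠ j →
      ν (St.x (i, a) (j, b) r) = St.x i j (L.sw a.1 * r * L.tw b.1)) :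
    ∃ G ∈ (St.sub {q : ι × List.Vector Bool d | q.1 = i ∨ q.1 = j} :
        Subgroup (St (ι × List.Vector Bool d) A)),
      ν G = St.x i j r ∧ (St.toGL G).val = theta L d (tv i j r).val := by
  classical
  have key : ∀ F : Finset (List.Vector Bool d × List.Vector Bool d),
      ∃ G ∈ (St.sub {q : ι × List.Vector Bool d | q.1 = i ∨ q.1 = j} :
        Subgroup (St (ι × List.Vector Bool d) A)),
      ν G = St.x i j (∑ ab ∈ F, L.sw ab.1.1 * (L.tw ab.1.1 * r * L.sw ab.2.1) * L.tw ab.2.1) ∧
      (St.toGL G).val = 1 + ∑ ab ∈ F, Matrix.single (i, ab.1) (j, ab.2)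
        (L.tw ab.1.1 * r * L.sw ab.2.1) := by
    intro F
    induction F using Finset.induction_on with
    | empty => exact ⟨1, one_mem _, by simp only [map_one, Finset.sum_empty, St.x_zero], by simp only [map_one, Units.val_one, Finset.sum_empty, add_zero]⟩
    | insert ab F hab ih =>
      obtain ⟨G, hG, h1, h2⟩ := ih
      have hne : ((i, ab.1) : ι × List.Vector Bool d) ≠ (j, ab.2) :=
        fun e => hij (congrArg Prod.fst e)
      refine ⟨St.x (i, ab.1) (j, ab.2) (L.tw ab.1.1 * r * L.sw ab.2.1) * G,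
        mul_mem (St.x_mem_sub (by simp) (by simp) _) hG, ?_, ?_⟩
      · rw [map_mul, h1, hν _ _ _ _ _ hij, ← St.x_add, Finset.sum_insert hab]
      · rw [map_mul, Units.val_mul, h2, St.toGL_x, tv_val hne, Finset.sum_insert hab, add_mul,
          one_mul, mul_add, mul_one, Finset.mul_sum]
        have : ∑ x ∈ F, Matrix.single (i, ab.1) (j, ab.2) (L.tw ab.1.1 * r * L.sw ab.2.1) *
            Matrix.single (i, x.1) (j, x.2) (L.tw x.1.1 * r * L.sw x.2.1) = 0 := by
          refine Finset.sum_eq_zero (fun x _ => ?_)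
          exact Matrix.single_mul_single_of_ne _ _ _ _ (fun e => hij (congrArg Prod.fst e).symm) _
        rw [this, add_zero]
        abel
  obtain ⟨G, hG, h1, h2⟩ := key Finset.univ
  refine ⟨G, hG, ?_, ?_⟩
  · rw [h1]
    congr 1
    rw [Fintype.sum_prod_type]
    have e : ∀ a : List.Vector Bool d, ∑ b : List.Vector Bool d,
        L.sw a.1 * (L.tw a.1 * r * L.sw b.1) * L.tw b.1 = L.sw a.1 * L.tw a.1 * r := by
      intro a
      have : ∀ b : List.Vector Bool d, L.sw a.1 * (L.tw a.1 * r * L.sw b.1) * L.tw b.1 =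
          (L.sw a.1 * L.tw a.1 * r) * (L.sw b.1 * L.tw b.1) := by
        intro b; simp only [mul_assoc]
      rw [Finset.sum_congr rfl (fun b _ => this b), ← Finset.mul_sum, L.sum_sw_tw, mul_one]
    rw [Finset.sum_congr rfl (fun a _ => e a), ← Finset.sum_mul, L.sum_sw_tw, one_mul]
  · rw [h2, tv_val hij, map_add, map_one]
    congr 1
    ext p q
    rw [theta_apply, Matrix.sum_apply]
    by_cases hp : p.1 = i
    · by_cases hq : q.1 = j
      · rw [Finset.sum_eq_single (p.2, q.2)]
        · obtain ⟨p1, p2⟩ := p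
          obtain ⟨q1, q2⟩ := q
          simp only at hp hq
          subst hp hq
          simp only [single_apply_same]
        · intro b _ hb
          rw [Matrix.single_apply, if_neg]
          rintro ⟨e1, e2⟩
          exact hb (Prod.ext_iff.2 ⟨by rw [← e1], by rw [← e2]⟩)
        · simp only [Finset.mem_univ, not_true_eq_false, IsEmpty.forall_iff]
      · rw [Finset.sum_eq_zero]
        · simp [Matrix.single_apply, Ne.symm hq]
        · intro b _
          rw [Matrix.single_apply, if_neg]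
          rintro ⟨e1, e2⟩
          exact hq (congrArg Prod.fst e2).symm
    · rw [Finset.sum_eq_zero]
      · simp [Matrix.single_apply, Ne.symm hp]
      · intro b _
        rw [Matrix.single_apply, if_neg]
        rintro ⟨e1, e2⟩
        exact hp (congrArg Prod.fst e1).symm

/-- the set of all entries of a unit matrix and its inverse is bounded by `C` -/
def Bdd (L : Leav A) (C : ℕ) (E : (Matrix ι ι A)ˣ) : Prop :=
  ∀ (d : ℕ) (w : List.Vector Bool d) (i j : ι),
    Set.ncard {w' : List.Vector Bool d | L.tw w'.1 * E.val i j * L.sw w.1 ≠ 0} ≤ C ∧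
    Set.ncard {w' : List.Vector Bool d | L.tw w.1 * (E⁻¹ : (Matrix ι ι A)ˣ).val i j * L.sw w'.1 ≠ 0}
      ≤ C

theorem exists_Bdd (L : Leav A) (hL : L.Tiny) (S : List (Matrix ι ι A)ˣ) :
    ∃ C, ∀ E ∈ S, Bdd L C E := by
  have hfin : (⋃ E ∈ {E | E ∈ S}, (Set.range (fun ij : ι × ι => (E : Matrix ι ι A) ij.1 ij.2) ∪
      Set.range (fun ij : ι × ι => ((E⁻¹ : (Matrix ι ι A)ˣ) : Matrix ι ι A) ij.1 ij.2))).Finite :=
    Set.Finite.biUnion (List.finite_toSet S)
      (fun E _ => (Set.finite_range _).union (Set.finite_range _))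
  obtain ⟨C, hC⟩ := hL.unif hfin
  refine ⟨C, fun E hE d w i j => ⟨?_, ?_⟩⟩
  · refine (hC _ ?_ d w).1
    exact Set.mem_biUnion (show E ∈ {E | E ∈ S} from hE) (Or.inl ⟨(i, j), rfl⟩)
  · refine (hC _ ?_ d w).2
    exact Set.mem_biUnion (show E ∈ {E | E ∈ S} from hE) (Or.inr ⟨(i, j), rfl⟩)

theorem card_supp_le {d : ℕ} (C : ℕ) (P : ι × List.Vector Bool d → Prop) [DecidablePred P]
    (h : ∀ i, Set.ncard {w : List.Vector Bool d | P (i, w)} ≤ C) :
    (Finset.univ.filter P).card ≤ Fintype.card ι * C := by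
  classical
  have hsub : Finset.univ.filter P ⊆ Finset.univ.biUnion (fun i : ι =>
      (Finset.univ.filter fun w : List.Vector Bool d => P (i, w)).image (fun w => (i, w))) := by
    rintro ⟨i, w⟩ hw
    simp only [Finset.mem_filter, Finset.mem_univ, true_and] at hw
    simp only [Finset.mem_biUnion, Finset.mem_univ, true_and, Finset.mem_image, Finset.mem_filter]
    exact ⟨i, w, hw, rfl⟩
  refine (Finset.card_le_card hsub).trans ((Finset.card_biUnion_le_card_mul _ _ C ?_).trans ?_)
  · intro i _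
    refine Finset.card_image_le.trans ?_
    have h1 := h i
    have h2 : ({w : List.Vector Bool d | P (i, w)} : Set _) =
        ↑(Finset.univ.filter fun w : List.Vector Bool d => P (i, w)) := by
      ext w; simp
    rwa [h2, Set.ncard_coe_finset] at h1
  · simp only [Finset.card_univ, Std.le_refl]

/-- the choice of `h_E` -/
theorem exists_hE [CharP A 2] (L : Leav A) (d C : ℕ) (i0 : ι) (w0 : List.Vector Bool d)
    (hd : 2 * (Fintype.card ι * C) + 1 < 2 ^ d) (E : (Matrix ι ι A)ˣ) (hE : Bdd L C E) :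
    ∃ (B : Finset (ι × List.Vector Bool d)) (h : St (ι × List.Vector Bool d) A),
      (i0, w0) ∈ B ∧ B.card ≤ 2 * (Fintype.card ι * C) + 2 ∧
      h ∈ (St.sub ↑B : Subgroup (St (ι × List.Vector Bool d) A)) ∧
      (St.toGL h).val *ᵥ Pi.single (i0, w0) 1 = (theta L d E.val) *ᵥ Pi.single (i0, w0) 1 ∧
      Pi.single (i0, w0) 1 ᵥ* ((St.toGL h)⁻¹ : (Matrix _ _ A)ˣ).val =
        Pi.single (i0, w0) 1 ᵥ* (theta L d (E⁻¹ : (Matrix ι ι A)ˣ).val) ∧
      (E = 1 → h = 1) := by
  classical
  by_cases hE1 : E = 1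
  · subst hE1
    refine ⟨{(i0, w0)}, 1, by simp, by simp only [Finset.card_singleton, le_add_iff_nonneg_left, zero_le], one_mem _, ?_, ?_, fun _ => rfl⟩
    · rw [map_one, Units.val_one, Units.val_one, map_one]
    · rw [map_one, inv_one, inv_one, Units.val_one, Units.val_one, map_one]
  set γ : ι × List.Vector Bool d := (i0, w0) with hγ
  set u : ι × List.Vector Bool d → A := fun p => theta L d E.val p γ with hu
  set v : ι × List.Vector Bool d → A := fun q => theta L d (E⁻¹ : (Matrix ι ι A)ˣ).val γ q with hv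
  have hucard : (Finset.univ.filter fun p => u p ≠ 0).card ≤ Fintype.card ι * C :=
    card_supp_le C _ (fun i => (hE d w0 i i0).1)
  have hvcard : (Finset.univ.filter fun p => v p ≠ 0).card ≤ Fintype.card ι * C :=
    card_supp_le C _ (fun i => (hE d w0 i0 i).2)
  have hvu : v ⬝ᵥ u = 1 := by
    have h1 : theta L d (E⁻¹ : (Matrix ι ι A)ˣ).val * theta L d E.val = 1 := by
      rw [← map_mul, Units.inv_mul, map_one]
    have h2 := congrFun (congrFun h1 γ) γ
    rw [Matrix.mul_apply, Matrix.one_apply_eq] at h2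
    exact h2
  obtain ⟨γ', hγ'⟩ : ∃ γ', γ' ∉ (Finset.univ.filter fun p => u p ≠ 0) ∪
      (Finset.univ.filter fun p => v p ≠ 0) ∪ {γ} := by
    by_contra hcon
    push Not at hcon
    have h1 : (Finset.univ : Finset (ι × List.Vector Bool d)) ⊆
        (Finset.univ.filter fun p => u p ≠ 0) ∪ (Finset.univ.filter fun p => v p ≠ 0) ∪ {γ} :=
      fun x _ => hcon x
    have h2 := Finset.card_le_card h1
    have h3 : ((Finset.univ.filter fun p => u p ≠ 0) ∪ (Finset.univ.filter fun p => v p ≠ 0) ∪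
        {γ}).card ≤ Fintype.card ι * C + Fintype.card ι * C + 1 := by
      refine (Finset.card_union_le _ _).trans ?_
      rw [Finset.card_singleton]
      exact Nat.add_le_add_right ((Finset.card_union_le _ _).trans (Nat.add_le_add hucard hvcard)) 1
    have h4 : 2 ^ d ≤ (Finset.univ : Finset (ι × List.Vector Bool d)).card := by
      rw [Finset.card_univ, Fintype.card_prod, card_vector, Fintype.card_bool]
      have : 0 < Fintype.card ι := Fintype.card_pos_iff.2 ⟨i0⟩
      nlinarith only [this, hd, hucard]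
    omega
  simp only [Finset.mem_union, Finset.mem_filter, Finset.mem_univ, true_and, Finset.mem_singleton,
    not_or, not_not] at hγ'
  obtain ⟨⟨hu0, hv0⟩, hne⟩ := hγ'
  obtain ⟨h, hh, h1, h2⟩ := exists_h (Ne.symm hne) u v hu0 hv0 hvu
  refine ⟨(Finset.univ.filter fun p => u p ≠ 0) ∪ (Finset.univ.filter fun p => v p ≠ 0) ∪
    {γ, γ'}, h, by simp only [ne_eq, Finset.union_insert, Finset.union_assoc, Finset.union_singleton, Finset.mem_insert, Finset.mem_union, Finset.mem_filter, Finset.mem_univ, true_and, true_or], ?_, ?_, ?_, ?_, fun e => absurd e hE1⟩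
  · refine (Finset.card_union_le _ _).trans ?_
    have h5 : ({γ, γ'} : Finset (ι × List.Vector Bool d)).card ≤ 2 := Finset.card_le_two
    have h6 := (Finset.card_union_le (Finset.univ.filter fun p => u p ≠ 0)
      (Finset.univ.filter fun p => v p ≠ 0)).trans (Nat.add_le_add hucard hvcard)
    omega
  · refine St.sub_mono ?_ hh
    intro k hk
    simpa only [ne_eq, Finset.union_insert, Finset.union_assoc, Finset.union_singleton, Finset.coe_insert,     Finset.coe_union, Finset.coe_filter, Finset.mem_univ, true_and, Set.mem_insert_iff, Set.mem_union,     Set.mem_ofPred_eq, Set.union_insert, Set.union_singleton] using hk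
  · rw [h1, Matrix.mulVec_single_one]
    rfl
  · rw [h2, Matrix.single_one_vecMul]
    rfl

end main

/-- A5 -/
theorem toGL_injective {ι A : Type} [Ring A] [Fintype ι] [DecidableEq ι] [CharP A 2]
    (I : InfSum A) (L : Leav A)
    (hL : L.Tiny) (h3 : 3 ≤ Fintype.card ι) :
    Function.Injective (St.toGL : St ι A →* (Matrix ι ι A)ˣ) := by
  classical
  rw [injective_iff_map_eq_one]
  intro g hg
  obtain ⟨l, hl, rfl⟩ := St.exists_list g
  -- partial products
  set pr : List (ι × ι × A) → St ι A := fun l => (l.map fun p => St.x p.1 p.2.1 p.2.2).prod with hpr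
  change St.toGL (pr l) = 1 at hg
  change pr l = 1
  obtain ⟨C, hC⟩ := exists_Bdd L hL (l.tails.map fun l' => St.toGL (pr l'))
  have hC' : ∀ l', l' <:+ l → Bdd L C (St.toGL (pr l')) := fun l' h =>
    hC _ (List.mem_map.2 ⟨l', (List.mem_tails _ _).2 h, rfl⟩)
  obtain ⟨d, hd⟩ : ∃ d : ℕ, 2 * (2 * (Fintype.card ι * C) + 2) + 1 < 2 ^ d :=
    ⟨_, Nat.lt_two_pow_self⟩
  obtain ⟨i0⟩ : Nonempty ι := Fintype.card_pos_iff.1 (by omega)
  let w0 : List.Vector Bool d := List.Vector.replicate d false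
  have hex := fun E => exists_hE L d C i0 w0 (by omega) E
  choose! B h hB1 hB2 hh h1 h2 hone using hex
  obtain ⟨ν, hν⟩ := exists_nu h3 (List.Vector Bool d) (fun w => L.sw w.1) (fun w => L.tw w.1)
    (fun a b => L.tw_sw_vec a b) (L.sum_sw_tw d)
  have hcardΩ : 3 ≤ Fintype.card (ι × List.Vector Bool d) := by
    rw [Fintype.card_prod, card_vector, Fintype.card_bool]
    (clear * - h3; nlinarith [Nat.two_pow_pos d])
  set Θ : (Matrix ι ι A)ˣ →* (Matrix (ι × List.Vector Bool d) (ι × List.Vector Bool d) A)ˣ :=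
    Units.map (theta L d).toMonoidHom with hΘ
  have hΘv : ∀ E : (Matrix ι ι A)ˣ, (Θ E).val = theta L d E.val := fun E => rfl
  -- main claim
  have claim : ∀ l' : List (ι × ι × A), l' <:+ l → ∃ G : St (ι × List.Vector Bool d) A,
      ν G = pr l' ∧ St.toGL G = Θ (St.toGL (pr l')) ∧
      (h (St.toGL (pr l')))⁻¹ * G ∈
        (St.sub {k | k ≠ (i0, w0)} : Subgroup (St (ι × List.Vector Bool d) A)) := by
    intro l'
    induction l' with
    | nil =>
      intro hl'
      have e : St.toGL (pr []) = 1 := by simp only [hpr, List.map_nil, List.prod_nil, map_one]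
      have hb := hC' _ hl'
      rw [e] at hb ⊢
      refine ⟨1, by simp only [map_one, hpr, List.map_nil, List.prod_nil], by simp only [map_one], ?_⟩
      rw [hone 1 hb rfl, inv_one, one_mul]
      exact one_mem _
    | cons p l'' ih =>
      intro hl'
      have hl'' : l'' <:+ l := (List.suffix_cons p l'').trans hl'
      obtain ⟨G, hG1, hG2, hG3⟩ := ih hl''
      have hpmem : p ∈ l := hl'.subset (List.mem_cons_self)
      obtain ⟨i, j, r⟩ := p
      have hij : i ≠ j := hl _ hpmem
      have hprc : pr ((i, j, r) :: l'') = St.x i j r * pr l'' := by simp [hpr]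
      obtain ⟨Gp, hGp, hGp1, hGp2⟩ := exists_letter L d hij r ν hν
      have hGp2' : St.toGL Gp = Θ (tv i j r) := Units.ext hGp2
      set E := St.toGL (pr l'') with hEdef
      set E' := St.toGL (pr ((i, j, r) :: l'')) with hE'def
      have hE' : E' = tv i j r * E := by rw [hE'def, hprc, map_mul, St.toGL_x]
      have hbE : Bdd L C E := hC' _ hl''
      have hbE' : Bdd L C E' := hC' _ hl'
      refine ⟨Gp * G, ?_, ?_, ?_⟩
      · rw [map_mul, hGp1, hG1, hprc]
      · rw [map_mul, hGp2', hG2, hE', map_mul]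
      · have e : (h E')⁻¹ * (Gp * G) = ((h E')⁻¹ * Gp * h E) * ((h E)⁻¹ * G) := by group
        rw [e]
        refine mul_mem ?_ hG3
        -- choose a free block
        obtain ⟨k, hki, hkj⟩ : ∃ k : ι, k ≠ i ∧ k ≠ j := by
          have hcard : ({i, j} : Finset ι).card < (Finset.univ : Finset ι).card := by
            refine lt_of_le_of_lt Finset.card_le_two ?_
            rw [Finset.card_univ]; omega
          obtain ⟨k, hk⟩ := Finset.exists_mem_notMem_of_card_lt_card hcard
          simp only [Finset.mem_insert, Finset.mem_singleton, not_or] at hk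
          exact ⟨k, hk.2.1, hk.2.2⟩
        have hcard2 : 1 < ((Finset.univ.image fun a : List.Vector Bool d => (k, a)) \
            (B E ∪ B E')).card := by
          have c1 : (Finset.univ.image fun a : List.Vector Bool d => (k, a)).card = 2 ^ d := by
            rw [Finset.card_image_of_injective _ (Prod.mk_right_injective k), Finset.card_univ,
              card_vector, Fintype.card_bool]
          have c2 : (B E ∪ B E').card ≤ 2 * (2 * (Fintype.card ι * C) + 2) := by
            have := Finset.card_union_le (B E) (B E')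
            have := hB2 E hbE
            have := hB2 E' hbE'
            omega
          have c3 := Finset.le_card_sdiff (B E ∪ B E')
            (Finset.univ.image fun a : List.Vector Bool d => (k, a))
          omega
        obtain ⟨δ, δ', hδ, hδ', hδδ'⟩ := Finset.one_lt_card_iff.1 hcard2
        simp only [Finset.mem_sdiff, Finset.mem_image, Finset.mem_univ, true_and, Finset.mem_union,
          not_or] at hδ hδ'
        obtain ⟨⟨a, rfl⟩, hδ1, hδ2⟩ := hδ
        obtain ⟨⟨a', rfl⟩, hδ1', hδ2'⟩ := hδ'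
        refine slide I hcardΩ (V := {q | q.1 = i ∨ q.1 = j} ∪ (↑(B E) ∪ ↑(B E')))
          (δ := (k, a)) (δ' := (k, a')) ?_ ?_ hδδ' ?_ ?_ ?_ ?_
        · intro e1; exact hδ1 (e1 ▸ hB1 E hbE)
        · intro e1; exact hδ1' (e1 ▸ hB1 E hbE)
        · rintro ((h' | h') | (h' | h'))
          · exact hki h'
          · exact hkj h'
          · exact hδ1 h'
          · exact hδ2 h'
        · rintro ((h' | h') | (h' | h'))
          · exact hki h'
          · exact hkj h'
          · exact hδ1' h'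
          · exact hδ2' h'
        · refine mul_mem (mul_mem (inv_mem ?_) ?_) ?_
          · exact St.sub_mono (fun x hx => Or.inr (Or.inr hx)) (hh E' hbE')
          · exact St.sub_mono (fun x hx => Or.inl hx) hGp
          · exact St.sub_mono (fun x hx => Or.inr (Or.inl hx)) (hh E hbE)
        · refine ⟨?_, ?_⟩
          · have e1 : (St.toGL ((h E')⁻¹ * Gp * h E)).val =
                ((St.toGL (h E'))⁻¹ : (Matrix _ _ A)ˣ).val * ((Θ (tv i j r)).val *
                  (St.toGL (h E)).val) := by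
              rw [map_mul, map_mul, map_inv, hGp2']
              simp only [mul_assoc, Units.val_mul]
            have s1 : (theta L d (tv i j r).val) *ᵥ ((theta L d E.val) *ᵥ Pi.single (i0, w0) 1) =
                (theta L d E'.val) *ᵥ Pi.single (i0, w0) 1 := by
              rw [Matrix.mulVec_mulVec, ← map_mul, ← Units.val_mul, ← hE']
            rw [e1, ← Matrix.mulVec_mulVec, ← Matrix.mulVec_mulVec, h1 E hbE, hΘv, s1,
              ← h1 E' hbE', Matrix.mulVec_mulVec, Units.inv_mul, Matrix.one_mulVec]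
          · have e1 : (St.toGL ((h E')⁻¹ * Gp * h E)).val =
                (((St.toGL (h E'))⁻¹ : (Matrix _ _ A)ˣ).val * (Θ (tv i j r)).val) *
                  (St.toGL (h E)).val := by
              rw [map_mul, map_mul, map_inv, hGp2']
              simp only [Units.val_mul]
            have e2 : E'⁻¹ * tv i j r = E⁻¹ := by rw [hE']; group
            have s1 : (Pi.single (i0, w0) 1 ᵥ* (theta L d (E'⁻¹ : (Matrix ι ι A)ˣ).val)) ᵥ*
                (theta L d (tv i j r).val) =
                Pi.single (i0, w0) 1 ᵥ* (theta L d (E⁻¹ : (Matrix ι ι A)ˣ).val) := by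
              rw [Matrix.vecMul_vecMul, ← map_mul, ← Units.val_mul, e2]
            rw [e1, ← Matrix.vecMul_vecMul, ← Matrix.vecMul_vecMul, h2 E' hbE', hΘv, s1,
              ← h2 E hbE, Matrix.vecMul_vecMul, Units.inv_mul, Matrix.vecMul_one]
  obtain ⟨G, hG1, hG2, hG3⟩ := claim l (List.suffix_refl l)
  have hb := hC' l (List.suffix_refl l)
  rw [hg] at hG2 hG3 hb
  rw [hone 1 hb rfl, inv_one, one_mul] at hG3
  rw [map_one] at hG2
  have := key I hcardΩ (i0, w0) hG3 hG2
  rw [← hG1, this, map_one]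

end Vale.Agent.P193.BH

end FileInj

/-! file FPWords -/

section FileFPWords
/-!
Finite presentability of Steinberg groups, part 1: words in the ring generators.
-/

namespace Vale.Agent.P193.BH.FP

open scoped commutatorElement

section grp

variable {P : Type*} [Group P]

theorem hw {a b c : P} (hac : Commute a c) (h1 : Commute ⁅a, b⁆ ⁅b, c⁆) :
    ⁅a, ⁅b, c⁆⁆ = ⁅b, c⁆ * ⁅⁅a, b⁆, c⁆ * ⁅b, c⁆⁻¹ := by
  have e0 : a * c * a⁻¹ = c := by rw [hac.eq]; group
  have e1 : a * ⁅b, c⁆ * a⁻¹ = ⁅a * b * a⁻¹, c⁆ := by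
    calc a * ⁅b, c⁆ * a⁻¹ = ⁅a * b * a⁻¹, a * c * a⁻¹⁆ := by
          simp only [commutatorElement_def]; group
      _ = _ := by rw [e0]
  have e2 : a * b * a⁻¹ = ⁅a, b⁆ * b := by rw [commutatorElement_def]; group
  have e3 : ⁅⁅a, b⁆ * b, c⁆ = ⁅a, b⁆ * ⁅b, c⁆ * ⁅a, b⁆⁻¹ * ⁅⁅a, b⁆, c⁆ := by
    generalize ⁅a, b⁆ = e
    simp only [commutatorElement_def]; group
  rw [e2, e3, h1.eq] at e1
  rw [commutatorElement_def a ⁅b, c⁆, e1]
  group

theorem hw' {a b c : P} (hac : Commute a c) (h1 : Commute ⁅a, b⁆ ⁅b, c⁆)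
    (h2 : Commute ⁅⁅a, b⁆, c⁆ ⁅b, c⁆) : ⁅a, ⁅b, c⁆⁆ = ⁅⁅a, b⁆, c⁆ := by
  rw [hw hac h1, ← h2.eq]; group

theorem Commute.comm_right {a b c : P} (h1 : Commute a b) (h2 : Commute a c) :
    Commute a ⁅b, c⁆ := by
  rw [commutatorElement_def]
  exact ((h1.mul_right h2).mul_right h1.inv_right).mul_right h2.inv_right

theorem Commute.comm_left {a b c : P} (h1 : Commute b a) (h2 : Commute c a) :
    Commute ⁅b, c⁆ a := (Commute.comm_right h1.symm h2.symm).symm

theorem comm_sq {x y : P} (hx : x * x = 1) (h : Commute x ⁅x, y⁆) : ⁅x, y⁆ * ⁅x, y⁆ = 1 := by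
  have e : ⁅x * x, y⁆ = x * ⁅x, y⁆ * x⁻¹ * ⁅x, y⁆ := by
    simp only [commutatorElement_def]; group
  rw [hx, h.eq] at e
  simpa only [mul_inv_cancel_right, commutatorElement_one_left] using e.symm

theorem comm_mul_left {x y z : P} (h : Commute x ⁅y, z⁆) : ⁅x * y, z⁆ = ⁅y, z⁆ * ⁅x, z⁆ := by
  have e : ⁅x * y, z⁆ = x * ⁅y, z⁆ * x⁻¹ * ⁅x, z⁆ := by
    simp only [commutatorElement_def]; group
  rw [e, h.eq]; group

theorem comm_mul_right {x y z : P} (h : Commute y ⁅x, z⁆) : ⁅x, y * z⁆ = ⁅x, y⁆ * ⁅x, z⁆ := by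
  have e : ⁅x, y * z⁆ = ⁅x, y⁆ * (y * ⁅x, z⁆ * y⁻¹) := by
    simp only [commutatorElement_def]; group
  rw [e, h.eq]; group

end grp

/-- the finitely many relations between the generators -/
structure Sys (I σ P : Type) [Group P] where
  X : I → I → Option σ → P
  sq : ∀ i j o, i ≠ j → X i j o * X i j o = 1
  dj : ∀ i j k l o o', i ≠ j → k ≠ l → j ≠ k → i ≠ l → Commute (X i j o) (X k l o')
  c1 : ∀ i j k o, i ≠ j → j ≠ k → i ≠ k → ⁅X i j o, X j k none⁆ = X i k o
  c2 : ∀ i j k o, i ≠ j → j ≠ k → i ≠ k → ⁅X i j none, X j k o⁆ = X i k o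

namespace Sys

variable {I σ P : Type} [Group P] (S : Sys I σ P) (pk : I → I → I)

/-- the element attached to a word -/
def Y : List σ → I → I → P
  | [], i, j => S.X i j none
  | s :: w, i, j => ⁅S.X i (pk i j) (some s), Y w (pk i j) j⁆

variable {pk}

theorem Y_one (hpk : ∀ i j, pk i j ≠ i ∧ pk i j ≠ j) {i j : I} (h : i ≠ j) (s : σ) :
    S.Y pk [s] i j = S.X i j (some s) :=
  S.c1 i (pk i j) j (some s) (hpk i j).1.symm (hpk i j).2 h

/-- the three statements -/
def PB (pk : I → I → I) (m : ℕ) : Prop :=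
  ∀ i j k l u v, i ≠ j → k ≠ l → j ≠ k → i ≠ l → List.length u ≤ m → List.length v ≤ m →
    Commute (S.Y pk u i j) (S.Y pk v k l)

def PA (pk : I → I → I) (m : ℕ) : Prop :=
  ∀ i j k u v, i ≠ j → j ≠ k → i ≠ k → List.length u + List.length v ≤ m →
    ⁅S.Y pk u i j, S.Y pk v j k⁆ = S.Y pk (u ++ v) i k

def PC (pk : I → I → I) (m : ℕ) : Prop :=
  ∀ i j u, i ≠ j → List.length u ≤ m → S.Y pk u i j * S.Y pk u i j = 1

theorem base (hpk : ∀ i j, pk i j ≠ i ∧ pk i j ≠ j) : S.PB pk 1 ∧ S.PA pk 1 ∧ S.PC pk 1 := by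
  have hY : ∀ (u : List σ), u.length ≤ 1 → ∃ o : Option σ, ∀ i j, i ≠ j →
      S.Y pk u i j = S.X i j o := by
    intro u hu
    match u, hu with
    | [], _ => exact ⟨none, fun i j _ => rfl⟩
    | [s], _ => exact ⟨some s, fun i j h => S.Y_one hpk h s⟩
  refine ⟨?_, ?_, ?_⟩
  · intro i j k l u v h1 h2 h3 h4 hu hv
    obtain ⟨o, ho⟩ := hY u hu
    obtain ⟨o', ho'⟩ := hY v hv
    rw [ho i j h1, ho' k l h2]
    exact S.dj i j k l o o' h1 h2 h3 h4
  · intro i j k u v h1 h2 h3 huv
    match u, v, huv with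
    | [], [], _ => exact S.c1 i j k none h1 h2 h3
    | [s], [], _ =>
      rw [S.Y_one hpk h1, List.append_nil, S.Y_one hpk h3]
      exact S.c1 i j k (some s) h1 h2 h3
    | [], [s], _ =>
      rw [S.Y_one hpk h2, List.nil_append, S.Y_one hpk h3]
      exact S.c2 i j k (some s) h1 h2 h3
    | (s :: s' :: u'), v, h => simp only [List.length_cons] at h; omega
    | u, (s :: s' :: u'), h => simp only [List.length_cons] at h; omega
    | (s :: u), (s' :: u'), h => simp only [List.length_cons] at h; omega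
  · intro i j u h hu
    obtain ⟨o, ho⟩ := hY u hu
    rw [ho i j h]
    exact S.sq i j o h

theorem claim2 {m : ℕ} (hB : S.PB pk m) (hA : S.PA pk m) {p q q' r : I} (hpq : p ≠ q)
    (hpq' : p ≠ q') (hpr : p ≠ r) (hqq' : q ≠ q') (hqr : q ≠ r) (hq'r : q' ≠ r)
    {l k n : List σ} (h1 : l.length + k.length ≤ m) (h2 : k.length + n.length ≤ m) :
    ⁅S.Y pk l p q, S.Y pk (k ++ n) q r⁆ = ⁅S.Y pk (l ++ k) p q', S.Y pk n q' r⁆ := by
  have hab : ⁅S.Y pk l p q, S.Y pk k q q'⁆ = S.Y pk (l ++ k) p q' :=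
    hA p q q' l k hpq hqq' hpq' h1
  have hbc : ⁅S.Y pk k q q', S.Y pk n q' r⁆ = S.Y pk (k ++ n) q r :=
    hA q q' r k n hqq' hq'r hqr h2
  have hac : Commute (S.Y pk l p q) (S.Y pk n q' r) :=
    hB p q q' r l n hpq hq'r hqq' hpr (by omega) (by omega)
  have l1 : (l ++ k).length ≤ m := by rw [List.length_append]; omega
  have l2 : (k ++ n).length ≤ m := by rw [List.length_append]; omega
  have e1 : Commute (S.Y pk (l ++ k) p q') (S.Y pk (k ++ n) q r) :=
    hB p q' q r _ _ hpq' hqr hqq'.symm hpr l1 l2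
  have e2 : Commute (S.Y pk n q' r) (S.Y pk (k ++ n) q r) :=
    hB q' r q r _ _ hq'r hqr hqr.symm hq'r (by omega) l2
  have := hw' (a := S.Y pk l p q) (b := S.Y pk k q q') (c := S.Y pk n q' r) hac
    (by rw [hab, hbc]; exact e1)
    (by rw [hab, hbc]; exact Commute.comm_left e1 e2)
  rw [hab, hbc] at this
  exact this

theorem split (hq4 : ∀ i j k l : I, ∃ q, q ≠ i ∧ q ≠ j ∧ q ≠ k ∧ q ≠ l)
    (hpk : ∀ i j, pk i j ≠ i ∧ pk i j ≠ j) {m : ℕ} (hB : S.PB pk m) (hA : S.PA pk m)
    {p q r : I} (hpq : p ≠ q) (hqr : q ≠ r) (hpr : p ≠ r) {l n : List σ} (hl : l ≠ [])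
    (hn : n ≠ []) (h : l.length + n.length = m + 1) :
    ⁅S.Y pk l p q, S.Y pk n q r⁆ = S.Y pk (l ++ n) p r := by
  obtain ⟨s, l', rfl⟩ := List.exists_cons_of_ne_nil hl
  obtain ⟨q0, hq0⟩ : ∃ q0, q0 = pk p r := ⟨_, rfl⟩
  have h0p : p ≠ q0 := hq0 ▸ (hpk p r).1.symm
  have h0r : q0 ≠ r := hq0 ▸ (hpk p r).2
  have hnl : 1 ≤ n.length := List.length_pos_iff.2 hn
  simp only [List.length_cons] at h
  have e0 : S.Y pk ((s :: l') ++ n) p r = ⁅S.Y pk [s] p q0, S.Y pk (l' ++ n) q0 r⁆ := by
    rw [S.Y_one hpk h0p, hq0]; rfl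
  rw [e0]
  by_cases hqq : q = q0
  · rw [hqq]
    obtain ⟨q', h1, h2, h3, -⟩ := hq4 p r q0 q0
    rw [S.claim2 hB hA h0p h1.symm hpr h3.symm h0r h2 (l := [s]) (k := l') (n := n)
      (by simp only [List.length_cons, List.length_nil, zero_add]; omega) (by omega)]
    have := S.claim2 hB hA h1.symm h0p hpr h3 h2 h0r (l := s :: l') (k := []) (n := n)
      (by simp only [List.length_cons, List.length_nil]; omega)
      (by simp only [List.length_nil]; omega)
    simp only [List.nil_append, List.append_nil] at this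
    simpa only [List.cons_append, List.nil_append] using this.symm
  · exact (S.claim2 hB hA h0p hpq hpr (Ne.symm hqq) h0r hqr (l := [s]) (k := l') (n := n)
      (by simp; omega) (by omega)).symm

theorem step (hq4 : ∀ i j k l : I, ∃ q, q ≠ i ∧ q ≠ j ∧ q ≠ k ∧ q ≠ l)
    (hpk : ∀ i j, pk i j ≠ i ∧ pk i j ≠ j) {m : ℕ} (hm : 1 ≤ m)
    (hB : S.PB pk m) (hA : S.PA pk m) (hC : S.PC pk m) :
    S.PB pk (m + 1) ∧ S.PA pk (m + 1) ∧ S.PC pk (m + 1) := by
  -- splitting of a long word into two nonempty words of length `≤ m`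
  have hcut : ∀ u : List σ, u.length = m + 1 → ∃ u1 u2, u = u1 ++ u2 ∧ u1 ≠ [] ∧ u2 ≠ [] ∧
      u1.length ≤ m ∧ u2.length ≤ m ∧ u1.length + u2.length = m + 1 := by
    intro u hu
    match u, hu with
    | [], h => simp at h
    | [s], h => simp at h; (clear * - hm hu h; omega)
    | s :: t :: u', h =>
      refine ⟨[s], t :: u', rfl, by simp, by simp, ?_, ?_, ?_⟩ <;>
      simp only [List.length_cons, List.length_nil] at h ⊢ <;> omega
  have hB1 : ∀ i j k l u v, i ≠ j → k ≠ l → j ≠ k → i ≠ l → List.length u ≤ m + 1 →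
      List.length v ≤ m → Commute (S.Y pk u i j) (S.Y pk v k l) := by
    intro i j k l u v h1 h2 h3 h4 hu hv
    rcases Nat.lt_or_ge m u.length with h | h
    · obtain ⟨u1, u2, rfl, n1, n2, l1, l2, l3⟩ := hcut u (by omega)
      obtain ⟨q, q1, q2, q3, q4⟩ := hq4 i j k l
      rw [← S.split hq4 hpk hB hA q1.symm q2 h1 n1 n2 l3]
      exact Commute.comm_left (hB i q k l u1 v q1.symm h2 q3 h4 l1 hv)
        (hB q j k l u2 v q2 h2 h3 q4 l2 hv)
    · exact hB i j k l u v h1 h2 h3 h4 h hv
  have hB' : S.PB pk (m + 1) := by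
    intro i j k l u v h1 h2 h3 h4 hu hv
    rcases Nat.lt_or_ge m v.length with h | h
    · obtain ⟨u1, u2, rfl, n1, n2, l1, l2, l3⟩ := hcut v (by omega)
      obtain ⟨q, q1, q2, q3, q4⟩ := hq4 i j k l
      rw [← S.split hq4 hpk hB hA q3.symm q4 h2 n1 n2 l3]
      exact Commute.comm_right (hB1 i j k q u u1 h1 q3.symm h3 q1.symm hu l1)
        (hB1 i j q l u u2 h1 q4 q2.symm h4 hu l2)
    · exact hB1 i j k l u v h1 h2 h3 h4 hu h
  have hA' : S.PA pk (m + 1) := by
    intro i j k u v h1 h2 h3 huv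
    rcases Nat.lt_or_ge m (u.length + v.length) with h | h
    · have huv' : u.length + v.length = m + 1 := by omega
      by_cases hu0 : u = []
      · subst hu0
        simp only [List.length_nil, zero_add] at huv'
        obtain ⟨v1, v2, rfl, n1, n2, l1, l2, l3⟩ := hcut v huv'
        obtain ⟨q, q1, q2, q3, -⟩ := hq4 i j k k
        have hbc : ⁅S.Y pk v1 j q, S.Y pk v2 q k⁆ = S.Y pk (v1 ++ v2) j k :=
          S.split hq4 hpk hB hA q2.symm q3 h2 n1 n2 l3
        have hab : ⁅S.Y pk [] i j, S.Y pk v1 j q⁆ = S.Y pk v1 i q :=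
          hA i j q [] v1 h1 q2.symm q1.symm (by simpa using l1)
        have habc : ⁅S.Y pk v1 i q, S.Y pk v2 q k⁆ = S.Y pk (v1 ++ v2) i k :=
          S.split hq4 hpk hB hA q1.symm q3 h3 n1 n2 l3
        have := hw' (a := S.Y pk [] i j) (b := S.Y pk v1 j q) (c := S.Y pk v2 q k)
          (hB' i j q k [] v2 h1 q3 q2.symm h3 (by simp only [List.length_nil, le_add_iff_nonneg_left, zero_le]) (by (clear * - huv h huv' l2 l3; omega)))
          (by rw [hab, hbc]
              exact hB' i q j k _ _ q1.symm h2 q2 h3 (by omega) (by rw [huv']))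
          (by rw [hab, hbc, habc]
              exact hB' i k j k _ _ h3 h2 h2.symm h3 (by rw [huv']) (by rw [huv']))
        rw [hab, hbc, habc] at this
        simpa using this
      · by_cases hv0 : v = []
        · subst hv0
          simp only [List.length_nil, add_zero] at huv'
          obtain ⟨v1, v2, rfl, n1, n2, l1, l2, l3⟩ := hcut u huv'
          obtain ⟨q, q1, q2, q3, -⟩ := hq4 i j k k
          have hab : ⁅S.Y pk v1 i q, S.Y pk v2 q j⁆ = S.Y pk (v1 ++ v2) i j :=
            S.split hq4 hpk hB hA q1.symm q2 h1 n1 n2 l3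
          have hbc : ⁅S.Y pk v2 q j, S.Y pk [] j k⁆ = S.Y pk v2 q k := by
            have := hA q j k v2 [] q2 h2 q3 (by simpa using l2)
            simpa using this
          have habc : ⁅S.Y pk v1 i q, S.Y pk v2 q k⁆ = S.Y pk (v1 ++ v2) i k :=
            S.split hq4 hpk hB hA q1.symm q3 h3 n1 n2 l3
          have e1 : Commute (S.Y pk (v1 ++ v2) i j) (S.Y pk v2 q k) :=
            hB' i j q k _ _ h1 q3 q2.symm h3 (by rw [huv']) (by omega)
          have := hw' (a := S.Y pk v1 i q) (b := S.Y pk v2 q j) (c := S.Y pk [] j k)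
            (hB' i q j k v1 [] q1.symm h2 q2 h3 (by omega) (by simp only [List.length_nil, le_add_iff_nonneg_left, zero_le]))
            (by rw [hab, hbc]; exact e1)
            (by
              rw [hab, hbc]
              exact Commute.comm_left e1
                (hB' j k q k _ _ h2 q3 q3.symm h2 (by simp) (by omega)))
          rw [hab, hbc, habc] at this
          simpa using this.symm
        · exact S.split hq4 hpk hB hA h1 h2 h3 hu0 hv0 huv'
    · exact hA i j k u v h1 h2 h3 h
  refine ⟨hB', hA', ?_⟩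
  intro i j u h1 hu
  rcases Nat.lt_or_ge m u.length with h | h
  · obtain ⟨u1, u2, rfl, n1, n2, l1, l2, l3⟩ := hcut u (by omega)
    obtain ⟨q, q1, q2, -, -⟩ := hq4 i j j j
    have e := S.split hq4 hpk hB hA q1.symm q2 h1 n1 n2 l3
    rw [← e]
    refine comm_sq (hC i q u1 q1.symm l1) ?_
    rw [e]
    exact hB' i q i j u1 _ q1.symm h1 q1 h1 (by omega) hu
  · exact hC i j u h1 h

theorem all (hq4 : ∀ i j k l : I, ∃ q, q ≠ i ∧ q ≠ j ∧ q ≠ k ∧ q ≠ l)
    (hpk : ∀ i j, pk i j ≠ i ∧ pk i j ≠ j) (m : ℕ) :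
    S.PB pk (m + 1) ∧ S.PA pk (m + 1) ∧ S.PC pk (m + 1) := by
  induction m with
  | zero => exact S.base hpk
  | succ m ih => exact S.step hq4 hpk (by omega) ih.1 ih.2.1 ih.2.2

theorem Y_commute (hq4 : ∀ i j k l : I, ∃ q, q ≠ i ∧ q ≠ j ∧ q ≠ k ∧ q ≠ l)
    (hpk : ∀ i j, pk i j ≠ i ∧ pk i j ≠ j) {i j k l : I} (h1 : i ≠ j) (h2 : k ≠ l) (h3 : j ≠ k)
    (h4 : i ≠ l) (u v : List σ) : Commute (S.Y pk u i j) (S.Y pk v k l) :=
  (S.all hq4 hpk (max u.length v.length)).1 i j k l u v h1 h2 h3 h4 (by omega) (by omega)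

theorem Y_comm (hq4 : ∀ i j k l : I, ∃ q, q ≠ i ∧ q ≠ j ∧ q ≠ k ∧ q ≠ l)
    (hpk : ∀ i j, pk i j ≠ i ∧ pk i j ≠ j) {i j k : I} (h1 : i ≠ j) (h2 : j ≠ k) (h3 : i ≠ k)
    (u v : List σ) : ⁅S.Y pk u i j, S.Y pk v j k⁆ = S.Y pk (u ++ v) i k :=
  (S.all hq4 hpk (u.length + v.length)).2.1 i j k u v h1 h2 h3 (by omega)

theorem Y_sq (hq4 : ∀ i j k l : I, ∃ q, q ≠ i ∧ q ≠ j ∧ q ≠ k ∧ q ≠ l)
    (hpk : ∀ i j, pk i j ≠ i ∧ pk i j ≠ j) {i j : I} (h1 : i ≠ j)
    (u : List σ) : S.Y pk u i j * S.Y pk u i j = 1 :=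
  (S.all hq4 hpk u.length).2.2 i j u h1 (by omega)

end Sys

end Vale.Agent.P193.BH.FP

end FileFPWords

/-! file FP -/

section FileFP
/-!
Finite presentability of Steinberg groups, part 2: additive extension and the main theorem.
-/

namespace Vale.Agent.P193.BH.FP

open scoped commutatorElement

/-- words in the free algebra -/
noncomputable def wd {σ : Type} (u : List σ) : FreeAlgebra (ZMod 2) σ :=
  (u.map (FreeAlgebra.ι (ZMod 2))).prod

theorem wd_append {σ : Type} (u v : List σ) : wd (u ++ v) = wd u * wd v := by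
  simp [wd]

theorem wd_cons {σ : Type} (s : σ) (v : List σ) :
    wd (s :: v) = FreeAlgebra.ι (ZMod 2) s * wd v := by
  simp [wd]

theorem wd_nil {σ : Type} : (wd [] : FreeAlgebra (ZMod 2) σ) = 1 := by simp [wd]

theorem equiv_wd {σ : Type} (u : List σ) :
    (FreeAlgebra.equivMonoidAlgebraFreeMonoid (wd u) : MonoidAlgebra (ZMod 2) (FreeMonoid σ)) =
      MonoidAlgebra.single (FreeMonoid.ofList u) 1 := by
  induction u with
  | nil => rw [wd_nil, map_one]; rfl
  | cons s u ih =>
    rw [wd_cons, map_mul, ih]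
    have : (FreeAlgebra.equivMonoidAlgebraFreeMonoid (FreeAlgebra.ι (ZMod 2) s) :
        MonoidAlgebra (ZMod 2) (FreeMonoid σ)) = MonoidAlgebra.single (FreeMonoid.of s) 1 := by
      simp [FreeAlgebra.equivMonoidAlgebraFreeMonoid]
    rw [this, MonoidAlgebra.single_mul_single, one_mul]
    rfl

theorem fa_induction {σ : Type} {p : FreeAlgebra (ZMod 2) σ → Prop} (h0 : p 0)
    (hw : ∀ u, p (wd u)) (ha : ∀ a b, p a → p b → p (a + b)) (a : FreeAlgebra (ZMod 2) σ) :
    p a := by
  have key : ∀ b : MonoidAlgebra (ZMod 2) (FreeMonoid σ),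
      p (FreeAlgebra.equivMonoidAlgebraFreeMonoid.symm b) := by
    intro b
    induction b using MonoidAlgebra.induction_linear with
    | zero => simpa only [map_zero] using h0
    | add f g hf hg => rw [map_add]; exact ha _ _ hf hg
    | single m r =>
      have hr : r = 0 ∨ r = 1 := by
        revert r; decide
      rcases hr with rfl | rfl
      · rw [MonoidAlgebra.single_zero, map_zero]; exact h0
      · have := equiv_wd m.toList
        rw [show (FreeMonoid.ofList m.toList) = m from rfl] at this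
        rw [← this, AlgEquiv.symm_apply_apply]
        exact hw _
  have := key (FreeAlgebra.equivMonoidAlgebraFreeMonoid a)
  rwa [AlgEquiv.symm_apply_apply] at this

/-- additive extension of a family of commuting involutions -/
theorem exists_ext {P : Type} [Group P] {σ : Type} (y : List σ → P)
    (hc : ∀ u v, Commute (y u) (y v)) (hs : ∀ u, y u * y u = 1) :
    ∃ F : FreeAlgebra (ZMod 2) σ → P, (∀ a b, F (a + b) = F a * F b) ∧ ∀ u, F (wd u) = y u := by
  let V := Subgroup.closure (Set.range y)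
  have hcomm := Subgroup.isMulCommutative_closure (k := Set.range y) (by
    rintro _ ⟨u, rfl⟩ _ ⟨v, rfl⟩
    exact hc u v)
  let _ : CommGroup V :=
    { (inferInstance : Group V) with mul_comm := fun a b => hcomm.is_comm.comm a b }
  have hm : ∀ u, y u ∈ V := fun u => Subgroup.subset_closure ⟨u, rfl⟩
  let z : List σ → Additive V := fun u => Additive.ofMul ⟨y u, hm u⟩
  have hz : ∀ u, z u + z u = 0 := by
    intro u
    apply Additive.toMul.injective
    apply Subtype.ext
    exact hs u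
  let φ : FreeMonoid σ → (ZMod 2 →+ Additive V) := fun u =>
    ZMod.lift 2 ⟨zmultiplesHom (Additive V) (z u.toList), by
      simp only [zmultiplesHom_apply]
      have := hz u.toList
      rw [← two_nsmul] at this
      exact_mod_cast this⟩
  have hφ : ∀ u, φ u 1 = z u.toList := by
    intro u
    have := ZMod.lift_coe 2 (⟨zmultiplesHom (Additive V) (z u.toList), by
      simp only [zmultiplesHom_apply]
      have := hz u.toList
      rw [← two_nsmul] at this
      exact_mod_cast this⟩ : { f : ℤ →+ Additive V // f 2 = 0 }) 1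
    simpa only [Nat.cast_ofNat, Int.cast_one, zmultiplesHom_apply, one_smul] using this
  let g : (FreeMonoid σ →₀ ZMod 2) →+ Additive V := Finsupp.liftAddHom φ
  refine ⟨fun a => ((Additive.toMul
    (g (FreeAlgebra.equivMonoidAlgebraFreeMonoid a).coeff) : V) : P), ?_, ?_⟩
  · intro a b
    have : g (FreeAlgebra.equivMonoidAlgebraFreeMonoid (a + b)).coeff =
        g (FreeAlgebra.equivMonoidAlgebraFreeMonoid a).coeff +
        g (FreeAlgebra.equivMonoidAlgebraFreeMonoid b).coeff := by
      rw [map_add, MonoidAlgebra.coeff_add, map_add]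
    show ((Additive.toMul (g _) : V) : P) = _
    rw [this]
    rfl
  · intro u
    show ((Additive.toMul (g _) : V) : P) = _
    rw [equiv_wd]
    have : g (MonoidAlgebra.single (FreeMonoid.ofList u) (1 : ZMod 2)).coeff = z u := by
      rw [MonoidAlgebra.coeff_single]
      simp only [g, Finsupp.liftAddHom_apply_single, hφ]
      rfl
    rw [this]
    rfl

/-- the relations satisfied by all words -/
structure WSys (I σ P : Type) [Group P] where
  y : I → I → List σ → P
  cm : ∀ {i j k l : I}, i ≠ j → k ≠ l → j ≠ k → i ≠ l → ∀ u v, Commute (y i j u) (y k l v)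
  co : ∀ {i j k : I}, i ≠ j → j ≠ k → i ≠ k → ∀ u v, ⁅y i j u, y j k v⁆ = y i k (u ++ v)
  sq : ∀ {i j : I}, i ≠ j → ∀ u, y i j u * y i j u = 1

namespace WSys

variable {I σ P : Type} [Group P] (W : WSys I σ P)

open Classical in
/-- the additive extension -/
noncomputable def F (i j : I) : FreeAlgebra (ZMod 2) σ → P :=
  if h : i ≠ j then (exists_ext (W.y i j) (W.cm h h h.symm h) (W.sq h)).choose else fun _ => 1

theorem F_add {i j : I} (h : i ≠ j) (a b : FreeAlgebra (ZMod 2) σ) :
    W.F i j (a + b) = W.F i j a * W.F i j b := by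
  rw [F, dif_pos h]
  exact (exists_ext (W.y i j) (W.cm h h h.symm h) (W.sq h)).choose_spec.1 a b

theorem F_wd {i j : I} (h : i ≠ j) (u : List σ) : W.F i j (wd u) = W.y i j u := by
  rw [F, dif_pos h]
  exact (exists_ext (W.y i j) (W.cm h h h.symm h) (W.sq h)).choose_spec.2 u

theorem F_zero {i j : I} (h : i ≠ j) : W.F i j 0 = 1 := by
  have := W.F_add h 0 0
  simpa using this

theorem F_commute {i j k l : I} (h1 : i ≠ j) (h2 : k ≠ l) (h3 : j ≠ k) (h4 : i ≠ l)
    (a b : FreeAlgebra (ZMod 2) σ) : Commute (W.F i j a) (W.F k l b) := by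
  induction a using fa_induction with
  | h0 => rw [W.F_zero h1]; exact Commute.one_left _
  | ha a a' ih ih' => rw [W.F_add h1]; exact Commute.mul_left ih ih'
  | hw u =>
    induction b using fa_induction with
    | h0 => rw [W.F_zero h2]; exact Commute.one_right _
    | ha a a' ih ih' => rw [W.F_add h2]; exact Commute.mul_right ih ih'
    | hw v => rw [W.F_wd h1, W.F_wd h2]; exact W.cm h1 h2 h3 h4 u v

theorem F_comm {i j k : I} (h1 : i ≠ j) (h2 : j ≠ k) (h3 : i ≠ k)
    (a b : FreeAlgebra (ZMod 2) σ) : ⁅W.F i j a, W.F j k b⁆ = W.F i k (a * b) := by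
  induction a using fa_induction with
  | h0 => rw [W.F_zero h1, zero_mul, W.F_zero h3, commutatorElement_one_left]
  | ha a a' ih ih' =>
    rw [W.F_add h1, comm_mul_left (by rw [ih']; exact W.F_commute h1 h3 h1.symm h3 _ _), ih, ih',
      add_mul, add_comm, W.F_add h3]
  | hw u =>
    induction b using fa_induction with
    | h0 => rw [W.F_zero h2, mul_zero, W.F_zero h3, commutatorElement_one_right]
    | ha b b' ih ih' =>
      rw [W.F_add h2, comm_mul_right (by rw [ih']; exact W.F_commute h2 h3 h3.symm h2 _ _),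
        ih, ih', mul_add, W.F_add h3]
    | hw v => rw [W.F_wd h1, W.F_wd h2, W.co h1 h2 h3, ← wd_append, W.F_wd h3]

theorem F_neg {i j : I} (h : i ≠ j) (a : FreeAlgebra (ZMod 2) σ) :
    W.F i j (-a) = (W.F i j a)⁻¹ := by
  have := W.F_add h (-a) a
  rw [neg_add_cancel, W.F_zero h] at this
  exact eq_inv_of_mul_eq_one_left this.symm

/-- the two sided ideal killed by a homomorphism -/
theorem ideal {Q : Type} [Group Q] (hq3 : ∀ i j : I, ∃ q, q ≠ i ∧ q ≠ j) (π : P →* Q)
    (s : Set (FreeAlgebra (ZMod 2) σ)) (hs : ∀ r ∈ s, ∀ i j, i ≠ j → π (W.F i j r) = 1)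
    {a : FreeAlgebra (ZMod 2) σ} (ha : a ∈ TwoSidedIdeal.span s) :
    ∀ i j, i ≠ j → π (W.F i j a) = 1 := by
  let K : TwoSidedIdeal (FreeAlgebra (ZMod 2) σ) :=
    TwoSidedIdeal.mk' {a | ∀ i j, i ≠ j → π (W.F i j a) = 1}
      (by intro i j h; rw [W.F_zero h, map_one])
      (by intro x y hx hy i j h; rw [W.F_add h, map_mul, hx i j h, hy i j h, one_mul])
      (by intro x hx i j h; rw [W.F_neg h, map_inv, hx i j h, inv_one])
      (by
        intro x y hy i j h
        obtain ⟨q, q1, q2⟩ := hq3 i j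
        rw [← W.F_comm q1.symm q2 h, map_commutatorElement, hy q j q2,
          commutatorElement_one_right])
      (by
        intro x y hx i j h
        obtain ⟨q, q1, q2⟩ := hq3 i j
        rw [← W.F_comm q1.symm q2 h, map_commutatorElement, hx i q q1.symm,
          commutatorElement_one_left])
  have hK : TwoSidedIdeal.span s ≤ K := by
    rw [TwoSidedIdeal.span_le]
    intro r hr
    show r ∈ K
    rw [TwoSidedIdeal.mem_mk']
    exact hs r hr
  have := hK ha
  rw [TwoSidedIdeal.mem_mk'] at this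
  exact this

end WSys

/-! ### the finitely presented group with the basic relations -/

section base

variable (I σ : Type)

open Classical in
/-- the finitely many relators -/
noncomputable def rel0 : Set (FreeGroup (I × I × Option σ)) :=
  (Set.range fun p : I × Option σ => FreeGroup.of (p.1, p.1, p.2)) ∪
  (Set.range fun p : I × I × Option σ => FreeGroup.of p * FreeGroup.of p) ∪
  (Set.range fun p : (I × I × Option σ) × (I × I × Option σ) =>
    if p.1.2.1 ≠ p.2.1 ∧ p.1.1 ≠ p.2.2.1 then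
      ⁅FreeGroup.of p.1, FreeGroup.of p.2⁆ else 1) ∪
  (Set.range fun p : I × I × I × Option σ =>
    if p.1 ≠ p.2.1 ∧ p.2.1 ≠ p.2.2.1 ∧ p.1 ≠ p.2.2.1 then
      ⁅(FreeGroup.of (p.1, p.2.1, p.2.2.2) : FreeGroup (I × I × Option σ)),
        FreeGroup.of (p.2.1, p.2.2.1, none)⁆ *
        (FreeGroup.of (p.1, p.2.2.1, p.2.2.2))⁻¹ else 1) ∪
  (Set.range fun p : I × I × I × Option σ =>
    if p.1 ≠ p.2.1 ∧ p.2.1 ≠ p.2.2.1 ∧ p.1 ≠ p.2.2.1 then
      ⁅(FreeGroup.of (p.1, p.2.1, none) : FreeGroup (I × I × Option σ)),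
        FreeGroup.of (p.2.1, p.2.2.1, p.2.2.2)⁆ *
        (FreeGroup.of (p.1, p.2.2.1, p.2.2.2))⁻¹ else 1)

theorem rel0_finite [Finite I] [Finite σ] : (rel0 I σ).Finite := by
  unfold rel0
  refine Set.Finite.union (Set.Finite.union (Set.Finite.union (Set.Finite.union ?_ ?_) ?_) ?_) ?_ <;>
  exact Set.finite_range _

/-- the basic finitely presented group -/
abbrev P0 : Type := PresentedGroup (rel0 I σ)

variable {I σ}

/-- its generators -/
noncomputable def X0 (i j : I) (o : Option σ) : P0 I σ := PresentedGroup.of (i, j, o)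

theorem mk_eq_one {r : FreeGroup (I × I × Option σ)} (h : r ∈ rel0 I σ) :
    PresentedGroup.mk (rel0 I σ) r = 1 := PresentedGroup.one_of_mem h

theorem X0_diag (i : I) (o : Option σ) : (X0 i i o : P0 I σ) = 1 :=
  mk_eq_one (Or.inl (Or.inl (Or.inl (Or.inl ⟨(i, o), rfl⟩))))

/-- the basic system -/
noncomputable def S0 : Sys I σ (P0 I σ) where
  X := X0
  sq := by
    intro i j o _
    exact mk_eq_one (Or.inl (Or.inl (Or.inl (Or.inr ⟨(i, j, o), rfl⟩))))
  dj := by
    intro i j k l o o' _ _ h1 h2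
    have : PresentedGroup.mk (rel0 I σ) ⁅FreeGroup.of (i, j, o), FreeGroup.of (k, l, o')⁆ = 1 :=
      mk_eq_one (Or.inl (Or.inl (Or.inr ⟨((i, j, o), (k, l, o')), by simp [h1, h2]⟩)))
    rw [map_commutatorElement] at this
    exact commutatorElement_eq_one_iff_commute.1 this
  c1 := by
    intro i j k o h1 h2 h3
    have : PresentedGroup.mk (rel0 I σ)
        (⁅(FreeGroup.of (i, j, o) : FreeGroup (I × I × Option σ)), FreeGroup.of (j, k, none)⁆ *
        (FreeGroup.of (i, k, o))⁻¹) = 1 :=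
      mk_eq_one (Or.inl (Or.inr ⟨(i, j, k, o), by simp [h1, h2, h3]⟩))
    rw [map_mul, map_commutatorElement, map_inv] at this
    exact mul_inv_eq_one.1 this
  c2 := by
    intro i j k o h1 h2 h3
    have : PresentedGroup.mk (rel0 I σ)
        (⁅(FreeGroup.of (i, j, none) : FreeGroup (I × I × Option σ)), FreeGroup.of (j, k, o)⁆ *
        (FreeGroup.of (i, k, o))⁻¹) = 1 :=
      mk_eq_one (Or.inr ⟨(i, j, k, o), by simp [h1, h2, h3]⟩)
    rw [map_mul, map_commutatorElement, map_inv] at this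
    exact mul_inv_eq_one.1 this

variable {A : Type} [Ring A] [Algebra (ZMod 2) A]

/-- ring elements belonging to the generators -/
noncomputable def el (f : FreeAlgebra (ZMod 2) σ →ₐ[ZMod 2] A) : Option σ → A
  | none => 1
  | some s => f (FreeAlgebra.ι (ZMod 2) s)

theorem two_zero (a : A) : a + a = 0 := by
  have : (2 : ZMod 2) • a = 0 := by
    rw [show (2 : ZMod 2) = 0 from rfl, zero_smul]
  rw [← two_nsmul, ← this]
  rw [← Nat.cast_smul_eq_nsmul (ZMod 2)]
  norm_num

/-- the projection to the Steinberg group -/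
noncomputable def toSt (f : FreeAlgebra (ZMod 2) σ →ₐ[ZMod 2] A) : P0 I σ →* St I A :=
  PresentedGroup.toGroup (f := fun p : I × I × Option σ => St.x p.1 p.2.1 (el f p.2.2)) (by
    rintro r ((((⟨p, rfl⟩ | ⟨p, rfl⟩) | ⟨p, rfl⟩) | ⟨p, rfl⟩) | ⟨p, rfl⟩)
    · simp
    · rw [map_mul, FreeGroup.lift_apply_of, ← St.x_add, two_zero, St.x_zero]
    · dsimp only
      split_ifs with h
      · rw [map_commutatorElement, FreeGroup.lift_apply_of, FreeGroup.lift_apply_of]
        exact St.x_disj h.1 h.2 _ _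
      · exact map_one _
    · dsimp only
      split_ifs with h
      · rw [map_mul, map_commutatorElement, map_inv, FreeGroup.lift_apply_of,
          FreeGroup.lift_apply_of, FreeGroup.lift_apply_of, mul_inv_eq_one]
        dsimp only
        rw [St.x_comm h.1 h.2.1 h.2.2]
        simp [el]
      · exact map_one _
    · dsimp only
      split_ifs with h
      · rw [map_mul, map_commutatorElement, map_inv, FreeGroup.lift_apply_of,
          FreeGroup.lift_apply_of, FreeGroup.lift_apply_of, mul_inv_eq_one]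
        dsimp only
        rw [St.x_comm h.1 h.2.1 h.2.2]
        simp [el]
      · exact map_one _)

theorem toSt_X0 (f : FreeAlgebra (ZMod 2) σ →ₐ[ZMod 2] A) (i j : I) (o : Option σ) :
    toSt f (X0 i j o) = St.x i j (el f o) := PresentedGroup.toGroup.of _

end base

theorem st_fp_gen {I : Type} [Finite I] (hq4 : ∀ i j k l : I, ∃ q, q ≠ i ∧ q ≠ j ∧ q ≠ k ∧ q ≠ l)
    (A : Type) [Ring A] [Algebra (ZMod 2) A] (h : FPAlg A) :
    Group.IsFinitelyPresented (St I A) := by
  classical
  obtain ⟨σ, hσ, f, s, hf, hs, hker⟩ := h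
  have hq3 : ∀ i j : I, ∃ q, q ≠ i ∧ q ≠ j := fun i j => by
    obtain ⟨q, h1, h2, -, -⟩ := hq4 i j j j
    exact ⟨q, h1, h2⟩
  choose pk hpk using hq3
  let W : WSys I σ (P0 I σ) :=
    { y := fun i j u => S0.Y pk u i j
      cm := fun h1 h2 h3 h4 u v => S0.Y_commute hq4 hpk h1 h2 h3 h4 u v
      co := fun h1 h2 h3 u v => S0.Y_comm hq4 hpk h1 h2 h3 u v
      sq := fun h u => S0.Y_sq hq4 hpk h u }
  -- the projection on words
  have hW : ∀ (u : List σ) (i j : I), i ≠ j → toSt f (W.y i j u) = St.x i j (f (wd u)) := by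
    intro u
    induction u with
    | nil =>
      intro i j _
      show toSt f (X0 i j none) = _
      rw [toSt_X0, wd_nil, map_one]; rfl
    | cons a u ih =>
      intro i j hij
      show toSt f ⁅X0 i (pk i j) (some a), W.y (pk i j) j u⁆ = _
      rw [map_commutatorElement, toSt_X0, ih _ _ (hpk i j).2,
        St.x_comm (hpk i j).1.symm (hpk i j).2 hij, wd_cons, map_mul]
      rfl
  have hF : ∀ (i j : I), i ≠ j → ∀ a, toSt f (W.F i j a) = St.x i j (f a) := by
    intro i j hij a
    induction a using fa_induction with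
    | h0 => rw [W.F_zero hij, map_one, map_zero, St.x_zero]
    | hw u => rw [W.F_wd hij, hW u i j hij]
    | ha a b ih ih' => rw [W.F_add hij, map_mul, ih, ih', map_add, St.x_add]
  have hsurj : Function.Surjective (toSt f : P0 I σ →* St I A) := by
    rw [← MonoidHom.range_eq_top, eq_top_iff, ← St.closure_x, Subgroup.closure_le]
    rintro _ ⟨i, j, a, hij, rfl⟩
    obtain ⟨b, rfl⟩ := hf a
    exact ⟨W.F i j b, hF i j hij b⟩
  have : Finite (rel0 I σ) := (rel0_finite I σ).to_subtype
  have : Group.IsFinitelyPresented (P0 I σ) := inferInstance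
  refine Group.IsFinitelyPresented.of_surjective (toSt f) hsurj ?_
  -- the extra relators
  let T : Set (P0 I σ) := Set.range fun p : I × I × s =>
    if p.1 ≠ p.2.1 then W.F p.1 p.2.1 p.2.2.1 else 1
  have : Finite s := hs.to_subtype
  refine ⟨T, Set.finite_range _, le_antisymm ?_ ?_⟩
  · refine Subgroup.normalClosure_le_normal ?_
    rintro _ ⟨⟨i, j, r⟩, rfl⟩
    rw [SetLike.mem_coe, MonoidHom.mem_ker]
    dsimp only
    split_ifs with hij
    · rw [hF i j hij, (hker r.1).2 (TwoSidedIdeal.subset_span r.2), St.x_zero]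
    · exact map_one _
  · let N := Subgroup.normalClosure T
    let π : P0 I σ →* (P0 I σ) ⧸ N := QuotientGroup.mk' N
    have hπ : ∀ r ∈ s, ∀ i j, i ≠ j → π (W.F i j r) = 1 := by
      intro r hr i j hij
      rw [← MonoidHom.mem_ker, QuotientGroup.ker_mk']
      refine Subgroup.subset_normalClosure ⟨(i, j, ⟨r, hr⟩), ?_⟩
      simp [hij]
    have hid : ∀ a ∈ TwoSidedIdeal.span s, ∀ i j, i ≠ j → π (W.F i j a) = 1 := fun a ha =>
      W.ideal (fun i j => ⟨pk i j, hpk i j⟩) π s hπ ha
    have heq : ∀ i j, i ≠ j → ∀ b b', f b = f b' → π (W.F i j b) = π (W.F i j b') := by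
      intro i j hij b b' hb
      have h1 : f (b - b') = 0 := by rw [map_sub, hb, sub_self]
      have h2 := hid _ ((hker _).1 h1) i j hij
      have h3 : W.F i j b = W.F i j (b - b') * W.F i j b' := by
        rw [← W.F_add hij, sub_add_cancel]
      rw [h3, map_mul, h2, one_mul]
    choose g hg using hf
    let Xb : I → I → A → (P0 I σ) ⧸ N := fun i j a => if i = j then 1 else π (W.F i j (g a))
    have hXb : ∀ i j, i ≠ j → ∀ b, Xb i j (f b) = π (W.F i j b) := by
      intro i j hij b
      simp only [Xb, if_neg hij]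
      exact heq i j hij _ _ (hg _)
    have hXb' : ∀ i j, i ≠ j → ∀ a b, f b = a → Xb i j a = π (W.F i j b) := by
      rintro i j hij a b rfl
      exact hXb i j hij b
    let H : St I A →* (P0 I σ) ⧸ N := St.lift Xb
      (by intro i a; simp [Xb])
      (by
        intro i j a b hij
        rw [hXb' i j hij a (g a) (hg a), hXb' i j hij b (g b) (hg b),
          hXb' i j hij (a + b) (g a + g b) (by rw [map_add, hg, hg]), W.F_add hij, map_mul])
      (by
        intro i j k a b h1 h2 h3
        rw [hXb' i j h1 a (g a) (hg a), hXb' j k h2 b (g b) (hg b),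
          hXb' i k h3 (a * b) (g a * g b) (by rw [map_mul, hg, hg]), ← W.F_comm h1 h2 h3,
          map_commutatorElement])
      (by
        intro i j k l a b h1 h2 h3 h4
        rw [hXb' i j h1 a (g a) (hg a), hXb' k l h2 b (g b) (hg b), ← map_commutatorElement,
          commutatorElement_eq_one_iff_commute.2 (W.F_commute h1 h2 h3 h4 _ _), map_one])
    have hH : H.comp (toSt f) = π := by
      refine PresentedGroup.ext ?_
      rintro ⟨i, j, o⟩
      change H (toSt f (X0 i j o)) = π (X0 i j o)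
      rw [toSt_X0]
      by_cases hij : i = j
      · subst hij
        rw [X0_diag, St.x_diag, map_one, map_one]
      · have e1 : H (St.x i j (el f o)) = Xb i j (el f o) := St.lift_x _ _ _ _ _ _ _ _
        rw [e1]
        cases o with
        | none =>
          rw [hXb' i j hij _ (wd []) (by rw [wd_nil, map_one]; rfl), W.F_wd hij]
          rfl
        | some a =>
          rw [hXb' i j hij _ (wd [a]) (by rw [wd_cons, wd_nil, mul_one]; rfl), W.F_wd hij]
          congr 1
          exact S0.Y_one hpk hij a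
    intro p hp
    rw [MonoidHom.mem_ker] at hp
    have : π p = 1 := by rw [← hH, MonoidHom.comp_apply, hp, map_one]
    rwa [← MonoidHom.mem_ker, QuotientGroup.ker_mk'] at this

end Vale.Agent.P193.BH.FP

namespace Vale.Agent.P193.BH

theorem st_fp (A : Type) [Ring A] [Algebra (ZMod 2) A] (h : FPAlg A) :
    Group.IsFinitelyPresented (St (Fin 5) A) := by
  refine FP.st_fp_gen ?_ A h
  intro i j k l
  have hc : ({i, j, k, l} : Finset (Fin 5)).card < (Finset.univ : Finset (Fin 5)).card := by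
    refine lt_of_le_of_lt Finset.card_le_four ?_
    simp
  obtain ⟨q, -, hq⟩ := Finset.exists_mem_notMem_of_card_lt_card hc
  simp only [Finset.mem_insert, Finset.mem_singleton, not_or] at hq
  exact ⟨q, hq.1, hq.2.1, hq.2.2.1, hq.2.2.2⟩

end Vale.Agent.P193.BH

end FileFP

/-! file Simple -/

section FileSimple
/-! A6: simplicity of the elementary group -/

namespace Vale.Agent.P193.BH

open Matrix
open scoped commutatorElement

section leav

variable {A : Type} [Ring A]

theorem Leav.tw_mul_sw_a6 (L : Leav A) : ∀ (w w' : List Bool), w.length = w'.length →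
    L.tw w * L.sw w' = if w = w' then 1 else 0
  | [], [], _ => by simp [Leav.tw, Leav.sw]
  | a :: w, b :: w', h => by
    have ih := L.tw_mul_sw_a6 w w' (by simpa using h)
    simp only [Leav.tw, Leav.sw]
    have e : L.tw w * L.t a * (L.s b * L.sw w') = L.tw w * (L.t a * L.s b) * L.sw w' := by
      simp only [mul_assoc]
    rw [e, L.ts]
    by_cases hab : a = b
    · simp [hab, ih]
    · simp [hab]

theorem Leav.tw_sw_self_a6 (L : Leav A) (w : List Bool) : L.tw w * L.sw w = 1 := by
  rw [L.tw_mul_sw_a6 w w rfl, if_pos rfl]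

/-- vectors of length `d + 1` -/
def vecConsEquiv (d : ℕ) : Bool × List.Vector Bool d ≃ List.Vector Bool (d + 1) where
  toFun p := p.1 ::ᵥ p.2
  invFun v := (v.head, v.tail)
  left_inv p := by simp
  right_inv v := by simp

theorem Leav.sum_sw_tw_a6 (L : Leav A) (d : ℕ) :
    ∑ w : List.Vector Bool d, L.sw w.1 * L.tw w.1 = 1 := by
  induction d with
  | zero =>
    rw [Fintype.sum_eq_single (List.Vector.nil : List.Vector Bool 0)]
    · simp [Leav.tw, Leav.sw]
    · intro x hx
      exact absurd (Subsingleton.elim _ _) hx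
  | succ d ih =>
    rw [← (vecConsEquiv d).sum_comp, Fintype.sum_prod_type]
    have e : ∀ (b : Bool) (w : List.Vector Bool d),
        L.sw (vecConsEquiv d (b, w)).1 * L.tw (vecConsEquiv d (b, w)).1 =
          L.s b * (L.sw w.1 * L.tw w.1) * L.t b := by
      intro b w
      have : (vecConsEquiv d (b, w)).1 = b :: w.1 := by
        simp [vecConsEquiv]
      rw [this]
      simp only [Leav.tw, Leav.sw, mul_assoc]
    simp only [e]
    have e2 : ∀ b : Bool, ∑ w : List.Vector Bool d, L.s b * (L.sw w.1 * L.tw w.1) * L.t b =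
        L.s b * L.t b := by
      intro b
      rw [← Finset.sum_mul, ← Finset.mul_sum, ih, mul_one]
    simp only [e2]
    rw [Fintype.sum_bool, add_comm]
    exact L.st

/-- finding a word `c` different from `a` with `t_c r s_a = 0` -/
theorem Leav.exists_word_a6 (L : Leav A) (r : A) (C : ℕ)
    (hC : ∀ (d : ℕ) (w : List.Vector Bool d),
      Set.ncard {w' : List.Vector Bool d | L.tw w'.1 * r * L.sw w.1 ≠ 0} ≤ C)
    (d : ℕ) (hd : C + 1 < 2 ^ d) (a : List.Vector Bool d) :
    ∃ c : List.Vector Bool d, c ≠ a ∧ L.tw c.1 * r * L.sw a.1 = 0 := by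
  by_contra hcon
  push Not at hcon
  have hU : (Set.univ : Set (List.Vector Bool d)) ⊆
      insert a {w' : List.Vector Bool d | L.tw w'.1 * r * L.sw a.1 ≠ 0} := by
    intro c _
    by_cases h : c = a
    · exact Or.inl h
    · exact Or.inr (hcon c h)
  have h1 := Set.ncard_le_ncard hU (Set.toFinite _)
  rw [Set.ncard_univ, Nat.card_eq_fintype_card, card_vector, Fintype.card_bool] at h1
  have h2 := Set.ncard_insert_le a {w' : List.Vector Bool d | L.tw w'.1 * r * L.sw a.1 ≠ 0}
  have h3 := hC d a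
  omega

end leav

variable {ι A : Type} [Ring A] [Fintype ι] [DecidableEq ι]

/-- a matrix commuting with all elementary matrices is a central scalar -/
theorem central_of_comm_single (h2 : 2 ≤ Fintype.card ι) (M : Matrix ι ι A)
    (h : ∀ (i j : ι) (r : A), i ≠ j → M * Matrix.single i j r = Matrix.single i j r * M) :
    ∃ c : A, (∀ a, c * a = a * c) ∧ M = Matrix.diagonal fun _ => c := by
  have h2' : 1 < Fintype.card ι := by omega
  obtain ⟨i0, j0, hij0⟩ := Fintype.one_lt_card_iff.1 h2'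
  -- off diagonal entries vanish
  have hoff : ∀ k i, k ≠ i → M k i = 0 := by
    intro k i hki
    obtain ⟨j, hj⟩ := Fintype.exists_ne_of_one_lt_card h2' i
    have := congrFun (congrFun (h i j 1 hj.symm) k) j
    simpa only [mul_single_apply_same, mul_one, ne_eq, hki, not_false_eq_true, single_mul_apply_of_ne] using this
  have hdiag : ∀ i j (r : A), i ≠ j → M i i * r = r * M j j := by
    intro i j r hij
    have := congrFun (congrFun (h i j r hij) i) j
    simpa only [mul_single_apply_same, single_mul_apply_same] using this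
  have heq : ∀ i j, M i i = M j j := by
    intro i j
    by_cases hij : i = j
    · rw [hij]
    · simpa using hdiag i j 1 hij
  refine ⟨M i0 i0, ?_, ?_⟩
  · intro a
    rw [hdiag i0 j0 a hij0, heq j0 i0]
  · ext i j
    by_cases hij : i = j
    · subst hij
      simp [heq i i0]
    · simp [hij, hoff i j hij]

/-- an element different from one does not commute with some special elementary matrix -/
theorem exists_not_comm_single [Nontrivial A] (h2 : 2 ≤ Fintype.card ι) (hc : CenterTriv A)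
    (g : (Matrix ι ι A)ˣ) (hg : g ≠ 1) : ∃ (i j : ι) (r : A), i ≠ j ∧
      (g : Matrix ι ι A) * Matrix.single i j r ≠ Matrix.single i j r * (g : Matrix ι ι A) := by
  by_contra hcon
  push Not at hcon
  obtain ⟨c, hc1, hc2⟩ := central_of_comm_single h2 (g : Matrix ι ι A)
    (fun i j r hij => hcon i j r hij)
  have h2' : 1 < Fintype.card ι := by omega
  obtain ⟨i0, j0, hij0⟩ := Fintype.one_lt_card_iff.1 h2'
  rcases hc c hc1 with rfl | rfl
  · have h0 : (g : Matrix ι ι A) = 0 := by rw [hc2]; ext i j; simp [Matrix.diagonal]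
    have h1 : (g : Matrix ι ι A) * ((g⁻¹ : (Matrix ι ι A)ˣ) : Matrix ι ι A) = 1 := by
      rw [← Units.val_mul, mul_inv_cancel, Units.val_one]
    rw [h0, zero_mul] at h1
    have := congrFun (congrFun h1 i0) i0
    simp at this
  · apply hg
    apply Units.ext
    rw [hc2, Units.val_one]
    rfl

theorem exists_not_comm_word [Nontrivial A] (h2 : 2 ≤ Fintype.card ι) (hc : CenterTriv A)
    (L : Leav A) (g : (Matrix ι ι A)ˣ) (hg : g ≠ 1) : ∃ i j : ι, i ≠ j ∧ ∀ d : ℕ,
      ∃ (a b : List.Vector Bool d) (r : A),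
      (g : Matrix ι ι A) * Matrix.single i j (L.sw a.1 * r * L.tw b.1) ≠
        Matrix.single i j (L.sw a.1 * r * L.tw b.1) * (g : Matrix ι ι A) := by
  obtain ⟨i, j, r, hij, hr⟩ := exists_not_comm_single h2 hc g hg
  refine ⟨i, j, hij, ?_⟩
  intro d
  by_contra hcon
  push Not at hcon
  apply hr
  have e : r = ∑ a : List.Vector Bool d, ∑ b : List.Vector Bool d,
      L.sw a.1 * (L.tw a.1 * r * L.sw b.1) * L.tw b.1 := by
    have e1 : ∀ a b : List.Vector Bool d, L.sw a.1 * (L.tw a.1 * r * L.sw b.1) * L.tw b.1 =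
        (L.sw a.1 * L.tw a.1) * (r * (L.sw b.1 * L.tw b.1)) := by
      intro a b
      simp only [mul_assoc]
    simp only [e1]
    simp only [← Finset.mul_sum, L.sum_sw_tw_a6, mul_one, ← Finset.sum_mul, one_mul]
  have e2 : Matrix.single i j r = ∑ a : List.Vector Bool d, ∑ b : List.Vector Bool d,
      Matrix.single i j (L.sw a.1 * (L.tw a.1 * r * L.sw b.1) * L.tw b.1) := by
    conv_lhs => rw [e]
    have := fun (f : List.Vector Bool d → A) => map_sum (Matrix.singleAddMonoidHom i j) f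
      Finset.univ
    simp only [Matrix.singleAddMonoidHom_apply] at this
    rw [this]
    exact Finset.sum_congr rfl fun a _ => this _
  rw [e2, Finset.mul_sum, Finset.sum_mul]
  refine Finset.sum_congr rfl fun a _ => ?_
  rw [Finset.mul_sum, Finset.sum_mul]
  exact Finset.sum_congr rfl fun b _ => hcon a b _

/-! ### normal subgroups -/

variable {N : Subgroup (Matrix ι ι A)ˣ}

theorem comm_mem_left (hN : ∀ x ∈ EGrp ι A, ∀ g ∈ N, x * g * x⁻¹ ∈ N)
    {g x : (Matrix ι ι A)ˣ} (hg : g ∈ N) (hx : x ∈ EGrp ι A) : ⁅g, x⁆ ∈ N := by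
  have : ⁅g, x⁆ = g * (x * g⁻¹ * x⁻¹) := by
    rw [commutatorElement_def]
    group
  rw [this]
  exact N.mul_mem hg (hN x hx _ (N.inv_mem hg))

theorem comm_mem_right (hN : ∀ x ∈ EGrp ι A, ∀ g ∈ N, x * g * x⁻¹ ∈ N)
    {g x : (Matrix ι ι A)ˣ} (hg : g ∈ N) (hx : x ∈ EGrp ι A) : ⁅x, g⁆ ∈ N := by
  rw [commutatorElement_def]
  exact N.mul_mem (hN x hx _ hg) (N.inv_mem hg)

/-- one root subgroup in `N` gives all of them -/
theorem tv_mem_of_root (h3 : 3 ≤ Fintype.card ι)
    (hN : ∀ x ∈ EGrp ι A, ∀ g ∈ N, x * g * x⁻¹ ∈ N) {o k : ι} (hok : o ≠ k)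
    (h : ∀ z : A, tv o k z ∈ N) (i j : ι) (z : A) : tv i j z ∈ N := by
  have ex : ∀ a b : ι, ∃ c : ι, c ≠ a ∧ c ≠ b := by
    intro a b
    by_contra hcon
    push Not at hcon
    have : (Finset.univ : Finset ι) ⊆ {a, b} := by
      intro c _
      by_cases hc : c = a
      · simp [hc]
      · simp [hcon c hc]
    have h1 := Finset.card_le_card this
    have h2 := Finset.card_le_two (a := a) (b := b)
    rw [Finset.card_univ] at h1
    omega
  have s1 : ∀ (j : ι) (z : A), o ≠ j → tv o j z ∈ N := by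
    intro j z hoj
    by_cases hjk : k = j
    · rw [← hjk]; exact h z
    · have := comm_mem_left hN (h z) (tv_mem_EGrp k j (1 : A))
      rwa [tv_comm hok hjk hoj, mul_one] at this
  have s2 : ∀ (i j : ι) (z : A), i ≠ j → o ≠ j → tv i j z ∈ N := by
    intro i j z hij hoj
    by_cases hio : i = o
    · rw [hio]; exact s1 j z hoj
    · have := comm_mem_right hN (s1 j z hoj) (tv_mem_EGrp i o (1 : A))
      rwa [tv_comm hio hoj hij, one_mul] at this
  by_cases hij : i = j
  · rw [hij, tv_diag]; exact one_mem _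
  by_cases hoj : o = j
  · subst hoj
    obtain ⟨m, hm1, hm2⟩ := ex i o
    have := comm_mem_left hN (s2 i m z hm1.symm hm2.symm) (tv_mem_EGrp m o (1 : A))
    rwa [tv_comm hm1.symm hm2 hij, mul_one] at this
  · exact s2 i j z hij hoj

theorem EGrp_le_of_mem [Nontrivial A] (h3 : 3 ≤ Fintype.card ι) (hpi : PI A)
    (hc : CenterTriv A) (L : Leav A) (hL : L.Tiny)
    (hN : ∀ x ∈ EGrp ι A, ∀ g ∈ N, x * g * x⁻¹ ∈ N) {g : (Matrix ι ι A)ˣ} (hg : g ∈ N)
    (hg1 : g ≠ 1) : EGrp ι A ≤ N := by
  have ex : ∀ a b : ι, ∃ c : ι, c ≠ a ∧ c ≠ b := by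
    intro a b
    by_contra hcon
    push Not at hcon
    have : (Finset.univ : Finset ι) ⊆ {a, b} := by
      intro c _
      by_cases hc : c = a
      · simp [hc]
      · simp [hcon c hc]
    have h1 := Finset.card_le_card this
    have h2 := Finset.card_le_two (a := a) (b := b)
    rw [Finset.card_univ] at h1
    omega
  obtain ⟨i, j, hij, hd⟩ := exists_not_comm_word (by omega) hc L g hg1
  choose C hC using hL
  obtain ⟨d, hdC⟩ : ∃ d : ℕ, (∑ l, C ((g : Matrix ι ι A) l i)) + 1 < 2 ^ d :=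
    ⟨_, Nat.lt_two_pow_self⟩
  obtain ⟨a, b, r, hne⟩ := hd d
  set S : Matrix ι ι A := Matrix.single i j (L.sw a.1 * r * L.tw b.1) with hS
  set u : (Matrix ι ι A)ˣ := tv i j (L.sw a.1 * r * L.tw b.1) with hu
  have hu1 : (u : Matrix ι ι A) = 1 + S := tv_val hij _
  have hu2 : ((u⁻¹ : (Matrix ι ι A)ˣ) : Matrix ι ι A) = 1 - S := by
    rw [hu, tv_inv hij, sub_eq_add_neg, hS, ← Matrix.single_neg]
  set h : (Matrix ι ι A)ˣ := ⁅g, u⁆ with hh
  have hhN : h ∈ N := comm_mem_left hN hg (tv_mem_EGrp _ _ _)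
  set gi : Matrix ι ι A := ((g⁻¹ : (Matrix ι ι A)ˣ) : Matrix ι ι A) with hgi
  have hggi : (g : Matrix ι ι A) * gi = 1 := by
    rw [hgi, ← Units.val_mul, mul_inv_cancel, Units.val_one]
  have hgig : gi * (g : Matrix ι ι A) = 1 := by
    rw [hgi, ← Units.val_mul, inv_mul_cancel, Units.val_one]
  set n : Matrix ι ι A := (h : Matrix ι ι A) - 1 with hn
  have hhn : (h : Matrix ι ι A) = 1 + n := by rw [hn]; abel
  have hnval : n = g * S * gi - S - g * S * gi * S := by
    have e1 : (h : Matrix ι ι A) = g * (1 + S) * gi * (1 - S) := by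
      rw [hh, commutatorElement_def, Units.val_mul, Units.val_mul, Units.val_mul, hu1, hu2]
    have e2 : (g : Matrix ι ι A) * (1 + S) * gi = 1 + g * S * gi := by
      rw [mul_add, add_mul, mul_one, hggi]
    rw [hn, e1, e2]
    noncomm_ring
  have hn0 : n ≠ 0 := by
    intro h0
    have h1 : h = 1 := by
      apply Units.ext
      rw [hhn, h0, add_zero, Units.val_one]
    rw [hh, commutatorElement_eq_one_iff_mul_comm] at h1
    have h2 := congrArg (Units.val) h1
    rw [Units.val_mul, Units.val_mul, hu1, mul_add, add_mul, mul_one, one_mul] at h2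
    exact hne (add_left_cancel h2)
  obtain ⟨p, m, hpm⟩ : ∃ p m, n p m ≠ 0 := by
    by_contra hcon
    push Not at hcon
    exact hn0 (by ext p m; simpa using hcon p m)
  obtain ⟨l, hlm, -⟩ := ex m m
  have hCl : C ((g : Matrix ι ι A) l i) + 1 < 2 ^ d := by
    have h5 : C ((g : Matrix ι ι A) l i) ≤ ∑ l, C ((g : Matrix ι ι A) l i) :=
      Finset.single_le_sum (f := fun l => C ((g : Matrix ι ι A) l i))
      (fun _ _ => Nat.zero_le _) (Finset.mem_univ l)
    omega
  obtain ⟨c, hca, hc0⟩ := L.exists_word_a6 _ _ (fun d w => (hC ((g : Matrix ι ι A) l i) d w).1)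
    d hCl a
  have htca : L.tw c.1 * L.sw a.1 = 0 := by
    rw [L.tw_mul_sw_a6 c.1 a.1 (by rw [c.2, a.2]), if_neg]
    intro h'
    exact hca (Subtype.ext h')
  -- rows killed by `t_c e_l^T`
  have hRn : ∀ x : A, Matrix.single m l (x * L.tw c.1) * n = 0 := by
    intro x
    have e1 : Matrix.single m l (x * L.tw c.1) * S = 0 := by
      rw [hS]
      by_cases hli : l = i
      · subst hli
        rw [Matrix.single_mul_single_same]
        have : x * L.tw c.1 * (L.sw a.1 * r * L.tw b.1) =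
            x * (L.tw c.1 * L.sw a.1) * r * L.tw b.1 := by simp only [mul_assoc]
        rw [this, htca, mul_zero, zero_mul, zero_mul, Matrix.single_zero]
      · rw [Matrix.single_mul_single_of_ne _ _ _ _ hli]
    have e2 : Matrix.single m l (x * L.tw c.1) * g * S = 0 := by
      rw [hS, Matrix.single_mul_mul_single]
      have : x * L.tw c.1 * (g : Matrix ι ι A) l i * (L.sw a.1 * r * L.tw b.1) =
          x * (L.tw c.1 * (g : Matrix ι ι A) l i * L.sw a.1) * r * L.tw b.1 := by
        simp only [mul_assoc]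
      rw [this, hc0, mul_zero, zero_mul, zero_mul, Matrix.single_zero]
    have e3 : Matrix.single m l (x * L.tw c.1) * (g * S * gi) = 0 := by
      rw [← mul_assoc, ← mul_assoc, e2, zero_mul]
    have e4 : Matrix.single m l (x * L.tw c.1) * (g * S * gi * S) = 0 := by
      rw [← mul_assoc, e3, zero_mul]
    rw [hnval, mul_sub, mul_sub, e1, e3, e4]
    simp
  obtain ⟨α, β, hαβ⟩ := hpi _ hpm
  obtain ⟨o, hop, hol⟩ := ex p l
  set R : Matrix ι ι A := Matrix.single m l (β * L.tw c.1) with hR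
  have hRn' : R * n = 0 := hRn β
  have hRR : R * R = 0 := by
    rw [hR, Matrix.single_mul_single_of_ne _ _ _ _ hlm]
  set u2 : (Matrix ι ι A)ˣ := tv m l (β * L.tw c.1) with hu2'
  have hv1 : (u2 : Matrix ι ι A) = 1 + R := tv_val hlm.symm _
  have hv2 : ((u2⁻¹ : (Matrix ι ι A)ˣ) : Matrix ι ι A) = 1 - R := by
    rw [hu2', tv_inv hlm.symm, sub_eq_add_neg, hR, ← Matrix.single_neg]
  set y : (Matrix ι ι A)ˣ := ⁅h, u2⁆ with hy
  have hyN : y ∈ N := comm_mem_left hN hhN (tv_mem_EGrp _ _ _)
  set hi : Matrix ι ι A := ((h⁻¹ : (Matrix ι ι A)ˣ) : Matrix ι ι A) with hhi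
  have hhhi : (h : Matrix ι ι A) * hi = 1 := by
    rw [hhi, ← Units.val_mul, mul_inv_cancel, Units.val_one]
  have hRhi : R * hi = R := by
    have e1 : R * (h : Matrix ι ι A) = R := by
      rw [hhn, mul_add, hRn', add_zero, mul_one]
    calc R * hi = R * (h : Matrix ι ι A) * hi := by rw [e1]
      _ = R := by rw [mul_assoc, hhhi, mul_one]
  have hyval : (y : Matrix ι ι A) = 1 + n * R := by
    have e1 : (y : Matrix ι ι A) = h * (1 + R) * hi * (1 - R) := by
      rw [hy, commutatorElement_def, Units.val_mul, Units.val_mul, Units.val_mul, hv1, hv2]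
    have e2 : (h : Matrix ι ι A) * (1 + R) * hi = 1 + (1 + n) * R := by
      rw [mul_add, add_mul, mul_one, hhhi, mul_assoc, hRhi, hhn]
    rw [e1, e2]
    have e3 : (1 + (1 + n) * R) * (1 - R) = 1 + n * R - R * R - n * (R * R) := by
      noncomm_ring
    rw [e3, hRR]
    simp
  have hnRnR : n * R * (n * R) = 0 := by
    have : n * R * (n * R) = n * (R * n) * R := by simp only [mul_assoc]
    rw [this, hRn', mul_zero, zero_mul]
  have hyinv : ((y⁻¹ : (Matrix ι ι A)ˣ) : Matrix ι ι A) = 1 - n * R := by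
    have e1 : (y : Matrix ι ι A) * (1 - n * R) = 1 := by
      rw [hyval]
      have : (1 + n * R) * (1 - n * R) = 1 - n * R * (n * R) := by noncomm_ring
      rw [this, hnRnR, sub_zero]
    have e2 : ((y⁻¹ : (Matrix ι ι A)ˣ) : Matrix ι ι A) * (y : Matrix ι ι A) = 1 := by
      rw [← Units.val_mul, inv_mul_cancel, Units.val_one]
    calc ((y⁻¹ : (Matrix ι ι A)ˣ) : Matrix ι ι A)
        = ((y⁻¹ : (Matrix ι ι A)ˣ) : Matrix ι ι A) * ((y : Matrix ι ι A) * (1 - n * R)) := by
          rw [e1, mul_one]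
      _ = 1 - n * R := by rw [← mul_assoc, e2, one_mul]
  -- root elements
  have hroot1 : ∀ z : A, tv o l (z * L.tw c.1) ∈ N := by
    intro z
    have hmem := comm_mem_right hN hyN (tv_mem_EGrp o p (z * α))
    convert hmem using 1
    apply Units.ext
    rw [commutatorElement_def, Units.val_mul, Units.val_mul, Units.val_mul, tv_val hol,
      tv_val hop, tv_inv hop, hyval, hyinv]
    set B : Matrix ι ι A := Matrix.single o p (z * α) with hB
    have hBneg : Matrix.single o p (-(z * α)) = -B := by rw [hB, ← Matrix.single_neg]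
    rw [hBneg]
    have hRB : R * B = 0 := by
      rw [hR, hB, Matrix.single_mul_single_of_ne _ _ _ _ hol.symm]
    have hBB : B * B = 0 := single_mul_self_of_ne hop _ _
    have hBnR : B * n * R = Matrix.single o l (z * L.tw c.1) := by
      rw [hB, hR, Matrix.single_mul_mul_single]
      have : z * α * n p m * (β * L.tw c.1) = z * (α * n p m * β) * L.tw c.1 := by
        simp only [mul_assoc]
      rw [this, hαβ, mul_one]
    have e1 : (1 + B) * (1 + n * R) * (1 + -B) * (1 - n * R) =
        1 + B * n * R - B * B + B * B * (n * R) - n * (R * B) - B * n * (R * B)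
        + n * (R * B) * (n * R) + B * n * (R * B) * (n * R) - n * (R * n) * R
        - B * n * (R * n) * R := by
      noncomm_ring
    rw [e1, hRB, hBB, hRn', hBnR]
    simp only [sub_zero, zero_mul, add_zero, mul_zero]
  obtain ⟨k, hko, hkl⟩ := ex o l
  have hroot2 : ∀ z : A, tv o k z ∈ N := by
    intro z
    have hmem := comm_mem_left hN (hroot1 z) (tv_mem_EGrp l k (L.sw c.1))
    rwa [tv_comm hol hkl.symm hko.symm, mul_assoc, L.tw_sw_self_a6, mul_one] at hmem
  rw [EGrp_eq_closure]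
  refine (Subgroup.closure_le _).2 ?_
  rintro _ ⟨i', j', z, -, rfl⟩
  exact tv_mem_of_root h3 hN hko.symm hroot2 i' j' z

/-- A6 -/
theorem egrp_simple (ι A : Type) [Ring A] [Fintype ι] [DecidableEq ι] [Nontrivial A] [CharP A 2]
    (h3 : 3 ≤ Fintype.card ι) (hpi : PI A) (hc : CenterTriv A) (L : Leav A) (hL : L.Tiny) :
    IsSimpleGroup (EGrp ι A) := by
  have hnt : Nontrivial (EGrp ι A) := by
    obtain ⟨i, j, hij⟩ := Fintype.one_lt_card_iff.1 (show 1 < Fintype.card ι by omega)
    refine ⟨⟨⟨tv i j 1, tv_mem_EGrp i j 1⟩, 1, ?_⟩⟩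
    intro h
    have h1 := congrArg (fun x : EGrp ι A => ((x : (Matrix ι ι A)ˣ) : Matrix ι ι A) i j) h
    simp only [tv_val hij, Matrix.add_apply, ne_eq, hij, not_false_eq_true, one_apply_ne, single_apply_same, zero_add, OneMemClass.coe_one, Units.val_one, one_ne_zero] at h1
  refine { exists_pair_ne := hnt.exists_pair_ne, eq_bot_or_eq_top_of_normal := ?_ }
  intro H hH
  by_cases hbot : H = ⊥
  · exact Or.inl hbot
  right
  obtain ⟨⟨g, hgH⟩, hg1'⟩ := Subgroup.ne_bot_iff_exists_ne_one.1 hbot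
  have hg1 : g ≠ 1 := fun h => hg1' (Subtype.ext h)
  set N : Subgroup (Matrix ι ι A)ˣ := H.map (EGrp ι A).subtype with hNdef
  have hN : ∀ x ∈ EGrp ι A, ∀ g ∈ N, x * g * x⁻¹ ∈ N := by
    rintro x hx _ ⟨g, hg, rfl⟩
    have h1 := hH.conj_mem g hg ⟨x, hx⟩
    refine ⟨_, h1, ?_⟩
    rw [map_mul, map_mul, map_inv]
    rfl
  have hle : EGrp ι A ≤ N := by
    refine EGrp_le_of_mem (g := ((g : EGrp ι A) : (Matrix ι ι A)ˣ)) h3 hpi hc L hL hN
      ⟨g, hgH, rfl⟩ ?_
    intro h
    exact hg1 (Subtype.ext h)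
  rw [eq_top_iff]
  rintro ⟨x, hx⟩ _
  obtain ⟨y, hy, hyx⟩ := hle hx
  have : y = ⟨x, hx⟩ := Subtype.ext hyx
  rwa [← this]

end Vale.Agent.P193.BH

end FileSimple

/-! file Embed -/

section FileEmbed
/-! A7: units embed in the elementary group -/

namespace Vale.Agent.P193.BH

open Matrix

section blk

variable {ι A : Type} [Ring A] [Fintype ι] [DecidableEq ι]

/-- the matrix which is `[[a, b], [c, d]]` on the indices `i, j` and the identity elsewhere -/
def blk (i j : ι) (a b c d : A) : Matrix ι ι A :=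
  1 + Matrix.single i i (a - 1) + Matrix.single i j b + Matrix.single j i c
    + Matrix.single j j (d - 1)

omit [Fintype ι] in
theorem blk_one (i j : ι) : blk i j (1 : A) 0 0 1 = 1 := by
  simp [blk]

theorem blk_mul {i j : ι} (h : i ≠ j) (a b c d a' b' c' d' : A) :
    blk i j a b c d * blk i j a' b' c' d' =
      blk i j (a * a' + b * c') (a * b' + b * d') (c * a' + d * c') (c * b' + d * d') := by
  have h' := h.symm
  have n : ∀ (p q : ι) (z : A), Matrix.single p q (-z) = -Matrix.single p q z := fun p q z =>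
    (Matrix.single_neg _ _ _).symm
  simp only [blk, mul_add, add_mul, mul_one, one_mul, Matrix.single_mul_single_same, sub_eq_add_neg,
    Matrix.single_mul_single_of_ne _ _ _ _ h, Matrix.single_mul_single_of_ne _ _ _ _ h',
    Matrix.single_add, n, add_zero, mul_neg, neg_mul, neg_neg]
  abel

theorem blk_tv {i j : ι} (h : i ≠ j) (a : A) :
    ((tv i j a : (Matrix ι ι A)ˣ) : Matrix ι ι A) = blk i j 1 a 0 1 := by
  rw [tv_val h]; simp [blk]

theorem blk_tv' {i j : ι} (h : i ≠ j) (a : A) :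
    ((tv j i a : (Matrix ι ι A)ˣ) : Matrix ι ι A) = blk i j 1 0 a 1 := by
  rw [tv_val h.symm]; simp [blk]

omit [Fintype ι] in
theorem blk_inj {i j : ι} (h : i ≠ j) {a b c d a' b' c' d' : A}
    (H : blk i j a b c d = blk i j a' b' c' d') : a = a' := by
  have := congrFun (congrFun H i) i
  simpa [blk, Matrix.single_apply, h, h.symm] using this

theorem three_val [CharP A 2] {i j : ι} (h : i ≠ j) (x y : A) (hyx : y * x = 1) (a : Aˣ) :
    ((tv i j (x * a) * tv j i ((a⁻¹ : Aˣ) * y) * tv i j (x * a) : (Matrix ι ι A)ˣ) :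
      Matrix ι ι A) = blk i j (1 + x * y) (x * a) ((a⁻¹ : Aˣ) * y) 0 := by
  have h2 : (2 : A) = 0 := CharTwo.two_eq_zero
  have e0 : x * a * ((a⁻¹ : Aˣ) * y) = x * y := by
    rw [mul_assoc, ← mul_assoc (a : A), Units.mul_inv, one_mul]
  have e1 : x * y * (x * a) = x * a := by
    rw [mul_assoc, ← mul_assoc y, hyx, one_mul]
  have e2 : ((a⁻¹ : Aˣ) : A) * y * (x * a) = 1 := by
    rw [mul_assoc, ← mul_assoc y, hyx, one_mul, Units.inv_mul]
  simp only [Units.val_mul, blk_tv h, blk_tv' h, blk_mul h, mul_one, e0, mul_zero, zero_add, one_mul, add_zero, add_mul, e1, e2]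
  have h3 : (3 : A) = 1 := by
    have : (3 : A) = 2 + 1 := by norm_num
    rw [this, h2, zero_add]
  congr 1
  · abel_nf; simp [h3]
  · abel_nf; simp [h2]

/-- Whitehead's lemma in a frame: `y x = 1`, `a` a unit -/
theorem whitehead [CharP A 2] {i j : ι} (h : i ≠ j) (x y : A) (hyx : y * x = 1) (a : Aˣ) :
    ∃ g ∈ EGrp ι A, (g : Matrix ι ι A) =
      blk i j (1 + x * y + x * a * y) 0 0 ((a⁻¹ : Aˣ) : A) := by
  refine ⟨(tv i j (x * a) * tv j i ((a⁻¹ : Aˣ) * y) * tv i j (x * a)) *
    (tv i j (x * (1 : Aˣ)) * tv j i (((1 : Aˣ)⁻¹ : Aˣ) * y) * tv i j (x * (1 : Aˣ))), ?_, ?_⟩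
  · refine mul_mem (mul_mem (mul_mem ?_ ?_) ?_) (mul_mem (mul_mem ?_ ?_) ?_) <;>
      exact tv_mem_EGrp _ _ _
  · have h2 : (2 : A) = 0 := CharTwo.two_eq_zero
    rw [Units.val_mul, three_val h x y hyx a, three_val h x y hyx 1, blk_mul h]
    have e1 : x * y * x = x := by rw [mul_assoc, hyx, mul_one]
    have e3 : x * y * (x * y) = x * y := by rw [← mul_assoc, e1]
    have e2 : ((a⁻¹ : Aˣ) : A) * y * x = ((a⁻¹ : Aˣ) : A) := by rw [mul_assoc, hyx, mul_one]
    have e4 : ((a⁻¹ : Aˣ) : A) * y * (x * y) = ((a⁻¹ : Aˣ) : A) * y := by rw [← mul_assoc, e2]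
    simp only [mul_add, mul_one, add_mul, one_mul, e3, inv_one, Units.val_one, e1, mul_zero, add_zero, e4, zero_mul, e2]
    have h3 : (3 : A) = 1 := by
      have : (3 : A) = 2 + 1 := by norm_num
      rw [this, h2, zero_add]
    congr 1
    · abel_nf; simp only [zsmul_eq_mul, Int.cast_ofNat, h3, one_mul]
    · abel_nf; simp [h2, h3]
    · abel_nf; simp only [zsmul_eq_mul, Int.cast_ofNat, h2, zero_mul]

end blk

/-- A7 -/
theorem exists_embed (ι A : Type) [Ring A] [Fintype ι] [DecidableEq ι] [CharP A 2]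
    (h3 : 3 ≤ Fintype.card ι) (I : InfSum A) :
    ∃ ψ : Aˣ →* EGrp ι A, Function.Injective ψ := by
  obtain ⟨i, j, h⟩ := Fintype.exists_pair_of_one_lt_card (by omega : 1 < Fintype.card ι)
  have h2 : (2 : A) = 0 := CharTwo.two_eq_zero
  set U : A → A := fun u => I.x0 * u * I.y0 + I.x1 * I.y1 with hU
  have a1 : ∀ u, I.y0 * (I.x0 * u) = u := fun u => by rw [← mul_assoc, I.h00, one_mul]
  have a2 : ∀ u, I.y1 * (I.x1 * u) = u := fun u => by rw [← mul_assoc, I.h11, one_mul]
  have a3 : ∀ u, I.y0 * (I.x1 * u) = 0 := fun u => by rw [← mul_assoc, I.h01, zero_mul]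
  have a4 : ∀ u, I.y1 * (I.x0 * u) = 0 := fun u => by rw [← mul_assoc, I.h10, zero_mul]
  have hUm : ∀ u v, U u * U v = U (u * v) := fun u v => by
    simp only [hU, mul_add, add_mul, mul_assoc, a1, a2, a3, a4, mul_zero, add_zero, zero_add]
  have hU1 : U 1 = 1 := by simp only [hU, mul_one]; exact I.hs
  let ψ0 : Aˣ →* (Matrix ι ι A)ˣ :=
    { toFun := fun u =>
        { val := blk i j (U u) 0 0 1
          inv := blk i j (U (u⁻¹ : Aˣ)) 0 0 1
          val_inv := by rw [blk_mul h]; simp [hUm, hU1, blk_one]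
          inv_val := by rw [blk_mul h]; simp [hUm, hU1, blk_one] }
      map_one' := by apply Units.ext; simp [hU1, blk_one]
      map_mul' := fun u v => by
        apply Units.ext
        change blk i j (U ((u * v : Aˣ) : A)) 0 0 1 = blk i j (U u) 0 0 1 * blk i j (U v) 0 0 1
        rw [blk_mul h, Units.val_mul]
        simp only [hUm, mul_zero, zero_mul, add_zero, mul_one, zero_add] }
  have hmem : ∀ u, ψ0 u ∈ EGrp ι A := by
    intro u
    set b : Aˣ := Units.map (I.φ : A →* A) u with hb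
    obtain ⟨g1, hg1, e1⟩ := whitehead (ι := ι) h (1 : A) 1 (by simp) b
    obtain ⟨g2, hg2, e2⟩ := whitehead (ι := ι) h I.x1 I.y1 I.h11 b
    have : ψ0 u = g1 * g2⁻¹ := by
      rw [eq_mul_inv_iff_mul_eq]
      apply Units.ext
      rw [Units.val_mul, e1, e2]
      change blk i j (U u) 0 0 1 * _ = _
      rw [blk_mul h]
      have e3 : (1 : A) + I.x1 * I.y1 = I.x0 * I.y0 := by
        rw [← I.hs, add_assoc, ← two_mul, h2, zero_mul, add_zero]
      have e4 : (b : A) = I.φ u := rfl
      congr 1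
      · rw [e3, e4]
        conv_rhs => rw [mul_one, one_mul, mul_one, ← two_mul, h2, zero_mul, zero_add, I.hφ u]
        simp only [hU, mul_add, add_mul, mul_assoc, a1, a2, a3, a4, mul_zero, add_zero, zero_add]
      all_goals simp
    rw [this]
    exact mul_mem hg1 (inv_mem hg2)
  refine ⟨ψ0.codRestrict (EGrp ι A) hmem, ?_⟩
  intro u v huv
  have h1 : ψ0 u = ψ0 v := congrArg Subtype.val huv
  have h4 : blk i j (U u) 0 0 (1 : A) = blk i j (U v) 0 0 1 := congrArg Units.val h1
  have h5 : U u = U v := blk_inj h h4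
  apply Units.ext
  have h6 : I.y0 * (U u * I.x0) = I.y0 * (U v * I.x0) := by rw [h5]
  simpa only [hU, mul_assoc, add_mul, I.h00, mul_one, I.h10, mul_zero, add_zero, a1] using h6

end Vale.Agent.P193.BH

end FileEmbed

/-! file GroupStep -/

section FileGroupStep
/-! A: the group step -/

namespace Vale.Agent.P193.BH

theorem charP_two (A : Type) [Ring A] [Algebra (ZMod 2) A] [Nontrivial A] : CharP A 2 :=
  charP_of_injective_algebraMap (algebraMap (ZMod 2) A).injective 2

/-- the group step -/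
theorem groupStep (A : Type) [Ring A] [Algebra (ZMod 2) A] [Nontrivial A] (hfp : FPAlg A)
    (hpi : PI A) (hc : CenterTriv A) (I : InfSum A) (L : Leav A) (hL : L.Tiny) :
    ∃ (K : Type) (_ : Group K), IsSimpleGroup K ∧ Group.IsFinitelyPresented K ∧
      ∃ ψ : Aˣ →* K, Function.Injective ψ := by
  haveI := charP_two A
  refine ⟨EGrp (Fin 5) A, inferInstance, egrp_simple (Fin 5) A (by simp) hpi hc L hL, ?_,
    exists_embed (Fin 5) A (by simp) I⟩
  haveI := st_fp A hfp
  have hinj := toGL_injective (ι := Fin 5) I L hL (by simp)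
  exact Group.IsFinitelyPresented.equiv (MonoidHom.ofInjective hinj)

end Vale.Agent.P193.BH

end FileGroupStep

/-! file TensorCone -/

section FileTensorCone
/-! T1, T2: cone algebras and their tensor products -/

namespace Vale.Agent.P193.BH

open TensorProduct

/-- over the field with two elements, elements of a span are sums of finite subsets -/
theorem exists_finset_of_mem_span {B : Type} [AddCommGroup B] [Module (ZMod 2) B] {S : Set B}
    {x : B} (hx : x ∈ Submodule.span (ZMod 2) S) :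
    ∃ T : Finset B, (T : Set B) ⊆ S ∧ x = ∑ t ∈ T, t := by
  classical
  obtain ⟨f, hf, rfl⟩ := Submodule.mem_span_set.mp hx
  refine ⟨f.support, hf, ?_⟩
  unfold Finsupp.sum
  apply Finset.sum_congr rfl
  intro t ht
  have h1 : f t ≠ 0 := Finsupp.mem_support_iff.mp ht
  have h2 : ∀ z : ZMod 2, z ≠ 0 → z = 1 := by decide
  show f t • t = t
  rw [h2 _ h1, one_smul]

section

variable {B : Type} [Ring B] [Algebra (ZMod 2) B] {C : Set (B × B)}

/-- the key computation: separating one cone from finitely many others -/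
theorem Cone.sep (h : Cone B C) {c : B × B} (hc : c ∈ C) {T : Finset B}
    (hT : (T : Set B) ⊆ Prod.fst '' C) :
    ∃ d ∈ C, (c.1 ∈ T → d.2 * c.2 * (∑ t ∈ T, t) * d.1 = 1) ∧
      (c.1 ∉ T → d.2 * c.2 * (∑ t ∈ T, t) * d.1 = 0) := by
  classical
  obtain ⟨d, hd, hd2⟩ := h.K2 c hc (T.erase c.1)
    ((Finset.coe_subset.mpr (Finset.erase_subset _ _)).trans hT) (Finset.notMem_erase _ _)
  refine ⟨d, hd, fun hm => ?_, fun hm => ?_⟩
  · rw [← Finset.add_sum_erase T _ hm, mul_add, add_mul, Finset.mul_sum, Finset.sum_mul,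
      Finset.sum_eq_zero hd2, add_zero, mul_assoc, mul_assoc, ← mul_assoc c.2, h.inv c hc,
      one_mul, h.inv d hd]
  · rw [Finset.erase_eq_of_notMem hm] at hd2
    rw [Finset.mul_sum, Finset.sum_mul, Finset.sum_eq_zero hd2]

omit [Algebra (ZMod 2) B] in
theorem list_sum_mul_ne {l : List (B × B)} {b : B} (hb : b ≠ 0)
    (hs : (l.map fun c => c.1 * c.2).sum = 1) : ∃ c ∈ l, b * c.1 ≠ 0 := by
  by_contra hcon
  push Not at hcon
  apply hb
  have h1 : b = (l.map fun c => b * (c.1 * c.2)).sum := by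
    rw [List.sum_map_mul_left, hs, mul_one]
  rw [h1]
  apply List.sum_eq_zero
  intro x hx
  obtain ⟨c, hc, rfl⟩ := List.mem_map.mp hx
  rw [← mul_assoc, hcon c hc, zero_mul]

/-- T1 -/
theorem Cone.pi (h : Cone B C) : PI B := by
  intro b hb
  obtain ⟨l, hl, hs, hsp⟩ := h.K1 b
  obtain ⟨c, hc, hbc⟩ := list_sum_mul_ne hb hs
  obtain ⟨T, hT, hbT⟩ := exists_finset_of_mem_span (hsp c hc)
  have hne : T.Nonempty := by
    rw [Finset.nonempty_iff_ne_empty]
    rintro rfl
    exact hbc (by simpa only [Finset.sum_empty] using hbT)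
  obtain ⟨s, hs⟩ := hne
  obtain ⟨e, he, rfl⟩ := hT hs
  obtain ⟨d, hd, h1, -⟩ := h.sep he hT
  refine ⟨d.2 * e.2, c.1 * d.1, ?_⟩
  rw [← h1 hs, ← hbT]
  noncomm_ring

/-- T1 -/
theorem Cone.center (h : Cone B C) : CenterTriv B := by
  intro b hb
  obtain ⟨l, hl, hs, hsp⟩ := h.K1 b
  rcases l with _ | ⟨e, l⟩
  · left
    have h01 : (1 : B) = 0 := by simpa only [List.map_nil, List.sum_nil] using hs.symm
    rw [← mul_one b, h01, mul_zero]
  · have he : e ∈ C := hl e (List.mem_cons_self)
    obtain ⟨T, hT, hbT⟩ := exists_finset_of_mem_span (hsp e List.mem_cons_self)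
    obtain ⟨d, hd, h1, h2⟩ := h.sep he hT
    have h3 : d.2 * e.2 * (b * e.1) * d.1 = b := by
      calc d.2 * e.2 * (b * e.1) * d.1 = d.2 * e.2 * b * (e.1 * d.1) := by noncomm_ring
        _ = b * (d.2 * e.2) * (e.1 * d.1) := by rw [hb (d.2 * e.2)]
        _ = b * (d.2 * (e.2 * e.1) * d.1) := by noncomm_ring
        _ = b := by rw [h.inv e he, mul_one, h.inv d hd, mul_one]
    rw [← hbT, h3] at h1 h2
    by_cases hm : e.1 ∈ T
    · exact Or.inr (h1 hm)
    · exact Or.inl (h2 hm)

/-- right multiplication by a cone preserves the span of the cones -/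
theorem Cone.span_mul (hmul : ∀ c ∈ C, ∀ d ∈ C, (c.1 * d.1, d.2 * c.2) ∈ C) {x : B}
    (hx : x ∈ Submodule.span (ZMod 2) (Prod.fst '' C)) {d : B × B} (hd : d ∈ C) :
    x * d.1 ∈ Submodule.span (ZMod 2) (Prod.fst '' C) := by
  induction hx using Submodule.span_induction with
  | mem y hy =>
    obtain ⟨c, hc, rfl⟩ := hy
    exact Submodule.subset_span ⟨_, hmul c hc d hd, rfl⟩
  | zero => rw [zero_mul]; exact Submodule.zero_mem _
  | add y z _ _ hy hz => rw [add_mul]; exact Submodule.add_mem _ hy hz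
  | smul a y _ hy => rw [smul_mul_assoc]; exact Submodule.smul_mem _ _ hy

omit [Algebra (ZMod 2) B] in
/-- refinement of a family of cones -/
theorem list_refine (hmul : ∀ c ∈ C, ∀ d ∈ C, (c.1 * d.1, d.2 * c.2) ∈ C)
    (l : List (B × B)) (f : B × B → List (B × B)) (hl : ∀ c ∈ l, c ∈ C)
    (hs : (l.map fun c => c.1 * c.2).sum = 1)
    (hf : ∀ c ∈ l, (∀ d ∈ f c, d ∈ C) ∧ ((f c).map fun d => d.1 * d.2).sum = 1) :
    (∀ e ∈ l.flatMap (fun c => (f c).map fun d => (c.1 * d.1, d.2 * c.2)), e ∈ C) ∧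
      ((l.flatMap (fun c => (f c).map fun d => (c.1 * d.1, d.2 * c.2))).map
        fun e => e.1 * e.2).sum = 1 := by
  constructor
  · intro e he
    obtain ⟨c, hc, he⟩ := List.mem_flatMap.mp he
    obtain ⟨d, hd, rfl⟩ := List.mem_map.mp he
    exact hmul c (hl c hc) d ((hf c hc).1 d hd)
  · have key : ∀ l' : List (B × B), (∀ c ∈ l', c ∈ l) →
        ((l'.flatMap (fun c => (f c).map fun d => (c.1 * d.1, d.2 * c.2))).map
          fun e => e.1 * e.2).sum = (l'.map fun c => c.1 * c.2).sum := by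
      intro l'
      induction l' with
      | nil => simp
      | cons c l' ih =>
        intro hsub
        rw [List.flatMap_cons, List.map_append, List.sum_append, List.map_cons, List.sum_cons,
          ih (fun c hc => hsub c (List.mem_cons_of_mem _ hc))]
        congr 1
        rw [List.map_map]
        have h1 : (List.map ((fun e : B × B => e.1 * e.2) ∘ fun d => (c.1 * d.1, d.2 * c.2)) (f c))
            = List.map (fun d => c.1 * ((d.1 * d.2) * c.2)) (f c) := by
          apply List.map_congr_left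
          intro d _
          simp only [Function.comp_apply]
          noncomm_ring
        rw [h1, List.sum_map_mul_left, List.sum_map_mul_right,
          (hf c (hsub c List.mem_cons_self)).2, one_mul]
    rw [key l (fun _ h => h), hs]

end

variable {A B : Type} [Ring A] [Algebra (ZMod 2) A] [Ring B] [Algebra (ZMod 2) B]

/-- the tensor cones -/
def tcone (C : Set (A × A)) (D : Set (B × B)) : Set ((A ⊗[ZMod 2] B) × (A ⊗[ZMod 2] B)) :=
  {e | ∃ c ∈ C, ∃ d ∈ D, e = (c.1 ⊗ₜ[ZMod 2] d.1, c.2 ⊗ₜ[ZMod 2] d.2)}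

theorem tcone_span {C : Set (A × A)} {D : Set (B × B)} {a : A} {b : B}
    (ha : a ∈ Submodule.span (ZMod 2) (Prod.fst '' C))
    (hb : b ∈ Submodule.span (ZMod 2) (Prod.fst '' D)) :
    a ⊗ₜ[ZMod 2] b ∈ Submodule.span (ZMod 2) (Prod.fst '' (tcone C D)) := by
  induction ha using Submodule.span_induction with
  | mem y hy =>
    obtain ⟨c, hc, rfl⟩ := hy
    induction hb using Submodule.span_induction with
    | mem z hz =>
      obtain ⟨d, hd, rfl⟩ := hz
      exact Submodule.subset_span ⟨_, ⟨c, hc, d, hd, rfl⟩, rfl⟩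
    | zero => rw [TensorProduct.tmul_zero]; exact Submodule.zero_mem _
    | add y z _ _ hy hz => rw [TensorProduct.tmul_add]; exact Submodule.add_mem _ hy hz
    | smul r y _ hy => rw [TensorProduct.tmul_smul]; exact Submodule.smul_mem _ _ hy
  | zero => rw [TensorProduct.zero_tmul]; exact Submodule.zero_mem _
  | add y z _ _ hy hz => rw [TensorProduct.add_tmul]; exact Submodule.add_mem _ hy hz
  | smul r y _ hy => rw [← TensorProduct.smul_tmul']; exact Submodule.smul_mem _ _ hy

theorem tcone_mul {C : Set (A × A)} {D : Set (B × B)}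
    (hC : ∀ c ∈ C, ∀ d ∈ C, (c.1 * d.1, d.2 * c.2) ∈ C)
    (hD : ∀ c ∈ D, ∀ d ∈ D, (c.1 * d.1, d.2 * c.2) ∈ D) :
    ∀ c ∈ tcone C D, ∀ d ∈ tcone C D, (c.1 * d.1, d.2 * c.2) ∈ tcone C D := by
  rintro _ ⟨c, hc, d, hd, rfl⟩ _ ⟨c', hc', d', hd', rfl⟩
  refine ⟨_, hC c hc c' hc', _, hD d hd d' hd', ?_⟩
  simp only [Algebra.TensorProduct.tmul_mul_tmul]

/-- common refinement for pure tensors -/
theorem tcone_K1_pure {C : Set (A × A)} {D : Set (B × B)} (h : Cone A C) (h' : Cone B D)
    (a : A) (b : B) :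
    ∃ l : List ((A ⊗[ZMod 2] B) × (A ⊗[ZMod 2] B)), (∀ c ∈ l, c ∈ tcone C D) ∧
      (l.map fun c => c.1 * c.2).sum = 1 ∧
      ∀ c ∈ l, (a ⊗ₜ[ZMod 2] b) * c.1 ∈ Submodule.span (ZMod 2) (Prod.fst '' (tcone C D)) := by
  obtain ⟨l1, h1, s1, p1⟩ := h.K1 a
  obtain ⟨l2, h2, s2, p2⟩ := h'.K1 b
  refine ⟨l1.flatMap fun c => l2.map fun d => (c.1 ⊗ₜ[ZMod 2] d.1, c.2 ⊗ₜ[ZMod 2] d.2), ?_, ?_, ?_⟩
  · intro e he
    obtain ⟨c, hc, he⟩ := List.mem_flatMap.mp he
    obtain ⟨d, hd, rfl⟩ := List.mem_map.mp he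
    exact ⟨c, h1 c hc, d, h2 d hd, rfl⟩
  · have key : ∀ l' : List (A × A),
        ((l'.flatMap fun c => l2.map fun d => (c.1 ⊗ₜ[ZMod 2] d.1, c.2 ⊗ₜ[ZMod 2] d.2)).map
          fun e => e.1 * e.2).sum = ((l'.map fun c => c.1 * c.2).sum) ⊗ₜ[ZMod 2] (1 : B) := by
      intro l'
      induction l' with
      | nil => simp
      | cons c l' ih =>
        rw [List.flatMap_cons, List.map_append, List.sum_append, List.map_cons, List.sum_cons,
          ih, TensorProduct.add_tmul]
        congr 1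
        rw [List.map_map, ← s2]
        have key2 : ∀ l'' : List (B × B),
            (List.map ((fun e : (A ⊗[ZMod 2] B) × (A ⊗[ZMod 2] B) => e.1 * e.2) ∘
              fun d : B × B => (c.1 ⊗ₜ[ZMod 2] d.1, c.2 ⊗ₜ[ZMod 2] d.2)) l'').sum
              = (c.1 * c.2) ⊗ₜ[ZMod 2] ((l''.map fun d => d.1 * d.2).sum) := by
          intro l''
          induction l'' with
          | nil => simp
          | cons d l'' ih2 =>
            rw [List.map_cons, List.sum_cons, ih2, List.map_cons, List.sum_cons,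
              TensorProduct.tmul_add]
            simp only [Function.comp_apply, Algebra.TensorProduct.tmul_mul_tmul]
        exact key2 l2
    rw [key l1, s1]
    rfl
  · intro e he
    obtain ⟨c, hc, he⟩ := List.mem_flatMap.mp he
    obtain ⟨d, hd, rfl⟩ := List.mem_map.mp he
    simp only [Algebra.TensorProduct.tmul_mul_tmul]
    exact tcone_span (p1 c hc) (p2 d hd)

theorem tcone_K1 {C : Set (A × A)} {D : Set (B × B)} (h : Cone A C) (h' : Cone B D)
    (b : A ⊗[ZMod 2] B) :
    ∀ e ∈ tcone C D, ∃ l : List ((A ⊗[ZMod 2] B) × (A ⊗[ZMod 2] B)), (∀ c ∈ l, c ∈ tcone C D) ∧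
      (l.map fun c => c.1 * c.2).sum = 1 ∧
      ∀ c ∈ l, b * e.1 * c.1 ∈ Submodule.span (ZMod 2) (Prod.fst '' (tcone C D)) := by
  have hmul := tcone_mul h.mul h'.mul
  induction b using TensorProduct.induction_on with
  | zero =>
    intro e he
    refine ⟨[(1, 1)], ?_, by simp, ?_⟩
    · intro c hc
      rw [List.mem_singleton] at hc
      subst hc
      exact ⟨_, h.one, _, h'.one, rfl⟩
    · intro c _
      rw [zero_mul, zero_mul]
      exact Submodule.zero_mem _
  | tmul x y =>
    rintro _ ⟨c, hc, d, hd, rfl⟩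
    simp only [Algebra.TensorProduct.tmul_mul_tmul]
    exact tcone_K1_pure h h' (x * c.1) (y * d.1)
  | add x y hx hy =>
    intro e he
    obtain ⟨l, hl, hs, hp⟩ := hx e he
    have hy' : ∀ c : (A ⊗[ZMod 2] B) × (A ⊗[ZMod 2] B),
        ∃ l' : List ((A ⊗[ZMod 2] B) × (A ⊗[ZMod 2] B)), c ∈ l →
        (∀ d ∈ l', d ∈ tcone C D) ∧ (l'.map fun c => c.1 * c.2).sum = 1 ∧
        ∀ d ∈ l', y * (e.1 * c.1) * d.1 ∈ Submodule.span (ZMod 2) (Prod.fst '' (tcone C D)) := by
      intro c
      by_cases hc : c ∈ l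
      · obtain ⟨l', h1, h2, h3⟩ := hy _ (hmul e he c (hl c hc))
        exact ⟨l', fun _ => ⟨h1, h2, h3⟩⟩
      · exact ⟨[], fun h => absurd h hc⟩
    choose f hf using hy'
    obtain ⟨g1, g2⟩ := list_refine hmul l f hl hs (fun c hc => ⟨(hf c hc).1, (hf c hc).2.1⟩)
    refine ⟨_, g1, g2, ?_⟩
    intro e' he'
    obtain ⟨c, hc, he'⟩ := List.mem_flatMap.mp he'
    obtain ⟨d, hd, rfl⟩ := List.mem_map.mp he'
    simp only
    have e1 : (x + y) * e.1 * (c.1 * d.1) = (x * e.1 * c.1) * d.1 + y * (e.1 * c.1) * d.1 := by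
      noncomm_ring
    rw [e1]
    exact Submodule.add_mem _ (Cone.span_mul hmul (hp c hc) ((hf c hc).1 d hd))
      ((hf c hc).2.2 d hd)

/-- T2 -/
theorem Cone.tensor {C : Set (A × A)} {D : Set (B × B)} (h : Cone A C) (h' : Cone B D)
    [Nontrivial A] [Nontrivial B] :
    ∃ E : Set ((A ⊗[ZMod 2] B) × (A ⊗[ZMod 2] B)), Cone (A ⊗[ZMod 2] B) E := by
  classical
  refine ⟨tcone C D, ?_, ?_, tcone_mul h.mul h'.mul, ?_, ?_⟩
  · exact ⟨_, h.one, _, h'.one, rfl⟩
  · rintro _ ⟨c, hc, d, hd, rfl⟩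
    simp only [Algebra.TensorProduct.tmul_mul_tmul, h.inv c hc, h'.inv d hd]
    rfl
  · intro b
    obtain ⟨l, h1, h2, h3⟩ := tcone_K1 h h' b _ ⟨_, h.one, _, h'.one, rfl⟩
    refine ⟨l, h1, h2, fun c hc => ?_⟩
    have := h3 c hc
    simp only at this
    rw [← Algebra.TensorProduct.one_def, mul_one] at this
    exact this
  · rintro _ ⟨c, hc, d, hd, rfl⟩ T hT hnot
    simp only at hnot
    have hT' : ∀ t : A ⊗[ZMod 2] B, ∃ uv : (A × A) × (B × B), t ∈ T →
        uv.1 ∈ C ∧ uv.2 ∈ D ∧ t = uv.1.1 ⊗ₜ[ZMod 2] uv.2.1 := by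
      intro t
      by_cases ht : t ∈ T
      · obtain ⟨e, ⟨u, hu, v, hv, rfl⟩, rfl⟩ := hT ht
        exact ⟨(u, v), fun _ => ⟨hu, hv, rfl⟩⟩
      · exact ⟨((0, 0), (0, 0)), fun h => absurd h ht⟩
    choose g hg using hT'
    obtain ⟨r, hr, hr2⟩ := h.K2 c hc ((T.image fun t => (g t).1.1).filter fun a => a ≠ c.1)
      (by
        intro a ha
        rw [Finset.mem_coe, Finset.mem_filter, Finset.mem_image] at ha
        obtain ⟨⟨t, ht, rfl⟩, -⟩ := ha
        exact ⟨_, (hg t ht).1, rfl⟩) (by simp only [ne_eq, Finset.mem_filter, Finset.mem_image, not_true_eq_false, and_false, not_false_eq_true])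
    obtain ⟨r', hr', hr2'⟩ := h'.K2 d hd ((T.image fun t => (g t).2.1).filter fun a => a ≠ d.1)
      (by
        intro a ha
        rw [Finset.mem_coe, Finset.mem_filter, Finset.mem_image] at ha
        obtain ⟨⟨t, ht, rfl⟩, -⟩ := ha
        exact ⟨_, (hg t ht).2.1, rfl⟩) (by simp only [ne_eq, Finset.mem_filter, Finset.mem_image, not_true_eq_false, and_false, not_false_eq_true])
    refine ⟨_, ⟨r, hr, r', hr', rfl⟩, ?_⟩
    intro t ht
    obtain ⟨h1, h2, h3⟩ := hg t ht
    simp only
    rw [h3]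
    simp only [Algebra.TensorProduct.tmul_mul_tmul]
    by_cases hu : (g t).1.1 = c.1
    · have hv : (g t).2.1 ≠ d.1 := by
        intro hv
        apply hnot
        rw [← hu, ← hv, ← h3]
        exact ht
      rw [hr2' _ (by
        rw [Finset.mem_filter, Finset.mem_image]
        exact ⟨⟨t, ht, rfl⟩, hv⟩), TensorProduct.tmul_zero]
    · rw [hr2 _ (by
        rw [Finset.mem_filter, Finset.mem_image]
        exact ⟨⟨t, ht, rfl⟩, hu⟩), TensorProduct.zero_tmul]

end Vale.Agent.P193.BH

end FileTensorCone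

/-! file TensorSep -/

section FileTensorSep
/-! T3, T6: tensor products of a separated algebra with an algebra satisfying PI -/

namespace Vale.Agent.P193.BH

open TensorProduct

variable {A B R : Type} [Ring A] [Algebra (ZMod 2) A] [Ring B] [Algebra (ZMod 2) B]
  [Ring R] [Algebra (ZMod 2) R]

theorem includeRight_inj [Nontrivial R] :
    Function.Injective (fun b : B => (1 : R) ⊗ₜ[ZMod 2] b) :=
  Algebra.TensorProduct.includeRight_injective (R := ZMod 2) (A := R) (B := B)
    (algebraMap (ZMod 2) R).injective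

theorem includeLeft_inj [Nontrivial B] :
    Function.Injective (fun a : A => a ⊗ₜ[ZMod 2] (1 : B)) :=
  Algebra.TensorProduct.includeLeft_injective (R := ZMod 2) (S := ZMod 2) (A := A) (B := B)
    (algebraMap (ZMod 2) B).injective

/-- T6 -/
theorem nontrivial_tensor [Nontrivial A] [Nontrivial B] : Nontrivial (A ⊗[ZMod 2] B) :=
  (includeLeft_inj (A := A) (B := B)).nontrivial

/-- T6 -/
theorem units_tensor [Nontrivial B] : ∃ ψ : Rˣ →* (R ⊗[ZMod 2] B)ˣ, Function.Injective ψ :=
  ⟨Units.map ((Algebra.TensorProduct.includeLeft :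
      R →ₐ[ZMod 2] R ⊗[ZMod 2] B) : R →* R ⊗[ZMod 2] B),
    Units.map_injective (includeLeft_inj (A := R) (B := B))⟩

/-- every tensor is a sum over a spanning set -/
theorem exists_finsupp_tensor {M : Set R} (hM : Submodule.span (ZMod 2) M = ⊤)
    (r : R ⊗[ZMod 2] B) :
    ∃ f : M →₀ B, r = f.sum fun m b => (m : R) ⊗ₜ[ZMod 2] b := by
  induction r using TensorProduct.induction_on with
  | zero => exact ⟨0, by simp⟩
  | tmul x y =>
    have hx : x ∈ Submodule.span (ZMod 2) (Set.range (Subtype.val : M → R)) := by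
      rw [Subtype.range_coe, hM]
      trivial
    obtain ⟨c, hc⟩ := Finsupp.mem_span_range_iff_exists_finsupp.mp hx
    refine ⟨c.mapRange (fun a => a • y) (zero_smul _ y), ?_⟩
    rw [Finsupp.sum_mapRange_index (fun m => TensorProduct.tmul_zero _ _), ← hc, Finsupp.sum,
      Finsupp.sum, TensorProduct.sum_tmul]
    exact Finset.sum_congr rfl fun m _ => TensorProduct.smul_tmul _ _ _
  | add x y hx hy =>
    obtain ⟨f, hf⟩ := hx
    obtain ⟨g, hg⟩ := hy
    refine ⟨f + g, ?_⟩
    classical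
    rw [Finsupp.sum_add_index' (fun m => TensorProduct.tmul_zero _ _)
      (fun m b b' => TensorProduct.tmul_add _ _ _), ← hf, ← hg]

/-- the separating elements -/
theorem Sep.coef {M : Set R} (h : Sep R M) (f : M →₀ B) (m : M) (T : Finset R)
    (hT : (T : Set R) ⊆ M) (hm : (m : R) ∉ T) :
    ∃ p q : R, (∀ t ∈ T, p * t * q = 0) ∧
      (p ⊗ₜ[ZMod 2] (1 : B)) * (f.sum fun m b => (m : R) ⊗ₜ[ZMod 2] b) *
        (q ⊗ₜ[ZMod 2] (1 : B)) = (1 : R) ⊗ₜ[ZMod 2] (f m) := by
  classical
  obtain ⟨p, q, h1, h2⟩ := h.2.2 m m.2 (T ∪ (f.support.image Subtype.val).erase (m : R)) (by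
    intro x hx
    rw [Finset.coe_union, Set.mem_union] at hx
    rcases hx with hx | hx
    · exact hT hx
    · obtain ⟨y, _, rfl⟩ := Finset.mem_image.mp (Finset.mem_of_mem_erase hx)
      exact y.2) (by
    rw [Finset.mem_union]
    rintro (hx | hx)
    · exact hm hx
    · exact Finset.notMem_erase _ _ hx)
  refine ⟨p, q, fun t ht => h2 t (Finset.mem_union_left _ ht), ?_⟩
  rw [Finsupp.sum, Finset.mul_sum, Finset.sum_mul]
  simp only [Algebra.TensorProduct.tmul_mul_tmul, one_mul, mul_one]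
  rw [Finset.sum_eq_single m]
  · rw [h1]
  · intro x hx hne
    have h3 : (x : R) ≠ m := fun h' => hne (Subtype.ext h')
    rw [h2 x (Finset.mem_union_right _ (Finset.mem_erase.mpr ⟨h3,
      Finset.mem_image.mpr ⟨x, hx, rfl⟩⟩)), TensorProduct.zero_tmul]
  · intro hx
    rw [Finsupp.notMem_support_iff.mp hx, TensorProduct.tmul_zero]

/-- T3 -/
theorem Sep.pi_tensor {M : Set R} (h : Sep R M) (hB : PI B) : PI (R ⊗[ZMod 2] B) := by
  intro r hr
  obtain ⟨f, rfl⟩ := exists_finsupp_tensor (B := B) h.2.1 r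
  have hne : ∃ m, f m ≠ 0 := by
    by_contra hcon
    push Not at hcon
    apply hr
    have h0 : f = 0 := Finsupp.ext hcon
    rw [h0, Finsupp.sum_zero_index]
  obtain ⟨m, hm⟩ := hne
  obtain ⟨p, q, _, h1⟩ := h.coef f m ∅ (by simp) (by simp)
  obtain ⟨p', q', h2⟩ := hB _ hm
  refine ⟨(1 : R) ⊗ₜ p' * p ⊗ₜ (1 : B), q ⊗ₜ (1 : B) * (1 : R) ⊗ₜ q', ?_⟩
  have h3 : (1 : R) ⊗ₜ[ZMod 2] p' * p ⊗ₜ (1 : B) * (f.sum fun m b => (m : R) ⊗ₜ[ZMod 2] b) *
      (q ⊗ₜ (1 : B) * (1 : R) ⊗ₜ q') = (1 : R) ⊗ₜ[ZMod 2] p' *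
        (p ⊗ₜ[ZMod 2] (1 : B) * (f.sum fun m b => (m : R) ⊗ₜ[ZMod 2] b) *
        q ⊗ₜ[ZMod 2] (1 : B)) * (1 : R) ⊗ₜ[ZMod 2] q' := by
    simp only [mul_assoc]
  rw [h3, h1, Algebra.TensorProduct.tmul_mul_tmul, Algebra.TensorProduct.tmul_mul_tmul, h2,
    one_mul, one_mul]
  rfl

/-- T3 -/
theorem Sep.center_tensor {M : Set R} (h : Sep R M) [Nontrivial R] (hB : CenterTriv B) :
    CenterTriv (R ⊗[ZMod 2] B) := by
  classical
  intro c hc
  obtain ⟨f, hf⟩ := exists_finsupp_tensor (B := B) h.2.1 c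
  have hsupp : ∀ m : M, (m : R) ≠ 1 → f m = 0 := by
    intro m hm
    obtain ⟨p, q, h1, h2⟩ := h.coef f m {1} (by simpa using h.1) (by simpa using hm)
    have h3 : p * q = 0 := by simpa only [mul_one] using h1 1 (by simp)
    rw [← hf] at h2
    have h4 : (p ⊗ₜ[ZMod 2] (1 : B)) * c * (q ⊗ₜ[ZMod 2] (1 : B)) = 0 := by
      rw [← hc, mul_assoc, Algebra.TensorProduct.tmul_mul_tmul, h3, TensorProduct.zero_tmul,
        mul_zero]
    rw [h4] at h2
    have h5 : (fun b : B => (1 : R) ⊗ₜ[ZMod 2] b) (f m) = (fun b : B => (1 : R) ⊗ₜ[ZMod 2] b) 0 := by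
      show (1 : R) ⊗ₜ[ZMod 2] (f m) = (1 : R) ⊗ₜ[ZMod 2] (0 : B)
      rw [← h2, TensorProduct.tmul_zero]
    exact includeRight_inj h5
  have h1 : c = (1 : R) ⊗ₜ[ZMod 2] (f ⟨1, h.1⟩) := by
    rw [hf, Finsupp.sum, Finset.sum_eq_single ⟨1, h.1⟩]
    · intro x _ hne
      rw [hsupp x (fun h' => hne (Subtype.ext h')), TensorProduct.tmul_zero]
    · intro hx
      rw [Finsupp.notMem_support_iff.mp hx, TensorProduct.tmul_zero]
  have h2 : ∀ b, f ⟨1, h.1⟩ * b = b * f ⟨1, h.1⟩ := by
    intro b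
    have h3 := hc ((1 : R) ⊗ₜ[ZMod 2] b)
    rw [h1, Algebra.TensorProduct.tmul_mul_tmul, Algebra.TensorProduct.tmul_mul_tmul,
      one_mul] at h3
    exact includeRight_inj (R := R) h3
  rcases hB _ h2 with h3 | h3
  · left
    rw [h1, h3, TensorProduct.tmul_zero]
  · right
    rw [h1, h3]
    rfl

end Vale.Agent.P193.BH

end FileTensorSep

/-! file TensorFP -/

section FileTensorFP
/-! T4, T5: finite presentation and infinite sum structures for tensor products -/

namespace Vale.Agent.P193.BH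

open TensorProduct

variable {A B R : Type} [Ring A] [Algebra (ZMod 2) A] [Ring B] [Algebra (ZMod 2) B]
  [Ring R] [Algebra (ZMod 2) R]

/-- lift of an algebra map along a surjective algebra map -/
theorem exists_algLift_tfp {F Q : Type} [Ring F] [Algebra (ZMod 2) F] [Ring Q]
    [Algebra (ZMod 2) Q] (f : F →ₐ[ZMod 2] A) (hf : Function.Surjective f)
    (g : F →ₐ[ZMod 2] Q) (h : ∀ x, f x = 0 → g x = 0) :
    ∃ α : A →ₐ[ZMod 2] Q, ∀ x, α (f x) = g x := by
  have key : ∀ x y, f x = f y → g x = g y := by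
    intro x y hxy
    have h1 : f (x - y) = 0 := by rw [map_sub, hxy, sub_self]
    have h2 := h _ h1
    rw [map_sub, sub_eq_zero] at h2
    exact h2
  choose inv hinv using hf
  have hg : ∀ x, g (inv (f x)) = g x := fun x => key _ _ (hinv _)
  refine ⟨{ toFun := fun a => g (inv a)
            map_one' := ?_
            map_mul' := ?_
            map_zero' := ?_
            map_add' := ?_
            commutes' := ?_ }, hg⟩
  · have := hg 1
    rw [map_one, map_one] at this
    exact this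
  · intro a b
    have : g (inv (a * b)) = g (inv a * inv b) := key _ _ (by rw [hinv, map_mul, hinv, hinv])
    rw [this, map_mul]
  · have := hg 0
    rw [map_zero, map_zero] at this
    exact this
  · intro a b
    have : g (inv (a + b)) = g (inv a + inv b) := key _ _ (by rw [hinv, map_add, hinv, hinv])
    change g (inv (a + b)) = g (inv a) + g (inv b)
    rw [this, map_add]
  · intro r
    have := hg (algebraMap _ _ r)
    rw [AlgHom.commutes, AlgHom.commutes] at this
    exact this

theorem span_le_of_tfp {F Q : Type} [Ring F] [Algebra (ZMod 2) F] [Ring Q]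
    [Algebra (ZMod 2) Q] (g : F →ₐ[ZMod 2] Q) (s : Set F) (h : ∀ x ∈ s, g x = 0) {x : F}
    (hx : x ∈ TwoSidedIdeal.span s) : g x = 0 := by
  have h1 : TwoSidedIdeal.span s ≤ TwoSidedIdeal.ker g := by
    rw [TwoSidedIdeal.span_le]
    intro y hy
    exact (TwoSidedIdeal.mem_ker g).2 (h y hy)
  exact (TwoSidedIdeal.mem_ker g).1 (h1 hx)

/-- T4 -/
theorem FPAlg.tensor (hA : FPAlg A) (hB : FPAlg B) : FPAlg (A ⊗[ZMod 2] B) := by
  classical
  obtain ⟨ι, hι, f, s, hf, hs, hfs⟩ := hA
  obtain ⟨κ, hκ, g, t, hg, ht, hgt⟩ := hB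
  let ja : FreeAlgebra (ZMod 2) ι →ₐ[ZMod 2] FreeAlgebra (ZMod 2) (ι ⊕ κ) :=
    FreeAlgebra.lift (ZMod 2) fun i => FreeAlgebra.ι (ZMod 2) (Sum.inl i)
  let jb : FreeAlgebra (ZMod 2) κ →ₐ[ZMod 2] FreeAlgebra (ZMod 2) (ι ⊕ κ) :=
    FreeAlgebra.lift (ZMod 2) fun i => FreeAlgebra.ι (ZMod 2) (Sum.inr i)
  let c : ι × κ → FreeAlgebra (ZMod 2) (ι ⊕ κ) := fun p =>
    FreeAlgebra.ι (ZMod 2) (Sum.inl p.1) * FreeAlgebra.ι (ZMod 2) (Sum.inr p.2) -
      FreeAlgebra.ι (ZMod 2) (Sum.inr p.2) * FreeAlgebra.ι (ZMod 2) (Sum.inl p.1)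
  let u : Set (FreeAlgebra (ZMod 2) (ι ⊕ κ)) := ja '' s ∪ jb '' t ∪ Set.range c
  let h : FreeAlgebra (ZMod 2) (ι ⊕ κ) →ₐ[ZMod 2] A ⊗[ZMod 2] B :=
    FreeAlgebra.lift (ZMod 2) (Sum.elim (fun i => f (FreeAlgebra.ι (ZMod 2) i) ⊗ₜ 1)
      (fun j => 1 ⊗ₜ g (FreeAlgebra.ι (ZMod 2) j)))
  have hja : ∀ x, h (ja x) = f x ⊗ₜ 1 := by
    intro x
    have : h.comp ja = (Algebra.TensorProduct.includeLeft).comp f := by
      apply FreeAlgebra.hom_ext
      funext i
      simp [h, ja]
    exact DFunLike.congr_fun this x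
  have hjb : ∀ x, h (jb x) = 1 ⊗ₜ g x := by
    intro x
    have : h.comp jb = (Algebra.TensorProduct.includeRight).comp g := by
      apply FreeAlgebra.hom_ext
      funext i
      simp [h, jb]
    exact DFunLike.congr_fun this x
  have hu : ∀ x ∈ u, h x = 0 := by
    rintro x ((⟨y, hy, rfl⟩ | ⟨y, hy, rfl⟩) | ⟨⟨i, j⟩, rfl⟩)
    · rw [hja, (hfs y).2 (TwoSidedIdeal.subset_span hy), TensorProduct.zero_tmul]
    · rw [hjb, (hgt y).2 (TwoSidedIdeal.subset_span hy), TensorProduct.tmul_zero]
    · simp [c, h]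
  let I : TwoSidedIdeal (FreeAlgebra (ZMod 2) (ι ⊕ κ)) := TwoSidedIdeal.span u
  let π : FreeAlgebra (ZMod 2) (ι ⊕ κ) →ₐ[ZMod 2] I.ringCon.Quotient :=
    { RingCon.mk' I.ringCon with commutes' := fun r => rfl }
  have hπ : ∀ x, π x = 0 ↔ x ∈ I := by
    intro x
    rw [TwoSidedIdeal.mem_iff]
    exact (RingCon.eq I.ringCon)
  have hπu : ∀ x ∈ u, π x = 0 := fun x hx => (hπ x).2 (TwoSidedIdeal.subset_span hx)
  obtain ⟨α, hα⟩ := exists_algLift_tfp f hf (π.comp ja) (fun x hx =>
    span_le_of_tfp (π.comp ja) s (fun y hy => hπu _ (Or.inl (Or.inl ⟨y, hy, rfl⟩)))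
      ((hfs x).1 hx))
  obtain ⟨β, hβ⟩ := exists_algLift_tfp g hg (π.comp jb) (fun x hx =>
    span_le_of_tfp (π.comp jb) t (fun y hy => hπu _ (Or.inl (Or.inr ⟨y, hy, rfl⟩)))
      ((hgt x).1 hx))
  have hc0 : ∀ i j, Commute (π (FreeAlgebra.ι (ZMod 2) (Sum.inl i)))
      (π (FreeAlgebra.ι (ZMod 2) (Sum.inr j))) := by
    intro i j
    have h1 := hπu (c (i, j)) (Or.inr ⟨(i, j), rfl⟩)
    simp only [c, map_sub, map_mul, sub_eq_zero] at h1
    exact h1
  have hc1 : ∀ i y, Commute (π (FreeAlgebra.ι (ZMod 2) (Sum.inl i))) (π (jb y)) := by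
    intro i y
    induction y using FreeAlgebra.induction with
    | grade0 r =>
      rw [AlgHom.commutes, AlgHom.commutes]
      exact (Algebra.commutes _ _).symm
    | grade1 j =>
      have : jb (FreeAlgebra.ι (ZMod 2) j) = FreeAlgebra.ι (ZMod 2) (Sum.inr j) := by simp [jb]
      rw [this]
      exact hc0 i j
    | mul a b ha hb =>
      rw [map_mul, map_mul]
      exact ha.mul_right hb
    | add a b ha hb =>
      rw [map_add, map_add]
      exact ha.add_right hb
  have hc2 : ∀ x y, Commute (π (ja x)) (π (jb y)) := by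
    intro x y
    induction x using FreeAlgebra.induction with
    | grade0 r =>
      rw [AlgHom.commutes, AlgHom.commutes]
      exact (Algebra.commutes _ _)
    | grade1 j =>
      have : ja (FreeAlgebra.ι (ZMod 2) j) = FreeAlgebra.ι (ZMod 2) (Sum.inl j) := by simp [ja]
      rw [this]
      exact hc1 j y
    | mul a b ha hb =>
      rw [map_mul, map_mul]
      exact ha.mul_left hb
    | add a b ha hb =>
      rw [map_add, map_add]
      exact ha.add_left hb
  let θ : A ⊗[ZMod 2] B →ₐ[ZMod 2] I.ringCon.Quotient :=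
    Algebra.TensorProduct.lift α β (by
      intro a b
      obtain ⟨x, rfl⟩ := hf a
      obtain ⟨y, rfl⟩ := hg b
      rw [hα, hβ]
      exact hc2 x y)
  have hθ : ∀ x, θ (h x) = π x := by
    intro x
    have : θ.comp h = π := by
      apply FreeAlgebra.hom_ext
      funext i
      rcases i with i | j
      · have e := hα (FreeAlgebra.ι (ZMod 2) i)
        simp only [AlgHom.comp_apply, ja, FreeAlgebra.lift_ι_apply] at e
        simp [h, θ, e]
      · have e := hβ (FreeAlgebra.ι (ZMod 2) j)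
        simp only [AlgHom.comp_apply, jb, FreeAlgebra.lift_ι_apply] at e
        simp [h, θ, e]
    exact DFunLike.congr_fun this x
  refine ⟨ι ⊕ κ, inferInstance, h, u, ?_, ?_, ?_⟩
  · intro z
    induction z using TensorProduct.induction_on with
    | zero => exact ⟨0, map_zero _⟩
    | tmul a b =>
      obtain ⟨x, rfl⟩ := hf a
      obtain ⟨y, rfl⟩ := hg b
      exact ⟨ja x * jb y, by rw [map_mul, hja, hjb]; simp⟩
    | add a b ha hb =>
      obtain ⟨x, rfl⟩ := ha
      obtain ⟨y, rfl⟩ := hb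
      exact ⟨x + y, map_add _ _ _⟩
  · exact ((hs.image _).union (ht.image _)).union (Set.finite_range _)
  · intro x
    constructor
    · intro hx
      have : π x = 0 := by rw [← hθ, hx, map_zero]
      exact (hπ x).1 this
    · exact span_le_of_tfp h u hu

/-- a ring endomorphism of an algebra over the field with two elements is linear -/
def zmodEnd_tfp (φ : A →+* A) : A →ₐ[ZMod 2] A :=
  { φ with
    commutes' := fun r => by
      have : (φ.comp (algebraMap (ZMod 2) A)) = algebraMap (ZMod 2) A := RingHom.ext_zmod _ _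
      exact DFunLike.congr_fun this r }

/-- T5 (right factor) -/
theorem InfSum.tensor_left (I : InfSum A) : Nonempty (InfSum (R ⊗[ZMod 2] A)) := by
  refine ⟨⟨1 ⊗ₜ I.x0, 1 ⊗ₜ I.x1, 1 ⊗ₜ I.y0, 1 ⊗ₜ I.y1,
    (Algebra.TensorProduct.map (AlgHom.id (ZMod 2) R) (zmodEnd_tfp I.φ)).toRingHom,
    ?_, ?_, ?_, ?_, ?_, ?_⟩⟩
  · simp [I.h00, Algebra.TensorProduct.one_def]
  · simp [I.h11, Algebra.TensorProduct.one_def]
  · simp [I.h01]
  · simp [I.h10]
  · simp [← TensorProduct.tmul_add, I.hs, Algebra.TensorProduct.one_def]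
  · intro a
    induction a using TensorProduct.induction_on with
    | zero => simp only [AlgHom.toRingHom_eq_coe, RingHom.coe_coe, map_zero, mul_zero, zero_mul, add_zero]
    | tmul r a =>
      have h1 : zmodEnd_tfp I.φ a = I.φ a := rfl
      simp [h1, ← TensorProduct.tmul_add, ← I.hφ]
    | add a b ha hb =>
      rw [map_add]
      conv_lhs => rw [ha, hb]
      simp only [mul_add, add_mul]
      abel

/-- T5 (left factor) -/
theorem InfSum.tensor_right (I : InfSum A) : Nonempty (InfSum (A ⊗[ZMod 2] R)) := by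
  refine ⟨⟨I.x0 ⊗ₜ 1, I.x1 ⊗ₜ 1, I.y0 ⊗ₜ 1, I.y1 ⊗ₜ 1,
    (Algebra.TensorProduct.map (zmodEnd_tfp I.φ) (AlgHom.id (ZMod 2) R)).toRingHom,
    ?_, ?_, ?_, ?_, ?_, ?_⟩⟩
  · simp [I.h00, Algebra.TensorProduct.one_def]
  · simp [I.h11, Algebra.TensorProduct.one_def]
  · simp [I.h01]
  · simp [I.h10]
  · simp [← TensorProduct.add_tmul, I.hs, Algebra.TensorProduct.one_def]
  · intro a
    induction a using TensorProduct.induction_on with
    | zero => simp only [AlgHom.toRingHom_eq_coe, RingHom.coe_coe, map_zero, mul_zero, zero_mul, add_zero]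
    | tmul a r =>
      have h1 : zmodEnd_tfp I.φ a = I.φ a := rfl
      simp [h1, ← TensorProduct.add_tmul, ← I.hφ]
    | add a b ha hb =>
      rw [map_add]
      conv_lhs => rw [ha, hb]
      simp only [mul_add, add_mul]
      abel

end Vale.Agent.P193.BH

end FileTensorFP

/-! file TensorTiny -/

section FileTensorTiny
/-! T (TINY): the bounded support property -/

namespace Vale.Agent.P193.BH

open TensorProduct

section noalg

variable {B : Type} [Ring B]

section

variable (L : Leav B)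

theorem Leav.sw_append (w v : List Bool) : L.sw (w ++ v) = L.sw w * L.sw v := by
  induction w with
  | nil => simp [Leav.sw]
  | cons b w ih => simp [Leav.sw, ih, mul_assoc]

theorem Leav.tw_append (w v : List Bool) : L.tw (w ++ v) = L.tw v * L.tw w := by
  induction w with
  | nil => simp [Leav.tw]
  | cons b w ih => simp [Leav.tw, ih, mul_assoc]

theorem Leav.sw_singleton (b : Bool) : L.sw [b] = L.s b := by simp [Leav.sw]

theorem Leav.tw_singleton (b : Bool) : L.tw [b] = L.t b := by simp [Leav.tw]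

theorem Leav.tw_mul_sw (w : List Bool) : ∀ v : List Bool, w.length = v.length →
    L.tw w * L.sw v = if w = v then 1 else 0 := by
  induction w with
  | nil =>
    intro v hv
    have : v = [] := by
      rw [← List.length_eq_zero_iff]; simpa using hv.symm
    subst this
    simp [Leav.tw, Leav.sw]
  | cons b w ih =>
    intro v hv
    cases v with
    | nil => simp at hv
    | cons c v =>
      have hwv : w.length = v.length := by simpa using hv
      have h1 : L.tw (b :: w) * L.sw (c :: v) = L.tw w * (L.t b * L.s c) * L.sw v := by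
        simp only [Leav.tw, Leav.sw, mul_assoc]
      rw [h1, L.ts]
      by_cases hbc : b = c
      · subst hbc
        simp [ih v hwv]
      · simp [hbc]

theorem Leav.sum_st : ∀ d : ℕ, ∑ w : List.Vector Bool d, L.sw w.1 * L.tw w.1 = 1 := by
  intro d
  induction d with
  | zero =>
    rw [Fintype.sum_eq_single (List.Vector.nil)]
    · simp [Leav.sw, Leav.tw]
    · intro x hx
      exact absurd (List.Vector.eq_nil x) hx
  | succ d ih =>
    let e : Bool × List.Vector Bool d ≃ List.Vector Bool (d + 1) :=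
      { toFun := fun p => List.Vector.cons p.1 p.2
        invFun := fun v => (v.head, v.tail)
        left_inv := fun p => by simp
        right_inv := fun v => by simp }
    rw [← e.sum_comp, Fintype.sum_prod_type]
    have h1 : ∀ b : Bool, ∑ y : List.Vector Bool d, L.sw (e (b, y)).1 * L.tw (e (b, y)).1
        = L.s b * L.t b := by
      intro b
      have : ∀ y : List.Vector Bool d, L.sw (e (b, y)).1 * L.tw (e (b, y)).1
          = L.s b * (L.sw y.1 * L.tw y.1) * L.t b := by
        intro y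
        have : (e (b, y)).1 = b :: y.1 := rfl
        rw [this]
        simp only [Leav.sw, Leav.tw, mul_assoc]
      simp only [this]
      rw [← Finset.sum_mul, ← Finset.mul_sum, ih, mul_one]
    simp only [h1, Fintype.sum_bool]
    rw [add_comm]
    exact L.st

end

/-- the bounded support property of one element -/
def Leav.TinyEl (L : Leav B) (r : B) : Prop :=
  ∃ C : ℕ, ∀ (d : ℕ) (w : List.Vector Bool d),
    Set.ncard {w' : List.Vector Bool d | L.tw w'.1 * r * L.sw w.1 ≠ 0} ≤ C ∧
    Set.ncard {w' : List.Vector Bool d | L.tw w.1 * r * L.sw w'.1 ≠ 0} ≤ C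

theorem Leav.TinyEl.add {L : Leav B} {r r' : B} (h : L.TinyEl r) (h' : L.TinyEl r') :
    L.TinyEl (r + r') := by
  obtain ⟨C, hC⟩ := h
  obtain ⟨C', hC'⟩ := h'
  refine ⟨C + C', fun d w => ⟨?_, ?_⟩⟩
  · refine le_trans (Set.ncard_le_ncard (t := {w' : List.Vector Bool d |
      L.tw w'.1 * r * L.sw w.1 ≠ 0} ∪ {w' : List.Vector Bool d |
      L.tw w'.1 * r' * L.sw w.1 ≠ 0}) ?_ (Set.toFinite _)) ?_
    · intro w' hw'
      simp only [Set.mem_ofPred_eq, Set.mem_union] at hw' ⊢
      by_contra hcon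
      push Not at hcon
      apply hw'
      rw [mul_add, add_mul, hcon.1, hcon.2, add_zero]
    · exact le_trans (Set.ncard_union_le _ _) (add_le_add (hC d w).1 (hC' d w).1)
  · refine le_trans (Set.ncard_le_ncard (t := {w' : List.Vector Bool d |
      L.tw w.1 * r * L.sw w'.1 ≠ 0} ∪ {w' : List.Vector Bool d |
      L.tw w.1 * r' * L.sw w'.1 ≠ 0}) ?_ (Set.toFinite _)) ?_
    · intro w' hw'
      simp only [Set.mem_ofPred_eq, Set.mem_union] at hw' ⊢
      by_contra hcon
      push Not at hcon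
      apply hw'
      rw [mul_add, add_mul, hcon.1, hcon.2, add_zero]
    · exact le_trans (Set.ncard_union_le _ _) (add_le_add (hC d w).2 (hC' d w).2)

theorem ncard_biUnion_le_mul {α β : Type*} [Finite α] [Finite β] (S : Set α) (T : α → Set β)
    (C C' : ℕ) (hS : S.ncard ≤ C) (hT : ∀ a, (T a).ncard ≤ C') :
    (⋃ a ∈ S, T a).ncard ≤ C * C' := by
  classical
  have hSf : S.Finite := Set.toFinite S
  obtain ⟨F, rfl⟩ : ∃ F : Finset α, S = ↑F := ⟨hSf.toFinset, by simp⟩
  have h1 : (⋃ a ∈ (F : Set α), T a).ncard ≤ ∑ a ∈ F, (T a).ncard := by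
    clear hS hSf
    induction F using Finset.induction_on with
    | empty => simp only [Finset.coe_empty, Set.mem_empty_iff_false, Set.iUnion_of_empty, Set.iUnion_empty, Set.ncard_empty, Finset.sum_empty, Std.le_refl]
    | insert a F ha ih =>
      rw [Finset.sum_insert ha]
      have : (⋃ x ∈ ((insert a F : Finset α) : Set α), T x) = T a ∪ ⋃ x ∈ (F : Set α), T x := by
        ext y; simp only [Finset.coe_insert, Set.mem_insert_iff, SetLike.mem_coe, Set.iUnion_iUnion_eq_or_left, Set.mem_union, Set.mem_iUnion, exists_prop]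
      rw [this]
      exact le_trans (Set.ncard_union_le _ _) (add_le_add le_rfl ih)
  refine h1.trans ?_
  calc ∑ a ∈ F, (T a).ncard ≤ ∑ _a ∈ F, C' := Finset.sum_le_sum fun a _ => hT a
    _ = F.card * C' := by simp
    _ ≤ C * C' := Nat.mul_le_mul_right _ (by simpa using hS)

theorem Leav.TinyEl.mul {L : Leav B} {r r' : B} (h : L.TinyEl r) (h' : L.TinyEl r') :
    L.TinyEl (r * r') := by
  obtain ⟨C, hC⟩ := h
  obtain ⟨C', hC'⟩ := h'
  have key : ∀ (d : ℕ) (x y : B), x * (r * r') * y
      = ∑ v : List.Vector Bool d, (x * r * L.sw v.1) * (L.tw v.1 * r' * y) := by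
    intro d x y
    have h1 : x * (r * r') * y = x * r * 1 * (r' * y) := by simp only [mul_assoc, one_mul]
    rw [h1, ← L.sum_st d, Finset.mul_sum, Finset.sum_mul]
    refine Finset.sum_congr rfl fun v _ => ?_
    simp only [mul_assoc]
  refine ⟨C * C' + C' * C, fun d w => ⟨?_, ?_⟩⟩
  · refine le_trans ?_ (Nat.le_add_left _ _)
    refine le_trans (Set.ncard_le_ncard (t := ⋃ v ∈ {v : List.Vector Bool d |
      L.tw v.1 * r' * L.sw w.1 ≠ 0}, {w' : List.Vector Bool d |
      L.tw w'.1 * r * L.sw v.1 ≠ 0}) ?_ (Set.toFinite _))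
      (ncard_biUnion_le_mul _ _ _ _ (hC' d w).1 fun v => (hC d v).1)
    intro w' hw'
    simp only [Set.mem_ofPred_eq] at hw'
    rw [key d] at hw'
    obtain ⟨v, -, hv⟩ := Finset.exists_ne_zero_of_sum_ne_zero hw'
    simp only [Set.mem_iUnion, Set.mem_ofPred_eq, exists_prop]
    refine ⟨v, ?_, ?_⟩
    · intro h0; apply hv; rw [h0, mul_zero]
    · intro h0; apply hv; rw [h0, zero_mul]
  · refine le_trans ?_ (Nat.le_add_right _ _)
    refine le_trans (Set.ncard_le_ncard (t := ⋃ v ∈ {v : List.Vector Bool d |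
      L.tw w.1 * r * L.sw v.1 ≠ 0}, {w' : List.Vector Bool d |
      L.tw v.1 * r' * L.sw w'.1 ≠ 0}) ?_ (Set.toFinite _))
      (ncard_biUnion_le_mul _ _ _ _ (hC d w).2 fun v => (hC' d v).2)
    intro w' hw'
    simp only [Set.mem_ofPred_eq] at hw'
    rw [key d] at hw'
    obtain ⟨v, -, hv⟩ := Finset.exists_ne_zero_of_sum_ne_zero hw'
    simp only [Set.mem_iUnion, Set.mem_ofPred_eq, exists_prop]
    refine ⟨v, ?_, ?_⟩
    · intro h0; apply hv; rw [h0, zero_mul]
    · intro h0; apply hv; rw [h0, mul_zero]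

/-- elements commuting with all `t_w` have the bounded support property -/
theorem Leav.tinyEl_of_commute (L : Leav B) (r : B) (hr : ∀ w, L.tw w * r = r * L.tw w) :
    L.TinyEl r := by
  refine ⟨1, fun d w => ⟨?_, ?_⟩⟩
  · refine le_trans (Set.ncard_le_ncard (t := {w}) ?_ (Set.toFinite _)) (by simp)
    intro w' hw'
    simp only [Set.mem_ofPred_eq, Set.mem_singleton_iff] at hw' ⊢
    by_contra hne
    apply hw'
    rw [hr, mul_assoc, L.tw_mul_sw _ _ (by rw [w'.2, w.2]), if_neg, mul_zero]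
    intro h; exact hne (Subtype.ext h)
  · refine le_trans (Set.ncard_le_ncard (t := {w}) ?_ (Set.toFinite _)) (by simp)
    intro w' hw'
    simp only [Set.mem_ofPred_eq, Set.mem_singleton_iff] at hw' ⊢
    by_contra hne
    apply hw'
    rw [hr, mul_assoc, L.tw_mul_sw _ _ (by rw [w'.2, w.2]), if_neg, mul_zero]
    intro h; exact hne (Subtype.ext h.symm)

/-- sets contained in the range of a function on `Bool` -/
theorem ncard_le_two_of_subset_range {α : Type*} [Finite α] (S : Set α) (f : Bool → α)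
    (h : ∀ a ∈ S, ∃ b, a = f b) : S.ncard ≤ 2 := by
  have h1 : S ⊆ {f false, f true} := by
    intro a ha
    obtain ⟨b, rfl⟩ := h a ha
    cases b <;> simp
  refine le_trans (Set.ncard_le_ncard h1 (Set.toFinite _)) ?_
  refine le_trans (Set.ncard_insert_le _ _) ?_
  rw [Set.ncard_singleton]

theorem Leav.tw_mul_s_mul_sw (L : Leav B) (b c e : Bool) (w v : List Bool)
    (h : w.length = v.length) :
    L.tw (c :: w) * L.s b * L.sw (v ++ [e]) = if c = b ∧ w = v then L.s e else 0 := by
  rw [L.sw_append, L.sw_singleton]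
  have h1 : L.tw (c :: w) * L.s b * (L.sw v * L.s e)
      = L.tw w * (L.t c * L.s b) * L.sw v * L.s e := by
    simp only [Leav.tw, mul_assoc]
  rw [h1, L.ts]
  by_cases hcb : c = b
  · subst hcb
    by_cases hwv : w = v
    · subst hwv
      simp [L.tw_mul_sw]
    · simp [L.tw_mul_sw _ _ h, hwv]
  · simp [hcb]

theorem Leav.tw_mul_t_mul_sw (L : Leav B) (b c e : Bool) (w v : List Bool)
    (h : w.length = v.length) :
    L.tw (w ++ [e]) * L.t b * L.sw (c :: v) = if b = c ∧ w = v then L.t e else 0 := by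
  rw [L.tw_append, L.tw_singleton]
  have h1 : L.t e * L.tw w * L.t b * L.sw (c :: v)
      = L.t e * (L.tw w * (L.t b * L.s c) * L.sw v) := by
    simp only [Leav.sw, mul_assoc]
  rw [h1, L.ts]
  by_cases hcb : b = c
  · subst hcb
    by_cases hwv : w = v
    · subst hwv
      simp [L.tw_mul_sw]
    · simp [L.tw_mul_sw _ _ h, hwv]
  · simp [hcb]

/-- every vector of positive length is `cons` -/
theorem vec_cons {d : ℕ} (w : List.Vector Bool (d + 1)) :
    ∃ (c : Bool) (v : List Bool), v.length = d ∧ w.1 = c :: v := by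
  obtain ⟨l, hl⟩ := w
  cases l with
  | nil => simp at hl
  | cons c v => exact ⟨c, v, by simpa using hl, rfl⟩

/-- every vector of positive length is `snoc` -/
theorem vec_snoc {d : ℕ} (w : List.Vector Bool (d + 1)) :
    ∃ (e : Bool) (v : List Bool), v.length = d ∧ w.1 = v ++ [e] := by
  obtain ⟨l, hl⟩ := w
  have hne : l ≠ [] := by
    intro h; simp [h] at hl
  exact ⟨l.getLast hne, l.dropLast, by simp only [List.length_dropLast, hl, add_tsub_cancel_right], (List.dropLast_append_getLast hne).symm⟩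

/-- sets of vectors which all have the same tail -/
theorem ncard_le_two_of_tail {d : ℕ} (S : Set (List.Vector Bool (d + 1))) (v : List Bool)
    (h : ∀ w ∈ S, ∃ c, w.1 = c :: v) : S.ncard ≤ 2 := by
  by_cases hv : v.length = d
  · refine ncard_le_two_of_subset_range S (fun c => ⟨c :: v, by simp [hv]⟩) ?_
    intro w hw
    obtain ⟨c, hc⟩ := h w hw
    exact ⟨c, Subtype.ext hc⟩
  · have : S = ∅ := by
      ext w
      simp only [Set.mem_empty_iff_false, iff_false]
      intro hw
      obtain ⟨c, hc⟩ := h w hw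
      have := w.2
      rw [hc] at this
      simp at this
      exact hv this
    rw [this]; simp

/-- sets of vectors which all have the same initial part -/
theorem ncard_le_two_of_init {d : ℕ} (S : Set (List.Vector Bool (d + 1))) (v : List Bool)
    (h : ∀ w ∈ S, ∃ c, w.1 = v ++ [c]) : S.ncard ≤ 2 := by
  by_cases hv : v.length = d
  · refine ncard_le_two_of_subset_range S (fun c => ⟨v ++ [c], by simp [hv]⟩) ?_
    intro w hw
    obtain ⟨c, hc⟩ := h w hw
    exact ⟨c, Subtype.ext hc⟩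
  · have : S = ∅ := by
      ext w
      simp only [Set.mem_empty_iff_false, iff_false]
      intro hw
      obtain ⟨c, hc⟩ := h w hw
      have := w.2
      rw [hc] at this
      simp at this
      exact hv this
    rw [this]; simp

theorem ncard_le_two_zero (S : Set (List.Vector Bool 0)) : S.ncard ≤ 2 := by
  refine le_trans (Set.ncard_le_one_of_subsingleton S) (by norm_num)

theorem Leav.tinyEl_s (L : Leav B) (b : Bool) : L.TinyEl (L.s b) := by
  refine ⟨2, fun d w => ?_⟩
  cases d with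
  | zero => exact ⟨ncard_le_two_zero _, ncard_le_two_zero _⟩
  | succ d =>
    refine ⟨?_, ?_⟩
    · obtain ⟨e, v, hv, hwv⟩ := vec_snoc w
      refine ncard_le_two_of_tail _ v ?_
      intro w' hw'
      obtain ⟨c, u, hu, hcu⟩ := vec_cons w'
      refine ⟨c, ?_⟩
      rw [Set.mem_ofPred_eq, hwv, hcu, L.tw_mul_s_mul_sw b c e u v (by rw [hu, hv])] at hw'
      rw [hcu]
      split_ifs at hw' with h
      · rw [h.2]
      · exact absurd rfl hw'
    · obtain ⟨c, u, hu, hcu⟩ := vec_cons w
      refine ncard_le_two_of_init _ u ?_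
      intro w' hw'
      obtain ⟨e, v, hv, hwv⟩ := vec_snoc w'
      refine ⟨e, ?_⟩
      rw [Set.mem_ofPred_eq, hwv, hcu, L.tw_mul_s_mul_sw b c e u v (by rw [hu, hv])] at hw'
      rw [hwv]
      split_ifs at hw' with h
      · rw [h.2]
      · exact absurd rfl hw'

theorem Leav.tinyEl_t (L : Leav B) (b : Bool) : L.TinyEl (L.t b) := by
  refine ⟨2, fun d w => ?_⟩
  cases d with
  | zero => exact ⟨ncard_le_two_zero _, ncard_le_two_zero _⟩
  | succ d =>
    refine ⟨?_, ?_⟩
    · obtain ⟨c, u, hu, hcu⟩ := vec_cons w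
      refine ncard_le_two_of_init _ u ?_
      intro w' hw'
      obtain ⟨e, v, hv, hwv⟩ := vec_snoc w'
      refine ⟨e, ?_⟩
      rw [Set.mem_ofPred_eq, hwv, hcu, L.tw_mul_t_mul_sw b c e v u (by rw [hu, hv])] at hw'
      rw [hwv]
      split_ifs at hw' with h
      · rw [h.2]
      · exact absurd rfl hw'
    · obtain ⟨e, v, hv, hwv⟩ := vec_snoc w
      refine ncard_le_two_of_tail _ v ?_
      intro w' hw'
      obtain ⟨c, u, hu, hcu⟩ := vec_cons w'
      refine ⟨c, ?_⟩
      rw [Set.mem_ofPred_eq, hwv, hcu, L.tw_mul_t_mul_sw b c e v u (by rw [hu, hv])] at hw'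
      rw [hcu]
      split_ifs at hw' with h
      · rw [h.2]
      · exact absurd rfl hw'

end noalg

variable {A B R : Type} [Ring A] [Algebra (ZMod 2) A] [Ring B] [Algebra (ZMod 2) B]
  [Ring R] [Algebra (ZMod 2) R]

/-- TINY, base case -/
theorem Leav.tiny_of_adjoin (L : Leav B)
    (hL : Algebra.adjoin (ZMod 2) (Set.range L.s ∪ Set.range L.t) = ⊤) : L.Tiny := by
  intro r
  change L.TinyEl r
  have hr : r ∈ Algebra.adjoin (ZMod 2) (Set.range L.s ∪ Set.range L.t) := by
    rw [hL]; trivial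
  induction hr using Algebra.adjoin_induction with
  | mem x hx =>
    rcases hx with ⟨b, rfl⟩ | ⟨b, rfl⟩
    · exact L.tinyEl_s b
    · exact L.tinyEl_t b
  | algebraMap c =>
    refine L.tinyEl_of_commute _ fun w => ?_
    rw [Algebra.commutes]
  | add x y _ _ hx hy => exact hx.add hy
  | mul x y _ _ hx hy => exact hx.mul hy

/-- the Leavitt structure on a tensor product -/
def Leav.tensor (R : Type) [Ring R] [Algebra (ZMod 2) R] (L : Leav B) :
    Leav (R ⊗[ZMod 2] B) where
  s b := 1 ⊗ₜ L.s b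
  t b := 1 ⊗ₜ L.t b
  ts a b := by
    rw [Algebra.TensorProduct.tmul_mul_tmul, L.ts, one_mul]
    split_ifs
    · rfl
    · simp
  st := by
    rw [Algebra.TensorProduct.tmul_mul_tmul, Algebra.TensorProduct.tmul_mul_tmul,
      ← TensorProduct.tmul_add, one_mul, L.st]
    rfl

theorem Leav.tensor_sw (L : Leav B) (w : List Bool) :
    (L.tensor R).sw w = 1 ⊗ₜ L.sw w := by
  induction w with
  | nil => rfl
  | cons b w ih =>
    change (1 ⊗ₜ L.s b) * (L.tensor R).sw w = 1 ⊗ₜ (L.s b * L.sw w)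
    rw [ih, Algebra.TensorProduct.tmul_mul_tmul, one_mul]

theorem Leav.tensor_tw (L : Leav B) (w : List Bool) :
    (L.tensor R).tw w = 1 ⊗ₜ L.tw w := by
  induction w with
  | nil => rfl
  | cons b w ih =>
    change (L.tensor R).tw w * (1 ⊗ₜ L.t b) = 1 ⊗ₜ (L.tw w * L.t b)
    rw [ih, Algebra.TensorProduct.tmul_mul_tmul, one_mul]

/-- TINY, tensor products (explicit structure) -/
theorem Leav.Tiny.tensor' {L : Leav B} (hL : L.Tiny) : (L.tensor R).Tiny := by
  intro x
  change (L.tensor R).TinyEl x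
  induction x using TensorProduct.induction_on with
  | zero =>
    refine ⟨0, fun d w => ?_⟩
    simp
  | add x y hx hy => exact hx.add hy
  | tmul r b =>
    obtain ⟨C, hC⟩ := hL b
    have key : ∀ w w' : List Bool, (L.tensor R).tw w * (r ⊗ₜ b) * (L.tensor R).sw w'
        = r ⊗ₜ[ZMod 2] (L.tw w * b * L.sw w') := by
      intro w w'
      rw [L.tensor_sw, L.tensor_tw, Algebra.TensorProduct.tmul_mul_tmul,
        Algebra.TensorProduct.tmul_mul_tmul, one_mul, mul_one]
    refine ⟨C, fun d w => ⟨?_, ?_⟩⟩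
    · refine le_trans (Set.ncard_le_ncard ?_ (Set.toFinite _)) (hC d w).1
      intro w' hw'
      rw [Set.mem_ofPred_eq, key] at hw'
      intro h0
      apply hw'
      rw [h0, TensorProduct.tmul_zero]
    · refine le_trans (Set.ncard_le_ncard ?_ (Set.toFinite _)) (hC d w).2
      intro w' hw'
      rw [Set.mem_ofPred_eq, key] at hw'
      intro h0
      apply hw'
      rw [h0, TensorProduct.tmul_zero]

/-- TINY, tensor products -/
theorem Leav.Tiny.tensor {L : Leav B} (hL : L.Tiny) :
    ∃ L' : Leav (R ⊗[ZMod 2] B), L'.Tiny :=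
  ⟨L.tensor R, hL.tensor'⟩

end Vale.Agent.P193.BH

end FileTensorTiny

/-! file Tensor -/

section FileTensor
/-! T: tensor products and cone algebras (collects TensorCone, TensorSep, TensorFP, TensorTiny) -/

end FileTensor

/-! file Leavitt -/

section FileLeavitt
/-! L: the Leavitt algebra -/

namespace Vale.Agent.P193.BH

/-! ### general facts about copies of the Leavitt relations -/

section General

variable {A : Type} [Ring A] (L : Leav A)

theorem Leav.sw_append_lv (u v : List Bool) : L.sw (u ++ v) = L.sw u * L.sw v := by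
  induction u with
  | nil => simp [Leav.sw]
  | cons a u ih => simp [Leav.sw, ih, mul_assoc]

theorem Leav.tw_append_lv (u v : List Bool) : L.tw (u ++ v) = L.tw v * L.tw u := by
  induction u with
  | nil => simp [Leav.tw]
  | cons a u ih => simp [Leav.tw, ih, mul_assoc]

theorem Leav.tw_sw_cons (a b : Bool) (u v : List Bool) :
    L.tw (a :: u) * L.sw (b :: v) = if a = b then L.tw u * L.sw v else 0 := by
  have h : L.tw (a :: u) * L.sw (b :: v) = L.tw u * (L.t a * L.s b) * L.sw v := by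
    simp only [Leav.tw, Leav.sw, mul_assoc]
  rw [h, L.ts]
  split_ifs <;> simp

theorem Leav.tw_sw_self (u : List Bool) : L.tw u * L.sw u = 1 := by
  induction u with
  | nil => simp [Leav.tw, Leav.sw]
  | cons a u ih => rw [L.tw_sw_cons, if_pos rfl, ih]

theorem Leav.tw_sw_zero : ∀ (u v : List Bool) (i : ℕ) (a b : Bool), u[i]? = some a →
    v[i]? = some b → a ≠ b → L.tw u * L.sw v = 0 := by
  intro u
  induction u with
  | nil => intro v i a b h; simp at h
  | cons c u ih =>
    intro v i a b hu hv hab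
    cases v with
    | nil => simp at hv
    | cons d v =>
      rw [L.tw_sw_cons]
      split_ifs with hcd
      · cases i with
        | zero =>
          simp only [List.getElem?_cons_zero, Option.some.injEq] at hu hv
          exact absurd (hu.symm.trans (hcd.trans hv)) hab
        | succ i =>
          simp only [List.getElem?_cons_succ] at hu hv
          exact ih v i a b hu hv hab
      · rfl

/-- all words of a given length -/
def allW : ℕ → List (List Bool)
  | 0 => [[]]
  | d + 1 => (allW d).map (List.cons false) ++ (allW d).map (List.cons true)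

theorem length_of_mem_allW : ∀ (d : ℕ) (w : List Bool), w ∈ allW d → w.length = d := by
  intro d
  induction d with
  | zero => intro w hw; simp [allW] at hw; simp [hw]
  | succ d ih =>
    intro w hw
    simp only [allW, List.mem_append, List.mem_map] at hw
    rcases hw with ⟨v, hv, rfl⟩ | ⟨v, hv, rfl⟩ <;> simp [ih v hv]

theorem Leav.sum_allW (d : ℕ) : ((allW d).map fun w => L.sw w * L.tw w).sum = 1 := by
  induction d with
  | zero => simp only [allW, List.map_cons, sw, tw, mul_one, List.map_nil, List.sum_cons, List.sum_nil, add_zero]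
  | succ d ih =>
    have key : ∀ (b : Bool) (l : List (List Bool)),
        ((l.map (List.cons b)).map fun w => L.sw w * L.tw w).sum =
          L.s b * (l.map fun w => L.sw w * L.tw w).sum * L.t b := by
      intro b l
      induction l with
      | nil => simp
      | cons w l ihl =>
        simp only [List.map_cons, List.sum_cons, Leav.sw, Leav.tw] at ihl ⊢
        rw [ihl]
        noncomm_ring
    rw [allW, List.map_append, List.sum_append, key, key, ih, mul_one, mul_one, L.st]

theorem Leav.sep (w w' : List Bool) (hw : w ≠ w') (N : ℕ) (h1 : w.length ≤ N)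
    (h2 : w'.length ≤ N) :
    L.tw (w ++ true :: List.replicate N false) * L.sw (w' ++ true :: List.replicate N false) = 0 := by
  rcases lt_trichotomy w.length w'.length with h | h | h
  · refine L.tw_sw_zero _ _ w'.length false true ?_ ?_ (by decide)
    · rw [List.getElem?_append_right h.le]
      obtain ⟨k, hk⟩ : ∃ k, w'.length - w.length = k + 1 := ⟨w'.length - w.length - 1, by omega⟩
      rw [hk, List.getElem?_cons_succ, List.getElem?_replicate, if_pos (by omega)]
    · rw [List.getElem?_append_right le_rfl]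
      simp only [tsub_self, List.length_cons, List.length_replicate, Order.lt_add_one_iff, zero_le, getElem?_pos, List.getElem_cons_zero]
  · have hne : ∃ i : ℕ, w[i]? ≠ w'[i]? := by
      by_contra hcon
      push Not at hcon
      exact hw (List.ext_getElem? hcon)
    obtain ⟨i, hi⟩ := hne
    have hi1 : i < w.length := by
      by_contra hge
      push Not at hge
      rw [List.getElem?_eq_none hge, List.getElem?_eq_none (by omega)] at hi
      exact hi rfl
    have hi2 : i < w'.length := by omega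
    refine L.tw_sw_zero _ _ i w[i] w'[i] ?_ ?_ ?_
    · rw [List.getElem?_append_left hi1, List.getElem?_eq_getElem hi1]
    · rw [List.getElem?_append_left hi2, List.getElem?_eq_getElem hi2]
    · intro he
      rw [List.getElem?_eq_getElem hi1, List.getElem?_eq_getElem hi2, he] at hi
      exact hi rfl
  · refine L.tw_sw_zero _ _ w.length true false ?_ ?_ (by decide)
    · rw [List.getElem?_append_right le_rfl]
      simp
    · rw [List.getElem?_append_right h.le]
      obtain ⟨k, hk⟩ : ∃ k, w.length - w'.length = k + 1 := ⟨w.length - w'.length - 1, by omega⟩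
      rw [hk, List.getElem?_cons_succ, List.getElem?_replicate, if_pos (by omega)]

end General

/-! ### cone structure -/

section ConeSec

variable {A : Type} [Ring A] [Algebra (ZMod 2) A] (L : Leav A)

/-- the span of the cones of length at least `e` -/
def Leav.spn (e : ℕ) : Submodule (ZMod 2) A :=
  Submodule.span (ZMod 2) {x | ∃ w : List Bool, e ≤ w.length ∧ L.sw w = x}

theorem Leav.good (hL : Algebra.adjoin (ZMod 2) (Set.range L.s ∪ Set.range L.t) = ⊤) (b : A) :
    ∀ e, ∃ d, ∀ w : List Bool, d ≤ w.length → b * L.sw w ∈ L.spn e := by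
  have hb : b ∈ Algebra.adjoin (ZMod 2) (Set.range L.s ∪ Set.range L.t) := by
    rw [hL]; trivial
  induction hb using Algebra.adjoin_induction with
  | mem x hx =>
    intro e
    rcases hx with ⟨c, rfl⟩ | ⟨c, rfl⟩
    · exact ⟨e, fun w hw => Submodule.subset_span ⟨c :: w, by simp only [List.length_cons]; omega, rfl⟩⟩
    · refine ⟨e + 1, fun w hw => ?_⟩
      cases w with
      | nil => simp at hw
      | cons a w =>
        have h : L.t c * L.sw (a :: w) = if c = a then L.sw w else 0 := by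
          have := L.tw_sw_cons c a [] w
          simpa only [tw, one_mul] using this
        rw [h]
        split_ifs
        · exact Submodule.subset_span ⟨w, by simpa only [List.length_cons, add_le_add_iff_right] using hw, rfl⟩
        · exact Submodule.zero_mem _
  | algebraMap r =>
    intro e
    refine ⟨e, fun w hw => ?_⟩
    rw [← Algebra.smul_def]
    exact Submodule.smul_mem _ _ (Submodule.subset_span ⟨w, hw, rfl⟩)
  | add x y _ _ hx hy =>
    intro e
    obtain ⟨d1, h1⟩ := hx e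
    obtain ⟨d2, h2⟩ := hy e
    refine ⟨max d1 d2, fun w hw => ?_⟩
    rw [add_mul]
    exact Submodule.add_mem _ (h1 w (le_trans (le_max_left _ _) hw))
      (h2 w (le_trans (le_max_right _ _) hw))
  | mul x y _ _ hx hy =>
    intro e
    obtain ⟨d1, h1⟩ := hx e
    obtain ⟨d2, h2⟩ := hy d1
    refine ⟨d2, fun w hw => ?_⟩
    rw [mul_assoc]
    have h3 : ∀ z ∈ L.spn d1, x * z ∈ L.spn e := by
      intro z hz
      induction hz using Submodule.span_induction with
      | mem z hz =>
        obtain ⟨v, hv, rfl⟩ := hz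
        exact h1 v hv
      | zero => rw [mul_zero]; exact Submodule.zero_mem _
      | add z z' _ _ h h' => rw [mul_add]; exact Submodule.add_mem _ h h'
      | smul c z _ h => rw [mul_smul_comm]; exact Submodule.smul_mem _ _ h
    exact h3 _ (h2 w hw)

/-- the cones of the Leavitt algebra -/
def Leav.cones : Set (A × A) := Set.range fun w : List Bool => (L.sw w, L.tw w)

theorem Leav.cone (hL : Algebra.adjoin (ZMod 2) (Set.range L.s ∪ Set.range L.t) = ⊤) :
    Cone A L.cones where
  one := ⟨[], by simp [Leav.sw, Leav.tw]⟩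
  inv := by
    rintro _ ⟨w, rfl⟩
    exact L.tw_sw_self w
  mul := by
    rintro _ ⟨w, rfl⟩ _ ⟨w', rfl⟩
    exact ⟨w ++ w', by simp [L.sw_append_lv, L.tw_append_lv]⟩
  K1 := by
    intro b
    obtain ⟨d, hd⟩ := L.good hL b 0
    refine ⟨(allW d).map fun w => (L.sw w, L.tw w), ?_, ?_, ?_⟩
    · intro c hc
      obtain ⟨w, -, rfl⟩ := List.mem_map.mp hc
      exact ⟨w, rfl⟩
    · rw [List.map_map]
      exact L.sum_allW d
    · intro c hc
      obtain ⟨w, hw, rfl⟩ := List.mem_map.mp hc
      have h := hd w (length_of_mem_allW d w hw).ge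
      refine Submodule.span_mono ?_ h
      rintro x ⟨v, -, rfl⟩
      exact ⟨(L.sw v, L.tw v), ⟨v, rfl⟩, rfl⟩
  K2 := by
    classical
    rintro _ ⟨w, rfl⟩ T hT hcT
    have hch : ∀ t ∈ T, ∃ v : List Bool, L.sw v = t := by
      intro t ht
      obtain ⟨c, ⟨v, rfl⟩, rfl⟩ := hT ht
      exact ⟨v, rfl⟩
    choose! v hv using hch
    set N : ℕ := w.length + ∑ t ∈ T, (v t).length with hN
    refine ⟨(L.sw (true :: List.replicate N false), L.tw (true :: List.replicate N false)),
      ⟨_, rfl⟩, fun t ht => ?_⟩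
    have hne : w ≠ v t := by
      rintro rfl
      apply hcT
      show L.sw (v t) ∈ T
      rw [hv t ht]; exact ht
    have hle : (v t).length ≤ N := by
      have h5 : (v t).length ≤ ∑ t ∈ T, (v t).length :=
        Finset.single_le_sum (f := fun t => (v t).length) (fun _ _ => Nat.zero_le _) ht
      omega
    have h := L.sep w (v t) hne N (by omega) hle
    rw [L.sw_append_lv, L.tw_append_lv, hv t ht] at h
    simpa only [mul_assoc] using h

end ConeSec

/-! ### the algebra -/

/-- generators: `(false, b)` is `s_b`, `(true, b)` is `t_b` -/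
abbrev LGen : Type := Bool × Bool

open FreeAlgebra in
/-- the relations of the Leavitt algebra -/
inductive LRel : FreeAlgebra (ZMod 2) LGen → FreeAlgebra (ZMod 2) LGen → Prop
  | ts (a b : Bool) : LRel (ι (ZMod 2) (true, a) * ι (ZMod 2) (false, b)) (if a = b then 1 else 0)
  | st : LRel (ι (ZMod 2) (false, false) * ι (ZMod 2) (true, false) +
      ι (ZMod 2) (false, true) * ι (ZMod 2) (true, true)) 1

/-- the Leavitt algebra -/
abbrev LAlg : Type := RingQuot LRel

theorem lRel_finite : {p : FreeAlgebra (ZMod 2) LGen × FreeAlgebra (ZMod 2) LGen |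
    LRel p.1 p.2}.Finite := by
  refine ((Set.finite_range fun c : Bool × Bool =>
    (FreeAlgebra.ι (ZMod 2) ((true, c.1) : LGen) * FreeAlgebra.ι (ZMod 2) ((false, c.2) : LGen),
      if c.1 = c.2 then (1 : FreeAlgebra (ZMod 2) LGen) else 0)).union
    (Set.finite_singleton (FreeAlgebra.ι (ZMod 2) ((false, false) : LGen) *
      FreeAlgebra.ι (ZMod 2) ((true, false) : LGen) +
      FreeAlgebra.ι (ZMod 2) ((false, true) : LGen) *
      FreeAlgebra.ι (ZMod 2) ((true, true) : LGen), 1))).subset ?_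
  rintro ⟨x, y⟩ h
  have h' : LRel x y := h
  cases h' with
  | ts a b => exact Or.inl ⟨(a, b), rfl⟩
  | st => exact Or.inr rfl

/-- the image of a generator -/
noncomputable def lg (g : LGen) : LAlg := RingQuot.mkAlgHom (ZMod 2) LRel (FreeAlgebra.ι (ZMod 2) g)

/-- the Leavitt relations hold in the Leavitt algebra -/
noncomputable def lLeav : Leav LAlg where
  s := fun b => lg (false, b)
  t := fun b => lg (true, b)
  ts := by
    intro a b
    have h := RingQuot.mkAlgHom_rel (ZMod 2) (LRel.ts a b)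
    rw [map_mul] at h
    rw [lg, lg, h]
    split_ifs <;> simp
  st := by
    have h := RingQuot.mkAlgHom_rel (ZMod 2) LRel.st
    rw [map_add, map_mul, map_mul, map_one] at h
    exact h

theorem lLeav_adjoin :
    Algebra.adjoin (ZMod 2) (Set.range lLeav.s ∪ Set.range lLeav.t) = ⊤ := by
  have h1 : (⊤ : Subalgebra (ZMod 2) LAlg) =
      (⊤ : Subalgebra (ZMod 2) (FreeAlgebra (ZMod 2) LGen)).map
        (RingQuot.mkAlgHom (ZMod 2) LRel) := by
    rw [Algebra.map_top]
    symm
    rw [AlgHom.range_eq_top]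
    exact RingQuot.mkAlgHom_surjective (ZMod 2) LRel
  rw [h1, ← FreeAlgebra.adjoin_range_ι, AlgHom.map_adjoin]
  congr 1
  ext x
  constructor
  · rintro (⟨b, rfl⟩ | ⟨b, rfl⟩)
    · exact ⟨_, ⟨(false, b), rfl⟩, rfl⟩
    · exact ⟨_, ⟨(true, b), rfl⟩, rfl⟩
  · rintro ⟨_, ⟨⟨a, b⟩, rfl⟩, rfl⟩
    cases a
    · exact Or.inl ⟨b, rfl⟩
    · exact Or.inr ⟨b, rfl⟩

/-- the module of the model -/
abbrev LMod : Type := ℕ → ZMod 2

/-- model of `s_b` and `t_b` -/
def lact (g : LGen) : Module.End (ZMod 2) LMod :=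
  if g.1 then
    { toFun := fun f n => f (2 * n + g.2.toNat)
      map_add' := fun _ _ => rfl
      map_smul' := fun _ _ => rfl }
  else
    { toFun := fun f n => if n % 2 = g.2.toNat then f (n / 2) else 0
      map_add' := fun f f' => by
        funext n
        by_cases h : n % 2 = g.2.toNat <;> simp [h]
      map_smul' := fun c f => by
        funext n
        by_cases h : n % 2 = g.2.toNat <;> simp [h] }

theorem lact_rel : ∀ ⦃x y : FreeAlgebra (ZMod 2) LGen⦄, LRel x y →
    FreeAlgebra.lift (ZMod 2) lact x = FreeAlgebra.lift (ZMod 2) lact y := by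
  intro x y h
  cases h with
  | ts a b =>
    rw [map_mul, FreeAlgebra.lift_ι_apply, FreeAlgebra.lift_ι_apply]
    ext f n
    cases a <;> cases b <;>
      simp [lact, Nat.add_mod, Nat.add_div] <;> omega
  | st =>
    rw [map_add, map_mul, map_mul, map_one, FreeAlgebra.lift_ι_apply, FreeAlgebra.lift_ι_apply,
      FreeAlgebra.lift_ι_apply, FreeAlgebra.lift_ι_apply]
    ext f n
    rcases Nat.mod_two_eq_zero_or_one n with h | h
    · simp only [lact, Bool.false_eq_true, ↓reduceIte, Bool.toNat_false, add_zero, Bool.toNat_true, LinearMap.add_apply, Module.End.mul_apply, LinearMap.coe_mk, AddHom.coe_mk, Pi.add_apply, h, zero_ne_one, Module.End.one_apply]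
      congr 1
      omega
    · simp only [lact, Bool.false_eq_true, ↓reduceIte, Bool.toNat_false, add_zero, Bool.toNat_true, LinearMap.add_apply, Module.End.mul_apply, LinearMap.coe_mk, AddHom.coe_mk, Pi.add_apply, h, one_ne_zero, zero_add, Module.End.one_apply]
      congr 1
      omega

instance : Nontrivial LAlg := by
  refine ⟨0, 1, fun h => ?_⟩
  let φ : LAlg →ₐ[ZMod 2] Module.End (ZMod 2) LMod :=
    RingQuot.liftAlgHom (ZMod 2) ⟨FreeAlgebra.lift (ZMod 2) lact, lact_rel⟩
  have h2 := congrArg φ h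
  rw [map_zero, map_one] at h2
  exact zero_ne_one h2

/-- L -/
theorem leavitt : ∃ (L : Type) (_ : Ring L) (_ : Algebra (ZMod 2) L), Nontrivial L ∧ FPAlg L ∧
    (∃ C, Cone L C) ∧
    ∃ l : Leav L, Algebra.adjoin (ZMod 2) (Set.range l.s ∪ Set.range l.t) = ⊤ :=
  ⟨LAlg, inferInstance, inferInstance, inferInstance, fpAlg_ringQuot LGen LRel lRel_finite,
    ⟨_, lLeav.cone lLeav_adjoin⟩, lLeav, lLeav_adjoin⟩

end Vale.Agent.P193.BH

end FileLeavitt
end
end

section

section


/-! file HAlgDefs -/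

section FileHAlgDefs
/-!
H3: the infinite sum algebra: generators and relations.
-/

namespace Vale.Agent.P193.BH

/-- generators of the algebra; `w` is the left inverse of `z`. -/
inductive AGen
  | s | s' | t | c | c' | x | y | z | w
  deriving DecidableEq

namespace AGen

instance : Fintype AGen := ⟨{s, s', t, c, c', x, y, z, w}, by intro a; cases a <;> simp⟩

/-- the free algebra on the generators -/
abbrev FA : Type := FreeAlgebra (ZMod 2) AGen

/-- a generator in the free algebra -/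
abbrev γ (g : AGen) : FA := FreeAlgebra.ι (ZMod 2) g

/-- the endomorphism on generators -/
def ph : AGen → FA
  | s => γ t * γ s
  | s' => γ s' * γ t
  | t => γ s * γ t * γ s'
  | c => γ t * γ c
  | c' => γ c' * γ t
  | x => γ t * γ x * γ t
  | y => γ t * γ y * γ t
  | z => γ t * γ z
  | w => γ w * γ t

/-- the relations -/
inductive HRel : FA → FA → Prop
  | ss' : HRel (γ s * γ s') 1
  | s's : HRel (γ s' * γ s) 1
  | tt : HRel (γ t * γ t) 1
  | cc' : HRel (γ c * γ c') 1
  | c'c : HRel (γ c' * γ c) 1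
  | cube : HRel ((γ t * (γ s * γ t * γ s')) ^ 3) 1
  | comm : HRel (γ t * (γ s * γ s * γ t * γ s' * γ s')) (γ s * γ s * γ t * γ s' * γ s' * γ t)
  | ct : HRel (γ c * γ t) (γ s * γ t * γ s' * γ c)
  | cs : HRel (γ c * γ s) (γ t * γ s * γ c)
  | yx : HRel (γ y * γ x) 1
  | wz : HRel (γ w * γ z) 1
  | zw : HRel (γ z * γ w) (1 + γ x * γ y)
  | zr (g : AGen) : HRel (γ z * γ g) (ph g * γ z)
  | xr (g : AGen) : HRel (γ x * ph g) (ph g * γ x)
  | yr (g : AGen) : HRel (γ y * ph g) (ph g * γ y)

end AGen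

/-- the algebra `A` -/
abbrev HA : Type := RingQuot AGen.HRel

end Vale.Agent.P193.BH

end FileHAlgDefs

/-! file HRels -/

section FileHRels
/-!
H3: group theoretic part: the five relations are preserved by `Phi`.
-/

namespace Vale.Agent.P193.BH

/-- the five relations -/
structure GRel {H : Type*} [Group H] (s t z : H) : Prop where
  sq : t * t = 1
  cube : (t * (s * t * s⁻¹)) ^ 3 = 1
  comm : t * (s * (s * t * s⁻¹) * s⁻¹) = (s * (s * t * s⁻¹) * s⁻¹) * t
  zt : z * t = (s * t * s⁻¹) * z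
  zs : z * s = t * s * z

namespace GRel

variable {H : Type*} [Group H] {s t z : H}

section

variable (h : GRel s t z)
include h

theorem t_inv : t⁻¹ = t := inv_eq_of_mul_eq_one_right h.sq

theorem t1_sq : (s * t * s⁻¹) * (s * t * s⁻¹) = 1 := by
  have e : (s * t * s⁻¹) * (s * t * s⁻¹) = s * (t * t) * s⁻¹ := by group
  rw [e, h.sq]; group

theorem braid : t * (s * t * s⁻¹) * t = (s * t * s⁻¹) * t * (s * t * s⁻¹) := by
  have h0 := h.cube
  set t1 := s * t * s⁻¹ with ht1
  have h1 : (t * t1) ^ 3 = (t * t1 * t) * (t1 * t * t1) := by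
    rw [pow_succ, pow_two]; simp only [mul_assoc]
  rw [h1] at h0
  have h2 : (t1 * t * t1) * (t1 * t * t1) = 1 := by
    calc (t1 * t * t1) * (t1 * t * t1) = t1 * t * (t1 * t1) * t * t1 := by simp only [mul_assoc]
      _ = t1 * (t * t) * t1 := by rw [h.t1_sq, mul_one]; simp only [mul_assoc]
      _ = 1 := by rw [h.sq, mul_one, h.t1_sq]
  exact mul_right_cancel (h0.trans h2.symm)

/-- conjugation by the shift preserves the relations involving the transpositions. -/
theorem shift_comm : (s * t * s⁻¹) * (s * (s * (s * t * s⁻¹) * s⁻¹) * s⁻¹) =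
    (s * (s * (s * t * s⁻¹) * s⁻¹) * s⁻¹) * (s * t * s⁻¹) := by
  have h1 := congrArg (fun u => s * u * s⁻¹) h.comm
  simp only [mul_assoc, inv_mul_cancel_left] at h1 ⊢
  exact h1

theorem phi_t1 : t * s * (s * t * s⁻¹) * (t * s)⁻¹ = s * (s * t * s⁻¹) * s⁻¹ := by
  calc t * s * (s * t * s⁻¹) * (t * s)⁻¹ = (t * (s * (s * t * s⁻¹) * s⁻¹)) * t⁻¹ := by group
    _ = s * (s * t * s⁻¹) * s⁻¹ := by rw [h.comm]; group

theorem z_t1 : z * (s * t * s⁻¹) = (s * (s * t * s⁻¹) * s⁻¹) * z := by
  have e : z * s⁻¹ = (t * s)⁻¹ * z := by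
    rw [eq_inv_mul_iff_mul_eq, ← mul_assoc, ← h.zs]; group
  calc z * (s * t * s⁻¹) = (z * s) * t * s⁻¹ := by group
    _ = t * s * (z * t) * s⁻¹ := by rw [h.zs]; group
    _ = t * s * (s * t * s⁻¹) * (z * s⁻¹) := by rw [h.zt]; group
    _ = (t * s * (s * t * s⁻¹) * (t * s)⁻¹) * z := by rw [e]; group
    _ = _ := by rw [h.phi_t1]

theorem z_t2 : z * (s * (s * t * s⁻¹) * s⁻¹) =
    t * (s * (s * (s * t * s⁻¹) * s⁻¹) * s⁻¹) * t * z := by
  have e : z * s⁻¹ = (t * s)⁻¹ * z := by
    rw [eq_inv_mul_iff_mul_eq, ← mul_assoc, ← h.zs]; group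
  calc z * (s * (s * t * s⁻¹) * s⁻¹) = (z * s) * (s * t * s⁻¹) * s⁻¹ := by group
    _ = t * s * (z * (s * t * s⁻¹)) * s⁻¹ := by rw [h.zs]; group
    _ = t * s * (s * (s * t * s⁻¹) * s⁻¹) * (z * s⁻¹) := by rw [h.z_t1]; group
    _ = t * (s * (s * (s * t * s⁻¹) * s⁻¹) * s⁻¹) * t⁻¹ * z := by rw [e]; group
    _ = _ := by rw [h.t_inv]

theorem comm3 : t * (s * (s * (s * t * s⁻¹) * s⁻¹) * s⁻¹) =
    (s * (s * (s * t * s⁻¹) * s⁻¹) * s⁻¹) * t := by
  have hz1 := h.z_t1
  have hz2 := h.z_t2
  have hz0 := h.zt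
  have hc2 := h.comm
  have hc13 := h.shift_comm
  have hbr := h.braid
  have hsq1 := h.t1_sq
  have hti := h.t_inv
  have hsq := h.sq
  set t1 := s * t * s⁻¹ with ht1
  set t2 := s * t1 * s⁻¹ with ht2
  set t3 := s * t2 * s⁻¹ with ht3
  have ht1i : t1⁻¹ = t1 := inv_eq_of_mul_eq_one_right hsq1
  have h1 : t1 * (t * t3 * t) = (t * t3 * t) * t1 := by
    have e1 : z * (t * t2) = t1 * (t * t3 * t) * z := by
      rw [← mul_assoc, hz0, mul_assoc, hz2]; simp only [mul_assoc]
    have e2 : z * (t2 * t) = (t * t3 * t) * t1 * z := by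
      rw [← mul_assoc, hz2, mul_assoc _ z, hz0]; simp only [mul_assoc]
    rw [hc2, e2] at e1
    exact (mul_right_cancel e1).symm
  have h2 : (t * t1 * t) * t3 = t3 * (t * t1 * t) := by
    calc (t * t1 * t) * t3 = t * (t1 * (t * t3 * t)) * t⁻¹ := by group
      _ = t * ((t * t3 * t) * t1) * t⁻¹ := by rw [h1]
      _ = (t * t) * t3 * (t * t1 * t⁻¹) := by group
      _ = t3 * (t * t1 * t) := by rw [hsq, hti, one_mul]
  rw [hbr] at h2
  have h3 : t1⁻¹ * t3 = t3 * t1⁻¹ := by rw [ht1i]; exact hc13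
  calc t * t3 = t1⁻¹ * (t1 * t * t1 * (t1⁻¹ * t3)) := by group
    _ = t1⁻¹ * (t1 * t * t1 * (t3 * t1⁻¹)) := by rw [h3]
    _ = t1⁻¹ * ((t1 * t * t1 * t3) * t1⁻¹) := by group
    _ = t1⁻¹ * (t3 * (t1 * t * t1) * t1⁻¹) := by rw [h2]
    _ = (t1⁻¹ * t3) * t1 * t := by group
    _ = t3 * t := by rw [h3]; group

theorem phi_t2 : t * s * (s * (s * t * s⁻¹) * s⁻¹) * (t * s)⁻¹ =
    s * (s * (s * t * s⁻¹) * s⁻¹) * s⁻¹ := by
  calc t * s * (s * (s * t * s⁻¹) * s⁻¹) * (t * s)⁻¹
      = (t * (s * (s * (s * t * s⁻¹) * s⁻¹) * s⁻¹)) * t⁻¹ := by group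
    _ = _ := by rw [h.comm3]; group

/-- the images of the generators satisfy the relations again. -/
theorem phi : GRel (t * s) (s * t * s⁻¹) (t * z) where
  sq := h.t1_sq
  cube := by
    rw [h.phi_t1]
    have e : ((s * t * s⁻¹) * (s * (s * t * s⁻¹) * s⁻¹)) ^ 3 =
        s * (t * (s * t * s⁻¹)) ^ 3 * s⁻¹ := by
      rw [← conj_pow]
      congr 1
      group
    rw [e, h.cube]; group
  comm := by
    rw [h.phi_t1, h.phi_t2]
    exact h.shift_comm
  zt := by
    rw [h.phi_t1]
    calc t * z * (s * t * s⁻¹) = t * (z * (s * t * s⁻¹)) := by group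
      _ = (t * (s * (s * t * s⁻¹) * s⁻¹)) * z := by rw [h.z_t1]; group
      _ = _ := by rw [h.comm]; group
  zs := by
    calc t * z * (t * s) = t * (z * t) * s := by group
      _ = t * (s * t * s⁻¹) * (z * s) := by rw [h.zt]; group
      _ = (t * (s * t * s⁻¹) * t) * (s * z) := by rw [h.zs]; group
      _ = (s * t * s⁻¹) * t * (s * t * s⁻¹) * (s * z) := by rw [h.braid]
      _ = (s * t * s⁻¹) * (t * s) * (t * z) := by group

/-- `t` commutes with the second iterates. -/
theorem comm_s : Commute t ((s * t * s⁻¹) * (t * s)) := by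
  change t * ((s * t * s⁻¹) * (t * s)) = ((s * t * s⁻¹) * (t * s)) * t
  calc t * ((s * t * s⁻¹) * (t * s)) = (t * (s * t * s⁻¹) * t) * s := by group
    _ = (s * t * s⁻¹) * t * (s * t * s⁻¹) * s := by rw [h.braid]
    _ = _ := by group

theorem comm_z : Commute t ((s * t * s⁻¹) * (t * z)) := by
  change t * ((s * t * s⁻¹) * (t * z)) = ((s * t * s⁻¹) * (t * z)) * t
  calc t * ((s * t * s⁻¹) * (t * z)) = (t * (s * t * s⁻¹) * t) * z := by group
    _ = (s * t * s⁻¹) * t * ((s * t * s⁻¹) * z) := by rw [h.braid]; group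
    _ = (s * t * s⁻¹) * t * (z * t) := by rw [h.zt]
    _ = _ := by group

theorem comm_t : Commute t ((t * s) * (s * t * s⁻¹) * (t * s)⁻¹) := by
  rw [h.phi_t1]
  exact h.comm

end

end GRel

end Vale.Agent.P193.BH

end FileHRels

/-! file HGroupDefs -/

section FileHGroupDefs
/-!
Boone-Higman project, part H: the sites, the permutations `gs` (shift), `gt` (transposition),
`gz` (shift of the second ray), the group `PP` which they generate, the map `fS` and the
endomorphism `Phi`.
-/

namespace Vale.Agent.P193.BH.HG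

open Equiv

/-- the sites: integers and a reservoir -/
abbrev Site : Type := ℤ ⊕ ℕ

/-- the site `i` -/
abbrev zs (i : ℤ) : Site := Sum.inl i

/-- shift on the integers, identity on the reservoir -/
def gs : Perm Site where
  toFun := fun u => match u with
    | Sum.inl i => Sum.inl (i + 1)
    | Sum.inr j => Sum.inr j
  invFun := fun u => match u with
    | Sum.inl i => Sum.inl (i - 1)
    | Sum.inr j => Sum.inr j
  left_inv := by rintro (i | j) <;> simp
  right_inv := by rintro (i | j) <;> simp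

/-- the transposition of the sites `0` and `1` -/
def gt : Perm Site := swap (zs 0) (zs 1)

/-- shift from the reservoir to the positive integers, identity on the negative integers -/
def gz : Perm Site where
  toFun := fun u => match u with
    | Sum.inl i => if 0 ≤ i then Sum.inl (i + 1) else Sum.inl i
    | Sum.inr 0 => Sum.inl 0
    | Sum.inr (j + 1) => Sum.inr j
  invFun := fun u => match u with
    | Sum.inl i => if i = 0 then Sum.inr 0 else if 0 < i then Sum.inl (i - 1) else Sum.inl i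
    | Sum.inr j => Sum.inr (j + 1)
  left_inv := by
    rintro (i | j)
    · by_cases h : 0 ≤ i
      · have h1 : i + 1 ≠ 0 := by omega
        have h2 : 0 < i + 1 := by omega
        simp [h, h1, h2]
      · have h1 : i ≠ 0 := by omega
        have h2 : ¬ 0 < i := by omega
        simp [h, h1, h2]
    · cases j <;> simp
  right_inv := by
    rintro (i | j)
    · by_cases h : i = 0
      · subst h; simp
      · by_cases h1 : 0 < i
        · have h2 : 1 ≤ i := by omega
          simp [h, h1, h2]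
        · have h2 : ¬ 0 ≤ i := by omega
          simp [h, h1, h2]
    · simp

@[simp] theorem gs_inl (i : ℤ) : gs (Sum.inl i) = Sum.inl (i + 1) := rfl
@[simp] theorem gs_inr (j : ℕ) : gs (Sum.inr j) = Sum.inr j := rfl
@[simp] theorem gs_symm_inl (i : ℤ) : gs.symm (Sum.inl i) = Sum.inl (i - 1) := rfl
@[simp] theorem gs_symm_inr (j : ℕ) : gs.symm (Sum.inr j) = Sum.inr j := rfl
theorem gz_inl (i : ℤ) : gz (Sum.inl i) = if 0 ≤ i then Sum.inl (i + 1) else Sum.inl i := rfl
theorem gz_inl_nonneg {i : ℤ} (h : 0 ≤ i) : gz (Sum.inl i) = Sum.inl (i + 1) := by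
  rw [gz_inl, if_pos h]
theorem gz_inl_neg {i : ℤ} (h : i < 0) : gz (Sum.inl i) = Sum.inl i := by
  rw [gz_inl, if_neg (not_le.2 h)]
@[simp] theorem gz_inr_zero : gz (Sum.inr 0) = Sum.inl 0 := rfl
@[simp] theorem gz_inr_succ (j : ℕ) : gz (Sum.inr (j + 1)) = Sum.inr j := rfl
@[simp] theorem gz_symm_inr (j : ℕ) : gz.symm (Sum.inr j) = Sum.inr (j + 1) := rfl

/-- the group generated by the three permutations -/
def PP : Subgroup (Perm Site) := Subgroup.closure {gs, gt, gz}

theorem gs_mem : gs ∈ PP := Subgroup.subset_closure (by simp)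
theorem gt_mem : gt ∈ PP := Subgroup.subset_closure (by simp)
theorem gz_mem : gz ∈ PP := Subgroup.subset_closure (by simp)

/-- the injection `i ↦ i + 1` for `i ≥ 0`, identity elsewhere; the image misses `0` only -/
def fS : Site → Site
  | Sum.inl i => if 0 ≤ i then Sum.inl (i + 1) else Sum.inl i
  | Sum.inr j => Sum.inr j

theorem fS_inl_nonneg {i : ℤ} (h : 0 ≤ i) : fS (Sum.inl i) = Sum.inl (i + 1) := by
  simp [fS, h]
theorem fS_inl_neg {i : ℤ} (h : i < 0) : fS (Sum.inl i) = Sum.inl i := by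
  have : ¬ 0 ≤ i := by omega
  simp [fS, this]
@[simp] theorem fS_inr (j : ℕ) : fS (Sum.inr j) = Sum.inr j := rfl

/-- `fS` as a bijection from the sites to the sites different from `0` -/
def fE : Site ≃ {u : Site // u ≠ zs 0} where
  toFun u := ⟨fS u, by
    rcases u with (i | j)
    · by_cases h : 0 ≤ i
      · rw [fS_inl_nonneg h]; intro h'; have := Sum.inl_injective h'; omega
      · rw [fS_inl_neg (by omega)]; intro h'; have := Sum.inl_injective h'; omega
    · simp⟩
  invFun u := match u.1 with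
    | Sum.inl i => if 0 < i then Sum.inl (i - 1) else Sum.inl i
    | Sum.inr j => Sum.inr j
  left_inv := by
    rintro (i | j)
    · by_cases h : 0 ≤ i
      · simp only [fS_inl_nonneg h]
        rw [if_pos (by omega)]; simp
      · simp only [fS_inl_neg (by omega : i < 0)]
        rw [if_neg (by omega)]
    · rfl
  right_inv := by
    rintro ⟨(i | j), h⟩
    · have h0 : i ≠ 0 := fun e => h (by rw [e])
      apply Subtype.ext
      by_cases h1 : 0 < i
      · simp only [if_pos h1]
        rw [fS_inl_nonneg (by omega)]; simp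
      · simp only [if_neg h1]
        rw [fS_inl_neg (by omega)]
    · rfl

theorem fE_apply (u : Site) : (fE u : Site) = fS u := rfl

theorem fS_injective : Function.Injective fS := by
  intro u v h
  exact fE.injective (Subtype.ext h)

theorem fS_ne_zero (u : Site) : fS u ≠ zs 0 := (fE u).2

theorem exists_fS {u : Site} (h : u ≠ zs 0) : ∃ v, fS v = u :=
  ⟨fE.symm ⟨u, h⟩, congrArg Subtype.val (fE.apply_symm_apply ⟨u, h⟩)⟩

/-- the endomorphism `g ↦ f g f⁻¹` (fixing `0`) -/
def Phi : Perm Site →* Perm Site := Perm.extendDomainHom fE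

@[simp] theorem Phi_zero (g : Perm Site) : Phi g (zs 0) = zs 0 := by
  show Perm.extendDomain g fE (zs 0) = zs 0
  exact Perm.extendDomain_apply_not_subtype g fE (by simp)

@[simp] theorem Phi_fS (g : Perm Site) (u : Site) : Phi g (fS u) = fS (g u) := by
  show Perm.extendDomain g fE (fE u : Site) = (fE (g u) : Site)
  exact Perm.extendDomain_apply_image g fE u

theorem perm_ext_fS {g h : Perm Site} (h0 : g (zs 0) = h (zs 0))
    (h1 : ∀ u, g (fS u) = h (fS u)) : g = h := by
  ext1 u
  by_cases hu : u = zs 0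
  · rw [hu, h0]
  · obtain ⟨v, rfl⟩ := exists_fS hu
    exact h1 v

end Vale.Agent.P193.BH.HG

end FileHGroupDefs

/-! file HGroupPerm -/

section FileHGroupPerm
/-!
Boone-Higman project, part H: facts about the permutation group `PP` (the endomorphism `Phi`,
stabilizer of `0`, high transitivity, finitary permutations).
-/

namespace Vale.Agent.P193.BH.HG

open Equiv

theorem gt_zero : gt (zs 0) = zs 1 := swap_apply_left _ _
theorem gt_one : gt (zs 1) = zs 0 := swap_apply_right _ _
theorem gt_of_ne {u : Site} (h0 : u ≠ zs 0) (h1 : u ≠ zs 1) : gt u = u :=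
  swap_apply_of_ne_of_ne h0 h1
theorem gt_inl_of_ne {i : ℤ} (h0 : i ≠ 0) (h1 : i ≠ 1) : gt (Sum.inl i) = Sum.inl i :=
  gt_of_ne (fun h => h0 (Sum.inl_injective h)) (fun h => h1 (Sum.inl_injective h))
@[simp] theorem gt_inr (j : ℕ) : gt (Sum.inr j) = Sum.inr j :=
  gt_of_ne (by simp) (by simp)
theorem gt_mul_gt : gt * gt = 1 := swap_mul_self _ _
theorem gs_pow_inl (n : ℕ) (i : ℤ) : (gs ^ n) (Sum.inl i) = Sum.inl (i + n) := by
  induction n generalizing i with
  | zero => simp only [pow_zero, Perm.coe_one, id_eq, CharP.cast_eq_zero, add_zero]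
  | succ n ih => rw [pow_succ, Perm.mul_apply, gs_inl, ih]; push_cast; congr 1; ring

/-- conjugates of a transposition -/
theorem conj_swap (g : Perm Site) (u v : Site) : g * swap u v * g⁻¹ = swap (g u) (g v) := by
  rw [mul_inv_eq_iff_eq_mul]
  exact (Equiv.mul_swap_eq_swap_mul g u v)

theorem gs_conj_gt : gs * gt * gs⁻¹ = swap (zs 1) (zs 2) := by
  unfold gt; rw [conj_swap]; rfl

theorem Phi_swap (u v : Site) : Phi (swap u v) = swap (fS u) (fS v) := by
  apply perm_ext_fS
  · rw [Phi_zero, swap_apply_of_ne_of_ne (fS_ne_zero u).symm (fS_ne_zero v).symm]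
  · intro w
    rw [Phi_fS]
    by_cases h : w = u
    · subst h; rw [swap_apply_left, swap_apply_left]
    · by_cases h' : w = v
      · subst h'; rw [swap_apply_right, swap_apply_right]
      · rw [swap_apply_of_ne_of_ne h h', swap_apply_of_ne_of_ne (fS_injective.ne h) (fS_injective.ne h')]

theorem Phi_gt : Phi gt = gs * gt * gs⁻¹ := by
  rw [gs_conj_gt]; unfold gt; rw [Phi_swap]; rfl

theorem Phi_gs : Phi gs = gt * gs := by
  apply perm_ext_fS
  · rw [Phi_zero, Perm.mul_apply, gs_inl]; exact gt_one.symm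
  · rintro (i | j)
    · rw [Phi_fS, Perm.mul_apply, gs_inl]
      rcases lt_trichotomy i (-1) with h | h | h
      · rw [fS_inl_neg (by omega), fS_inl_neg (by omega), gs_inl, gt_inl_of_ne (by omega) (by omega)]
      · subst h
        rw [fS_inl_neg (by omega : (-1 : ℤ) < 0)]
        exact gt_zero.symm
      · rw [fS_inl_nonneg (by omega), fS_inl_nonneg (by omega), gs_inl,
          gt_inl_of_ne (by omega) (by omega)]
    · rw [Phi_fS, Perm.mul_apply]; simp

theorem Phi_gz : Phi gz = gt * gz := by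
  apply perm_ext_fS
  · rw [Phi_zero, Perm.mul_apply, gz_inl_nonneg le_rfl]; exact gt_one.symm
  · rintro (i | j)
    · rw [Phi_fS, Perm.mul_apply]
      by_cases h : 0 ≤ i
      · rw [fS_inl_nonneg h, gz_inl_nonneg h, fS_inl_nonneg (by omega), gz_inl_nonneg (by omega),
          gt_inl_of_ne (by omega) (by omega)]
      · rw [fS_inl_neg (by omega), gz_inl_neg (by omega), fS_inl_neg (by omega),
          gt_inl_of_ne (by omega) (by omega)]
    · rw [Phi_fS, Perm.mul_apply, fS_inr]
      cases j with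
      | zero => rw [gz_inr_zero, fS_inl_nonneg le_rfl]; exact gt_zero.symm
      | succ j => simp

theorem Phi_mem {g : Perm Site} (hg : g ∈ PP) : Phi g ∈ PP := by
  have : PP ≤ PP.comap Phi := by
    conv_lhs => unfold PP
    rw [Subgroup.closure_le]
    rintro x (rfl | rfl | rfl)
    · show Phi gs ∈ PP
      rw [Phi_gs]; exact mul_mem gt_mem gs_mem
    · show Phi gt ∈ PP
      rw [Phi_gt]; exact mul_mem (mul_mem gs_mem gt_mem) (inv_mem gs_mem)
    · show Phi gz ∈ PP
      rw [Phi_gz]; exact mul_mem gt_mem gz_mem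
  exact this hg


/-! ### swaps -/

theorem conj_mem {G : Type*} [Group G] (H : Subgroup G) {g h : G} (hg : g ∈ H) :
    g * h * g⁻¹ ∈ H ↔ h ∈ H := by
  constructor
  · intro hh
    have := mul_mem (mul_mem (inv_mem hg) hh) hg
    simpa only [mul_assoc, inv_mul_cancel_left, inv_mul_cancel, mul_one] using this
  · intro hh
    exact mul_mem (mul_mem hg hh) (inv_mem hg)

theorem swap_succ_mem (i : ℤ) : swap (zs i) (zs (i + 1)) ∈ PP := by
  have step : ∀ i : ℤ, swap (zs i) (zs (i + 1)) ∈ PP ↔ swap (zs (i + 1)) (zs (i + 1 + 1)) ∈ PP := by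
    intro i
    rw [← conj_mem PP gs_mem, conj_swap]
    rfl
  induction i using Int.induction_on with
  | zero => exact gt_mem
  | succ n ih => exact (step n).1 ih
  | pred n ih =>
    apply (step (-(n : ℤ) - 1)).2
    simpa using ih

theorem swap_zs_mem (i j : ℤ) : swap (zs i) (zs j) ∈ PP := by
  wlog h : i ≤ j generalizing i j
  · rw [swap_comm]; exact this j i (by omega)
  obtain ⟨n, rfl⟩ := Int.le.dest h
  clear h
  induction n with
  | zero => rw [Nat.cast_zero, add_zero, swap_self]; exact one_mem _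
  | succ n ih =>
    by_cases hn : n = 0
    · subst hn; simpa using swap_succ_mem i
    · have h1 := (conj_mem PP (swap_succ_mem (i + n))).2 ih
      rw [conj_swap, swap_apply_left, swap_apply_of_ne_of_ne] at h1
      · have e : i + ((n + 1 : ℕ) : ℤ) = i + n + 1 := by push_cast; ring
        rw [e]; exact h1
      · intro h; have := Sum.inl_injective h; omega
      · intro h; have := Sum.inl_injective h; omega

/-- the depth of a site in the reservoir -/
def depth : Site → ℕ
  | Sum.inl _ => 0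
  | Sum.inr j => j + 1

theorem depth_gz_le (u : Site) : depth (gz u) ≤ depth u := by
  rcases u with (i | (_ | j))
  · rw [gz_inl]; split_ifs <;> simp [depth]
  · simp [depth]
  · simp only [depth, gz_inr_succ, le_add_iff_nonneg_right, zero_le]

theorem depth_gz_inr (j : ℕ) : depth (gz (Sum.inr j)) < depth (Sum.inr j) := by
  cases j <;> simp [depth]

theorem swap_mem (u v : Site) : swap u v ∈ PP := by
  induction h : depth u + depth v using Nat.strong_induction_on generalizing u v with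
  | _ n ih =>
    have key : swap (gz u) (gz v) ∈ PP → swap u v ∈ PP := by
      intro hh
      rw [← conj_swap, conj_mem PP gz_mem] at hh
      exact hh
    rcases u with (i | i) <;> rcases v with (j | j)
    · exact swap_zs_mem i j
    · apply key
      refine ih _ ?_ _ _ rfl
      have := depth_gz_inr j
      have := depth_gz_le (Sum.inl i)
      omega
    · apply key
      refine ih _ ?_ _ _ rfl
      have := depth_gz_inr i
      have := depth_gz_le (Sum.inl j)
      omega
    · apply key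
      refine ih _ ?_ _ _ rfl
      have := depth_gz_inr j
      have := depth_gz_inr i
      omega

/-- high transitivity -/
theorem exists_map (n : ℕ) (u : ℕ → Site) (hu : Set.InjOn u (Set.Iio n)) :
    ∃ g ∈ PP, ∀ i : ℕ, i < n → g (zs i) = u i := by
  induction n with
  | zero => exact ⟨1, one_mem _, fun i hi => absurd hi (by omega)⟩
  | succ n ih =>
    obtain ⟨g, hg, hgi⟩ := ih (hu.mono (Set.Iio_subset_Iio (by omega)))
    refine ⟨swap (g (zs n)) (u n) * g, mul_mem (swap_mem _ _) hg, ?_⟩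
    intro i hi
    rw [Perm.mul_apply]
    by_cases h : i = n
    · subst h; exact swap_apply_left _ _
    · have hi' : i < n := by omega
      rw [swap_apply_of_ne_of_ne, hgi i hi']
      · intro e
        have := Sum.inl_injective (g.injective e)
        omega
      · rw [hgi i hi']
        intro e
        exact h (hu (Set.mem_Iio.2 hi) (Set.mem_Iio.2 (Nat.lt_succ_self n)) e)

/-! ### finitary permutations -/

/-- the finitary permutations -/
def FS : Subgroup (Perm Site) := Subgroup.closure {g : Perm Site | g.IsSwap}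

theorem FS_le : FS ≤ PP := by
  unfold FS
  rw [Subgroup.closure_le]
  rintro g ⟨u, v, _, rfl⟩
  exact swap_mem u v

theorem mem_FS {g : Perm Site} : g ∈ FS ↔ {u : Site | g u ≠ u}.Finite := by
  have : g ∈ FS ↔ (MulAction.fixedBy Site g)ᶜ.Finite := _root_.mem_closure_isSwap'
  rw [this]
  have e : (MulAction.fixedBy Site g)ᶜ = {u : Site | g u ≠ u} := by
    ext u; simp [MulAction.mem_fixedBy]
  rw [e]

theorem swap_mem_FS (u v : Site) : swap u v ∈ FS := by
  rw [mem_FS]
  refine Set.Finite.subset (Set.toFinite ({u, v} : Set Site)) ?_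
  intro w hw
  by_contra h
  simp only [Set.mem_insert_iff, Set.mem_singleton_iff, not_or] at h
  exact hw (swap_apply_of_ne_of_ne h.1 h.2)

instance FS_normal : FS.Normal := by
  constructor
  intro n hn g
  rw [mem_FS] at hn ⊢
  have : {u : Site | (g * n * g⁻¹) u ≠ u} = g '' {u : Site | n u ≠ u} := by
    ext u
    simp only [Set.mem_setOf_eq, Set.mem_image]
    constructor
    · intro h
      refine ⟨g⁻¹ u, ?_, by simp⟩
      intro h'
      apply h
      rw [Perm.mul_apply, Perm.mul_apply, h']; simp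
    · rintro ⟨v, hv, rfl⟩ h
      apply hv
      rw [Perm.mul_apply, Perm.mul_apply] at h
      have e : g⁻¹ (g v) = v := g.symm_apply_apply v
      rw [e] at h
      exact g.injective h
  rw [this]
  exact hn.image g

/-- decomposition lemma in an abstract group -/
theorem decomp {G : Type*} [Group G] (N : Subgroup G) [N.Normal] (s t z : G) (ht : t ∈ N)
    (h5 : z * s * z⁻¹ = t * s) (g : G) (hg : g ∈ Subgroup.closure {s, t, z}) :
    ∃ n ∈ N, ∃ a b : ℤ, g = n * (s ^ a * z ^ b) := by
  have hc : Commute (QuotientGroup.mk' N s) (QuotientGroup.mk' N z) := by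
    have h1 : QuotientGroup.mk' N (z * s * z⁻¹) = QuotientGroup.mk' N s := by
      rw [h5, map_mul]
      have : QuotientGroup.mk' N t = 1 := (QuotientGroup.eq_one_iff t).2 ht
      rw [this, one_mul]
    rw [map_mul, map_mul, map_inv, mul_inv_eq_iff_eq_mul] at h1
    exact h1.symm
  have key : ∃ a b : ℤ, QuotientGroup.mk' N g =
      (QuotientGroup.mk' N s) ^ a * (QuotientGroup.mk' N z) ^ b := by
    induction hg using Subgroup.closure_induction with
    | mem x hx =>
      rcases hx with (rfl | rfl | rfl)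
      · exact ⟨1, 0, by simp⟩
      · refine ⟨0, 0, ?_⟩
        have : QuotientGroup.mk' N x = 1 := (QuotientGroup.eq_one_iff x).2 ht
        rw [this]; simp
      · exact ⟨0, 1, by simp⟩
    | one => exact ⟨0, 0, by simp only [QuotientGroup.mk'_apply, QuotientGroup.mk_one, zpow_ofNat, pow_zero, mul_one]⟩
    | mul x y _ _ hx hy =>
      obtain ⟨a, b, hab⟩ := hx
      obtain ⟨c, d, hcd⟩ := hy
      refine ⟨a + c, b + d, ?_⟩
      rw [map_mul, hab, hcd, zpow_add, zpow_add]
      have h2 : Commute ((QuotientGroup.mk' N z) ^ b) ((QuotientGroup.mk' N s) ^ c) :=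
        (hc.symm.zpow_left b).zpow_right c
      rw [mul_assoc, ← mul_assoc (_ ^ b) (_ ^ c) (_ ^ d), h2.eq]
      simp only [mul_assoc]
    | inv x _ hx =>
      obtain ⟨a, b, hab⟩ := hx
      refine ⟨-a, -b, ?_⟩
      rw [map_inv, hab, mul_inv_rev, zpow_neg, zpow_neg]
      exact (((hc.zpow_left a).zpow_right b).inv_inv).eq.symm
  obtain ⟨a, b, hab⟩ := key
  refine ⟨g * (s ^ a * z ^ b)⁻¹, ?_, a, b, by group⟩
  rw [← QuotientGroup.eq_one_iff]
  have : ((g * (s ^ a * z ^ b)⁻¹ : G) : G ⧸ N) = QuotientGroup.mk' N (g * (s ^ a * z ^ b)⁻¹) := rfl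
  rw [this, map_mul, map_inv, hab, map_mul, map_zpow, map_zpow, mul_inv_cancel]

theorem gz_gs : gz * gs * gz⁻¹ = gt * gs := by
  rw [mul_inv_eq_iff_eq_mul]
  ext1 u
  rw [Perm.mul_apply, Perm.mul_apply, Perm.mul_apply]
  rcases u with (i | (_ | j))
  · rw [gs_inl]
    rcases lt_trichotomy i (-1) with h | h | h
    · rw [gz_inl_neg (by omega), gz_inl_neg (by omega), gs_inl, gt_inl_of_ne (by omega) (by omega)]
    · subst h
      rw [gz_inl_nonneg (by omega), gz_inl_neg (by omega)]
      exact gt_zero.symm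
    · rw [gz_inl_nonneg (by omega), gz_inl_nonneg (by omega), gs_inl,
        gt_inl_of_ne (by omega) (by omega)]
  · rw [gs_inr, gz_inr_zero, gs_inl]; exact gt_one.symm
  · simp

theorem gz_gt : gz * gt * gz⁻¹ = gs * gt * gs⁻¹ := by
  rw [gs_conj_gt]; unfold gt; rw [conj_swap]
  rw [gz_inl_nonneg le_rfl, gz_inl_nonneg (by norm_num)]; rfl

/-- permutations fixing `0` are in the image of `Phi` -/
theorem exists_Phi_eq {g : Perm Site} (h0 : g (zs 0) = zs 0) : ∃ g', Phi g' = g := by
  have h0' : ∀ u, u ≠ zs 0 ↔ g u ≠ zs 0 := by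
    intro u
    rw [not_iff_not]
    constructor
    · rintro rfl; exact h0
    · intro h; rw [← h0] at h; exact g.injective h
  refine ⟨fE.trans ((g.subtypePerm (fun u => (h0' u).symm)).trans fE.symm), ?_⟩
  apply perm_ext_fS
  · rw [Phi_zero, h0]
  · intro u
    rw [Phi_fS]
    simp only [Equiv.trans_apply]
    rw [← fE_apply, Equiv.apply_symm_apply]
    rfl

theorem exists_Phi_FS {m : Perm Site} (hm : m ∈ FS) (h0 : m (zs 0) = zs 0) :
    ∃ m' ∈ FS, Phi m' = m := by
  obtain ⟨m', rfl⟩ := exists_Phi_eq h0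
  refine ⟨m', ?_, rfl⟩
  rw [mem_FS] at hm ⊢
  have : {u : Site | m' u ≠ u} = fS ⁻¹' {u : Site | Phi m' u ≠ u} := by
    ext u
    simp only [Set.mem_setOf_eq, Set.mem_preimage, Phi_fS]
    exact not_congr (fS_injective.eq_iff.symm)
  rw [this]
  exact hm.preimage fS_injective.injOn

/-- the stabilizer of `0` in `PP` is `Phi PP` -/
theorem exists_Phi {g : Perm Site} (hg : g ∈ PP) (h0 : g (zs 0) = zs 0) :
    ∃ g' ∈ PP, Phi g' = g := by
  obtain ⟨n, hn, a, b, hab⟩ := decomp FS gs gt gz (swap_mem_FS _ _) gz_gs g hg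
  set q : Perm Site := gs ^ a * gz ^ b with hq
  have hqP : q ∈ PP := mul_mem (zpow_mem gs_mem a) (zpow_mem gz_mem b)
  have ht : QuotientGroup.mk' FS gt = 1 := (QuotientGroup.eq_one_iff gt).2 (swap_mem_FS _ _)
  have h1 : QuotientGroup.mk' FS (Phi q) = QuotientGroup.mk' FS q := by
    rw [hq, map_mul, map_zpow, map_zpow, Phi_gs, Phi_gz, map_mul, map_zpow, map_zpow, map_mul,
      map_mul, ht, one_mul, one_mul, map_mul, map_zpow, map_zpow]
  have hm : g * (Phi q)⁻¹ ∈ FS := by
    rw [← QuotientGroup.eq_one_iff]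
    have : ((g * (Phi q)⁻¹ : Perm Site) : Perm Site ⧸ FS) =
      QuotientGroup.mk' FS (g * (Phi q)⁻¹) := rfl
    have hn' : QuotientGroup.mk' FS n = 1 := (QuotientGroup.eq_one_iff n).2 hn
    rw [this, map_mul, map_inv, h1, hab, map_mul, hn', one_mul, mul_inv_cancel]
  have hm0 : (g * (Phi q)⁻¹) (zs 0) = zs 0 := by
    rw [Perm.mul_apply]
    have : (Phi q)⁻¹ (zs 0) = zs 0 := by
      rw [Perm.inv_eq_iff_eq, Phi_zero]
    rw [this, h0]
  obtain ⟨m', hm', hmm⟩ := exists_Phi_FS hm hm0
  refine ⟨m' * q, mul_mem (FS_le hm') hqP, ?_⟩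
  rw [map_mul, hmm]; group

end Vale.Agent.P193.BH.HG

end FileHGroupPerm

/-! file HGroup -/

section FileHGroup
/-!
Boone-Higman project, part H: the permutation group `PP` is presented by five relations
(`exists_hom`).
-/

namespace Vale.Agent.P193.BH.HG

open Equiv

section cox

variable {G : Type*} [Group G] (s t z : G)

/-- `tau_i` -/
def tau (i : ℕ) : G := s ^ i * t * (s ^ i)⁻¹

theorem tau_add (i k : ℕ) : tau s t (i + k) = s ^ i * tau s t k * (s ^ i)⁻¹ := by
  simp only [tau, pow_add, mul_inv_rev, mul_assoc]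

variable {s t z}

theorem tau_sq (h1 : t * t = 1) (i : ℕ) : tau s t i * tau s t i = 1 := by
  unfold tau
  calc s ^ i * t * (s ^ i)⁻¹ * (s ^ i * t * (s ^ i)⁻¹) = s ^ i * (t * t) * (s ^ i)⁻¹ := by group
    _ = 1 := by rw [h1]; group

theorem commute_conj {x y : G} (h : Commute x y) (g : G) :
    Commute (g * x * g⁻¹) (g * y * g⁻¹) := h.map (MulAut.conj g)

theorem commute_tau {i k : ℕ} (h : Commute t (tau s t k)) : Commute (tau s t i) (tau s t (i + k)) := by
  rw [tau_add]
  exact commute_conj h (s ^ i)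

theorem braid (h1 : t * t = 1) (h2 : (t * (s * t * s⁻¹)) ^ 3 = 1) :
    t * tau s t 1 * t = tau s t 1 * t * tau s t 1 := by
  have e : s * t * s⁻¹ = tau s t 1 := by simp only [tau, pow_one]
  rw [e] at h2
  have h3 := tau_sq (s := s) h1 1
  have i1 : t⁻¹ = t := by rw [inv_eq_iff_mul_eq_one, h1]
  have i2 : (tau s t 1)⁻¹ = tau s t 1 := by rw [inv_eq_iff_mul_eq_one, h3]
  have h4 : t * tau s t 1 * t * (tau s t 1 * t * tau s t 1) = 1 := by
    rw [← h2]; simp only [pow_succ, pow_zero, one_mul, mul_assoc]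
  rw [mul_eq_one_iff_eq_inv] at h4
  rw [h4, mul_inv_rev, mul_inv_rev, i1, i2, mul_assoc]

theorem pow_mul_pow_inv (m : ℕ) : (t * s) ^ (m + 1) * (s ^ (m + 1))⁻¹ =
    ((t * s) ^ m * (s ^ m)⁻¹) * tau s t m := by
  unfold tau
  rw [pow_succ, pow_succ]; group

theorem commute_D {x : G} (m : ℕ) (h : ∀ i < m, Commute (tau s t i) x) :
    Commute ((t * s) ^ m * (s ^ m)⁻¹) x := by
  induction m with
  | zero => simp
  | succ m ih =>
    rw [pow_mul_pow_inv]
    exact (ih (fun i hi => h i (by omega))).mul_left (h m (by omega))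

theorem comm_all (h1 : t * t = 1)
    (h2 : (t * (s * t * s⁻¹)) ^ 3 = 1) (h3 : Commute t (s ^ 2 * t * (s ^ 2)⁻¹))
    (h4 : z * t * z⁻¹ = s * t * s⁻¹) (h5 : z * s * z⁻¹ = t * s) (n : ℕ) :
    2 ≤ n → Commute t (tau s t n) := by
  induction n using Nat.strong_induction_on with
  | _ n ih =>
    intro hn
    rcases Nat.lt_or_ge 2 n with h | h
    swap
    · have : n = 2 := by omega
      subst this; exact h3
    obtain ⟨m, rfl⟩ : ∃ m, n = m + 1 := ⟨n - 1, by omega⟩
    have hm : 2 ≤ m := by omega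
    -- conj by z
    have hz : z * tau s t m * z⁻¹ = t * tau s t (m + 1) * t⁻¹ := by
      have e1 : z * tau s t m * z⁻¹ = (z * s * z⁻¹) ^ m * (z * t * z⁻¹) * ((z * s * z⁻¹) ^ m)⁻¹ := by
        rw [conj_pow]; unfold tau; group
      rw [e1, h4, h5]
      obtain ⟨k, rfl⟩ : ∃ k, m = k + 1 := ⟨m - 1, by omega⟩
      have e2 : (t * s) ^ (k + 1) = t * (s * ((t * s) ^ k * (s ^ k)⁻¹) * s⁻¹) * s ^ (k + 1) := by
        rw [pow_succ', pow_succ']; group
      have hc : Commute (s * ((t * s) ^ k * (s ^ k)⁻¹) * s⁻¹) (tau s t (k + 1 + 1)) := by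
        have h6 : Commute ((t * s) ^ k * (s ^ k)⁻¹) (tau s t (k + 1)) := by
          apply commute_D
          intro i hi
          obtain ⟨d, hd⟩ : ∃ d, k + 1 = i + d := ⟨k + 1 - i, by omega⟩
          rw [hd]
          apply commute_tau
          exact ih d (by omega) (by omega)
        have h7 := commute_conj h6 s
        have e3 : tau s t (k + 1 + 1) = s * tau s t (k + 1) * s⁻¹ := by
          rw [show k + 1 + 1 = 1 + (k + 1) by ring, tau_add]; simp only [pow_one]
        rw [e3]
        exact h7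
      rw [e2]
      set E := s * ((t * s) ^ k * (s ^ k)⁻¹) * s⁻¹ with hE
      have e4 : t * E * s ^ (k + 1) * (s * t * s⁻¹) * (t * E * s ^ (k + 1))⁻¹ =
          t * (E * tau s t (k + 1 + 1) * E⁻¹) * t⁻¹ := by
        unfold tau; group
      rw [e4, hc.eq]; group
    have h6 : Commute (z * t * z⁻¹) (z * tau s t m * z⁻¹) :=
      commute_conj (ih m (by omega) hm) z
    have e1 : z * t * z⁻¹ = tau s t 1 := by rw [h4]; simp only [tau, pow_one]
    rw [e1, hz] at h6
    have i1 : t⁻¹ = t := by rw [inv_eq_iff_mul_eq_one, h1]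
    have h7 : Commute (t * tau s t 1 * t) (tau s t (m + 1)) := by
      have := commute_conj h6 t⁻¹
      rw [inv_inv] at this
      have e5 : t⁻¹ * (t * tau s t (m + 1) * t⁻¹) * t = tau s t (m + 1) := by group
      rw [e5, i1] at this
      exact this
    rw [braid h1 h2] at h7
    have h8 : Commute (tau s t 1) (tau s t (m + 1)) := by
      rw [add_comm m 1]
      exact commute_tau (ih m (by omega) hm)
    have e6 : t = (tau s t 1)⁻¹ * (tau s t 1 * t * tau s t 1) * (tau s t 1)⁻¹ := by group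
    have h9 := (h8.inv_left.mul_left h7).mul_left h8.inv_left
    rwa [← e6] at h9

/-- generated by the first `n` elements `tau_i` -/
def KK (s t : G) (n : ℕ) : Subgroup G := Subgroup.closure {x | ∃ i < n, x = tau s t i}

theorem tau_mem_KK {i n : ℕ} (h : i < n) : tau s t i ∈ KK s t n :=
  Subgroup.subset_closure ⟨i, h, rfl⟩

theorem KK_mono {m n : ℕ} (h : m ≤ n) : KK s t m ≤ KK s t n := by
  apply Subgroup.closure_mono
  rintro x ⟨i, hi, rfl⟩
  exact ⟨i, lt_of_lt_of_le hi h, rfl⟩

theorem conj_KK {n : ℕ} {x : G} (hx : x ∈ KK s t n) : s * x * s⁻¹ ∈ KK s t (n + 1) := by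
  have : KK s t n ≤ (KK s t (n + 1)).comap (MulAut.conj s).toMonoidHom := by
    conv_lhs => unfold KK
    rw [Subgroup.closure_le]
    rintro y ⟨i, hi, rfl⟩
    show s * tau s t i * s⁻¹ ∈ KK s t (n + 1)
    have e : s * tau s t i * s⁻¹ = tau s t (i + 1) := by
      rw [add_comm, tau_add]; simp only [pow_one]
    rw [e]
    exact tau_mem_KK (by omega)
  exact this hx

/-- `tau_j tau_{j+1} ... tau_{j+d-1}` -/
def cyc (s t : G) : ℕ → ℕ → G
  | 0, _ => 1
  | d + 1, j => tau s t j * cyc s t d (j + 1)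

structure Cox (s t : G) : Prop where
  sq : ∀ i, tau s t i * tau s t i = 1
  br : ∀ i, tau s t i * tau s t (i + 1) * tau s t i = tau s t (i + 1) * tau s t i * tau s t (i + 1)
  co : ∀ i j, i + 2 ≤ j → Commute (tau s t i) (tau s t j)

theorem cox_of (h1 : t * t = 1)
    (h2 : (t * (s * t * s⁻¹)) ^ 3 = 1) (h3 : Commute t (s ^ 2 * t * (s ^ 2)⁻¹))
    (h4 : z * t * z⁻¹ = s * t * s⁻¹) (h5 : z * s * z⁻¹ = t * s) : Cox s t where
  sq := tau_sq h1
  br := by
    intro i
    have h := braid h1 h2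
    have e0 : tau s t i = s ^ i * t * (s ^ i)⁻¹ := rfl
    rw [e0, tau_add]
    calc s ^ i * t * (s ^ i)⁻¹ * (s ^ i * tau s t 1 * (s ^ i)⁻¹) * (s ^ i * t * (s ^ i)⁻¹)
        = s ^ i * (t * tau s t 1 * t) * (s ^ i)⁻¹ := by group
      _ = _ := by rw [h]; group
  co := by
    intro i j hij
    obtain ⟨d, rfl⟩ : ∃ d, j = i + d := ⟨j - i, by omega⟩
    exact commute_tau (comm_all h1 h2 h3 h4 h5 d (by omega))

theorem cyc_comm (hC : Cox s t) (d i j : ℕ) (h : i + 2 ≤ j) :
    tau s t i * cyc s t d j = cyc s t d j * tau s t i := by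
  induction d generalizing j with
  | zero => simp only [cyc, mul_one, one_mul]
  | succ d ih =>
    unfold cyc
    rw [← mul_assoc, (hC.co i j h).eq, mul_assoc, ih (j + 1) (by omega), mul_assoc]

theorem cyc_shift (hC : Cox s t) (d i j : ℕ) (h : j < i) (hi : i < j + d) :
    tau s t i * cyc s t d j = cyc s t d j * tau s t (i - 1) := by
  induction d generalizing j with
  | zero => omega
  | succ d ih =>
    rcases Nat.lt_or_ge (j + 1) i with h' | h'
    · unfold cyc
      rw [← mul_assoc, ← (hC.co j i (by omega)).eq, mul_assoc, ih (j + 1) h' (by omega), mul_assoc]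
    · have e : i = j + 1 := by omega
      subst e
      obtain ⟨d, rfl⟩ : ∃ k, d = k + 1 := ⟨d - 1, by omega⟩
      rw [cyc, cyc, Nat.add_sub_cancel]
      calc tau s t (j + 1) * (tau s t j * (tau s t (j + 1) * cyc s t d (j + 1 + 1)))
          = (tau s t (j + 1) * tau s t j * tau s t (j + 1)) * cyc s t d (j + 1 + 1) := by
            simp only [mul_assoc]
        _ = tau s t j * tau s t (j + 1) * (tau s t j * cyc s t d (j + 1 + 1)) := by
            rw [← hC.br]; simp only [mul_assoc]
        _ = _ := by rw [cyc_comm hC d j (j + 1 + 1) (by omega)]; simp only [mul_assoc]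

theorem cyc_form (hC : Cox s t) (n : ℕ) {g : G} (hg : g ∈ KK s t (n + 1)) :
    ∃ d j, j + d = n + 1 ∧ ∃ h ∈ KK s t n, g = cyc s t d j * h := by
  have hinv : ∀ i, (tau s t i)⁻¹ = tau s t i := fun i => by
    rw [inv_eq_iff_mul_eq_one, hC.sq]
  have step : ∀ i < n + 1, ∀ d j, j + d = n + 1 → ∀ h ∈ KK s t n,
      ∃ d' j', j' + d' = n + 1 ∧ ∃ h' ∈ KK s t n,
        tau s t i * (cyc s t d j * h) = cyc s t d' j' * h' := by
    intro i hi d j hd h hh
    rcases lt_trichotomy i j with hij | hij | hij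
    · rcases Nat.lt_or_ge (i + 1) j with h' | h'
      · refine ⟨d, j, hd, tau s t i * h, mul_mem (tau_mem_KK (by omega)) hh, ?_⟩
        rw [← mul_assoc, cyc_comm hC d i j (by omega), mul_assoc]
      · have e : j = i + 1 := by omega
        subst e
        exact ⟨d + 1, i, by omega, h, hh, by rw [cyc, mul_assoc]⟩
    · subst hij
      obtain ⟨d, rfl⟩ : ∃ k, d = k + 1 := ⟨d - 1, by omega⟩
      refine ⟨d, i + 1, by omega, h, hh, ?_⟩
      rw [cyc, ← mul_assoc, ← mul_assoc, hC.sq, one_mul]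
    · refine ⟨d, j, hd, tau s t (i - 1) * h, mul_mem (tau_mem_KK (by omega)) hh, ?_⟩
      rw [← mul_assoc, cyc_shift hC d i j hij (by omega), mul_assoc]
  unfold KK at hg
  induction hg using Subgroup.closure_induction_left with
  | one => exact ⟨0, n + 1, by omega, 1, one_mem _, by simp [cyc]⟩
  | mul_left x hx y _ ih =>
    obtain ⟨i, hi, rfl⟩ := hx
    obtain ⟨d, j, hd, h, hh, rfl⟩ := ih
    exact step i hi d j hd h hh
  | inv_mul_cancel x hx y _ ih =>
    obtain ⟨i, hi, rfl⟩ := hx
    obtain ⟨d, j, hd, h, hh, rfl⟩ := ih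
    rw [hinv]
    exact step i hi d j hd h hh

/-! ### the action -/

theorem pi_tau {π : G →* Perm Site} (hs : π s = gs) (ht : π t = gt) (i : ℕ) :
    π (tau s t i) = swap (zs i) (zs ((i : ℤ) + 1)) := by
  unfold tau
  rw [map_mul, map_mul, map_inv, map_pow, hs, ht]
  unfold gt
  rw [conj_swap, gs_pow_inl, gs_pow_inl]
  congr 2 <;> ring

theorem pi_cyc {π : G →* Perm Site} (hs : π s = gs) (ht : π t = gt) (d j : ℕ) :
    π (cyc s t d j) (zs ((j + d : ℕ) : ℤ)) = zs j := by
  induction d generalizing j with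
  | zero => simp only [cyc, map_one, add_zero, Perm.coe_one, id_eq]
  | succ d ih =>
    rw [cyc, map_mul, Perm.mul_apply]
    have := ih (j + 1)
    rw [show j + 1 + d = j + (d + 1) by ring] at this
    rw [this, pi_tau hs ht]
    push_cast
    exact swap_apply_right _ _

theorem pi_KK {π : G →* Perm Site} (hs : π s = gs) (ht : π t = gt) {n : ℕ} {g : G}
    (hg : g ∈ KK s t n) (m : ℕ) (hm : n < m) : π g (zs m) = zs m := by
  unfold KK at hg
  induction hg using Subgroup.closure_induction with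
  | mem x hx =>
    obtain ⟨i, hi, rfl⟩ := hx
    rw [pi_tau hs ht, swap_apply_of_ne_of_ne]
    · intro h; have := Sum.inl_injective h; omega
    · intro h; have := Sum.inl_injective h; omega
  | one => simp only [map_one, Perm.coe_one, id_eq]
  | mul x y _ _ hx hy => rw [map_mul, Perm.mul_apply, hy, hx]
  | inv x _ hx => rw [map_inv, Perm.inv_eq_iff_eq, hx]

theorem KK_faithful {π : G →* Perm Site} (hs : π s = gs) (ht : π t = gt) (hC : Cox s t) (n : ℕ) :
    ∀ g ∈ KK s t n, π g = 1 → g = 1 := by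
  induction n with
  | zero =>
    intro g hg _
    have : KK s t 0 = ⊥ := by
      unfold KK; rw [Subgroup.closure_eq_bot_iff]
      rintro x ⟨i, hi, _⟩; omega
    rw [this] at hg
    exact Subgroup.mem_bot.1 hg
  | succ n ih =>
    intro g hg h1
    obtain ⟨d, j, hd, h, hh, rfl⟩ := cyc_form hC n hg
    have e : π (cyc s t d j * h) (zs ((n + 1 : ℕ) : ℤ)) = zs j := by
      rw [map_mul, Perm.mul_apply, pi_KK hs ht hh (n + 1) (by omega), ← hd]
      exact pi_cyc hs ht d j
    rw [h1] at e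
    have e2 : ((n + 1 : ℕ) : ℤ) = (j : ℤ) := Sum.inl_injective e
    have e3 : n + 1 = j := by exact_mod_cast e2
    have e4 : d = 0 := by omega
    subst e4
    rw [cyc, one_mul] at h1 ⊢
    exact ih h hh h1

/-- the group generated by all `tau_i`, `i` an integer -/
def HH (s t : G) : Subgroup G := Subgroup.closure {x | ∃ i : ℤ, x = s ^ i * t * (s ^ i)⁻¹}

theorem gen_mem_HH (i : ℤ) : s ^ i * t * (s ^ i)⁻¹ ∈ HH s t := Subgroup.subset_closure ⟨i, rfl⟩

theorem t_mem_HH : t ∈ HH s t := by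
  have := gen_mem_HH (s := s) (t := t) 0
  simpa using this

theorem KK_shift {M n : ℕ} {x : G} (h : s ^ M * x * (s ^ M)⁻¹ ∈ KK s t n) (k : ℕ) :
    s ^ (M + k) * x * (s ^ (M + k))⁻¹ ∈ KK s t (n + k) := by
  induction k with
  | zero => simpa only [add_zero] using h
  | succ k ih =>
    have := conj_KK ih
    have e : s ^ (M + (k + 1)) * x * (s ^ (M + (k + 1)))⁻¹ =
        s * (s ^ (M + k) * x * (s ^ (M + k))⁻¹) * s⁻¹ := by
      rw [← add_assoc, pow_succ']; group
    rw [e]
    exact this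

theorem HH_form {x : G} (hx : x ∈ HH s t) : ∃ M n : ℕ, s ^ M * x * (s ^ M)⁻¹ ∈ KK s t n := by
  unfold HH at hx
  induction hx using Subgroup.closure_induction with
  | mem x hx =>
    obtain ⟨i, rfl⟩ := hx
    obtain ⟨k, hk⟩ : ∃ k : ℕ, (i.natAbs : ℤ) + i = k := Int.eq_ofNat_of_zero_le (by omega)
    refine ⟨i.natAbs, k + 1, ?_⟩
    have e : s ^ i.natAbs * (s ^ i * t * (s ^ i)⁻¹) * (s ^ i.natAbs)⁻¹ = tau s t k := by
      unfold tau
      rw [← zpow_natCast s k, ← hk, ← zpow_natCast s i.natAbs, zpow_add]; group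
    rw [e]
    exact tau_mem_KK (by omega)
  | one => exact ⟨0, 0, by simp⟩
  | mul x y _ _ hx hy =>
    obtain ⟨M, n, h⟩ := hx
    obtain ⟨M', n', h'⟩ := hy
    refine ⟨M + M', (n + M') + (n' + M), ?_⟩
    have h1 := KK_mono (by omega : n + M' ≤ (n + M') + (n' + M)) (KK_shift h M')
    have h2 := KK_mono (by omega : n' + M ≤ (n + M') + (n' + M)) (KK_shift h' M)
    rw [add_comm M' M] at h2
    have h3 := mul_mem h1 h2
    have e : s ^ (M + M') * (x * y) * (s ^ (M + M'))⁻¹ = s ^ (M + M') * x * (s ^ (M + M'))⁻¹ *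
      (s ^ (M + M') * y * (s ^ (M + M'))⁻¹) := by group
    rw [e]; exact h3
  | inv x _ hx =>
    obtain ⟨M, n, h⟩ := hx
    refine ⟨M, n, ?_⟩
    have := inv_mem h
    have e : s ^ M * x⁻¹ * (s ^ M)⁻¹ = (s ^ M * x * (s ^ M)⁻¹)⁻¹ := by group
    rw [e]; exact this

theorem HH_faithful {π : G →* Perm Site} (hs : π s = gs) (ht : π t = gt) (hC : Cox s t) {x : G}
    (hx : x ∈ HH s t) (h1 : π x = 1) : x = 1 := by
  obtain ⟨M, n, h⟩ := HH_form hx
  have := KK_faithful hs ht hC n _ h (by rw [map_mul, map_mul, h1, map_inv]; group)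
  rwa [mul_inv_eq_one, mul_eq_left] at this

theorem pi_HH {π : G →* Perm Site} (ht : π t = gt) {x : G}
    (hx : x ∈ HH s t) : π x ∈ FS := by
  unfold HH at hx
  induction hx using Subgroup.closure_induction with
  | mem x hx =>
    obtain ⟨i, rfl⟩ := hx
    rw [map_mul, map_mul, map_inv, ht]
    exact FS_normal.conj_mem _ (swap_mem_FS _ _) _
  | one => rw [map_one]; exact one_mem _
  | mul x y _ _ hx hy => rw [map_mul]; exact mul_mem hx hy
  | inv x _ hx => rw [map_inv]; exact inv_mem hx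

theorem conj_s_HH (k : ℤ) {x : G} : s ^ k * x * (s ^ k)⁻¹ ∈ HH s t ↔ x ∈ HH s t := by
  have main : ∀ (k : ℤ) (x : G), x ∈ HH s t → s ^ k * x * (s ^ k)⁻¹ ∈ HH s t := by
    intro k x hx
    have : HH s t ≤ (HH s t).comap (MulAut.conj (s ^ k)).toMonoidHom := by
      conv_lhs => unfold HH
      rw [Subgroup.closure_le]
      rintro y ⟨i, rfl⟩
      show s ^ k * (s ^ i * t * (s ^ i)⁻¹) * (s ^ k)⁻¹ ∈ HH s t
      have e : s ^ k * (s ^ i * t * (s ^ i)⁻¹) * (s ^ k)⁻¹ = s ^ (k + i) * t * (s ^ (k + i))⁻¹ := by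
        rw [zpow_add]; group
      rw [e]
      exact gen_mem_HH _
    exact this hx
  constructor
  · intro h
    have h1 := main (-k) _ h
    have e : s ^ (-k) * (s ^ k * x * (s ^ k)⁻¹) * (s ^ (-k))⁻¹ = x := by group
    rwa [e] at h1
  · exact main k x

theorem ts_zpow (i : ℤ) : (t * s) ^ i * (s ^ i)⁻¹ ∈ HH s t := by
  induction i using Int.induction_on with
  | zero => simp
  | succ n ih =>
    have e : (t * s) ^ ((n : ℤ) + 1) * (s ^ ((n : ℤ) + 1))⁻¹ =
        ((t * s) ^ (n : ℤ) * (s ^ (n : ℤ))⁻¹) * (s ^ (n : ℤ) * t * (s ^ (n : ℤ))⁻¹) := by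
      rw [zpow_add_one, zpow_add_one]; group
    rw [e]
    exact mul_mem ih (gen_mem_HH _)
  | pred n ih =>
    have e : (t * s) ^ (-(n : ℤ) - 1) * (s ^ (-(n : ℤ) - 1))⁻¹ =
        ((t * s) ^ (-(n : ℤ)) * (s ^ (-(n : ℤ)))⁻¹) *
          (s ^ (-(n : ℤ) - 1) * t * (s ^ (-(n : ℤ) - 1))⁻¹)⁻¹ := by
      rw [zpow_sub_one, zpow_sub_one, mul_inv_rev t s]; group
    rw [e]
    exact mul_mem ih (inv_mem (gen_mem_HH _))

theorem conj_z_HH (h4 : z * t * z⁻¹ = s * t * s⁻¹) (h5 : z * s * z⁻¹ = t * s) {x : G}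
    (hx : x ∈ HH s t) : z * x * z⁻¹ ∈ HH s t := by
  have : HH s t ≤ (HH s t).comap (MulAut.conj z).toMonoidHom := by
    conv_lhs => unfold HH
    rw [Subgroup.closure_le]
    rintro y ⟨i, rfl⟩
    show z * (s ^ i * t * (s ^ i)⁻¹) * z⁻¹ ∈ HH s t
    have e : z * (s ^ i * t * (s ^ i)⁻¹) * z⁻¹ =
        ((t * s) ^ i * (s ^ i)⁻¹) * (s ^ i * (s * t * s⁻¹) * (s ^ i)⁻¹) *
          ((t * s) ^ i * (s ^ i)⁻¹)⁻¹ := by
      rw [← h4]
      have e1 : (z * s * z⁻¹) ^ i = z * s ^ i * z⁻¹ := conj_zpow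
      rw [← h5, e1]; group
    rw [e]
    refine mul_mem (mul_mem (ts_zpow i) ?_) (inv_mem (ts_zpow i))
    rw [conj_s_HH]
    have := gen_mem_HH (s := s) (t := t) 1
    simpa only [zpow_ofNat, pow_one] using this
  exact this hx

theorem z_pow_s (h4 : z * t * z⁻¹ = s * t * s⁻¹) (h5 : z * s * z⁻¹ = t * s) (j : ℕ) :
    ∃ h ∈ HH s t, z ^ j * s * (z ^ j)⁻¹ = h * s := by
  induction j with
  | zero => exact ⟨1, one_mem _, by simp⟩
  | succ j ih =>
    obtain ⟨h, hh, e⟩ := ih
    refine ⟨(z * h * z⁻¹) * t, mul_mem (conj_z_HH h4 h5 hh) t_mem_HH, ?_⟩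
    calc z ^ (j + 1) * s * (z ^ (j + 1))⁻¹ = z * (z ^ j * s * (z ^ j)⁻¹) * z⁻¹ := by
          rw [pow_succ']; group
      _ = z * (h * s) * z⁻¹ := by rw [e]
      _ = (z * h * z⁻¹) * (z * s * z⁻¹) := by group
      _ = _ := by rw [h5]; group

/-- the union of the `z`-conjugates of `HH` -/
def NN (h4 : z * t * z⁻¹ = s * t * s⁻¹) (h5 : z * s * z⁻¹ = t * s) : Subgroup G where
  carrier := {w | ∃ j : ℕ, z ^ j * w * (z ^ j)⁻¹ ∈ HH s t}
  mul_mem' := by
    rintro a b ⟨j, hj⟩ ⟨k, hk⟩
    have up : ∀ (w : G) (j k : ℕ), z ^ j * w * (z ^ j)⁻¹ ∈ HH s t →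
        z ^ (j + k) * w * (z ^ (j + k))⁻¹ ∈ HH s t := by
      intro w j k hj
      induction k with
      | zero => simpa using hj
      | succ k ih =>
        have := conj_z_HH h4 h5 ih
        have e : z ^ (j + (k + 1)) * w * (z ^ (j + (k + 1)))⁻¹ =
            z * (z ^ (j + k) * w * (z ^ (j + k))⁻¹) * z⁻¹ := by
          rw [← add_assoc, pow_succ']; group
        rw [e]; exact this
    have h1 := up a j k hj
    have h2 := up b k j hk
    rw [add_comm k j] at h2
    refine ⟨j + k, ?_⟩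
    have e : z ^ (j + k) * (a * b) * (z ^ (j + k))⁻¹ = z ^ (j + k) * a * (z ^ (j + k))⁻¹ *
      (z ^ (j + k) * b * (z ^ (j + k))⁻¹) := by group
    rw [e]; exact mul_mem h1 h2
  one_mem' := ⟨0, by simp⟩
  inv_mem' := by
    rintro a ⟨j, hj⟩
    refine ⟨j, ?_⟩
    have e : z ^ j * a⁻¹ * (z ^ j)⁻¹ = (z ^ j * a * (z ^ j)⁻¹)⁻¹ := by group
    rw [e]; exact inv_mem hj

theorem mem_NN (h4 : z * t * z⁻¹ = s * t * s⁻¹) (h5 : z * s * z⁻¹ = t * s) {w : G} :
    w ∈ NN h4 h5 ↔ ∃ j : ℕ, z ^ j * w * (z ^ j)⁻¹ ∈ HH s t := Iff.rfl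

theorem NN_normal (h4 : z * t * z⁻¹ = s * t * s⁻¹) (h5 : z * s * z⁻¹ = t * s)
    (hgen : Subgroup.closure {s, t, z} = ⊤) : (NN h4 h5).Normal := by
  rw [← Subgroup.normalizer_eq_top_iff, eq_top_iff, ← hgen, Subgroup.closure_le]
  have htN : t ∈ NN h4 h5 := ⟨0, by simpa using t_mem_HH⟩
  rintro x (rfl | rfl | rfl)
  · -- s
    show x ∈ Subgroup.normalizer _
    rw [Subgroup.mem_normalizer_iff]
    intro w
    rw [mem_NN, mem_NN]
    refine exists_congr fun j => ?_
    obtain ⟨h, hh, e⟩ := z_pow_s h4 h5 j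
    have e2 : z ^ j * (x * w * x⁻¹) * (z ^ j)⁻¹ =
        h * (x ^ (1 : ℤ) * (z ^ j * w * (z ^ j)⁻¹) * (x ^ (1 : ℤ))⁻¹) * h⁻¹ := by
      calc z ^ j * (x * w * x⁻¹) * (z ^ j)⁻¹ = (z ^ j * x * (z ^ j)⁻¹) * (z ^ j * w * (z ^ j)⁻¹) *
            (z ^ j * x * (z ^ j)⁻¹)⁻¹ := by group
        _ = _ := by rw [e]; group
    rw [e2, conj_mem _ hh, conj_s_HH]
  · exact Subgroup.le_normalizer htN
  · show x ∈ Subgroup.normalizer _
    rw [Subgroup.mem_normalizer_iff]
    intro w
    rw [mem_NN, mem_NN]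
    constructor
    · rintro ⟨j, hj⟩
      refine ⟨j, ?_⟩
      have := conj_z_HH h4 h5 hj
      have e : x ^ j * (x * w * x⁻¹) * (x ^ j)⁻¹ = x * (x ^ j * w * (x ^ j)⁻¹) * x⁻¹ := by group
      rw [e]; exact this
    · rintro ⟨j, hj⟩
      refine ⟨j + 1, ?_⟩
      have e : x ^ (j + 1) * w * (x ^ (j + 1))⁻¹ = x ^ j * (x * w * x⁻¹) * (x ^ j)⁻¹ := by
        rw [pow_succ]; group
      rw [e]; exact hj

theorem gz_pow_neg (n : ℕ) (i : ℤ) (hi : i < 0) : (gz ^ n) (zs i) = zs i := by
  induction n with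
  | zero => simp only [pow_zero, Perm.coe_one, id_eq]
  | succ n ih => rw [pow_succ, Perm.mul_apply, gz_inl_neg hi, ih]

theorem gz_zpow_neg (n : ℤ) (i : ℤ) (hi : i < 0) : (gz ^ n) (zs i) = zs i := by
  rcases Int.eq_nat_or_neg n with ⟨m, rfl | rfl⟩
  · rw [zpow_natCast]; exact gz_pow_neg m i hi
  · rw [zpow_neg, zpow_natCast, Perm.inv_eq_iff_eq]; exact (gz_pow_neg m i hi).symm

theorem gs_zpow_inl (n : ℤ) (i : ℤ) : (gs ^ n) (zs i) = zs (i + n) := by
  rcases Int.eq_nat_or_neg n with ⟨m, rfl | rfl⟩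
  · rw [zpow_natCast]; exact gs_pow_inl m i
  · rw [zpow_neg, zpow_natCast, Perm.inv_eq_iff_eq, gs_pow_inl]; congr 1; ring

theorem gz_pow_inr (n j : ℕ) : (gz ^ n) (Sum.inr (j + n)) = Sum.inr j := by
  induction n generalizing j with
  | zero => simp only [pow_zero, add_zero, Perm.coe_one, id_eq]
  | succ n ih => rw [pow_succ, Perm.mul_apply, ← add_assoc, gz_inr_succ, ih]

theorem not_fs_infinite {g : Perm Site} (u : ℕ → Site) (hu : Function.Injective u)
    (hg : ∀ k, g (u k) ≠ u k) : g ∉ FS := by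
  rw [mem_FS]
  intro hf
  exact Set.infinite_of_injective_forall_mem hu (fun k => hg k) hf

theorem exponents_zero {a b : ℤ} (h : gs ^ a * gz ^ b ∈ FS) : a = 0 ∧ b = 0 := by
  have ha : a = 0 := by
    by_contra ha
    refine not_fs_infinite (fun k : ℕ => zs (-(k : ℤ) - 1)) ?_ ?_ h
    · intro k l hkl
      have := Sum.inl_injective hkl
      omega
    · intro k hk
      rw [Perm.mul_apply, gz_zpow_neg _ _ (by omega), gs_zpow_inl] at hk
      have := Sum.inl_injective hk
      omega
  subst ha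
  refine ⟨rfl, ?_⟩
  rw [zpow_zero, one_mul] at h
  have main : ∀ n : ℕ, n ≠ 0 → gz ^ n ∉ FS := by
    intro n hn
    refine not_fs_infinite (fun k : ℕ => Sum.inr (k + n)) ?_ ?_
    · intro k l hkl
      have := Sum.inr_injective hkl
      omega
    · intro k hk
      rw [gz_pow_inr] at hk
      have := Sum.inr_injective hk
      omega
  rcases Int.eq_nat_or_neg b with ⟨m, rfl | rfl⟩
  · rw [zpow_natCast] at h
    by_contra hb
    exact main m (by rintro rfl; exact hb rfl) h
  · rw [zpow_neg, zpow_natCast] at h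
    by_contra hb
    exact main m (by rintro rfl; exact hb rfl) ((Subgroup.inv_mem_iff _).1 h)

/-- H1: the presentation acts faithfully -/
theorem faithful (h1 : t * t = 1)
    (h2 : (t * (s * t * s⁻¹)) ^ 3 = 1) (h3 : Commute t (s ^ 2 * t * (s ^ 2)⁻¹))
    (h4 : z * t * z⁻¹ = s * t * s⁻¹) (h5 : z * s * z⁻¹ = t * s)
    (hgen : Subgroup.closure {s, t, z} = ⊤) (π : G →* Perm Site) (hs : π s = gs) (ht : π t = gt)
    (hz : π z = gz) (g : G) (hg : π g = 1) : g = 1 := by
  have hC := cox_of h1 h2 h3 h4 h5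
  have := NN_normal h4 h5 hgen
  have htN : t ∈ NN h4 h5 := ⟨0, by simpa using t_mem_HH⟩
  obtain ⟨n, hn, a, b, rfl⟩ := decomp (NN h4 h5) s t z htN h5 g (by rw [hgen]; trivial)
  obtain ⟨j, hj⟩ := hn
  have hnF : π n ∈ FS := by
    have h6 := pi_HH ht hj
    rw [map_mul, map_mul, map_inv] at h6
    have h7 := FS_normal.conj_mem _ h6 (π (z ^ j))⁻¹
    have e : (π (z ^ j))⁻¹ * (π (z ^ j) * π n * (π (z ^ j))⁻¹) * (π (z ^ j))⁻¹⁻¹ = π n := by group
    rwa [e] at h7
  have h8 : gs ^ a * gz ^ b ∈ FS := by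
    rw [map_mul, map_mul, map_zpow, map_zpow, hs, hz, mul_eq_one_iff_eq_inv'] at hg
    rw [hg]; exact inv_mem hnF
  obtain ⟨rfl, rfl⟩ := exponents_zero h8
  have e : n * (s ^ (0 : ℤ) * z ^ (0 : ℤ)) = n := by simp
  rw [e] at hg ⊢
  have h9 := HH_faithful hs ht hC hj (by rw [map_mul, map_mul, hg, map_inv]; group)
  rwa [mul_inv_eq_one, mul_eq_left] at h9

end cox

/-- the group `PP` is presented by five relations -/
theorem exists_hom {H : Type*} [Group H] (s t z : H) (h1 : t * t = 1)
    (h2 : (t * (s * t * s⁻¹)) ^ 3 = 1) (h3 : Commute t (s ^ 2 * t * (s ^ 2)⁻¹))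
    (h4 : z * t * z⁻¹ = s * t * s⁻¹) (h5 : z * s * z⁻¹ = t * s) :
    ∃ F : PP →* H, F ⟨gs, gs_mem⟩ = s ∧ F ⟨gt, gt_mem⟩ = t ∧ F ⟨gz, gz_mem⟩ = z := by
  -- relations of the permutations
  have p1 : gt * gt = 1 := gt_mul_gt
  have p2 : (gt * (gs * gt * gs⁻¹)) ^ 3 = 1 := by
    rw [gs_conj_gt]; unfold gt
    have h01 : swap (zs 0) (zs 1) * swap (zs 1) (zs 2) * swap (zs 0) (zs 1) = swap (zs 0) (zs 2) := by
      have := conj_swap (swap (zs 0) (zs 1)) (zs 1) (zs 2)
      rw [swap_inv, swap_apply_right, swap_apply_of_ne_of_ne] at this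
      · exact this
      · simp
      · simp
    have h02 : swap (zs 1) (zs 2) * swap (zs 0) (zs 1) * swap (zs 1) (zs 2) = swap (zs 0) (zs 2) := by
      have := conj_swap (swap (zs 1) (zs 2)) (zs 0) (zs 1)
      rw [swap_inv, swap_apply_left, swap_apply_of_ne_of_ne] at this
      · exact this
      · simp
      · simp
    calc (swap (zs 0) (zs 1) * swap (zs 1) (zs 2)) ^ 3 =
          (swap (zs 0) (zs 1) * swap (zs 1) (zs 2) * swap (zs 0) (zs 1)) *
          (swap (zs 1) (zs 2) * swap (zs 0) (zs 1) * swap (zs 1) (zs 2)) := by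
            simp only [pow_succ, pow_zero, one_mul, mul_assoc]
      _ = 1 := by rw [h01, h02, swap_mul_self]
  have p3 : Commute gt (gs ^ 2 * gt * (gs ^ 2)⁻¹) := by
    unfold gt
    rw [conj_swap, gs_pow_inl, gs_pow_inl]
    refine Equiv.Perm.Disjoint.commute ?_
    intro u
    by_cases h0 : u = zs 0
    · right
      rw [swap_apply_of_ne_of_ne] <;> rw [h0] <;> simp
    · by_cases h1 : u = zs 1
      · right
        rw [swap_apply_of_ne_of_ne] <;> rw [h1] <;> simp
      · left
        exact swap_apply_of_ne_of_ne h0 h1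
  -- the graph
  let S : H × Perm Site := (s, gs)
  let T : H × Perm Site := (t, gt)
  let Z : H × Perm Site := (z, gz)
  let Γ : Subgroup (H × Perm Site) := Subgroup.closure {S, T, Z}
  have hS : S ∈ Γ := Subgroup.subset_closure (by simp)
  have hT : T ∈ Γ := Subgroup.subset_closure (by simp)
  have hZ : Z ∈ Γ := Subgroup.subset_closure (by simp)
  let π : Γ →* Perm Site := (MonoidHom.snd H (Perm Site)).comp Γ.subtype
  have hgen : Subgroup.closure {(⟨S, hS⟩ : Γ), ⟨T, hT⟩, ⟨Z, hZ⟩} = ⊤ := by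
    have h6 : Subgroup.closure (((↑) : Γ → H × Perm Site) ⁻¹' {S, T, Z}) = ⊤ :=
      Subgroup.closure_closure_coe_preimage
    rw [← h6]
    congr 1
    ext x
    simp only [Set.mem_insert_iff, Subtype.ext_iff, Set.mem_singleton_iff, Set.mem_preimage]
  have hinj : Function.Injective π := by
    rw [injective_iff_map_eq_one]
    intro x hx
    refine faithful (s := (⟨S, hS⟩ : Γ)) (t := ⟨T, hT⟩) (z := ⟨Z, hZ⟩) ?_ ?_ ?_ ?_ ?_ hgen π rfl rfl
      rfl x hx
    · exact Subtype.ext (Prod.ext h1 p1)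
    · exact Subtype.ext (Prod.ext h2 p2)
    · exact Subtype.ext (Prod.ext h3.eq p3.eq)
    · exact Subtype.ext (Prod.ext h4 gz_gt)
    · exact Subtype.ext (Prod.ext h5 gz_gs)
  have hrange : π.range = PP := by
    have : π.range = Γ.map (MonoidHom.snd H (Perm Site)) := by
      ext x; simp only [MonoidHom.mem_range, MonoidHom.coe_comp, MonoidHom.coe_snd, Subgroup.coe_subtype, Function.comp_apply, Subtype.exists, exists_prop, Prod.exists, exists_eq_right, Subgroup.mem_map, π]
    rw [this]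
    unfold PP
    rw [MonoidHom.map_closure]
    congr 1
    simp only [MonoidHom.coe_snd, Set.image_insert_eq, Set.image_singleton, S, T, Z]
  let E : Γ ≃* π.range := MonoidHom.ofInjective hinj
  let F : PP →* H := ((MonoidHom.fst H (Perm Site)).comp Γ.subtype).comp
    (E.symm.toMonoidHom.comp (MulEquiv.subgroupCongr hrange.symm).toMonoidHom)
  have hF : ∀ (x : Γ) (hx : π x ∈ PP), F ⟨π x, hx⟩ = x.1.1 := by
    intro x hx
    have e : E.symm ((MulEquiv.subgroupCongr hrange.symm) ⟨π x, hx⟩) = x := by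
      rw [MulEquiv.symm_apply_eq]
      rfl
    show (E.symm ((MulEquiv.subgroupCongr hrange.symm) ⟨π x, hx⟩)).1.1 = x.1.1
    rw [e]
  exact ⟨F, hF ⟨S, hS⟩ gs_mem, hF ⟨T, hT⟩ gt_mem, hF ⟨Z, hZ⟩ gz_mem⟩

end Vale.Agent.P193.BH.HG

end FileHGroup

/-! file HAlg -/

section FileHAlg
/-!
H3: the infinite sum algebra: the endomorphism `phi` and the infinite sum structure.
-/

namespace Vale.Agent.P193.BH

namespace HA

open AGen

/-- the quotient map -/
noncomputable def mk : FA →ₐ[ZMod 2] HA := RingQuot.mkAlgHom (ZMod 2) HRel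

theorem mk_surj : Function.Surjective mk := RingQuot.mkAlgHom_surjective _ _

theorem mk_rel {a b : FA} (h : HRel a b) : mk a = mk b := RingQuot.mkAlgHom_rel _ h

/-- generators -/
noncomputable def a (g : AGen) : HA := mk (γ g)

theorem mk_γ (g : AGen) : mk (γ g) = a g := rfl

theorem ss' : a s * a s' = 1 := by
  have := mk_rel HRel.ss'
  simpa only [map_mul, map_one, mk_γ] using this
theorem s's : a s' * a s = 1 := by
  have := mk_rel HRel.s's
  simpa only [map_mul, mk_γ, map_one] using this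
theorem tt : a t * a t = 1 := by
  have := mk_rel HRel.tt
  simpa only [map_mul, map_one, mk_γ] using this
theorem cc' : a c * a c' = 1 := by
  have := mk_rel HRel.cc'
  simpa only [map_mul, mk_γ, map_one] using this
theorem c'c : a c' * a c = 1 := by
  have := mk_rel HRel.c'c
  simpa only [map_mul, mk_γ, map_one] using this
theorem yx : a y * a x = 1 := by
  have := mk_rel HRel.yx
  simpa only [map_mul, mk_γ, map_one] using this
theorem wz : a w * a z = 1 := by
  have := mk_rel HRel.wz
  simpa only [map_mul, mk_γ, map_one] using this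
theorem zw : a z * a w = 1 + a x * a y := by
  have := mk_rel HRel.zw
  simpa only [map_mul, mk_γ, map_add, map_one] using this

theorem add_self (r : HA) : r + r = 0 := by
  have h : (2 : ZMod 2) = 0 := by decide
  have : (2 : ZMod 2) • r = 0 := by rw [h, zero_smul]
  rw [← this, two_smul]

theorem zw_xy : a z * a w + a x * a y = 1 := by
  rw [zw, add_assoc, add_self, add_zero]

theorem yz : a y * a z = 0 := by
  have h1 : a y * (a z * a w) = 0 := by
    rw [zw, mul_add, mul_one, ← mul_assoc, yx, one_mul, add_self]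
  calc a y * a z = a y * (a z * a w) * a z := by
        rw [mul_assoc, mul_assoc, wz, mul_one]
    _ = 0 := by rw [h1, zero_mul]

theorem wx : a w * a x = 0 := by
  have h1 : (a z * a w) * a x = 0 := by
    rw [zw, add_mul, one_mul, mul_assoc, yx, mul_one, add_self]
  calc a w * a x = a w * ((a z * a w) * a x) := by
        rw [← mul_assoc, ← mul_assoc, wz, one_mul]
    _ = 0 := by rw [h1, mul_zero]

/-- unit -/
noncomputable def us : HAˣ := ⟨a s, a s', ss', s's⟩
/-- unit -/
noncomputable def ut : HAˣ := ⟨a t, a t, tt, tt⟩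
/-- unit -/
noncomputable def uc : HAˣ := ⟨a c, a c', cc', c'c⟩

theorem us_val : (us : HA) = a s := rfl
theorem us_inv : ((us⁻¹ : HAˣ) : HA) = a s' := rfl
theorem ut_val : (ut : HA) = a t := rfl
theorem grel : GRel us ut uc where
  sq := Units.ext tt
  cube := by
    apply Units.ext
    have := mk_rel HRel.cube
    simp only [map_pow, map_mul, mk_γ, map_one] at this
    rw [Units.val_pow_eq_pow_val, Units.val_one]
    exact this
  comm := by
    apply Units.ext
    have := mk_rel HRel.comm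
    simp only [map_mul, mk_γ] at this
    simp only [Units.val_mul, us_val, us_inv, ut_val]
    simpa only [mul_assoc] using this
  zt := by
    apply Units.ext
    have := mk_rel HRel.ct
    simp only [map_mul, mk_γ] at this
    exact this
  zs := by
    apply Units.ext
    have := mk_rel HRel.cs
    simp only [map_mul, mk_γ] at this
    exact this

/-- the endomorphism on the free algebra -/
noncomputable def ψ : FA →ₐ[ZMod 2] HA := FreeAlgebra.lift (ZMod 2) (fun g => mk (ph g))

theorem ψ_γ (g : AGen) : ψ (γ g) = mk (ph g) := FreeAlgebra.lift_ι_apply _ _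

theorem ψ_s : ψ (γ s) = ((ut * us : HAˣ) : HA) := by
  rw [ψ_γ]; simp only [ph, map_mul, mk_γ]; rfl
theorem ψ_s' : ψ (γ s') = (((ut * us)⁻¹ : HAˣ) : HA) := by
  rw [ψ_γ, mul_inv_rev]; simp only [ph, map_mul, mk_γ]; rfl
theorem ψ_t : ψ (γ t) = ((us * ut * us⁻¹ : HAˣ) : HA) := by
  rw [ψ_γ]; simp only [ph, map_mul, mk_γ]; rfl
theorem ψ_c : ψ (γ c) = ((ut * uc : HAˣ) : HA) := by
  rw [ψ_γ]; simp only [ph, map_mul, mk_γ]; rfl
theorem ψ_c' : ψ (γ c') = (((ut * uc)⁻¹ : HAˣ) : HA) := by
  rw [ψ_γ, mul_inv_rev]; simp only [ph, map_mul, mk_γ]; rfl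
theorem ψ_x : ψ (γ x) = a t * a x * a t := by
  rw [ψ_γ]; simp only [ph, map_mul, mk_γ]
theorem ψ_y : ψ (γ y) = a t * a y * a t := by
  rw [ψ_γ]; simp only [ph, map_mul, mk_γ]
theorem ψ_z : ψ (γ z) = a t * a z := by
  rw [ψ_γ]; simp only [ph, map_mul, mk_γ]
theorem ψ_w : ψ (γ w) = a w * a t := by
  rw [ψ_γ]; simp only [ph, map_mul, mk_γ]

/-- `z` intertwines. -/
theorem z_mk (u : FA) : a z * mk u = ψ u * a z := by
  induction u using FreeAlgebra.induction with
  | grade0 r => rw [AlgHom.commutes, AlgHom.commutes, Algebra.commutes]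
  | grade1 g =>
    have := mk_rel (HRel.zr g)
    rw [map_mul, map_mul, mk_γ] at this
    rw [ψ_γ]
    exact this
  | mul u v hu hv => rw [map_mul, map_mul, ← mul_assoc, hu, mul_assoc, hv, mul_assoc]
  | add u v hu hv => rw [map_add, map_add, mul_add, add_mul, hu, hv]

/-- `x` commutes with the image. -/
theorem x_ψ (u : FA) : Commute (a x) (ψ u) := by
  change a x * ψ u = ψ u * a x
  induction u using FreeAlgebra.induction with
  | grade0 r => rw [AlgHom.commutes, Algebra.commutes]
  | grade1 g =>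
    have := mk_rel (HRel.xr g)
    rw [map_mul, map_mul, mk_γ] at this
    rw [ψ_γ]
    exact this
  | mul u v hu hv => rw [map_mul, ← mul_assoc, hu, mul_assoc, hv, mul_assoc]
  | add u v hu hv => rw [map_add, mul_add, add_mul, hu, hv]

/-- `y` commutes with the image. -/
theorem y_ψ (u : FA) : Commute (a y) (ψ u) := by
  change a y * ψ u = ψ u * a y
  induction u using FreeAlgebra.induction with
  | grade0 r => rw [AlgHom.commutes, Algebra.commutes]
  | grade1 g =>
    have := mk_rel (HRel.yr g)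
    rw [map_mul, map_mul, mk_γ] at this
    rw [ψ_γ]
    exact this
  | mul u v hu hv => rw [map_mul, ← mul_assoc, hu, mul_assoc, hv, mul_assoc]
  | add u v hu hv => rw [map_add, mul_add, add_mul, hu, hv]

/-- `w` intertwines. -/
theorem w_ψ (u : FA) : a w * ψ u = mk u * a w := by
  calc a w * ψ u = a w * ψ u * (a z * a w + a x * a y) := by rw [zw_xy, mul_one]
    _ = a w * (ψ u * a z) * a w + a w * (ψ u * a x) * a y := by
        rw [mul_add]; simp only [mul_assoc]
    _ = (a w * a z) * mk u * a w + (a w * a x) * ψ u * a y := by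
        rw [← z_mk, ← (x_ψ u).eq]; simp only [mul_assoc]
    _ = mk u * a w := by rw [wz, wx, one_mul, zero_mul, zero_mul, add_zero]

/-- `t` commutes with the second iterate. -/
theorem t_comm (g : AGen) : Commute (a t) (ψ (ph g)) := by
  have hv : ∀ u v : HAˣ, Commute u v → Commute (u : HA) (v : HA) := fun u v h =>
    congrArg Units.val h.eq
  have hs := hv _ _ grel.comm_s
  have ht := hv _ _ grel.comm_t
  have hc := hv _ _ grel.comm_z
  have hbr : a t * ψ (γ t) * a t = ψ (γ t) * a t * ψ (γ t) := by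
    rw [ψ_t]; exact congrArg Units.val grel.braid
  have ht1 : ψ (γ t) * ψ (γ t) = 1 := by
    rw [ψ_t]; exact congrArg Units.val grel.t1_sq
  cases g with
  | s =>
    simp only [ph, map_mul, ψ_s, ψ_t]
    exact hs
  | s' =>
    have : ψ (ph s') = (((us * ut * us⁻¹ * (ut * us))⁻¹ : HAˣ) : HA) := by
      simp only [ph, map_mul, ψ_s', ψ_t]
      have h1 : (us * ut * us⁻¹ : HAˣ)⁻¹ = us * ut * us⁻¹ :=
        inv_eq_of_mul_eq_one_right grel.t1_sq
      rw [mul_inv_rev (us * ut * us⁻¹), h1]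
      rfl
    rw [this]
    exact hv _ _ grel.comm_s.inv_right
  | t =>
    simp only [ph, map_mul, ψ_s, ψ_t, ψ_s']
    exact ht
  | c =>
    simp only [ph, map_mul, ψ_c, ψ_t]
    exact hc
  | c' =>
    have : ψ (ph c') = (((us * ut * us⁻¹ * (ut * uc))⁻¹ : HAˣ) : HA) := by
      simp only [ph, map_mul, ψ_c', ψ_t]
      have h1 : (us * ut * us⁻¹ : HAˣ)⁻¹ = us * ut * us⁻¹ :=
        inv_eq_of_mul_eq_one_right grel.t1_sq
      rw [mul_inv_rev (us * ut * us⁻¹), h1]
      rfl
    rw [this]
    exact hv _ _ grel.comm_z.inv_right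
  | x =>
    simp only [ph, map_mul, ψ_x]
    change a t * (ψ (γ t) * (a t * a x * a t) * ψ (γ t)) =
      ψ (γ t) * (a t * a x * a t) * ψ (γ t) * a t
    calc a t * (ψ (γ t) * (a t * a x * a t) * ψ (γ t))
        = (a t * ψ (γ t) * a t) * a x * (a t * ψ (γ t)) := by simp only [mul_assoc]
      _ = ψ (γ t) * a t * (ψ (γ t) * a x) * (a t * ψ (γ t)) := by
          rw [hbr]; simp only [mul_assoc]
      _ = ψ (γ t) * a t * a x * (ψ (γ t) * a t * ψ (γ t)) := by
          rw [← (x_ψ _).eq]; simp only [mul_assoc]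
      _ = _ := by rw [← hbr]; simp only [mul_assoc]
  | y =>
    simp only [ph, map_mul, ψ_y]
    change a t * (ψ (γ t) * (a t * a y * a t) * ψ (γ t)) =
      ψ (γ t) * (a t * a y * a t) * ψ (γ t) * a t
    calc a t * (ψ (γ t) * (a t * a y * a t) * ψ (γ t))
        = (a t * ψ (γ t) * a t) * a y * (a t * ψ (γ t)) := by simp only [mul_assoc]
      _ = ψ (γ t) * a t * (ψ (γ t) * a y) * (a t * ψ (γ t)) := by
          rw [hbr]; simp only [mul_assoc]
      _ = ψ (γ t) * a t * a y * (ψ (γ t) * a t * ψ (γ t)) := by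
          rw [← (y_ψ _).eq]; simp only [mul_assoc]
      _ = _ := by rw [← hbr]; simp only [mul_assoc]
  | z =>
    simp only [ph, map_mul, ψ_z]
    change a t * (ψ (γ t) * (a t * a z)) = ψ (γ t) * (a t * a z) * a t
    calc a t * (ψ (γ t) * (a t * a z)) = (a t * ψ (γ t) * a t) * a z := by
          simp only [mul_assoc]
      _ = ψ (γ t) * a t * (ψ (γ t) * a z) := by rw [hbr]; simp only [mul_assoc]
      _ = ψ (γ t) * a t * (a z * a t) := by rw [← z_mk, mk_γ]
      _ = _ := by simp only [mul_assoc]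
  | w =>
    simp only [ph, map_mul, ψ_w]
    change a t * (a w * a t * ψ (γ t)) = a w * a t * ψ (γ t) * a t
    calc a t * (a w * a t * ψ (γ t)) = (a t * a w) * (a t * ψ (γ t)) := by
          simp only [mul_assoc]
      _ = (a w * ψ (γ t)) * (a t * ψ (γ t)) := by rw [w_ψ, mk_γ]
      _ = a w * (ψ (γ t) * a t * ψ (γ t)) := by simp only [mul_assoc]
      _ = _ := by rw [← hbr]; simp only [mul_assoc]

/-- `ψ` respects the relations. -/
theorem ψ_rel {u v : FA} (h : HRel u v) : ψ u = ψ v := by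
  have hp := grel.phi
  cases h with
  | ss' => rw [map_mul, ψ_s, ψ_s', ← Units.val_mul, mul_inv_cancel, map_one, Units.val_one]
  | s's => rw [map_mul, ψ_s, ψ_s', ← Units.val_mul, inv_mul_cancel, map_one, Units.val_one]
  | tt => rw [map_mul, ψ_t, ← Units.val_mul, hp.sq, map_one, Units.val_one]
  | cc' => rw [map_mul, ψ_c, ψ_c', ← Units.val_mul, mul_inv_cancel, map_one, Units.val_one]
  | c'c => rw [map_mul, ψ_c, ψ_c', ← Units.val_mul, inv_mul_cancel, map_one, Units.val_one]
  | cube =>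
    have := congrArg Units.val hp.cube
    simp only [map_pow, map_mul, ψ_t, ψ_s, ψ_s', map_one]
    simpa only [Units.val_mul, Units.val_pow_eq_pow_val, Units.val_one] using this
  | comm =>
    have := congrArg Units.val hp.comm
    simp only [map_mul, ψ_s, ψ_s', ψ_t]
    refine Eq.trans ?_ (this.trans ?_)
    · simp only [mul_assoc, Units.val_mul]
    · simp only [Units.val_mul, mul_assoc]
  | ct =>
    have := congrArg Units.val hp.zt
    simp only [map_mul, ψ_s, ψ_s', ψ_t, ψ_c]
    exact this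
  | cs =>
    have := congrArg Units.val hp.zs
    simp only [map_mul, ψ_s, ψ_t, ψ_c]
    exact this
  | yx =>
    rw [map_mul, ψ_y, ψ_x, map_one]
    calc a t * a y * a t * (a t * a x * a t) = a t * a y * (a t * a t) * a x * a t := by
          simp only [mul_assoc]
      _ = a t * (a y * a x) * a t := by rw [tt, mul_one]; simp only [mul_assoc]
      _ = 1 := by rw [yx, mul_one, tt]
  | wz =>
    rw [map_mul, ψ_w, ψ_z, map_one]
    calc a w * a t * (a t * a z) = a w * (a t * a t) * a z := by simp only [mul_assoc]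
      _ = 1 := by rw [tt, mul_one, wz]
  | zw =>
    rw [map_mul, map_add, map_one, map_mul, ψ_w, ψ_z, ψ_x, ψ_y]
    calc a t * a z * (a w * a t) = a t * (a z * a w) * a t := by simp only [mul_assoc]
      _ = a t * a t + a t * a x * a y * a t := by
          rw [zw, mul_add, mul_one, add_mul]; simp only [mul_assoc]
      _ = 1 + a t * a x * (a t * a t) * a y * a t := by rw [tt, mul_one]
      _ = _ := by simp only [mul_assoc]
  | zr g =>
    rw [map_mul, map_mul, ψ_z, ψ_γ]
    calc a t * a z * mk (ph g) = a t * (ψ (ph g) * a z) := by rw [mul_assoc, z_mk]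
      _ = ψ (ph g) * (a t * a z) := by rw [← mul_assoc, (t_comm g).eq, mul_assoc]
  | xr g =>
    rw [map_mul, map_mul, ψ_x]
    exact (((t_comm g).mul_left (x_ψ _)).mul_left (t_comm g)).eq
  | yr g =>
    rw [map_mul, map_mul, ψ_y]
    exact (((t_comm g).mul_left (y_ψ _)).mul_left (t_comm g)).eq

/-- the endomorphism -/
noncomputable def φ : HA →ₐ[ZMod 2] HA :=
  RingQuot.liftAlgHom (ZMod 2) ⟨ψ, fun {_ _} h => ψ_rel h⟩

theorem φ_mk (u : FA) : φ (mk u) = ψ u := by
  unfold φ mk
  exact RingQuot.liftAlgHom_mkAlgHom_apply _ _ _ _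

theorem zz_mul (r : HA) : a z * r = φ r * a z := by
  obtain ⟨u, rfl⟩ := mk_surj r
  rw [φ_mk, z_mk]

theorem zs_mul (r : HA) : a w * φ r = r * a w := by
  obtain ⟨u, rfl⟩ := mk_surj r
  rw [φ_mk, w_ψ]

theorem X_mul (r : HA) : a x * φ r = φ r * a x := by
  obtain ⟨u, rfl⟩ := mk_surj r
  rw [φ_mk, (x_ψ u).eq]

theorem Y_mul (r : HA) : a y * φ r = φ r * a y := by
  obtain ⟨u, rfl⟩ := mk_surj r
  rw [φ_mk, (y_ψ u).eq]

theorem φ_X : φ (a x) = a t * a x * a t := (φ_mk _).trans ψ_x
theorem φ_Y : φ (a y) = a t * a y * a t := (φ_mk _).trans ψ_y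
theorem φ_zz : φ (a z) = a t * a z := (φ_mk _).trans ψ_z
theorem φ_zs : φ (a w) = a w * a t := (φ_mk _).trans ψ_w

/-- the infinite sum structure -/
noncomputable def infSum : InfSum HA where
  x0 := a z
  x1 := a x
  y0 := a w
  y1 := a y
  φ := φ
  h00 := wz
  h11 := yx
  h01 := wx
  h10 := yz
  hs := zw_xy
  hφ := by
    intro r
    change φ r = a z * r * a w + a x * φ r * a y
    rw [zz_mul, X_mul, mul_assoc, mul_assoc, ← mul_add, zw_xy, mul_one]

/-- the group homomorphism -/
theorem exists_grU : ∃ F : HG.PP →* HAˣ, F ⟨HG.gs, HG.gs_mem⟩ = us ∧ F ⟨HG.gt, HG.gt_mem⟩ = ut ∧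
    F ⟨HG.gz, HG.gz_mem⟩ = uc := by
  apply HG.exists_hom
  · exact grel.sq
  · exact grel.cube
  · have e : us ^ 2 * ut * (us ^ 2)⁻¹ = us * (us * ut * us⁻¹) * us⁻¹ := by
      simp only [pow_two, mul_assoc, mul_inv_rev]
    rw [e]
    exact grel.comm
  · rw [mul_inv_eq_iff_eq_mul]; exact grel.zt
  · rw [mul_inv_eq_iff_eq_mul]; exact grel.zs

/-- the group homomorphism to the units -/
noncomputable def grU : HG.PP →* HAˣ := exists_grU.choose

theorem grU_gs : grU ⟨HG.gs, HG.gs_mem⟩ = us := exists_grU.choose_spec.1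
theorem grU_gt : grU ⟨HG.gt, HG.gt_mem⟩ = ut := exists_grU.choose_spec.2.1
theorem grU_gz : grU ⟨HG.gz, HG.gz_mem⟩ = uc := exists_grU.choose_spec.2.2

/-- the group homomorphism to the algebra -/
noncomputable def gr : HG.PP →* HA := (Units.coeHom HA).comp grU

theorem gr_apply (g : HG.PP) : gr g = (grU g : HA) := rfl

/-- `Phi` on `PP` -/
noncomputable def PhiP : HG.PP →* HG.PP :=
  (HG.Phi.comp HG.PP.subtype).codRestrict HG.PP (fun g => HG.Phi_mem g.2)

theorem PhiP_val (g : HG.PP) : ((PhiP g : HG.PP) : Equiv.Perm HG.Site) = HG.Phi g := rfl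

theorem PP_induction {p : HG.PP → Prop} (h1 : p 1) (hs : p ⟨HG.gs, HG.gs_mem⟩)
    (ht : p ⟨HG.gt, HG.gt_mem⟩) (hz : p ⟨HG.gz, HG.gz_mem⟩)
    (hmul : ∀ a b, p a → p b → p (a * b)) (hinv : ∀ a, p a → p a⁻¹) (g : HG.PP) : p g := by
  obtain ⟨g, hg⟩ := g
  unfold HG.PP at hg
  induction hg using Subgroup.closure_induction with
  | mem x hx =>
    rcases hx with rfl | rfl | rfl
    · exact hs
    · exact ht
    · exact hz
  | one => exact h1
  | mul a b ha hb ha' hb' => exact hmul ⟨a, ha⟩ ⟨b, hb⟩ ha' hb'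
  | inv a ha ha' => exact hinv ⟨a, ha⟩ ha'

theorem φ_gr (g : HG.PP) : φ (gr g) = gr (PhiP g) := by
  have hu : ∀ v : HAˣ, φ v = ((Units.map (φ : HA →* HA) v : HAˣ) : HA) := fun v => rfl
  have key : Units.map (φ : HA →* HA) (grU g) = grU (PhiP g) := by
    have h1 : (Units.map (φ : HA →* HA)).comp grU = grU.comp PhiP := by
      ext1 g
      refine PP_induction (p := fun g => ((Units.map (φ : HA →* HA)).comp grU) g =
        (grU.comp PhiP) g) ?_ ?_ ?_ ?_ ?_ ?_ g
      · simp only [MonoidHom.coe_comp, Function.comp_apply, map_one]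
      · rw [MonoidHom.comp_apply, MonoidHom.comp_apply, grU_gs]
        have e : PhiP ⟨HG.gs, HG.gs_mem⟩ = ⟨HG.gt, HG.gt_mem⟩ * ⟨HG.gs, HG.gs_mem⟩ :=
          Subtype.ext HG.Phi_gs
        rw [e, map_mul, grU_gt, grU_gs]
        apply Units.ext
        change φ (mk (γ s)) = _
        rw [φ_mk, ψ_s]
      · rw [MonoidHom.comp_apply, MonoidHom.comp_apply, grU_gt]
        have e : PhiP ⟨HG.gt, HG.gt_mem⟩ = ⟨HG.gs, HG.gs_mem⟩ * ⟨HG.gt, HG.gt_mem⟩ *
            (⟨HG.gs, HG.gs_mem⟩ : HG.PP)⁻¹ :=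
          Subtype.ext HG.Phi_gt
        rw [e, map_mul, map_mul, map_inv, grU_gt, grU_gs]
        apply Units.ext
        change φ (mk (γ t)) = _
        rw [φ_mk, ψ_t]
      · rw [MonoidHom.comp_apply, MonoidHom.comp_apply, grU_gz]
        have e : PhiP ⟨HG.gz, HG.gz_mem⟩ = ⟨HG.gt, HG.gt_mem⟩ * ⟨HG.gz, HG.gz_mem⟩ :=
          Subtype.ext HG.Phi_gz
        rw [e, map_mul, grU_gt, grU_gz]
        apply Units.ext
        change φ (mk (γ c)) = _
        rw [φ_mk, ψ_c]
      · intro a b ha hb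
        rw [map_mul, map_mul, ha, hb]
      · intro a ha
        rw [map_inv, map_inv, ha]
    exact DFunLike.congr_fun h1 g
  rw [gr_apply, gr_apply, hu, key]

/-- the element `tau` -/
def tau : HG.PP := ⟨HG.gt, HG.gt_mem⟩

theorem gr_tau : gr tau = a t := by
  rw [gr_apply]
  unfold tau
  rw [grU_gt]
  rfl

/-- generation -/
theorem adjoin_eq_top : Algebra.adjoin (ZMod 2) (Set.range gr ∪ {a x, a y, a z, a w}) = ⊤ := by
  rw [eq_top_iff]
  rintro r -
  obtain ⟨u, rfl⟩ := mk_surj r
  set S := Algebra.adjoin (ZMod 2) (Set.range gr ∪ {a x, a y, a z, a w}) with hS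
  have hgr : ∀ g, gr g ∈ S := fun g => Algebra.subset_adjoin (Or.inl ⟨g, rfl⟩)
  have hs : ∀ v : HAˣ, (∃ g, grU g = v) → (v : HA) ∈ S := by
    rintro v ⟨g, rfl⟩
    exact hgr g
  have hs' : ∀ v : HAˣ, (∃ g, grU g = v) → ((v⁻¹ : HAˣ) : HA) ∈ S := by
    rintro v ⟨g, rfl⟩
    rw [← map_inv]
    exact hgr _
  have hgen : ∀ g : AGen, a g ∈ S := by
    intro g
    cases g with
    | s => exact hs us ⟨_, grU_gs⟩
    | s' => exact hs' us ⟨_, grU_gs⟩
    | t => exact hs ut ⟨_, grU_gt⟩
    | c => exact hs uc ⟨_, grU_gz⟩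
    | c' => exact hs' uc ⟨_, grU_gz⟩
    | x => exact Algebra.subset_adjoin (Or.inr (by simp))
    | y => exact Algebra.subset_adjoin (Or.inr (by simp))
    | z => exact Algebra.subset_adjoin (Or.inr (by simp))
    | w => exact Algebra.subset_adjoin (Or.inr (by simp))
  induction u using FreeAlgebra.induction with
  | grade0 r => rw [AlgHom.commutes]; exact S.algebraMap_mem r
  | grade1 g => exact hgen g
  | mul u v hu hv => rw [map_mul]; exact S.mul_mem hu hv
  | add u v hu hv => rw [map_add]; exact S.add_mem hu hv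

end HA

/-- finitely many relations -/
theorem hrel_finite : {p : AGen.FA × AGen.FA | AGen.HRel p.1 p.2}.Finite := by
  open AGen in
  have h : {p : FA × FA | HRel p.1 p.2} ⊆
      ({(γ s * γ s', 1), (γ s' * γ s, 1), (γ t * γ t, 1), (γ c * γ c', 1), (γ c' * γ c, 1),
        ((γ t * (γ s * γ t * γ s')) ^ 3, 1),
        (γ t * (γ s * γ s * γ t * γ s' * γ s'), γ s * γ s * γ t * γ s' * γ s' * γ t),
        (γ c * γ t, γ s * γ t * γ s' * γ c), (γ c * γ s, γ t * γ s * γ c),
        (γ y * γ x, 1), (γ w * γ z, 1), (γ z * γ w, 1 + γ x * γ y)} : Set (FA × FA)) ∪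
      (Set.range (fun g => (γ z * γ g, ph g * γ z)) ∪
        (Set.range (fun g => (γ x * ph g, ph g * γ x)) ∪
          Set.range (fun g => (γ y * ph g, ph g * γ y)))) := by
    rintro ⟨u, v⟩ h
    change HRel u v at h
    cases h with
    | zr g => exact Or.inr (Or.inl ⟨g, rfl⟩)
    | xr g => exact Or.inr (Or.inr (Or.inl ⟨g, rfl⟩))
    | yr g => exact Or.inr (Or.inr (Or.inr ⟨g, rfl⟩))
    | _ => left; simp
  refine Set.Finite.subset ?_ h
  refine Set.Finite.union (by simp only [Set.finite_insert, Set.finite_singleton]) (Set.Finite.union (Set.finite_range _)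
    (Set.Finite.union (Set.finite_range _) (Set.finite_range _)))

/-- finite presentation -/
theorem fpAlg_HA : FPAlg HA := fpAlg_ringQuot AGen AGen.HRel hrel_finite

end Vale.Agent.P193.BH

end FileHAlg

/-! file HModel -/

section FileHModel
/-!
H4: the algebra `HA` acts on the space spanned by the configurations `Site → ℕ`.
-/

namespace Vale.Agent.P193.BH.HM

open Vale.Agent.P193.BH.HG
open Equiv

/-- configurations -/
abbrev Conf : Type := Site → ℕ

/-- partial maps between configurations -/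
abbrev PM : Type := Conf → Option Conf

/-- the space spanned by the configurations -/
abbrev V : Type := Conf →₀ ZMod 2

/-- the operator of a partial map -/
noncomputable def op (p : PM) : Module.End (ZMod 2) V :=
  Finsupp.linearCombination (ZMod 2) fun c => (p c).elim 0 fun d => Finsupp.single d 1

theorem op_single (p : PM) (c : Conf) :
    op p (Finsupp.single c 1) = (p c).elim 0 fun d => Finsupp.single d 1 := by
  simp [op]

theorem end_ext {A B : Module.End (ZMod 2) V}
    (h : ∀ c : Conf, A (Finsupp.single c 1) = B (Finsupp.single c 1)) : A = B := by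
  apply Finsupp.lhom_ext'
  intro c
  apply LinearMap.ext_ring
  exact h c

theorem op_mul (p q : PM) : op p * op q = op fun c => (q c).bind p := by
  apply end_ext
  intro c
  rw [Module.End.mul_apply, op_single, op_single]
  cases q c with
  | none => simp
  | some d => simp [op_single]

theorem op_some : op some = 1 := by
  apply end_ext
  intro c
  rw [op_single]; rfl

/-- put a value in front -/
def cons (a : ℕ) (c : Conf) : Conf := fun u => if h : u = zs 0 then a else c (fE.symm ⟨u, h⟩)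

theorem cons_zero (a : ℕ) (c : Conf) : cons a c (zs 0) = a := by simp [cons]

theorem cons_fS (a : ℕ) (c : Conf) (u : Site) : cons a c (fS u) = c u := by
  have h := fS_ne_zero u
  have e : fE.symm ⟨fS u, h⟩ = u := fE.symm_apply_apply u
  rw [cons, dif_neg h, e]

/-- the rest -/
def tl (c : Conf) : Conf := fun u => c (fS u)

theorem tl_cons (a : ℕ) (c : Conf) : tl (cons a c) = c := funext fun u => cons_fS a c u

theorem conf_ext {c d : Conf} (h0 : c (zs 0) = d (zs 0)) (h1 : ∀ u, c (fS u) = d (fS u)) :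
    c = d := by
  funext u
  by_cases hu : u = zs 0
  · rw [hu, h0]
  · obtain ⟨v, rfl⟩ := exists_fS hu
    exact h1 v

theorem cons_tl (c : Conf) : cons (c (zs 0)) (tl c) = c :=
  conf_ext (cons_zero _ _) fun u => by rw [cons_fS]; rfl

theorem exists_cons (c : Conf) : ∃ a d, c = cons a d := ⟨_, _, (cons_tl c).symm⟩

/-- action of a permutation -/
def pa (g : Perm Site) (c : Conf) : Conf := fun u => c (g⁻¹ u)

theorem pa_Phi (g : Perm Site) (a : ℕ) (c : Conf) : pa (Phi g) (cons a c) = cons a (pa g c) := by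
  have e : (Phi g)⁻¹ = Phi g⁻¹ := (map_inv _ _).symm
  apply conf_ext
  · rw [cons_zero, pa, e, Phi_zero, cons_zero]
  · intro u
    rw [cons_fS, pa, e, Phi_fS, cons_fS]; rfl

theorem fS_zero : fS (zs 0) = zs 1 := by
  rw [fS_inl_nonneg le_rfl]; rfl

theorem gt0 : gt (zs 0) = zs 1 := swap_apply_left _ _
theorem gt1 : gt (zs 1) = zs 0 := swap_apply_right _ _
theorem gt2 (u : Site) : gt (fS (fS u)) = fS (fS u) := by
  refine swap_apply_of_ne_of_ne (fS_ne_zero _) ?_
  rw [← fS_zero]
  exact fun h => fS_ne_zero u (fS_injective h)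
theorem gtinv : gt⁻¹ = gt := swap_inv _ _

theorem pa_gt (a b : ℕ) (c : Conf) : pa gt (cons a (cons b c)) = cons b (cons a c) := by
  apply conf_ext
  · rw [cons_zero, pa, gtinv, gt0, ← fS_zero, cons_fS, cons_zero]
  · intro u
    rw [cons_fS, pa, gtinv]
    by_cases hu : u = zs 0
    · rw [hu, fS_zero, gt1, cons_zero, cons_zero]
    · obtain ⟨v, rfl⟩ := exists_fS hu
      rw [gt2, cons_fS, cons_fS, cons_fS]

/-! ### permutation identities -/

theorem conj_sw (g : Perm Site) (u v : Site) : g * swap u v * g⁻¹ = swap (g u) (g v) := by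
  rw [mul_inv_eq_iff_eq_mul]
  exact (Equiv.mul_swap_eq_swap_mul g u v)

theorem gt_sq : gt * gt = 1 := swap_mul_self _ _

theorem t1_eq : gs * gt * gs⁻¹ = swap (zs 1) (zs 2) := by
  unfold gt; rw [conj_sw]; rfl

theorem t2_eq : gs * gs * gt * gs⁻¹ * gs⁻¹ = swap (zs 2) (zs 3) := by
  have : gs * gs * gt * gs⁻¹ * gs⁻¹ = gs * (gs * gt * gs⁻¹) * gs⁻¹ := by group
  rw [this, t1_eq, conj_sw]; rfl

theorem p_cube : (gt * (gs * gt * gs⁻¹)) ^ 3 = 1 := by
  rw [t1_eq]
  have e1 : gt * swap (zs 1) (zs 2) * gt = swap (zs 0) (zs 2) := by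
    have := conj_sw gt (zs 1) (zs 2)
    rw [gtinv, gt1] at this
    rw [this, gt, swap_apply_of_ne_of_ne]
    · intro h; have := Sum.inl_injective h; omega
    · intro h; have := Sum.inl_injective h; omega
  have e2 : swap (zs 1) (zs 2) * gt * swap (zs 1) (zs 2) = swap (zs 0) (zs 2) := by
    have := conj_sw (swap (zs 1) (zs 2)) (zs 0) (zs 1)
    rw [swap_inv, swap_apply_left, swap_apply_of_ne_of_ne] at this
    · exact this
    · intro h; have := Sum.inl_injective h; omega
    · intro h; have := Sum.inl_injective h; omega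
  have e3 : swap (zs 1) (zs 2) * swap (zs 1) (zs 2) = 1 := swap_mul_self _ _
  calc (gt * swap (zs 1) (zs 2)) ^ 3
      = (gt * swap (zs 1) (zs 2) * gt) * (swap (zs 1) (zs 2) * gt * swap (zs 1) (zs 2)) := by
        simp only [pow_succ, pow_zero, one_mul, mul_assoc]
    _ = 1 := by rw [e1, e2, swap_mul_self]

theorem p_comm : gt * (gs * gs * gt * gs⁻¹ * gs⁻¹) = gs * gs * gt * gs⁻¹ * gs⁻¹ * gt := by
  rw [t2_eq]
  have := conj_sw gt (zs 2) (zs 3)
  rw [mul_inv_eq_iff_eq_mul] at this
  rw [this]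
  have h2 : gt (zs 2) = zs 2 := swap_apply_of_ne_of_ne
    (by intro h; have := Sum.inl_injective h; omega)
    (by intro h; have := Sum.inl_injective h; omega)
  have h3 : gt (zs 3) = zs 3 := swap_apply_of_ne_of_ne
    (by intro h; have := Sum.inl_injective h; omega)
    (by intro h; have := Sum.inl_injective h; omega)
  rw [h2, h3]

theorem p_ct : gz * gt = gs * gt * gs⁻¹ * gz := by
  rw [t1_eq]
  have := conj_sw gz (zs 0) (zs 1)
  rw [mul_inv_eq_iff_eq_mul] at this
  have h0 : gz (zs 0) = zs 1 := by rw [gz_inl_nonneg le_rfl]; rfl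
  have h1 : gz (zs 1) = zs 2 := by rw [gz_inl_nonneg (by norm_num)]; rfl
  rw [h0, h1] at this
  exact this

theorem gt_inl {i : ℤ} (h0 : i ≠ 0) (h1 : i ≠ 1) : gt (Sum.inl i) = Sum.inl i :=
  swap_apply_of_ne_of_ne (fun h => h0 (Sum.inl_injective h)) (fun h => h1 (Sum.inl_injective h))

theorem gt_inr' (j : ℕ) : gt (Sum.inr j) = Sum.inr j :=
  swap_apply_of_ne_of_ne (by simp) (by simp)

theorem p_cs : gz * gs = gt * gs * gz := by
  ext1 u
  rcases u with (i | j)
  · rw [Perm.mul_apply, Perm.mul_apply, Perm.mul_apply, gs_inl]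
    rcases lt_trichotomy i (-1) with h | h | h
    · rw [gz_inl_neg (by omega), gz_inl_neg (by omega), gs_inl, gt_inl (by omega) (by omega)]
    · subst h
      rw [gz_inl_nonneg (by norm_num), gz_inl_neg (by norm_num), gs_inl]
      exact gt0.symm
    · rw [gz_inl_nonneg (by omega), gz_inl_nonneg (by omega), gs_inl,
        gt_inl (by omega) (by omega)]
  · rw [Perm.mul_apply, Perm.mul_apply, Perm.mul_apply, gs_inr]
    cases j with
    | zero =>
      rw [gz_inr_zero, gs_inl]
      exact gt1.symm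
    | succ j => rw [gz_inr_succ, gs_inr, gt_inr']

theorem Phi_s : Phi gs = gt * gs := by
  apply perm_ext_fS
  · rw [Phi_zero, Perm.mul_apply, gs_inl]; exact gt1.symm
  · rintro (i | j)
    · rw [Phi_fS, Perm.mul_apply, gs_inl]
      rcases lt_trichotomy i (-1) with h | h | h
      · rw [fS_inl_neg (by omega), fS_inl_neg (by omega), gs_inl, gt_inl (by omega) (by omega)]
      · subst h
        rw [fS_inl_neg (by omega : (-1 : ℤ) < 0)]
        exact gt0.symm
      · rw [fS_inl_nonneg (by omega), fS_inl_nonneg (by omega), gs_inl,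
          gt_inl (by omega) (by omega)]
    · rw [Phi_fS, Perm.mul_apply, fS_inr, gs_inr, gt_inr', fS_inr]

theorem Phi_t : Phi gt = gs * gt * gs⁻¹ := by
  rw [t1_eq]
  apply perm_ext_fS
  · rw [Phi_zero, swap_apply_of_ne_of_ne]
    · intro h; have := Sum.inl_injective h; omega
    · intro h; have := Sum.inl_injective h; omega
  · intro u
    have h1 : fS (zs 1) = zs 2 := by rw [fS_inl_nonneg (by norm_num)]; rfl
    rw [Phi_fS]
    by_cases hu : u = zs 0
    · rw [hu, gt0, fS_zero, h1, swap_apply_left]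
    · by_cases hu' : u = zs 1
      · rw [hu', gt1, fS_zero, h1, swap_apply_right]
      · rw [show gt u = u from swap_apply_of_ne_of_ne hu hu', swap_apply_of_ne_of_ne]
        · rw [← fS_zero]; exact fS_injective.ne hu
        · rw [← h1]; exact fS_injective.ne hu'

theorem Phi_z : Phi gz = gt * gz := by
  apply perm_ext_fS
  · rw [Phi_zero, Perm.mul_apply, gz_inl_nonneg le_rfl]; exact gt1.symm
  · rintro (i | j)
    · rw [Phi_fS, Perm.mul_apply]
      by_cases h : 0 ≤ i
      · rw [fS_inl_nonneg h, gz_inl_nonneg h, fS_inl_nonneg (by omega), gz_inl_nonneg (by omega),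
          gt_inl (by omega) (by omega)]
      · rw [fS_inl_neg (by omega), gz_inl_neg (by omega), fS_inl_neg (by omega),
          gt_inl (by omega) (by omega)]
    · rw [Phi_fS, Perm.mul_apply, fS_inr]
      cases j with
      | zero => rw [gz_inr_zero]; exact (fS_zero.trans gt0.symm)
      | succ j => rw [gz_inr_succ, gt_inr', fS_inr]

/-! ### the operators -/

/-- partial maps of the generators -/
def pm : AGen → PM
  | .s => fun c => some (pa gs c)
  | .s' => fun c => some (pa gs⁻¹ c)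
  | .t => fun c => some (pa gt c)
  | .c => fun c => some (pa gz c)
  | .c' => fun c => some (pa gz⁻¹ c)
  | .x => fun c => some (cons (c (zs 0) + 1) (tl c))
  | .y => fun c => if c (zs 0) = 0 then none else some (cons (c (zs 0) - 1) (tl c))
  | .z => fun c => some (cons 0 c)
  | .w => fun c => if c (zs 0) = 0 then some (tl c) else none

/-- shifted partial map -/
def ps (p : PM) : PM := fun c => (p (tl c)).map (cons (c (zs 0)))

/-- the representation of the free algebra -/
noncomputable def rh : AGen.FA →ₐ[ZMod 2] Module.End (ZMod 2) V :=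
  FreeAlgebra.lift (ZMod 2) fun g => op (pm g)

theorem rh_g (g : AGen) : rh (AGen.γ g) = op (pm g) := by
  simp [rh, AGen.γ]

theorem op_congr {p q : PM} (h : ∀ a b d, p (cons a (cons b d)) = q (cons a (cons b d))) :
    op p = op q := by
  congr 1
  funext c
  obtain ⟨a, d, rfl⟩ := exists_cons c
  obtain ⟨b, e, rfl⟩ := exists_cons d
  exact h a b e

theorem pa_op (g h : Perm Site) : op (fun c => some (pa g c)) * op (fun c => some (pa h c)) =
    op (fun c => some (pa (g * h) c)) := by
  rw [op_mul]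
  congr 1

theorem ps_pa (g : Perm Site) : ps (fun c => some (pa g c)) = fun c => some (pa (Phi g) c) := by
  funext c
  obtain ⟨a, d, rfl⟩ := exists_cons c
  simp [ps, tl_cons, cons_zero, pa_Phi]

theorem rh_ph (g : AGen) : rh (AGen.ph g) = op (ps (pm g)) := by
  cases g with
  | s =>
    simp only [AGen.ph, map_mul, rh_g, pm]
    rw [pa_op, ps_pa, Phi_s]
  | s' =>
    simp only [AGen.ph, map_mul, rh_g, pm]
    rw [pa_op, ps_pa, map_inv, Phi_s, mul_inv_rev, gtinv]
  | t =>
    simp only [AGen.ph, map_mul, rh_g, pm]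
    rw [pa_op, pa_op, ps_pa, Phi_t]
  | c =>
    simp only [AGen.ph, map_mul, rh_g, pm]
    rw [pa_op, ps_pa, Phi_z]
  | c' =>
    simp only [AGen.ph, map_mul, rh_g, pm]
    rw [pa_op, ps_pa, map_inv, Phi_z, mul_inv_rev, gtinv]
  | x =>
    simp only [AGen.ph, map_mul, rh_g, pm]
    rw [op_mul, op_mul]
    apply op_congr
    intro a b d
    simp [ps, pa_gt, tl_cons, cons_zero]
  | y =>
    simp only [AGen.ph, map_mul, rh_g, pm]
    rw [op_mul, op_mul]
    apply op_congr
    intro a b d
    by_cases hb : b = 0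
    · simp [ps, pa_gt, tl_cons, cons_zero, hb]
    · simp only [pa_gt, Option.bind_some, cons_zero, hb, ↓reduceIte, tl_cons, ps, Option.map_some]
  | z =>
    simp only [AGen.ph, map_mul, rh_g, pm]
    rw [op_mul]
    apply op_congr
    intro a b d
    simp [ps, pa_gt, tl_cons, cons_zero]
  | w =>
    simp only [AGen.ph, map_mul, rh_g, pm]
    rw [op_mul]
    apply op_congr
    intro a b d
    by_cases hb : b = 0
    · simp [ps, pa_gt, tl_cons, cons_zero, hb]
    · simp [ps, pa_gt, tl_cons, cons_zero, hb]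

theorem rel_ps_z (p : PM) : op (pm .z) * op p = op (ps p) * op (pm .z) := by
  rw [op_mul, op_mul]
  congr 1
  funext c
  simp only [pm, ps, Option.bind_some, tl_cons, cons_zero]
  cases p c <;> simp

theorem rel_ps_x (p : PM) : op (pm .x) * op (ps p) = op (ps p) * op (pm .x) := by
  rw [op_mul, op_mul]
  apply congrArg
  funext c
  simp only [pm, ps, Option.bind_some, tl_cons, cons_zero]
  cases p (tl c) <;> simp [tl_cons, cons_zero]

theorem rel_ps_y (p : PM) : op (pm .y) * op (ps p) = op (ps p) * op (pm .y) := by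
  rw [op_mul, op_mul]
  apply congrArg
  funext c
  obtain ⟨a, d, rfl⟩ := exists_cons c
  simp only [pm, ps, tl_cons, cons_zero]
  by_cases ha : a = 0
  · cases p d <;> simp [cons_zero, ha]
  · simp only [if_neg ha, Option.bind_some, ps, tl_cons, cons_zero]
    cases p d <;> simp [cons_zero, ha, tl_cons]

theorem op_pa_one : op (fun c => some (pa 1 c)) = 1 := by
  rw [← op_some]
  congr 1

theorem rh_rel {a b : AGen.FA} (h : AGen.HRel a b) : rh a = rh b := by
  have hpow : ∀ g : Perm Site, ∀ k : ℕ, op (fun c => some (pa g c)) ^ k =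
      op (fun c => some (pa (g ^ k) c)) := by
    intro g k
    induction k with
    | zero => rw [pow_zero, pow_zero, op_pa_one]
    | succ k ih => rw [pow_succ, ih, pa_op, pow_succ]
  cases h with
  | ss' => simp only [map_mul, rh_g, pm, map_one]; rw [pa_op, mul_inv_cancel, op_pa_one]
  | s's => simp only [map_mul, rh_g, pm, map_one]; rw [pa_op, inv_mul_cancel, op_pa_one]
  | tt => simp only [map_mul, rh_g, pm, map_one]; rw [pa_op, gt_sq, op_pa_one]
  | cc' => simp only [map_mul, rh_g, pm, map_one]; rw [pa_op, mul_inv_cancel, op_pa_one]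
  | c'c => simp only [map_mul, rh_g, pm, map_one]; rw [pa_op, inv_mul_cancel, op_pa_one]
  | cube =>
    simp only [map_pow, map_mul, rh_g, pm, map_one]
    rw [pa_op, pa_op, pa_op, hpow, p_cube, op_pa_one]
  | comm =>
    simp only [map_mul, rh_g, pm]
    simp only [pa_op]
    rw [p_comm]
  | ct =>
    simp only [map_mul, rh_g, pm]
    simp only [pa_op]
    rw [p_ct]
  | cs =>
    simp only [map_mul, rh_g, pm]
    simp only [pa_op]
    rw [p_cs]
  | yx =>
    simp only [map_mul, rh_g, pm, map_one]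
    rw [op_mul, ← op_some]
    congr 1
    funext c
    simp only [Option.bind_some, cons_zero, Nat.add_eq_zero_iff, one_ne_zero, and_false, ↓reduceIte, add_tsub_cancel_right, tl_cons, cons_tl]
  | wz =>
    simp only [map_mul, rh_g, pm, map_one]
    rw [op_mul, ← op_some]
    congr 1
    funext c
    simp [tl_cons, cons_zero]
  | zw =>
    simp only [map_mul, rh_g, pm, map_add, map_one]
    rw [op_mul, op_mul]
    apply end_ext
    intro c
    obtain ⟨a, d, rfl⟩ := exists_cons c
    rw [LinearMap.add_apply, op_single, op_single]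
    by_cases ha : a = 0
    · simp only [ha, cons_zero, ↓reduceIte, tl_cons, Option.bind_some, Option.elim_some, Module.End.one_apply, Option.bind_none, Option.elim_none, add_zero]
    · have h1 : a - 1 + 1 = a := by omega
      simp only [tl_cons, cons_zero, ha, if_false, Option.bind_none, Option.bind_some, h1]
      show (0 : V) = Finsupp.single (cons a d) 1 + Finsupp.single (cons a d) 1
      rw [← Finsupp.single_add, show (1 : ZMod 2) + 1 = 0 from rfl, Finsupp.single_zero]
  | zr g => rw [map_mul, map_mul, rh_ph, rh_g, rh_g]; exact rel_ps_z _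
  | xr g => rw [map_mul, map_mul, rh_ph, rh_g]; exact rel_ps_x _
  | yr g => rw [map_mul, map_mul, rh_ph, rh_g]; exact rel_ps_y _

/-- the representation of the algebra -/
noncomputable def rhA : HA →ₐ[ZMod 2] Module.End (ZMod 2) V :=
  RingQuot.liftAlgHom (ZMod 2) ⟨rh, fun _ _ h => rh_rel h⟩

end Vale.Agent.P193.BH.HM

namespace Vale.Agent.P193.BH

/-- H4: the algebra is nontrivial. -/
theorem nontrivial_HA : Nontrivial HA := by
  refine ⟨⟨0, 1, fun h => ?_⟩⟩
  have h1 : HM.rhA 0 = HM.rhA 1 := by rw [h]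
  rw [map_zero, map_one] at h1
  have h2 := LinearMap.congr_fun h1 (Finsupp.single (fun _ => 0) 1)
  rw [LinearMap.zero_apply] at h2
  have h3 : (Finsupp.single (fun _ => 0) 1 : HM.V) = 0 := h2.symm
  rw [Finsupp.single_eq_zero] at h3
  exact one_ne_zero h3

end Vale.Agent.P193.BH

end FileHModel

/-! file HCone -/

section FileHCone
/-!
H5: the cone structure of the algebra `A`, proved abstractly over the structure `HD`.
-/

namespace Vale.Agent.P193.BH

/-- abstract data carried by the algebra `A` and the Houghton group `P` acting on the sites `S` -/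
structure HD (B : Type) [Ring B] [Algebra (ZMod 2) B] (P : Type) [Group P] (S : Type)
    [MulAction P S] where
  o : S
  f : S → S
  f_inj : Function.Injective f
  f_cases : ∀ s, s = o ∨ ∃ u, s = f u
  f_ne : ∀ u, f u ≠ o
  Φ : P →* P
  Φ_o : ∀ g, Φ g • o = o
  Φ_f : ∀ g s, Φ g • f s = f (g • s)
  stab : ∀ g : P, g • o = o → ∃ g', g = Φ g'
  τ : P
  τ_sq : τ * τ = 1
  τ_o : τ • o = f o
  τ_ff : ∀ s, τ • f (f s) = f (f s)
  trans : ∀ s, ∃ g : P, g • o = s
  gr : P →* B
  X : B
  Y : B
  zz : B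
  zs : B
  φ : B →+* B
  YX : Y * X = 1
  zszz : zs * zz = 1
  Yzz : Y * zz = 0
  zsX : zs * X = 0
  sum : zz * zs + X * Y = 1
  zr : ∀ r, zz * r = φ r * zz
  rz : ∀ r, zs * φ r = r * zs
  xr : ∀ r, X * φ r = φ r * X
  yr : ∀ r, Y * φ r = φ r * Y
  φgr : ∀ g, φ (gr g) = gr (Φ g)
  φX : φ X = gr τ * X * gr τ
  φY : φ Y = gr τ * Y * gr τ
  φzz : φ zz = gr τ * zz
  φzs : φ zs = zs * gr τ
  gen : Algebra.adjoin (ZMod 2) (Set.range gr ∪ {X, Y, zz, zs}) = ⊤

/-- cone letters -/
inductive CL (P : Type)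
  | x : CL P
  | g : P → CL P
  | z : CL P

namespace HD

variable {B : Type} [Ring B] [Algebra (ZMod 2) B] {P : Type} [Group P] {S : Type} [MulAction P S]
variable (D : HD B P S)

/-- the pair of a cone letter -/
def lp : CL P → B × B
  | .x => (D.X, D.Y)
  | .g a => (D.gr a, D.gr a⁻¹)
  | .z => (D.zz, D.zs)

/-- the pair of a cone word -/
def el : List (CL P) → B × B
  | [] => (1, 1)
  | a :: w => ((D.lp a).1 * (el w).1, (el w).2 * (D.lp a).2)

theorem grgr (a b : P) : D.gr a * D.gr b = D.gr (a * b) := (map_mul _ _ _).symm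

theorem gr_inv_gr (a : P) : D.gr a⁻¹ * D.gr a = 1 := by
  rw [grgr, inv_mul_cancel, map_one]

theorem gr_gr_inv (a : P) : D.gr a * D.gr a⁻¹ = 1 := by
  rw [grgr, mul_inv_cancel, map_one]

theorem ττ : D.gr D.τ * D.gr D.τ = 1 := by rw [grgr, D.τ_sq, map_one]

theorem τ_inv : D.τ⁻¹ = D.τ := inv_eq_of_mul_eq_one_left D.τ_sq

theorem lp_inv (a : CL P) : (D.lp a).2 * (D.lp a).1 = 1 := by
  cases a with
  | x => exact D.YX
  | g a => exact D.gr_inv_gr a
  | z => exact D.zszz

theorem el_nil : D.el [] = (1, 1) := rfl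

theorem el_cons (a : CL P) (w : List (CL P)) :
    D.el (a :: w) = ((D.lp a).1 * (D.el w).1, (D.el w).2 * (D.lp a).2) := rfl

theorem el_append (w w' : List (CL P)) :
    D.el (w ++ w') = ((D.el w).1 * (D.el w').1, (D.el w').2 * (D.el w).2) := by
  induction w with
  | nil => simp [el_nil]
  | cons a w ih => simp [el_cons, ih, mul_assoc]

theorem el_inv (w : List (CL P)) : (D.el w).2 * (D.el w).1 = 1 := by
  induction w with
  | nil => simp [el_nil]
  | cons a w ih =>
    rw [el_cons]
    show (D.el w).2 * (D.lp a).2 * ((D.lp a).1 * (D.el w).1) = 1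
    rw [mul_assoc, ← mul_assoc (D.lp a).2, lp_inv, one_mul, ih]

/-- the cones -/
def C : Set (B × B) := Set.range D.el

/-- span of the cones -/
def Sp : Submodule (ZMod 2) B := Submodule.span (ZMod 2) (Prod.fst '' D.C)

theorem el_mem_Sp (w : List (CL P)) : (D.el w).1 ∈ D.Sp :=
  Submodule.subset_span ⟨D.el w, ⟨w, rfl⟩, rfl⟩

theorem Sp_mul_right {v : B} (hv : v ∈ D.Sp) (w : List (CL P)) : v * (D.el w).1 ∈ D.Sp := by
  unfold Sp at hv
  induction hv using Submodule.span_induction with
  | mem x h =>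
    obtain ⟨_, ⟨w', rfl⟩, rfl⟩ := h
    have := D.el_mem_Sp (w' ++ w)
    rw [el_append] at this
    exact this
  | zero => simp
  | add x y _ _ hx hy => rw [add_mul]; exact add_mem hx hy
  | smul a x _ hx => rw [smul_mul_assoc]; exact Submodule.smul_mem _ _ hx

theorem Sp_mul_left {v : B} (hv : v ∈ D.Sp) (w : List (CL P)) : (D.el w).1 * v ∈ D.Sp := by
  unfold Sp at hv
  induction hv using Submodule.span_induction with
  | mem x h =>
    obtain ⟨_, ⟨w', rfl⟩, rfl⟩ := h
    have := D.el_mem_Sp (w ++ w')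
    rw [el_append] at this
    exact this
  | zero => simp
  | add x y _ _ hx hy => rw [mul_add]; exact add_mem hx hy
  | smul a x _ hx => rw [mul_smul_comm]; exact Submodule.smul_mem _ _ hx

/-- a full family of cones -/
def Fam (l : List (List (CL P))) : Prop := (l.map fun w => (D.el w).1 * (D.el w).2).sum = 1

/-- `v` times the cones of some full family is in the span of the cones -/
def Good (v : B) : Prop := ∃ l, D.Fam l ∧ ∀ w ∈ l, v * (D.el w).1 ∈ D.Sp

theorem fam_one : D.Fam [[]] := by simp [Fam, el_nil]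

theorem good_of_mem {v : B} (hv : v ∈ D.Sp) : D.Good v :=
  ⟨[[]], D.fam_one, fun w _ => D.Sp_mul_right hv w⟩

theorem Good.left {v : B} (h : D.Good v) (w : List (CL P)) : D.Good ((D.el w).1 * v) := by
  obtain ⟨l, h1, h2⟩ := h
  refine ⟨l, h1, fun w' hw' => ?_⟩
  rw [mul_assoc]
  exact D.Sp_mul_left (h2 w' hw') w

/-- refinement of full families -/
theorem fam_bind {l : List (List (CL P))} (hl : D.Fam l) (L : List (CL P) → List (List (CL P)))
    (hL : ∀ w ∈ l, D.Fam (L w)) : D.Fam (l.flatMap fun w => (L w).map fun w' => w ++ w') := by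
  unfold Fam at *
  rw [← hl]
  clear hl
  induction l with
  | nil => simp
  | cons a l ih =>
    rw [List.flatMap_cons, List.map_append, List.sum_append, List.map_cons, List.sum_cons,
      ih (fun w hw => hL w (List.mem_cons_of_mem _ hw))]
    congr 1
    have h := hL a List.mem_cons_self
    rw [List.map_map]
    have : (fun w => (D.el w).1 * (D.el w).2) ∘ (fun w' => a ++ w') =
        fun w' => (D.el a).1 * ((D.el w').1 * (D.el w').2) * (D.el a).2 := by
      funext w'
      simp [el_append, mul_assoc]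
    rw [this]
    have h3 : ∀ m : List (List (CL P)),
        (m.map fun w' => (D.el a).1 * ((D.el w').1 * (D.el w').2) * (D.el a).2).sum =
        (D.el a).1 * (m.map fun w' => (D.el w').1 * (D.el w').2).sum * (D.el a).2 := by
      intro m
      induction m with
      | nil => simp
      | cons b m ihm => simp only [List.map_cons, List.sum_cons, ihm]; noncomm_ring
    rw [h3, h, mul_one]

/-- hereditarily good -/
def HG (b : B) : Prop := ∀ w, D.Good (b * (D.el w).1)

theorem HG.good {b : B} (h : D.HG b) : D.Good b := by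
  have := h []
  rwa [el_nil, mul_one] at this

theorem HG.mulel {b : B} (h : D.HG b) (w : List (CL P)) : D.HG (b * (D.el w).1) := by
  intro w'
  have := h (w ++ w')
  rw [el_append] at this
  rwa [mul_assoc]

theorem hg_of_mem {v : B} (hv : v ∈ D.Sp) : D.HG v := fun w =>
  D.good_of_mem (D.Sp_mul_right hv w)

theorem Good.add {a b : B} (ha : D.Good a) (hb : D.HG b) : D.Good (a + b) := by
  obtain ⟨l, h1, h2⟩ := ha
  choose L hL1 hL2 using hb
  refine ⟨l.flatMap fun w => (L w).map fun w' => w ++ w', D.fam_bind h1 L fun w _ => hL1 w, ?_⟩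
  intro w hw
  rw [List.mem_flatMap] at hw
  obtain ⟨u, hu, hw⟩ := hw
  rw [List.mem_map] at hw
  obtain ⟨u', hu', rfl⟩ := hw
  rw [el_append]
  show (a + b) * ((D.el u).1 * (D.el u').1) ∈ _
  rw [add_mul, ← mul_assoc, ← mul_assoc]
  exact add_mem (D.Sp_mul_right (h2 u hu) u') (hL2 u u' hu')

theorem HG.add {a b : B} (ha : D.HG a) (hb : D.HG b) : D.HG (a + b) := by
  intro w
  rw [add_mul]
  exact Good.add D (ha w) (HG.mulel D hb w)

theorem hg_mul_mem {b v : B} (hb : D.HG b) (hv : v ∈ D.Sp) : D.HG (b * v) := by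
  unfold Sp at hv
  induction hv using Submodule.span_induction with
  | mem x h =>
    obtain ⟨_, ⟨w', rfl⟩, rfl⟩ := h
    exact HG.mulel D hb w'
  | zero => rw [mul_zero]; exact D.hg_of_mem (zero_mem _)
  | add x y _ _ hx hy => rw [mul_add]; exact HG.add D hx hy
  | smul a x _ hx =>
    rw [mul_smul_comm]
    fin_cases a
    · show D.HG ((0 : ZMod 2) • _)
      rw [zero_smul]; exact D.hg_of_mem (zero_mem _)
    · show D.HG ((1 : ZMod 2) • _)
      rw [one_smul]; exact hx

theorem HG.mul {a b : B} (ha : D.HG a) (hb : D.HG b) : D.HG (a * b) := by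
  intro w
  obtain ⟨l, h1, h2⟩ := hb w
  have h3 : ∀ u, ∃ l', D.Fam l' ∧ (u ∈ l → ∀ w' ∈ l', a * b * (D.el w).1 * (D.el (u ++ w')).1 ∈ D.Sp) := by
    intro u
    by_cases hu : u ∈ l
    · obtain ⟨l', h4, h5⟩ := HG.good D (D.hg_mul_mem ha (h2 u hu))
      refine ⟨l', h4, fun _ w' hw' => ?_⟩
      have := h5 w' hw'
      rw [el_append]
      simpa only [mul_assoc] using this
    · exact ⟨[[]], D.fam_one, fun h => absurd h hu⟩
  choose L hL1 hL2 using h3
  refine ⟨l.flatMap fun w => (L w).map fun w' => w ++ w', D.fam_bind h1 L fun w _ => hL1 w, ?_⟩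
  intro w' hw'
  rw [List.mem_flatMap] at hw'
  obtain ⟨u, hu, hw'⟩ := hw'
  rw [List.mem_map] at hw'
  obtain ⟨u', hu', rfl⟩ := hw'
  exact hL2 u hu u' hu'

/-- double coset decomposition -/
theorem dc (g : P) : (∃ g', g = D.Φ g') ∨ ∃ k h, g = D.Φ k * D.τ * D.Φ h := by
  rcases D.f_cases (g • D.o) with h | ⟨u, hu⟩
  · exact Or.inl (D.stab g h)
  · right
    obtain ⟨k, rfl⟩ := D.trans u
    have h1 : ((D.Φ k * D.τ)⁻¹ * g) • D.o = D.o := by
      rw [mul_smul, hu, inv_smul_eq_iff, mul_smul, D.τ_o, D.Φ_f]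
    obtain ⟨h, hh⟩ := D.stab _ h1
    exact ⟨k, h, by rw [← hh]; group⟩

theorem lp_x : D.lp .x = (D.X, D.Y) := rfl
theorem lp_g (a : P) : D.lp (.g a) = (D.gr a, D.gr a⁻¹) := rfl
theorem lp_z : D.lp .z = (D.zz, D.zs) := rfl

theorem el_x1 : (D.el [.x]).1 = D.X := by simp [el_cons, el_nil, lp_x]
theorem el_g1 (a : P) : (D.el [.g a]).1 = D.gr a := by simp only [el_cons, lp_g, el_nil, mul_one, one_mul]
theorem el_z1 : (D.el [.z]).1 = D.zz := by simp [el_cons, el_nil, lp_z]

theorem φg_comm_X (g : P) : D.X * D.gr (D.Φ g) = D.gr (D.Φ g) * D.X := by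
  rw [← D.φgr]; exact D.xr _
theorem φg_comm_Y (g : P) : D.Y * D.gr (D.Φ g) = D.gr (D.Φ g) * D.Y := by
  rw [← D.φgr]; exact D.yr _
theorem zz_gr (g : P) : D.zz * D.gr g = D.gr (D.Φ g) * D.zz := by
  rw [← D.φgr]; exact D.zr _
theorem zs_gr (g : P) : D.zs * D.gr (D.Φ g) = D.gr g * D.zs := by
  rw [← D.φgr]; exact D.rz _
theorem zs_τ_zz : D.zs * D.gr D.τ * D.zz = D.zz * D.zs := by
  rw [← D.φzs]; exact (D.zr _).symm

theorem Yτ : D.Y * D.gr D.τ = D.gr D.τ * D.φ D.Y := by
  rw [D.φY, ← mul_assoc, ← mul_assoc, D.ττ, one_mul]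
theorem Xτ : D.X * D.gr D.τ = D.gr D.τ * D.φ D.X := by
  rw [D.φX, ← mul_assoc, ← mul_assoc, D.ττ, one_mul]
theorem τX : D.gr D.τ * D.X = D.φ D.X * D.gr D.τ := by
  rw [D.φX, mul_assoc, D.ττ, mul_one]
theorem τY : D.gr D.τ * D.Y = D.φ D.Y * D.gr D.τ := by
  rw [D.φY, mul_assoc, D.ττ, mul_one]

theorem Yx1 (g : P) : D.Y * D.gr (D.Φ g) * D.X = D.gr (D.Φ g) := by
  rw [D.φg_comm_Y, mul_assoc, D.YX, mul_one]
theorem zx1 (g : P) : D.zs * D.gr (D.Φ g) * D.X = 0 := by
  rw [mul_assoc, ← D.φg_comm_X, ← mul_assoc, D.zsX, zero_mul]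
theorem Yz1 (g : P) : D.Y * D.gr (D.Φ g) * D.zz = 0 := by
  rw [D.φg_comm_Y, mul_assoc, D.Yzz, mul_zero]
theorem zz1 (g : P) : D.zs * D.gr (D.Φ g) * D.zz = D.gr g := by
  rw [D.zs_gr, mul_assoc, D.zszz, mul_one]

theorem Yx2 (k h : P) : D.Y * D.gr (D.Φ k * D.τ * D.Φ h) * D.X =
    D.gr (D.Φ k * D.τ) * (D.X * D.gr D.τ) * (D.Y * D.gr (D.τ * D.Φ h)) := by
  calc D.Y * D.gr (D.Φ k * D.τ * D.Φ h) * D.X
      = (D.Y * D.gr (D.Φ k)) * D.gr D.τ * (D.gr (D.Φ h) * D.X) := by
        simp only [map_mul]; noncomm_ring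
    _ = D.gr (D.Φ k) * (D.Y * D.gr D.τ) * D.X * D.gr (D.Φ h) := by
        rw [D.φg_comm_Y, ← D.φg_comm_X]; noncomm_ring
    _ = D.gr (D.Φ k) * D.gr D.τ * (D.φ D.Y * D.X) * D.gr (D.Φ h) := by
        rw [D.Yτ]; noncomm_ring
    _ = D.gr (D.Φ k) * D.gr D.τ * D.X * D.φ D.Y * D.gr (D.Φ h) := by
        rw [← D.xr]; noncomm_ring
    _ = _ := by
        rw [D.φY]; simp only [map_mul]; noncomm_ring

theorem zx2 (k h : P) : D.zs * D.gr (D.Φ k * D.τ * D.Φ h) * D.X =
    D.gr k * D.X * (D.zs * D.gr (D.τ * D.Φ h)) := by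
  calc D.zs * D.gr (D.Φ k * D.τ * D.Φ h) * D.X
      = (D.zs * D.gr (D.Φ k)) * D.gr D.τ * (D.gr (D.Φ h) * D.X) := by
        simp only [map_mul]; noncomm_ring
    _ = D.gr k * D.zs * (D.gr D.τ * D.X) * D.gr (D.Φ h) := by
        rw [D.zs_gr, ← D.φg_comm_X]; noncomm_ring
    _ = D.gr k * (D.zs * D.φ D.X) * D.gr D.τ * D.gr (D.Φ h) := by
        rw [D.τX]; noncomm_ring
    _ = _ := by
        rw [D.rz]; simp only [map_mul]; noncomm_ring

theorem Yz2 (k h : P) : D.Y * D.gr (D.Φ k * D.τ * D.Φ h) * D.zz =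
    D.gr (D.Φ k * D.τ) * D.zz * (D.Y * D.gr h) := by
  calc D.Y * D.gr (D.Φ k * D.τ * D.Φ h) * D.zz
      = (D.Y * D.gr (D.Φ k)) * D.gr D.τ * (D.gr (D.Φ h) * D.zz) := by
        simp only [map_mul]; noncomm_ring
    _ = D.gr (D.Φ k) * (D.Y * D.gr D.τ) * D.zz * D.gr h := by
        rw [D.φg_comm_Y, ← D.zz_gr]; noncomm_ring
    _ = D.gr (D.Φ k) * D.gr D.τ * (D.φ D.Y * D.zz) * D.gr h := by
        rw [D.Yτ]; noncomm_ring
    _ = _ := by
        rw [← D.zr]; simp only [map_mul]; noncomm_ring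

theorem zz2 (k h : P) : D.zs * D.gr (D.Φ k * D.τ * D.Φ h) * D.zz =
    D.gr k * D.zz * (D.zs * D.gr h) := by
  calc D.zs * D.gr (D.Φ k * D.τ * D.Φ h) * D.zz
      = (D.zs * D.gr (D.Φ k)) * D.gr D.τ * (D.gr (D.Φ h) * D.zz) := by
        simp only [map_mul]; noncomm_ring
    _ = D.gr k * (D.zs * D.gr D.τ * D.zz) * D.gr h := by
        rw [D.zs_gr, ← D.zz_gr]; noncomm_ring
    _ = _ := by
        rw [D.zs_τ_zz]; noncomm_ring

theorem good_of_eq {a b : B} {w : List (CL P)} (h : a = (D.el w).1 * b) (hb : D.Good b) :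
    D.Good a := h ▸ Good.left D hb w

theorem good_zero : D.Good 0 := D.good_of_mem (zero_mem _)

theorem good_base (g : P) : D.Good (D.Y * D.gr g) ∧ D.Good (D.zs * D.gr g) := by
  have hfam : D.Fam [[.g g⁻¹, .x], [.g g⁻¹, .z]] := by
    simp only [Fam, List.map_cons, List.map_nil, List.sum_cons, List.sum_nil, el_cons, el_nil,
      lp_g, lp_x, lp_z, mul_one, one_mul, add_zero, inv_inv]
    have : D.gr g⁻¹ * D.X * (D.Y * D.gr g) + D.gr g⁻¹ * D.zz * (D.zs * D.gr g) =
        D.gr g⁻¹ * (D.zz * D.zs + D.X * D.Y) * D.gr g := by noncomm_ring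
    rw [this, D.sum, mul_one, gr_inv_gr]
  constructor
  · refine ⟨_, hfam, ?_⟩
    intro w hw
    simp only [List.mem_cons, List.not_mem_nil, or_false] at hw
    rcases hw with rfl | rfl
    · have : D.Y * D.gr g * (D.el [.g g⁻¹, .x]).1 = (D.el []).1 := by
        simp only [el_cons, el_nil, lp_g, lp_x, mul_one]
        calc D.Y * D.gr g * (D.gr g⁻¹ * D.X) = D.Y * (D.gr g * D.gr g⁻¹) * D.X := by noncomm_ring
          _ = 1 := by rw [gr_gr_inv, mul_one, D.YX]
      rw [this]; exact D.el_mem_Sp _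
    · have : D.Y * D.gr g * (D.el [.g g⁻¹, .z]).1 = 0 := by
        simp only [el_cons, el_nil, lp_g, lp_z, mul_one]
        calc D.Y * D.gr g * (D.gr g⁻¹ * D.zz) = D.Y * (D.gr g * D.gr g⁻¹) * D.zz := by noncomm_ring
          _ = 0 := by rw [gr_gr_inv, mul_one, D.Yzz]
      rw [this]; exact zero_mem _
  · refine ⟨_, hfam, ?_⟩
    intro w hw
    simp only [List.mem_cons, List.not_mem_nil, or_false] at hw
    rcases hw with rfl | rfl
    · have : D.zs * D.gr g * (D.el [.g g⁻¹, .x]).1 = 0 := by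
        simp only [el_cons, el_nil, lp_g, lp_x, mul_one]
        calc D.zs * D.gr g * (D.gr g⁻¹ * D.X) = D.zs * (D.gr g * D.gr g⁻¹) * D.X := by noncomm_ring
          _ = 0 := by rw [gr_gr_inv, mul_one, D.zsX]
      rw [this]; exact zero_mem _
    · have : D.zs * D.gr g * (D.el [.g g⁻¹, .z]).1 = (D.el []).1 := by
        simp only [el_cons, el_nil, lp_g, lp_z, mul_one]
        calc D.zs * D.gr g * (D.gr g⁻¹ * D.zz) = D.zs * (D.gr g * D.gr g⁻¹) * D.zz := by noncomm_ring
          _ = 1 := by rw [gr_gr_inv, mul_one, D.zszz]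
      rw [this]; exact D.el_mem_Sp _

theorem good_Yz (w : List (CL P)) : ∀ g : P,
    D.Good (D.Y * D.gr g * (D.el w).1) ∧ D.Good (D.zs * D.gr g * (D.el w).1) := by
  induction w with
  | nil => intro g; simpa [el_nil] using D.good_base g
  | cons a w ih =>
    intro g
    cases a with
    | g a =>
      have e1 : ∀ r : B, r * D.gr g * (D.el (.g a :: w)).1 = r * D.gr (g * a) * (D.el w).1 := by
        intro r
        rw [el_cons, lp_g, map_mul]
        show r * D.gr g * (D.gr a * (D.el w).1) = _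
        noncomm_ring
      rw [e1, e1]
      exact ih _
    | x =>
      have e1 : ∀ r : B, r * D.gr g * (D.el (.x :: w)).1 = (r * D.gr g * D.X) * (D.el w).1 := by
        intro r
        rw [el_cons, lp_x]
        show r * D.gr g * (D.X * (D.el w).1) = _
        noncomm_ring
      rw [e1, e1]
      rcases D.dc g with ⟨g', rfl⟩ | ⟨k, h, rfl⟩
      · constructor
        · rw [D.Yx1]
          exact D.good_of_mem (by simpa only [el_cons, lp_g] using D.el_mem_Sp (.g (D.Φ g') :: w))
        · rw [D.zx1, zero_mul]; exact D.good_zero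
      · constructor
        · refine D.good_of_eq (w := [.g (D.Φ k * D.τ), .x, .g D.τ]) ?_ (ih (D.τ * D.Φ h)).1
          rw [D.Yx2]
          simp only [el_cons, el_nil, lp_g, lp_x]
          noncomm_ring
        · refine D.good_of_eq (w := [.g k, .x]) ?_ (ih (D.τ * D.Φ h)).2
          rw [D.zx2]
          simp only [el_cons, el_nil, lp_g, lp_x]
          noncomm_ring
    | z =>
      have e1 : ∀ r : B, r * D.gr g * (D.el (.z :: w)).1 = (r * D.gr g * D.zz) * (D.el w).1 := by
        intro r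
        rw [el_cons, lp_z]
        show r * D.gr g * (D.zz * (D.el w).1) = _
        noncomm_ring
      rw [e1, e1]
      rcases D.dc g with ⟨g', rfl⟩ | ⟨k, h, rfl⟩
      · constructor
        · rw [D.Yz1, zero_mul]; exact D.good_zero
        · rw [D.zz1]
          exact D.good_of_mem (by simpa [el_cons, lp_g] using D.el_mem_Sp (.g g' :: w))
      · constructor
        · refine D.good_of_eq (w := [.g (D.Φ k * D.τ), .z]) ?_ (ih h).1
          rw [D.Yz2]
          simp only [el_cons, el_nil, lp_g, lp_z]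
          noncomm_ring
        · refine D.good_of_eq (w := [.g k, .z]) ?_ (ih h).2
          rw [D.zz2]
          simp only [el_cons, el_nil, lp_g, lp_z]
          noncomm_ring

theorem hg_all (b : B) : D.HG b := by
  have hb : b ∈ Algebra.adjoin (ZMod 2) (Set.range D.gr ∪ {D.X, D.Y, D.zz, D.zs}) := by
    rw [D.gen]; trivial
  induction hb using Algebra.adjoin_induction with
  | mem x hx =>
    rcases hx with ⟨g, rfl⟩ | hx
    · exact D.hg_of_mem (by simpa [el_g1] using D.el_mem_Sp [.g g])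
    · simp only [Set.mem_insert_iff, Set.mem_singleton_iff] at hx
      rcases hx with rfl | rfl | rfl | rfl
      · exact D.hg_of_mem (by simpa [el_x1] using D.el_mem_Sp [.x])
      · intro w
        have := (D.good_Yz w 1).1
        simpa using this
      · exact D.hg_of_mem (by simpa [el_z1] using D.el_mem_Sp [.z])
      · intro w
        have := (D.good_Yz w 1).2
        simpa using this
  | algebraMap r =>
    apply D.hg_of_mem
    rw [Algebra.algebraMap_eq_smul_one]
    apply Submodule.smul_mem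
    have := D.el_mem_Sp []
    simpa only [el_nil] using this
  | add x y _ _ hx hy => exact HG.add D hx hy
  | mul x y _ _ hx hy => exact HG.mul D hx hy

end HD

end Vale.Agent.P193.BH

end FileHCone

/-! file HConeK2 -/

section FileHConeK2
/-!
H5: the cone structure of the algebra `A`, part 2 (K2 and conclusion).
-/

namespace Vale.Agent.P193.BH

namespace HD

open Classical in
/-- a left inverse of `f` -/
noncomputable def finv {B : Type} [Ring B] [Algebra (ZMod 2) B] {P : Type} [Group P] {S : Type}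
    [MulAction P S] (D : HD B P S) (s : S) : S :=
  if h : ∃ u, s = D.f u then h.choose else D.o

variable {B : Type} [Ring B] [Algebra (ZMod 2) B] {P : Type} [Group P] {S : Type} [MulAction P S]
variable (D : HD B P S)

theorem finv_f (u : S) : D.finv (D.f u) = u := by
  have h : ∃ v, D.f u = D.f v := ⟨u, rfl⟩
  unfold finv
  rw [dif_pos h]
  exact (D.f_inj h.choose_spec).symm

/-- exactly decided: the site `p` has the exact value `a` on the cone `c` -/
def ED (p : S) (a : ℕ) (c : B × B) : Prop :=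
  ∃ g : P, g • D.o = p ∧ (∃ α, c.1 = D.gr g * D.X ^ a * D.zz * α) ∧
    ∃ β, c.2 = β * D.zs * D.Y ^ a * D.gr g⁻¹

theorem X_pow_gr (g : P) (a : ℕ) : D.X ^ a * D.gr (D.Φ g) = D.gr (D.Φ g) * D.X ^ a := by
  have h : Commute D.X (D.gr (D.Φ g)) := D.φg_comm_X g
  exact (h.pow_left a).eq

theorem Y_pow_gr (g : P) (a : ℕ) : D.Y ^ a * D.gr (D.Φ g) = D.gr (D.Φ g) * D.Y ^ a := by
  have h : Commute D.Y (D.gr (D.Φ g)) := D.φg_comm_Y g
  exact (h.pow_left a).eq

theorem ED.all {p : S} {a : ℕ} {c : B × B} (h : D.ED p a c) {g : P} (hg : g • D.o = p) :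
    (∃ α, c.1 = D.gr g * D.X ^ a * D.zz * α) ∧ ∃ β, c.2 = β * D.zs * D.Y ^ a * D.gr g⁻¹ := by
  obtain ⟨g', hg', ⟨α, hα⟩, β, hβ⟩ := h
  have h1 : (g⁻¹ * g') • D.o = D.o := by
    rw [mul_smul, hg', inv_smul_eq_iff, hg]
  obtain ⟨k, hk⟩ := D.stab _ h1
  have hg2 : g' = g * D.Φ k := by rw [← hk]; group
  have hg3 : g'⁻¹ = (D.Φ k⁻¹) * g⁻¹ := by rw [hg2]; simp only [mul_inv_rev, map_inv]
  constructor
  · refine ⟨D.gr k * α, ?_⟩
    rw [hα, hg2, map_mul]
    calc D.gr g * D.gr (D.Φ k) * D.X ^ a * D.zz * α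
        = D.gr g * (D.gr (D.Φ k) * D.X ^ a) * D.zz * α := by noncomm_ring
      _ = D.gr g * (D.X ^ a * (D.gr (D.Φ k) * D.zz)) * α := by rw [← D.X_pow_gr]; noncomm_ring
      _ = _ := by rw [← D.zz_gr]; noncomm_ring
  · refine ⟨β * D.gr k⁻¹, ?_⟩
    rw [hβ, hg3, map_mul]
    calc β * D.zs * D.Y ^ a * (D.gr (D.Φ k⁻¹) * D.gr g⁻¹)
        = β * D.zs * (D.Y ^ a * D.gr (D.Φ k⁻¹)) * D.gr g⁻¹ := by noncomm_ring
      _ = β * (D.zs * D.gr (D.Φ k⁻¹)) * D.Y ^ a * D.gr g⁻¹ := by rw [D.Y_pow_gr]; noncomm_ring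
      _ = _ := by rw [D.zs_gr]; noncomm_ring

theorem Ypow_Xpow (n : ℕ) : D.Y ^ n * D.X ^ n = 1 := by
  induction n with
  | zero => simp
  | succ n ih =>
    rw [pow_succ, pow_succ']
    calc D.Y ^ n * D.Y * (D.X * D.X ^ n) = D.Y ^ n * (D.Y * D.X) * D.X ^ n := by noncomm_ring
      _ = 1 := by rw [D.YX, mul_one, ih]

theorem orth_aux {a b : ℕ} (h : a ≠ b) : D.zs * D.Y ^ a * (D.X ^ b * D.zz) = 0 := by
  rcases lt_or_gt_of_ne h with h | h
  · obtain ⟨k, rfl⟩ := Nat.exists_eq_add_of_lt h
    have e : D.X ^ (a + k + 1) = D.X ^ a * D.X * D.X ^ k := by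
      rw [← pow_succ, ← pow_add]; congr 1; ring
    rw [e]
    calc D.zs * D.Y ^ a * (D.X ^ a * D.X * D.X ^ k * D.zz)
        = D.zs * (D.Y ^ a * D.X ^ a) * D.X * D.X ^ k * D.zz := by noncomm_ring
      _ = 0 := by rw [D.Ypow_Xpow, mul_one, D.zsX]; simp
  · obtain ⟨k, rfl⟩ := Nat.exists_eq_add_of_lt h
    have e : D.Y ^ (b + k + 1) = D.Y ^ k * D.Y * D.Y ^ b := by
      rw [← pow_succ, ← pow_add]; congr 1; ring
    rw [e]
    calc D.zs * (D.Y ^ k * D.Y * D.Y ^ b) * (D.X ^ b * D.zz)
        = D.zs * D.Y ^ k * D.Y * (D.Y ^ b * D.X ^ b) * D.zz := by noncomm_ring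
      _ = D.zs * D.Y ^ k * (D.Y * D.zz) := by rw [D.Ypow_Xpow]; noncomm_ring
      _ = 0 := by rw [D.Yzz, mul_zero]

theorem ED.orth {p : S} {a b : ℕ} {c d : B × B} (hc : D.ED p a c) (hd : D.ED p b d)
    (hab : a ≠ b) : c.2 * d.1 = 0 := by
  obtain ⟨g, hg, -, β, hβ⟩ := hc
  obtain ⟨⟨α, hα⟩, -⟩ := ED.all D hd hg
  rw [hβ, hα]
  calc β * D.zs * D.Y ^ a * D.gr g⁻¹ * (D.gr g * D.X ^ b * D.zz * α)
      = β * (D.zs * D.Y ^ a * (D.gr g⁻¹ * D.gr g) * (D.X ^ b * D.zz)) * α := by noncomm_ring
    _ = 0 := by rw [gr_inv_gr, mul_one, D.orth_aux hab]; simp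

theorem ED.gstep {p : S} {a : ℕ} {c : B × B} (h : D.ED p a c) (k : P) :
    D.ED (k • p) a (D.gr k * c.1, c.2 * D.gr k⁻¹) := by
  obtain ⟨g, rfl, ⟨α, hα⟩, β, hβ⟩ := h
  refine ⟨k * g, by rw [mul_smul], ⟨α, ?_⟩, β, ?_⟩
  · rw [hα, map_mul]; noncomm_ring
  · rw [hβ, mul_inv_rev, map_mul]; noncomm_ring

theorem conj_pow (r : B) (a : ℕ) :
    (D.gr D.τ * r * D.gr D.τ) ^ a = D.gr D.τ * r ^ a * D.gr D.τ := by
  induction a with
  | zero => simp [D.ττ]
  | succ n ih =>
    rw [pow_succ, ih, pow_succ]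
    calc D.gr D.τ * r ^ n * D.gr D.τ * (D.gr D.τ * r * D.gr D.τ)
          = D.gr D.τ * r ^ n * (D.gr D.τ * D.gr D.τ) * r * D.gr D.τ := by noncomm_ring
        _ = _ := by rw [D.ττ]; noncomm_ring

theorem ED.zstep {p : S} {a : ℕ} {c : B × B} (h : D.ED p a c) :
    D.ED (D.f p) a (D.zz * c.1, c.2 * D.zs) := by
  obtain ⟨g, rfl, ⟨α, hα⟩, β, hβ⟩ := h
  refine ⟨D.Φ g * D.τ, by rw [mul_smul, D.τ_o, D.Φ_f], ⟨D.zz * α, ?_⟩, D.zs * D.φ β, ?_⟩
  · show D.zz * c.1 = _
    rw [hα]
    calc D.zz * (D.gr g * D.X ^ a * D.zz * α) = (D.zz * (D.gr g * D.X ^ a * D.zz)) * α := by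
          noncomm_ring
      _ = D.gr (D.Φ g) * (D.gr D.τ * D.X ^ a * D.gr D.τ) * (D.gr D.τ * D.zz) * D.zz * α := by
          rw [D.zr, map_mul, map_mul, map_pow, D.φX, D.φzz, D.φgr, conj_pow]
      _ = D.gr (D.Φ g) * (D.gr D.τ * D.X ^ a * (D.gr D.τ * D.gr D.τ)) * D.zz * D.zz * α := by
          noncomm_ring
      _ = _ := by rw [D.ττ, map_mul]; noncomm_ring
  · show c.2 * D.zs = _
    rw [hβ, ← D.rz]
    rw [map_mul, map_mul, map_mul, map_pow, D.φY, D.φzs, D.φgr, conj_pow, mul_inv_rev, D.τ_inv,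
      map_mul, map_inv]
    calc D.zs * (D.φ β * (D.zs * D.gr D.τ) * (D.gr D.τ * D.Y ^ a * D.gr D.τ) * D.gr (D.Φ g)⁻¹)
        = D.zs * (D.φ β * (D.zs * (D.gr D.τ * D.gr D.τ)) * (D.Y ^ a * D.gr D.τ) * D.gr (D.Φ g)⁻¹)
          := by noncomm_ring
      _ = _ := by rw [D.ττ]; noncomm_ring

theorem ED.znew (c : B × B) : D.ED D.o 0 (D.zz * c.1, c.2 * D.zs) := by
  refine ⟨1, one_smul _ _, ⟨c.1, by simp⟩, c.2, by simp⟩

theorem ED.xstep_o {a : ℕ} {c : B × B} (h : D.ED D.o a c) :
    D.ED D.o (a + 1) (D.X * c.1, c.2 * D.Y) := by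
  obtain ⟨⟨α, hα⟩, β, hβ⟩ := ED.all D h (one_smul P D.o)
  refine ⟨1, one_smul _ _, ⟨α, ?_⟩, β, ?_⟩
  · rw [hα]; simp only [map_one, one_mul, pow_succ']; noncomm_ring
  · rw [hβ]; simp only [map_one, inv_one, mul_one, pow_succ]; noncomm_ring

theorem ED.xstep_ne {p : S} {a : ℕ} {c : B × B} (hp : p ≠ D.o) (h : D.ED p a c) :
    D.ED p a (D.X * c.1, c.2 * D.Y) := by
  obtain ⟨u, rfl⟩ := (D.f_cases p).resolve_left hp
  obtain ⟨k, rfl⟩ := D.trans u
  have hk : (D.Φ k * D.τ) • D.o = D.f (k • D.o) := by rw [mul_smul, D.τ_o, D.Φ_f]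
  obtain ⟨⟨α, hα⟩, β, hβ⟩ := ED.all D h hk
  refine ⟨D.Φ k * D.τ, hk, ⟨D.X * α, ?_⟩, β * D.Y, ?_⟩
  · show D.X * c.1 = _
    rw [hα, map_mul]
    have hc : D.φ D.X * D.X ^ a = D.X ^ a * D.φ D.X := by
      have h : Commute D.X (D.φ D.X) := D.xr _
      exact (h.pow_left a).eq.symm
    calc D.X * (D.gr (D.Φ k) * D.gr D.τ * D.X ^ a * D.zz * α)
        = (D.X * D.gr (D.Φ k)) * D.gr D.τ * D.X ^ a * D.zz * α := by noncomm_ring
      _ = D.gr (D.Φ k) * (D.X * D.gr D.τ) * D.X ^ a * D.zz * α := by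
          rw [D.φg_comm_X]; noncomm_ring
      _ = D.gr (D.Φ k) * D.gr D.τ * (D.φ D.X * D.X ^ a) * D.zz * α := by
          rw [D.Xτ]; noncomm_ring
      _ = D.gr (D.Φ k) * D.gr D.τ * D.X ^ a * (D.φ D.X * D.zz) * α := by
          rw [hc]; noncomm_ring
      _ = _ := by rw [← D.zr]; noncomm_ring
  · show c.2 * D.Y = _
    rw [hβ, mul_inv_rev, D.τ_inv, map_mul, ← map_inv]
    have hc : D.Y ^ a * D.φ D.Y = D.φ D.Y * D.Y ^ a := by
      have h : Commute D.Y (D.φ D.Y) := D.yr _
      exact (h.pow_left a).eq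
    calc β * D.zs * D.Y ^ a * (D.gr D.τ * D.gr (D.Φ k⁻¹)) * D.Y
        = β * D.zs * D.Y ^ a * D.gr D.τ * (D.gr (D.Φ k⁻¹) * D.Y) := by noncomm_ring
      _ = β * D.zs * D.Y ^ a * (D.gr D.τ * D.Y) * D.gr (D.Φ k⁻¹) := by
          rw [← D.φg_comm_Y]; noncomm_ring
      _ = β * D.zs * (D.Y ^ a * D.φ D.Y) * D.gr D.τ * D.gr (D.Φ k⁻¹) := by
          rw [D.τY]; noncomm_ring
      _ = β * (D.zs * D.φ D.Y) * D.Y ^ a * D.gr D.τ * D.gr (D.Φ k⁻¹) := by
          rw [hc]; noncomm_ring
      _ = _ := by rw [D.rz]; noncomm_ring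

open Classical in
/-- action of a cone letter on patterns -/
noncomputable def ax : CL P → (S → Option ℕ) → S → Option ℕ
  | .x, c => fun s => if s = D.o then (c s).map (· + 1) else c s
  | .g a, c => fun s => c (a⁻¹ • s)
  | .z, c => fun s => if s = D.o then some 0 else c (D.finv s)

/-- action of a cone word on patterns -/
noncomputable def act : List (CL P) → (S → Option ℕ) → S → Option ℕ
  | [], c => c
  | a :: w, c => D.ax a (act w c)

theorem act_append (w w' : List (CL P)) (c : S → Option ℕ) :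
    D.act (w ++ w') c = D.act w (D.act w' c) := by
  induction w with
  | nil => rfl
  | cons a w ih => show D.ax a (D.act (w ++ w') c) = _; rw [ih]; rfl

/-- the pair `c` satisfies the pattern `π` -/
def Ex (π : S → Option ℕ) (c : B × B) : Prop := ∀ p a, π p = some a → D.ED p a c

theorem Ex.step {π : S → Option ℕ} {c : B × B} (h : D.Ex π c) (a : CL P) :
    D.Ex (D.ax a π) ((D.lp a).1 * c.1, c.2 * (D.lp a).2) := by
  intro p b hp
  cases a with
  | g k =>
    have := ED.gstep D (h _ _ hp) k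
    rwa [smul_inv_smul] at this
  | x =>
    simp only [ax] at hp
    split_ifs at hp with h1
    · subst h1
      rw [Option.map_eq_some_iff] at hp
      obtain ⟨a, ha, rfl⟩ := hp
      exact ED.xstep_o D (h _ _ ha)
    · exact ED.xstep_ne D h1 (h _ _ hp)
  | z =>
    simp only [ax] at hp
    split_ifs at hp with h1
    · subst h1
      simp only [Option.some.injEq] at hp
      subst hp
      exact ED.znew D c
    · obtain ⟨u, rfl⟩ := (D.f_cases p).resolve_left h1
      rw [finv_f] at hp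
      exact ED.zstep D (h _ _ hp)

theorem Ex.steps {π : S → Option ℕ} {c : B × B} (h : D.Ex π c) (w : List (CL P)) :
    D.Ex (D.act w π) ((D.el w).1 * c.1, c.2 * (D.el w).2) := by
  induction w with
  | nil =>
    show D.Ex π _
    simpa [el_nil] using h
  | cons a w ih =>
    have := Ex.step D ih a
    rw [el_cons]
    simpa only [act, mul_assoc] using this

theorem ex_act (w : List (CL P)) : D.Ex (D.act w fun _ => none) (D.el w) := by
  have h : D.Ex (fun _ => none) ((1 : B), (1 : B)) := by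
    intro p a h; simp at h
  have := Ex.steps D h w
  simpa using this

/-! ### realizing patterns -/

theorem iter_cases (n : ℕ) (s : S) : (∃ i < n, s = D.f^[i] D.o) ∨ ∃ q, s = D.f^[n] q := by
  induction n with
  | zero => right; exact ⟨s, rfl⟩
  | succ n ih =>
    rcases ih with ⟨i, hi, h⟩ | ⟨q, rfl⟩
    · exact Or.inl ⟨i, by omega, h⟩
    · rcases D.f_cases q with rfl | ⟨u, rfl⟩
      · exact Or.inl ⟨n, by omega, rfl⟩
      · right; exact ⟨u, by rw [Function.iterate_succ_apply]⟩

theorem Φiter_f (n : ℕ) (h : P) (s : S) : (D.Φ^[n] h) • D.f^[n] s = D.f^[n] (h • s) := by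
  induction n generalizing h s with
  | zero => rfl
  | succ n ih =>
    rw [Function.iterate_succ_apply' D.Φ, Function.iterate_succ_apply' D.f, D.Φ_f, ih,
      Function.iterate_succ_apply' D.f]

theorem Φiter_o (n : ℕ) (h : P) {i : ℕ} (hi : i < n) :
    (D.Φ^[n] h) • D.f^[i] D.o = D.f^[i] D.o := by
  obtain ⟨k, rfl⟩ := Nat.exists_eq_add_of_lt hi
  rw [add_assoc, Function.iterate_add_apply, Φiter_f, Function.iterate_succ_apply', D.Φ_o]

theorem cover (F : Finset S) : ∃ (g : P) (n : ℕ), ∀ p ∈ F, ∃ i < n, p = g • D.f^[i] D.o := by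
  classical
  induction F using Finset.induction_on with
  | empty => exact ⟨1, 0, by simp⟩
  | insert p F _ ih =>
    obtain ⟨g, n, h⟩ := ih
    rcases D.iter_cases n (g⁻¹ • p) with ⟨i, hi, h1⟩ | ⟨q, h1⟩
    · refine ⟨g, n, fun p' hp' => ?_⟩
      rcases Finset.mem_insert.1 hp' with rfl | hp'
      · exact ⟨i, hi, by rw [← h1, smul_inv_smul]⟩
      · exact h p' hp'
    · obtain ⟨k, rfl⟩ := D.trans q
      refine ⟨g * D.Φ^[n] k, n + 1, fun p' hp' => ?_⟩
      rcases Finset.mem_insert.1 hp' with rfl | hp'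
      · exact ⟨n, by omega, by rw [mul_smul, Φiter_f, ← h1, smul_inv_smul]⟩
      · obtain ⟨i, hi, rfl⟩ := h p' hp'
        exact ⟨i, by omega, by rw [mul_smul, D.Φiter_o n k hi]⟩

theorem act_zs (n i : ℕ) (hi : i < n) (π : S → Option ℕ) :
    D.act (List.replicate n .z) π (D.f^[i] D.o) = some 0 := by
  induction n generalizing i with
  | zero => omega
  | succ n ih =>
    rw [List.replicate_succ]
    show D.ax .z _ _ = _
    cases i with
    | zero => simp [ax]
    | succ i =>
      rw [Function.iterate_succ_apply']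
      simp only [ax, if_neg (D.f_ne _), finv_f]
      exact ih i (by omega)

theorem raise_one (p : S) : ∃ w, ∀ (π : S → Option ℕ) (s : S), D.act w π s =
    open Classical in if s = p then (π s).map (· + 1) else π s := by
  classical
  obtain ⟨g, rfl⟩ := D.trans p
  refine ⟨[.g g, .x, .g g⁻¹], fun π s => ?_⟩
  show D.ax (.g g) (D.ax .x (D.ax (.g g⁻¹) π)) s = _
  simp only [ax, inv_inv, smul_inv_smul]
  by_cases h : s = g • D.o
  · rw [if_pos h, if_pos (by rw [h, inv_smul_smul])]
  · rw [if_neg h, if_neg (by rw [inv_smul_eq_iff]; exact h)]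

theorem raise_many (p : S) (k : ℕ) : ∃ w, ∀ (π : S → Option ℕ) (s : S), D.act w π s =
    open Classical in if s = p then (π s).map (· + k) else π s := by
  classical
  induction k with
  | zero =>
    refine ⟨[], fun π s => ?_⟩
    show π s = _
    split_ifs with h
    · cases π s <;> simp
    · rfl
  | succ k ih =>
    obtain ⟨w, hw⟩ := ih
    obtain ⟨w1, hw1⟩ := D.raise_one p
    refine ⟨w1 ++ w, fun π s => ?_⟩
    rw [act_append, hw1, hw]
    split_ifs with h
    · cases π s <;> simp [add_assoc]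
    · rfl

theorem raise_all (F : Finset S) (c : S → ℕ) : ∃ w, ∀ (π : S → Option ℕ) (s : S), D.act w π s =
    open Classical in if s ∈ F then (π s).map (· + c s) else π s := by
  classical
  induction F using Finset.induction_on with
  | empty => exact ⟨[], fun π s => by simp [act]⟩
  | insert p F hp ih =>
    obtain ⟨w, hw⟩ := ih
    obtain ⟨w1, hw1⟩ := D.raise_many p (c p)
    refine ⟨w1 ++ w, fun π s => ?_⟩
    rw [act_append, hw1, hw]
    by_cases h : s = p
    · subst h; simp [hp]
    · simp [h]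

theorem realize (F : Finset S) (c : S → ℕ) :
    ∃ w, ∀ p ∈ F, D.act w (fun _ => none) p = some (c p) := by
  classical
  obtain ⟨g, n, h⟩ := D.cover F
  obtain ⟨w, hw⟩ := D.raise_all F c
  refine ⟨w ++ (.g g :: List.replicate n .z), fun p hp => ?_⟩
  rw [act_append, hw, if_pos hp]
  obtain ⟨i, hi, rfl⟩ := h p hp
  have : D.act (.g g :: List.replicate n .z) (fun _ => none) (g • D.f^[i] D.o) = some 0 := by
    show D.ax (.g g) _ _ = _
    simp only [ax, inv_smul_smul]
    exact D.act_zs n i hi _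
  rw [this]
  simp

/-! ### site map and offset of a cone word -/

/-- site map -/
def hm : List (CL P) → S → S
  | [], s => s
  | .x :: w, s => hm w s
  | .g a :: w, s => a • hm w s
  | .z :: w, s => D.f (hm w s)

open Classical in
/-- offset -/
noncomputable def dm : List (CL P) → S → ℕ
  | [], _ => 0
  | .x :: w, s => dm w s + if s = D.o then 1 else 0
  | .g a :: w, s => dm w (a⁻¹ • s)
  | .z :: w, s => if s = D.o then 0 else dm w (D.finv s)

theorem act_hm (w : List (CL P)) (π : S → Option ℕ) (s : S) :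
    D.act w π (D.hm w s) = (π s).map (· + D.dm w (D.hm w s)) := by
  classical
  induction w with
  | nil => simp only [act, hm, dm, add_zero]; cases π s <;> rfl
  | cons a w ih =>
    cases a with
    | x =>
      show (if D.hm w s = D.o then (D.act w π (D.hm w s)).map (· + 1) else D.act w π (D.hm w s)) =
        (π s).map (· + (D.dm w (D.hm w s) + if D.hm w s = D.o then 1 else 0))
      rw [ih]
      by_cases h : D.hm w s = D.o
      · rw [if_pos h, if_pos h]
        cases π s <;> simp [add_assoc]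
      · rw [if_neg h, if_neg h]
        simp only [add_zero]
    | g a =>
      show D.ax (.g a) (D.act w π) _ = _
      simp only [ax, hm, dm, inv_smul_smul, ih]
    | z =>
      have h : D.f (D.hm w s) ≠ D.o := D.f_ne _
      show (if D.f (D.hm w s) = D.o then some 0 else D.act w π (D.finv (D.f (D.hm w s)))) =
        (π s).map (· + (if D.f (D.hm w s) = D.o then 0 else D.dm w (D.finv (D.f (D.hm w s)))))
      simp only [if_neg h, finv_f, ih]

theorem act_out (w : List (CL P)) (π : S → Option ℕ) {p : S} (hp : ∀ s, D.hm w s ≠ p) :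
    D.act w π p = some (D.dm w p) := by
  induction w generalizing p with
  | nil => exact absurd rfl (hp p)
  | cons a w ih =>
    show D.ax a (D.act w π) _ = _
    cases a with
    | x =>
      have := ih (p := p) (fun s => hp s)
      by_cases h : p = D.o
      · simp only [ax, this, Option.map_some, if_pos h, dm]
      · simp only [ax, dm, this, if_neg h, add_zero]
    | g a =>
      have := ih (p := a⁻¹ • p) (fun s h => hp s (by
        show a • D.hm w s = p
        rw [h, smul_inv_smul]))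
      simp only [ax, dm, this]
    | z =>
      simp only [ax, dm]
      split_ifs with h
      · rfl
      · obtain ⟨u, rfl⟩ := (D.f_cases p).resolve_left h
        rw [finv_f]
        exact ih (p := u) (fun s h => hp s (by
          show D.f (D.hm w s) = D.f u
          rw [h]))

/-! ### normal form -/

/-- `x_s` -/
noncomputable def xs (s : S) : B :=
  D.gr (D.trans s).choose * D.X * D.gr (D.trans s).choose⁻¹

theorem xs_eq {s : S} {g : P} (hg : g • D.o = s) : D.xs s = D.gr g * D.X * D.gr g⁻¹ := by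
  unfold xs
  set g' := (D.trans s).choose with hg'
  have h1 : g' • D.o = s := (D.trans s).choose_spec
  have h2 : (g⁻¹ * g') • D.o = D.o := by rw [mul_smul, h1, inv_smul_eq_iff, hg]
  obtain ⟨k, hk⟩ := D.stab _ h2
  have h3 : g' = g * D.Φ k := by rw [← hk]; group
  rw [h3, mul_inv_rev, map_mul, map_mul]
  calc D.gr g * D.gr (D.Φ k) * D.X * (D.gr (D.Φ k)⁻¹ * D.gr g⁻¹)
      = D.gr g * (D.gr (D.Φ k) * D.X) * (D.gr (D.Φ k)⁻¹ * D.gr g⁻¹) := by noncomm_ring
    _ = D.gr g * D.X * (D.gr (D.Φ k) * D.gr (D.Φ k)⁻¹) * D.gr g⁻¹ := by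
        rw [← D.φg_comm_X]; noncomm_ring
    _ = _ := by rw [gr_gr_inv, mul_one]

theorem xs_o : D.xs D.o = D.X := by rw [D.xs_eq (one_smul P D.o)]; simp only [map_one, one_mul, inv_one, mul_one]

theorem gr_xs (g : P) (s : S) : D.gr g * D.xs s = D.xs (g • s) * D.gr g := by
  obtain ⟨k, rfl⟩ := D.trans s
  rw [D.xs_eq (g := k) rfl, D.xs_eq (g := g * k) (by rw [mul_smul]), mul_inv_rev, map_mul, map_mul]
  calc D.gr g * (D.gr k * D.X * D.gr k⁻¹) = D.gr g * D.gr k * D.X * D.gr k⁻¹ * 1 := by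
        noncomm_ring
    _ = _ := by rw [← D.gr_inv_gr g]; noncomm_ring

theorem φ_xs (s : S) : D.φ (D.xs s) = D.xs (D.f s) := by
  obtain ⟨k, rfl⟩ := D.trans s
  rw [D.xs_eq (g := k) rfl, D.xs_eq (g := D.Φ k * D.τ) (s := D.f (k • D.o))
    (by rw [mul_smul, D.τ_o, D.Φ_f]), map_mul, map_mul, D.φX, D.φgr, D.φgr, mul_inv_rev, map_mul,
    map_mul, D.τ_inv, map_inv]
  noncomm_ring

theorem zz_xs (s : S) : D.zz * D.xs s = D.xs (D.f s) * D.zz := by rw [D.zr, φ_xs]

theorem xs_comm (s t : S) : Commute (D.xs s) (D.xs t) := by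
  obtain ⟨g, rfl⟩ := D.trans s
  rcases D.f_cases (g⁻¹ • t) with h | ⟨u, hu⟩
  · rw [inv_smul_eq_iff] at h; rw [h]
  · have ht : t = g • D.f u := by rw [← hu, smul_inv_smul]
    have e1 : D.xs (g • D.o) = D.gr g * D.X * D.gr g⁻¹ := D.xs_eq rfl
    have e2 : D.xs (g • D.f u) = D.gr g * D.φ (D.xs u) * D.gr g⁻¹ := by
      rw [φ_xs, gr_xs, mul_assoc, gr_gr_inv, mul_one]
    rw [ht, e1, e2]
    show _ = _
    calc D.gr g * D.X * D.gr g⁻¹ * (D.gr g * D.φ (D.xs u) * D.gr g⁻¹)
        = D.gr g * (D.X * (D.gr g⁻¹ * D.gr g) * D.φ (D.xs u)) * D.gr g⁻¹ := by noncomm_ring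
      _ = D.gr g * (D.φ (D.xs u) * (D.gr g⁻¹ * D.gr g) * D.X) * D.gr g⁻¹ := by
          rw [gr_inv_gr, mul_one, mul_one, D.xr]
      _ = _ := by noncomm_ring

/-- product of the `x_s` -/
noncomputable def xp (L : List S) : B := (L.map D.xs).prod

theorem gr_xp (g : P) (L : List S) : D.gr g * D.xp L = D.xp (L.map (g • ·)) * D.gr g := by
  unfold xp
  induction L with
  | nil => simp
  | cons s L ih =>
    simp only [List.map_cons, List.prod_cons]
    rw [← mul_assoc, gr_xs, mul_assoc, ih, ← mul_assoc]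

theorem zz_xp (L : List S) : D.zz * D.xp L = D.xp (L.map D.f) * D.zz := by
  unfold xp
  induction L with
  | nil => simp
  | cons s L ih =>
    simp only [List.map_cons, List.prod_cons]
    rw [← mul_assoc, zz_xs, mul_assoc, ih, ← mul_assoc]

theorem xp_perm {L L' : List S} (h : L.Perm L') : D.xp L = D.xp L' := by
  unfold xp
  apply List.Perm.prod_eq' (h.map _)
  rw [List.pairwise_map]
  exact List.pairwise_of_forall fun s t => D.xs_comm s t

theorem nf (w : List (CL P)) : ∃ (L : List S) (g : P) (n : ℕ),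
    (D.el w).1 = D.xp L * D.gr g * D.zz ^ n ∧ (∀ s, D.hm w s = g • D.f^[n] s) ∧
    ∀ s, D.dm w s = open Classical in L.count s := by
  classical
  induction w with
  | nil => exact ⟨[], 1, 0, by simp [el_nil, xp], by simp [hm], by simp [dm]⟩
  | cons a w ih =>
    obtain ⟨L, g, n, h1, h2, h3⟩ := ih
    cases a with
    | x =>
      refine ⟨D.o :: L, g, n, ?_, h2, fun s => ?_⟩
      · show D.X * (D.el w).1 = _
        rw [h1, xp, xp, List.map_cons, List.prod_cons, xs_o]
        noncomm_ring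
      · simp only [dm, h3, List.count_cons]
        congr 1
        by_cases h : s = D.o
        · simp [h]
        · simp [h, Ne.symm h]
    | g a =>
      refine ⟨L.map (a • ·), a * g, n, ?_, fun s => ?_, fun s => ?_⟩
      · show D.gr a * (D.el w).1 = _
        rw [h1, map_mul]
        calc D.gr a * (D.xp L * D.gr g * D.zz ^ n) = (D.gr a * D.xp L) * D.gr g * D.zz ^ n := by
              noncomm_ring
          _ = _ := by rw [gr_xp]; noncomm_ring
      · simp only [hm, h2, mul_smul]
      · simp only [dm, h3]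
        have := List.count_map_of_injective L (fun s : S => a • s) (MulAction.injective a) (a⁻¹ • s)
        rw [← this, smul_inv_smul]
    | z =>
      refine ⟨L.map D.f, D.Φ g, n + 1, ?_, fun s => ?_, fun s => ?_⟩
      · show D.zz * (D.el w).1 = _
        rw [h1, pow_succ']
        calc D.zz * (D.xp L * D.gr g * D.zz ^ n) = (D.zz * D.xp L) * D.gr g * D.zz ^ n := by
              noncomm_ring
          _ = D.xp (L.map D.f) * (D.zz * D.gr g) * D.zz ^ n := by rw [zz_xp]; noncomm_ring
          _ = _ := by rw [zz_gr]; noncomm_ring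
      · simp only [hm, h2]
        rw [Function.iterate_succ_apply', D.Φ_f]
      · simp only [dm, h3]
        split_ifs with h
        · symm
          rw [List.count_eq_zero]
          intro hs
          rw [List.mem_map] at hs
          obtain ⟨u, -, hu⟩ := hs
          exact D.f_ne u (hu.trans h)
        · obtain ⟨u, rfl⟩ := (D.f_cases s).resolve_left h
          rw [finv_f, List.count_map_of_injective L D.f D.f_inj u]

theorem sym_zz (n i : ℕ) (hi : i < n) : ∃ v : P, v • D.o = D.f^[i] D.o ∧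
    (∀ s, v • D.f^[n] s = D.f^[n] s) ∧ D.gr v * D.zz ^ n = D.zz ^ n := by
  induction n generalizing i with
  | zero => omega
  | succ n ih =>
    cases i with
    | zero => exact ⟨1, by simp, by simp, by simp⟩
    | succ i =>
      obtain ⟨v, h1, h2, h3⟩ := ih i (by omega)
      obtain ⟨m, rfl⟩ : ∃ m, n = m + 1 := ⟨n - 1, by omega⟩
      refine ⟨D.Φ v * D.τ, ?_, fun s => ?_, ?_⟩
      · rw [mul_smul, D.τ_o, D.Φ_f, h1, ← Function.iterate_succ_apply' D.f]
      · rw [mul_smul]
        have e : D.f^[m + 1 + 1] s = D.f (D.f (D.f^[m] s)) := by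
          rw [Function.iterate_succ_apply', Function.iterate_succ_apply']
        rw [e, D.τ_ff, D.Φ_f]
        have := h2 s
        rw [Function.iterate_succ_apply'] at this
        rw [this]
      · have e : D.gr D.τ * D.zz * D.zz = D.zz * D.zz := by
          rw [← D.φzz]; exact (D.zr _).symm
        calc D.gr (D.Φ v * D.τ) * D.zz ^ (m + 1 + 1)
            = D.gr (D.Φ v) * (D.gr D.τ * D.zz * D.zz) * D.zz ^ m := by
              rw [map_mul, pow_succ', pow_succ']; noncomm_ring
          _ = (D.gr (D.Φ v) * D.zz) * (D.zz * D.zz ^ m) := by rw [e]; noncomm_ring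
          _ = D.zz * (D.gr v * D.zz ^ (m + 1)) := by rw [← zz_gr, ← pow_succ']; noncomm_ring
          _ = _ := by rw [h3, ← pow_succ']

theorem fix_zz [FaithfulSMul P S] (n : ℕ) (u : P) (hu : ∀ s, u • D.f^[n] s = D.f^[n] s) :
    D.gr u * D.zz ^ n = D.zz ^ n := by
  induction n generalizing u with
  | zero =>
    have : u = 1 := by
      apply FaithfulSMul.eq_of_smul_eq_smul (α := S)
      intro s
      rw [one_smul]; exact hu s
    simp [this]
  | succ n ih =>
    have h1 : ∃ i < n + 1, u • D.o = D.f^[i] D.o := by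
      rcases D.iter_cases (n + 1) (u • D.o) with h | ⟨q, hq⟩
      · exact h
      · exfalso
        rw [← hu q] at hq
        have := MulAction.injective u hq
        rw [Function.iterate_succ_apply'] at this
        exact D.f_ne _ this.symm
    obtain ⟨i, hi, h2⟩ := h1
    obtain ⟨v, h3, h4, h5⟩ := D.sym_zz (n + 1) i hi
    have h6 : (v⁻¹ * u) • D.o = D.o := by rw [mul_smul, h2, inv_smul_eq_iff, h3]
    obtain ⟨u', hu'⟩ := D.stab _ h6
    have h7 : D.gr u' * D.zz ^ n = D.zz ^ n := by
      apply ih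
      intro s
      apply D.f_inj
      rw [← D.Φ_f, ← hu', ← Function.iterate_succ_apply' D.f, mul_smul, hu, inv_smul_eq_iff, h4]
    have h8 : u = v * D.Φ u' := by rw [← hu']; group
    calc D.gr u * D.zz ^ (n + 1) = D.gr v * (D.gr (D.Φ u') * D.zz) * D.zz ^ n := by
          rw [h8, map_mul, pow_succ']; noncomm_ring
      _ = D.gr v * D.zz * (D.gr u' * D.zz ^ n) := by rw [← zz_gr]; noncomm_ring
      _ = D.gr v * D.zz ^ (n + 1) := by rw [h7, pow_succ']; noncomm_ring
      _ = _ := h5

theorem iter_o_inj {i j : ℕ} (h : D.f^[i] D.o = D.f^[j] D.o) : i = j := by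
  induction i generalizing j with
  | zero =>
    cases j with
    | zero => rfl
    | succ j =>
      rw [Function.iterate_succ_apply'] at h
      exact absurd h.symm (D.f_ne _)
  | succ i ih =>
    cases j with
    | zero =>
      rw [Function.iterate_succ_apply'] at h
      exact absurd h (D.f_ne _)
    | succ j =>
      rw [Function.iterate_succ_apply', Function.iterate_succ_apply'] at h
      rw [ih (D.f_inj h)]

theorem compl_range (n : ℕ) : (Set.range D.f^[n])ᶜ = (fun i => D.f^[i] D.o) '' {i | i < n} := by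
  ext s
  constructor
  · intro h
    rcases D.iter_cases n s with ⟨i, hi, h1⟩ | ⟨q, h1⟩
    · exact ⟨i, hi, h1.symm⟩
    · exact absurd ⟨q, h1.symm⟩ h
  · rintro ⟨i, hi, rfl⟩ ⟨q, hq⟩
    obtain ⟨k, rfl⟩ := Nat.exists_eq_add_of_lt hi
    rw [add_assoc, Function.iterate_add_apply] at hq
    have := (D.f_inj.iterate i) hq
    rw [Function.iterate_succ_apply'] at this
    exact D.f_ne _ this

theorem ncard_compl (n : ℕ) : ((Set.range D.f^[n])ᶜ).ncard = n := by
  rw [compl_range, Set.ncard_image_of_injective _ (fun i j h => D.iter_o_inj h)]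
  have : {i | i < n} = ((Finset.range n : Finset ℕ) : Set ℕ) := by ext; simp
  rw [this, Set.ncard_coe_finset, Finset.card_range]

theorem gz_eq [FaithfulSMul P S] {g g' : P} {n n' : ℕ}
    (h : ∀ s, g • D.f^[n] s = g' • D.f^[n'] s) : D.gr g * D.zz ^ n = D.gr g' * D.zz ^ n' := by
  have e : (fun s => g • s) '' (Set.range D.f^[n]) = (fun s => g' • s) '' (Set.range D.f^[n']) := by
    rw [← Set.range_comp, ← Set.range_comp]
    congr 1
    funext s
    exact h s
  have hn : n = n' := by
    have h1 : ((fun s => g • s) '' (Set.range D.f^[n])ᶜ).ncard = n := by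
      rw [Set.ncard_image_of_injective _ (MulAction.injective g), ncard_compl]
    have h2 : ((fun s => g' • s) '' (Set.range D.f^[n'])ᶜ).ncard = n' := by
      rw [Set.ncard_image_of_injective _ (MulAction.injective g'), ncard_compl]
    rw [Set.image_compl_eq (MulAction.bijective g)] at h1
    rw [Set.image_compl_eq (MulAction.bijective g')] at h2
    rw [← h1, ← h2, e]
  subst hn
  have h1 : D.gr (g'⁻¹ * g) * D.zz ^ n = D.zz ^ n := by
    apply fix_zz
    intro s
    rw [mul_smul, h, inv_smul_smul]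
  calc D.gr g * D.zz ^ n = D.gr g' * (D.gr (g'⁻¹ * g) * D.zz ^ n) := by
        rw [← mul_assoc, grgr]; congr 2; group
    _ = _ := by rw [h1]

theorem el_eq [FaithfulSMul P S] {w w' : List (CL P)} (h : ∀ s, D.hm w s = D.hm w' s)
    (h' : ∀ s, D.dm w s = D.dm w' s) : (D.el w).1 = (D.el w').1 := by
  classical
  obtain ⟨L, g, n, h1, h2, h3⟩ := D.nf w
  obtain ⟨L', g', n', h1', h2', h3'⟩ := D.nf w'
  have hp : L.Perm L' := by
    rw [List.perm_iff_count]
    intro s
    have e1 := h3 s
    have e2 := h3' s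
    rw [h' s] at e1
    exact e1.symm.trans e2
  rw [h1, h1', D.xp_perm hp, mul_assoc, mul_assoc, D.gz_eq (g := g) (g' := g') (n := n) (n' := n')]
  intro s
  rw [← h2, ← h2', h]

/-! ### separation -/

/-- generic pattern -/
noncomputable def pat (idx : S → ℕ) (M : ℕ) (F : Finset S) (s : S) : Option ℕ :=
  open Classical in if s ∈ F then some (M * (idx s + 1)) else none

theorem gap {M i j d e : ℕ} (hij : i ≠ j) (hd : d < M) (he : e < M) :
    M * (i + 1) + d ≠ M * (j + 1) + e := by
  intro h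
  apply hij
  have h1 := congrArg (· / M) h
  have hM : 0 < M := by omega
  simp only [Nat.mul_add_div hM, Nat.div_eq_of_lt hd, Nat.div_eq_of_lt he] at h1
  omega

theorem gap0 {M i d e : ℕ} (he : e < M) : M * (i + 1) + d ≠ e := by
  intro h
  have : M ≤ M * (i + 1) := Nat.le_mul_of_pos_right _ (by omega)
  omega

theorem sep [FaithfulSMul P S] {idx : S → ℕ} (hidx : Function.Injective idx)
    {w w' : List (CL P)} (hne : (D.el w).1 ≠ (D.el w').1) :
    ∃ (p : S) (F0 : Finset S) (M0 : ℕ), ∀ M, M0 ≤ M → ∀ F, F0 ⊆ F → ∃ a b, a ≠ b ∧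
      D.act w (pat idx M F) p = some a ∧ D.act w' (pat idx M F) p = some b := by
  classical
  have hact : ∀ (w : List (CL P)) (M : ℕ) (F : Finset S) (s : S), s ∈ F →
      D.act w (pat idx M F) (D.hm w s) = some (M * (idx s + 1) + D.dm w (D.hm w s)) := by
    intro w M F s hs
    rw [act_hm, pat, if_pos hs, Option.map_some]
  by_cases h : ∀ s, D.hm w s = D.hm w' s
  · have h' : ¬ ∀ s, D.dm w s = D.dm w' s := fun h' => hne (D.el_eq h h')
    push Not at h'
    obtain ⟨p, hp⟩ := h'
    by_cases hr : ∃ s, D.hm w s = p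
    · obtain ⟨s, rfl⟩ := hr
      refine ⟨D.hm w s, {s}, 0, fun M _ F hF => ?_⟩
      have hs : s ∈ F := hF (by simp)
      refine ⟨_, _, ?_, hact w M F s hs, by rw [h s]; exact hact w' M F s hs⟩
      rw [h s] at hp ⊢
      omega
    · push Not at hr
      refine ⟨p, ∅, 0, fun M _ F _ => ⟨_, _, hp, D.act_out w _ hr, D.act_out w' _ ?_⟩⟩
      intro s hs
      exact hr s ((h s).trans hs)
  · push Not at h
    obtain ⟨s, hs⟩ := h
    by_cases hr : ∃ s', D.hm w' s' = D.hm w s
    · obtain ⟨s', hs'⟩ := hr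
      refine ⟨D.hm w s, {s, s'}, D.dm w (D.hm w s) + D.dm w' (D.hm w s) + 1,
        fun M hM F hF => ?_⟩
      have h1 : s ∈ F := hF (by simp)
      have h2 : s' ∈ F := hF (by simp)
      refine ⟨_, _, ?_, hact w M F s h1, by rw [← hs']; exact hact w' M F s' h2⟩
      apply gap
      · intro h
        have := hidx h
        subst this
        exact hs hs'.symm
      · omega
      · rw [hs']; omega
    · push Not at hr
      refine ⟨D.hm w s, {s}, D.dm w' (D.hm w s) + 1, fun M hM F hF => ?_⟩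
      have h1 : s ∈ F := hF (by simp)
      exact ⟨_, _, gap0 (by omega), hact w M F s h1, D.act_out w' _ hr⟩

theorem K2 [FaithfulSMul P S] [Countable S] (w : List (CL P)) (T : Finset B)
    (hT : (T : Set B) ⊆ Prod.fst '' D.C) (hw : (D.el w).1 ∉ T) :
    ∃ d ∈ D.C, ∀ t ∈ T, d.2 * (D.el w).2 * t * d.1 = 0 := by
  classical
  obtain ⟨idx, hidx⟩ := Countable.exists_injective_nat S
  have h1 : ∀ t : B, ∃ (p : S) (F0 : Finset S) (M0 : ℕ) (w' : List (CL P)), t ∈ T →
      (D.el w').1 = t ∧ ∀ M, M0 ≤ M → ∀ F, F0 ⊆ F → ∃ a b, a ≠ b ∧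
      D.act w (pat idx M F) p = some a ∧ D.act w' (pat idx M F) p = some b := by
    intro t
    by_cases ht : t ∈ T
    · obtain ⟨_, ⟨w', rfl⟩, h⟩ := hT ht
      have hne : (D.el w).1 ≠ (D.el w').1 := by
        intro e
        rw [h] at e
        exact hw (e ▸ ht)
      obtain ⟨p, F0, M0, h3⟩ := D.sep hidx hne
      exact ⟨p, F0, M0, w', fun _ => ⟨h, h3⟩⟩
    · exact ⟨D.o, ∅, 0, [], fun h => absurd h ht⟩
  choose p F0 M0 w' h2 using h1
  set F := T.biUnion F0 with hF
  set M := T.sup M0 with hM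
  obtain ⟨r, hr⟩ := D.realize F (fun s => M * (idx s + 1))
  have hEx : D.Ex (pat idx M F) (D.el r) := by
    intro s a hs
    unfold pat at hs
    split_ifs at hs with h
    have := hr s h
    rw [Option.some.injEq] at hs
    subst hs
    exact D.ex_act r s _ this
  refine ⟨D.el r, ⟨r, rfl⟩, fun t ht => ?_⟩
  obtain ⟨h3, h4⟩ := h2 t ht
  obtain ⟨a, b, hab, ha, hb⟩ := h4 M (Finset.le_sup ht) F (Finset.subset_biUnion_of_mem F0 ht)
  have e1 := Ex.steps D hEx w _ _ ha
  have e2 := Ex.steps D hEx (w' t) _ _ hb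
  have e3 := ED.orth D e1 e2 hab
  simp only [h3] at e3
  rw [mul_assoc, mul_assoc]
  rw [mul_assoc] at e3
  exact e3

/-- the cone structure -/
theorem cone [FaithfulSMul P S] [Countable S] : Cone B D.C where
  one := ⟨[], rfl⟩
  inv := by
    rintro _ ⟨w, rfl⟩
    exact D.el_inv w
  mul := by
    rintro _ ⟨w, rfl⟩ _ ⟨w', rfl⟩
    exact ⟨w ++ w', D.el_append w w'⟩
  K1 := by
    intro b
    obtain ⟨l, h1, h2⟩ := HG.good D (D.hg_all b)
    refine ⟨l.map D.el, ?_, ?_, ?_⟩
    · intro c hc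
      rw [List.mem_map] at hc
      obtain ⟨w, -, rfl⟩ := hc
      exact ⟨w, rfl⟩
    · rw [List.map_map]; exact h1
    · intro c hc
      rw [List.mem_map] at hc
      obtain ⟨w, hw, rfl⟩ := hc
      exact h2 w hw
  K2 := by
    rintro _ ⟨w, rfl⟩ T hT hw
    exact D.K2 w T hT hw

end HD

end Vale.Agent.P193.BH

end FileHConeK2

/-! file Hough -/

section FileHough
/-! H: the infinite sum algebra -/

namespace Vale.Agent.P193.BH

open AGen

theorem smul_site (g : HG.PP) (s : HG.Site) : g • s = (g : Equiv.Perm HG.Site) s := rfl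

instance : FaithfulSMul HG.PP HG.Site where
  eq_of_smul_eq_smul := by
    intro g h H
    apply Subtype.ext
    apply Equiv.ext
    intro s
    exact H s

/-- the data of the cone construction -/
noncomputable def hdHA : HD HA HG.PP HG.Site where
  o := HG.zs 0
  f := HG.fS
  f_inj := HG.fS_injective
  f_cases := by
    intro s
    by_cases h : s = HG.zs 0
    · exact Or.inl h
    · obtain ⟨v, hv⟩ := HG.exists_fS h
      exact Or.inr ⟨v, hv.symm⟩
  f_ne := HG.fS_ne_zero
  Φ := HA.PhiP
  Φ_o := by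
    intro g
    rw [smul_site, HA.PhiP_val, HG.Phi_zero]
  Φ_f := by
    intro g s
    rw [smul_site, smul_site, HA.PhiP_val, HG.Phi_fS]
  stab := by
    intro g hg
    rw [smul_site] at hg
    obtain ⟨g', hg', h⟩ := HG.exists_Phi g.2 hg
    refine ⟨⟨g', hg'⟩, ?_⟩
    apply Subtype.ext
    rw [HA.PhiP_val]
    exact h.symm
  τ := HA.tau
  τ_sq := by
    apply Subtype.ext
    exact Equiv.swap_mul_self _ _
  τ_o := by
    rw [smul_site]
    show Equiv.swap (HG.zs 0) (HG.zs 1) (HG.zs 0) = HG.fS (HG.zs 0)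
    rw [Equiv.swap_apply_left, HG.fS_inl_nonneg le_rfl]
    rfl
  τ_ff := by
    intro s
    rw [smul_site]
    show Equiv.swap (HG.zs 0) (HG.zs 1) (HG.fS (HG.fS s)) = HG.fS (HG.fS s)
    apply Equiv.swap_apply_of_ne_of_ne
    · exact HG.fS_ne_zero _
    · have h1 : HG.zs 1 = HG.fS (HG.zs 0) := by
        rw [HG.fS_inl_nonneg le_rfl]; rfl
      rw [h1]
      exact fun h => HG.fS_ne_zero _ (HG.fS_injective h)
  trans := by
    intro s
    obtain ⟨g, hg, h⟩ := HG.exists_map 1 (fun _ => s) (by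
      intro a ha b hb _
      simp only [Set.mem_Iio, Nat.lt_one_iff] at ha hb
      rw [ha, hb])
    exact ⟨⟨g, hg⟩, h 0 (by omega)⟩
  gr := HA.gr
  X := HA.a x
  Y := HA.a y
  zz := HA.a z
  zs := HA.a w
  φ := HA.φ
  YX := HA.yx
  zszz := HA.wz
  Yzz := HA.yz
  zsX := HA.wx
  sum := HA.zw_xy
  zr := HA.zz_mul
  rz := HA.zs_mul
  xr := HA.X_mul
  yr := HA.Y_mul
  φgr := HA.φ_gr
  φX := by
    rw [HA.gr_tau]; exact HA.φ_X
  φY := by
    rw [HA.gr_tau]; exact HA.φ_Y
  φzz := by
    rw [HA.gr_tau]; exact HA.φ_zz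
  φzs := by
    rw [HA.gr_tau]; exact HA.φ_zs
  gen := HA.adjoin_eq_top

/-- H -/
theorem houghtonAlg : ∃ (A : Type) (_ : Ring A) (_ : Algebra (ZMod 2) A), Nontrivial A ∧ FPAlg A ∧
    (∃ C, Cone A C) ∧ Nonempty (InfSum A) :=
  ⟨HA, inferInstance, inferInstance, nontrivial_HA, fpAlg_HA, ⟨_, hdHA.cone⟩, ⟨HA.infSum⟩⟩

end Vale.Agent.P193.BH

end FileHough
end
end
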