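import Vale.Agent.P193.MathlibUsed
import Vale.Agent.P193.Defs

set_option linter.all false

section

section

namespace Vale.Agent.P193

open List

/-! ### The rows -/

/-- modulus of the `j`-th row -/
abbrev md (j : ℕ) : ℕ := 3 ^ (j + 1)

/-- the `j`-th row -/
abbrev Row (j : ℕ) : Type := (ZMod (md j) → ZMod 2) × ZMod 2

instance (j : ℕ) : NeZero (md j) := ⟨by positivity⟩

/-- the marked offset in the `j`-th row -/
abbrev mk (j : ℕ) : ZMod (md j) := ((3 ^ j : ℕ) : ZMod (md j))

/-- the shift on a row -/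
def rowT (j : ℕ) : Equiv.Perm (Row j) where
  toFun p := (fun i => p.1 (i - 1), p.2)
  invFun p := (fun i => p.1 (i + 1), p.2)
  left_inv p := by ext <;> simp
  right_inv p := by ext <;> simp

/-- indicator with values in `ZMod 2` -/
def ind (p : Prop) [Decidable p] : ZMod 2 := if p then 1 else 0

/-- the involution on a row -/
def rowA (j : ℕ) : Equiv.Perm (Row j) where
  toFun p := (fun i => p.1 i + ind (i = 0), p.2 + p.1 (mk j))
  invFun p := (fun i => p.1 i - ind (i = 0), p.2 - (p.1 (mk j) - ind (mk j = 0)))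
  left_inv p := by ext <;> simp
  right_inv p := by ext <;> simp

lemma mk_ne_zero (j : ℕ) : mk j ≠ 0 := by
  intro h
  rw [ZMod.natCast_eq_zero_iff] at h
  have h1 := Nat.le_of_dvd (by positivity) h
  have h2 : 3 ^ j < 3 ^ (j + 1) := Nat.pow_lt_pow_right (by norm_num) (Nat.lt_succ_self j)
  unfold md at h1
  (clear * - h1 h2; omega)

lemma rowA_inv (j : ℕ) : (rowA j)⁻¹ = rowA j := by
  apply Equiv.ext
  rintro ⟨x, z⟩
  show ((fun i => x i - ind (i = 0)), z - (x (mk j) - ind (mk j = 0))) =
    ((fun i => x i + ind (i = 0)), z + x (mk j))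
  have h3 : ind (mk j = 0) = 0 := if_neg (mk_ne_zero j)
  ext
  · simp [CharTwo.sub_eq_add]
  · rw [h3, sub_zero, CharTwo.sub_eq_add]

/-! ### Words -/

abbrev W2 : Type := List (Fin 2 × Bool)

/-- one step of the integer state machine -/
def stepZ (l : Fin 2 × Bool) (s : ℤ × List ℤ × List ℤ) : ℤ × List ℤ × List ℤ :=
  if l.1 = 0 then (s.1, s.1 :: s.2.1, s.2.1.map (fun x => s.1 - x) ++ s.2.2)
  else if l.2 then (s.1 + 1, s.2.1, s.2.2) else (s.1 - 1, s.2.1, s.2.2)

/-- the integer state of a word -/
def stZ (w : W2) : ℤ × List ℤ × List ℤ := w.foldr stepZ (0, [], [])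

/-- the action of a state on a row -/
def act (j : ℕ) (s : ℤ × List ℤ × List ℤ) (p : Row j) : Row j :=
  (fun i => p.1 (i - (s.1 : ZMod (md j))) +
      (s.2.1.map fun y : ℤ => ind (i = ((s.1 - y : ℤ) : ZMod (md j)))).sum,
    p.2 + (s.2.1.map fun y : ℤ => p.1 (mk j - (y : ZMod (md j)))).sum +
      (s.2.2.map fun c : ℤ => ind ((c : ZMod (md j)) = mk j)).sum)

lemma act_nil (j : ℕ) (p : Row j) : act j (0, [], []) p = p := by
  simp only [act, Int.cast_zero, sub_zero, zero_sub, Int.cast_neg, map_nil, sum_nil, add_zero, Nat.cast_pow, Nat.cast_ofNat, Prod.mk.eta]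

lemma act_stepA (j : ℕ) (b : Bool) (s : ℤ × List ℤ × List ℤ) (p : Row j) :
    act j (stepZ (0, b) s) p = rowA j (act j s p) := by
  obtain ⟨k, L, C⟩ := s
  obtain ⟨x, z⟩ := p
  have h : ∀ y : ℤ, ind (((k - y : ℤ) : ZMod (md j)) = mk j) =
      ind (mk j = ((k - y : ℤ) : ZMod (md j))) := by
    intro y
    unfold ind
    congr 1
    exact propext eq_comm
  apply Prod.ext
  · funext i
    simp only [stepZ, if_true, act, rowA, Equiv.coe_fn_mk, List.map_cons, List.sum_cons, sub_self,
      Int.cast_zero]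
    ring
  · simp only [stepZ, if_true, act, rowA, Equiv.coe_fn_mk, List.map_cons, List.sum_cons,
      List.map_append, List.sum_append, List.map_map, Function.comp_def, h]
    ring

lemma act_stepT (j : ℕ) (s : ℤ × List ℤ × List ℤ) (p : Row j) :
    act j (stepZ (1, true) s) p = rowT j (act j s p) := by
  obtain ⟨k, L, C⟩ := s
  obtain ⟨x, z⟩ := p
  have h10 : (1 : Fin 2) ≠ 0 := by decide
  simp only [act, stepZ, if_true, if_neg h10, rowT, Equiv.coe_fn_mk]
  ext i
  · have h : ∀ y : ℤ, ind (i = ((k + 1 - y : ℤ) : ZMod (md j))) =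
        ind (i - 1 = ((k - y : ℤ) : ZMod (md j))) := by
      intro y
      unfold ind
      congr 1
      apply propext
      constructor
      · intro h; rw [h]; push_cast; ring
      · intro h; rw [sub_eq_iff_eq_add] at h; rw [h]; push_cast; ring
    simp only [h]
    congr 2
    push_cast
    ring
  · rfl

lemma act_stepT' (j : ℕ) (s : ℤ × List ℤ × List ℤ) (p : Row j) :
    act j (stepZ (1, false) s) p = (rowT j)⁻¹ (act j s p) := by
  rw [Equiv.Perm.eq_inv_iff_eq, ← act_stepT]
  congr 1
  obtain ⟨k, L, C⟩ := s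
  simp only [stepZ, Fin.isValue, one_ne_zero, ↓reduceIte, Bool.false_eq_true, sub_add_cancel]

/-- the generators, on one row -/
def rowGen (j : ℕ) : Fin 2 → Equiv.Perm (Row j) := ![rowA j, rowT j]

lemma act_word (j : ℕ) (w : W2) (p : Row j) :
    act j (stZ w) p = FreeGroup.lift (rowGen j) (FreeGroup.mk w) p := by
  induction w with
  | nil =>
    simp only [stZ, foldr_nil, act_nil, FreeGroup.lift_mk, map_nil, prod_nil, Equiv.Perm.coe_one, id_eq]
  | cons l w ih =>
    rw [FreeGroup.lift_mk] at ih ⊢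
    rw [List.map_cons, List.prod_cons, Equiv.Perm.mul_apply, ← ih]
    have : stZ (l :: w) = stepZ l (stZ w) := rfl
    rw [this]
    obtain ⟨i, b⟩ := l
    fin_cases i
    · cases b
      · simpa only [Fin.zero_eta, Fin.isValue, rowGen, Matrix.cons_val_zero, rowA_inv, Bool.cond_self] using     act_stepA j false (stZ w) p
      · simpa [rowGen] using act_stepA j true (stZ w) p
    · cases b
      · simpa only [Fin.mk_one, Fin.isValue, rowGen, Matrix.cons_val_one, Matrix.cons_val_fin_one, cond_false,     Equiv.Perm.coe_inv] using act_stepT' j (stZ w) p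
      · simpa [rowGen] using act_stepT j (stZ w) p

/-! ### Bounds -/

lemma stZ_bd (w : W2) : |(stZ w).1| ≤ w.length ∧ (∀ y ∈ (stZ w).2.1, |y| ≤ w.length) ∧
    ∀ c ∈ (stZ w).2.2, |c| ≤ 2 * w.length := by
  induction w with
  | nil => simp only [stZ, foldr_nil, abs_zero, length_nil, CharP.cast_eq_zero, Std.le_refl, not_mem_nil, abs_nonpos_iff, IsEmpty.forall_iff, implies_true, mul_zero, and_self]
  | cons l w ih =>
    have h : stZ (l :: w) = stepZ l (stZ w) := rfl
    rw [h]
    generalize stZ w = s at ih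
    obtain ⟨k, L, C⟩ := s
    obtain ⟨h1, h2, h3⟩ := ih
    simp only at h1 h2 h3
    unfold stepZ
    split_ifs with h4 h5
    · refine ⟨?_, ?_, ?_⟩
      · simp only [List.length_cons]; push_cast; omega
      · intro y hy
        simp only [List.mem_cons] at hy
        simp only [List.length_cons]; push_cast
        rcases hy with rfl | hy
        · omega
        · have := h2 y hy; omega
      · intro c hc
        simp only [List.mem_append, List.mem_map] at hc
        simp only [List.length_cons]; push_cast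
        rcases hc with ⟨y, hy, rfl⟩ | hc
        · have := h2 y hy
          rw [abs_le] at *
          omega
        · have := h3 c hc; omega
    · refine ⟨?_, ?_, ?_⟩
      · simp only [List.length_cons]; push_cast
        rw [abs_le] at *
        omega
      · intro y hy
        have := h2 y hy
        simp only [List.length_cons]; push_cast; omega
      · intro c hc
        have := h3 c hc
        simp only [List.length_cons]; push_cast; omega
    · refine ⟨?_, ?_, ?_⟩
      · simp only [List.length_cons]; push_cast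
        rw [abs_le] at *
        omega
      · intro y hy
        have := h2 y hy
        simp only [List.length_cons]; push_cast; omega
      · intro c hc
        have := h3 c hc
        simp only [List.length_cons]; push_cast; omega

/-! ### The group -/

/-- row `2 * c` is dead iff `A c` -/
def dead (A : ℕ → Prop) (j : ℕ) : Prop := ∃ c, j = 2 * c ∧ A c

open Classical in
/-- the two generators -/
noncomputable def gen (A : ℕ → Prop) : Fin 2 → (∀ j : ℕ, Equiv.Perm (Row j)) :=
  ![fun j => if dead A j then 1 else rowA j, fun j => rowT j]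

lemma lift_gen_apply (A : ℕ → Prop) (x : FreeGroup (Fin 2)) (j : ℕ) :
    FreeGroup.lift (gen A) x j = FreeGroup.lift (fun i => gen A i j) x := by
  have : (Pi.evalMonoidHom (fun j : ℕ => Equiv.Perm (Row j)) j).comp (FreeGroup.lift (gen A)) =
      FreeGroup.lift (fun i => gen A i j) := by
    refine FreeGroup.ext_hom _ _ fun i => ?_
    simp only [MonoidHom.coe_comp, Pi.coe_evalMonoidHom, Function.comp_apply, Function.eval, FreeGroup.lift_apply_of]
  exact DFunLike.congr_fun this x

lemma gen_alive {A : ℕ → Prop} {j : ℕ} (h : ¬ dead A j) : (fun i => gen A i j) = rowGen j := by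
  funext i
  fin_cases i
  · simp [gen, rowGen, h]
  · simp [gen, rowGen]

lemma act_dead {A : ℕ → Prop} {j : ℕ} (h : dead A j) (w : W2) (p : Row j) :
    FreeGroup.lift (fun i => gen A i j) (FreeGroup.mk w) p =
      (fun i => p.1 (i - ((stZ w).1 : ZMod (md j))), p.2) := by
  induction w with
  | nil =>
    simp only [FreeGroup.lift_mk, map_nil, prod_nil, Equiv.Perm.coe_one, id_eq, stZ, foldr_nil, Int.cast_zero, sub_zero, Prod.mk.eta]
  | cons l w ih =>
    rw [FreeGroup.lift_mk] at ih ⊢
    rw [List.map_cons, List.prod_cons, Equiv.Perm.mul_apply, ih]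
    have h' : stZ (l :: w) = stepZ l (stZ w) := rfl
    rw [h']
    obtain ⟨i, b⟩ := l
    fin_cases i
    · cases b
      · simp only [gen, Fin.zero_eta, Fin.isValue, Matrix.cons_val_zero, h, ↓reduceIte, inv_one, Bool.cond_self, Equiv.Perm.coe_one, id_eq, stepZ]
      · simp only [gen, Fin.zero_eta, Fin.isValue, Matrix.cons_val_zero, h, ↓reduceIte, inv_one, Bool.cond_self, Equiv.Perm.coe_one, id_eq, stepZ]
    · cases b
      · simp only [gen, stepZ]
        apply Prod.ext
        · funext i
          show p.1 (i + 1 - _) = p.1 (i - _)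
          simp only [Fin.mk_one, Fin.isValue, one_ne_zero, ↓reduceIte, Bool.false_eq_true, Prod.mk.eta, Int.cast_sub, Int.cast_one]
          ring_nf
        · rfl
      · simp only [gen, stepZ]
        apply Prod.ext
        · funext i
          show p.1 (i - 1 - _) = p.1 (i - _)
          simp only [Fin.mk_one, Fin.isValue, one_ne_zero, ↓reduceIte, Prod.mk.eta, Int.cast_add, Int.cast_one]
          ring_nf
        · rfl

lemma sum_ind (L : List ℤ) (P : ℤ → Prop) [DecidablePred P] :
    (L.map fun c => ind (P c)).sum = ((L.countP fun c => decide (P c) : ℕ) : ZMod 2) := by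
  induction L with
  | nil => simp
  | cons a L ih =>
    rw [List.map_cons, List.sum_cons, ih, List.countP_cons]
    by_cases h : P a
    · simp only [ind, h, ↓reduceIte, decide_true, add_comm, Nat.cast_add, Nat.cast_one]
    · simp [h, ind]

lemma sum_even (L : List ℤ) (hL : ∀ s ∈ L, Even (L.count s)) (g : ℤ → ZMod 2) :
    (L.map g).sum = 0 := by
  rw [Finset.sum_list_map_count]
  apply Finset.sum_eq_zero
  intro s hs
  have h := hL s (List.mem_toFinset.1 hs)
  rw [nsmul_eq_mul, (ZMod.natCast_eq_zero_iff_even).2 h, zero_mul]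

/-- the criterion for triviality of a word -/
def Crit (A : ℕ → Prop) (w : W2) : Prop :=
  (stZ w).1 = 0 ∧ (∀ s ∈ (stZ w).2.1, Even ((stZ w).2.1.count s)) ∧
    ∀ j, ¬ dead A j →
      Even ((stZ w).2.2.countP fun c : ℤ => decide ((c : ZMod (md j)) = mk j))

lemma eq_of_cast_eq {j : ℕ} {a b : ℤ} (h : (a : ZMod (md j)) = (b : ZMod (md j)))
    (hab : |a - b| < (md j : ℤ)) : a = b := by
  have h1 : ((a - b : ℤ) : ZMod (md j)) = 0 := by push_cast; rw [h, sub_self]
  rw [ZMod.intCast_zmod_eq_zero_iff_dvd] at h1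
  have := Int.eq_zero_of_abs_lt_dvd h1 hab
  omega

lemma crit_iff (A : ℕ → Prop) (w : W2) :
    FreeGroup.lift (gen A) (FreeGroup.mk w) = 1 ↔ Crit A w := by
  constructor
  · intro h
    have hrow : ∀ j, ¬ dead A j → ∀ p, act j (stZ w) p = p := by
      intro j hj p
      rw [act_word, ← gen_alive hj, ← lift_gen_apply, h]
      rfl
    have hfst : ∀ j, ¬ dead A j → ∀ i : ZMod (md j),
        ((stZ w).2.1.map fun y : ℤ => ind (i = (((stZ w).1 - y : ℤ) : ZMod (md j)))).sum = 0 := by
      intro j hj i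
      have := congrFun (congrArg Prod.fst (hrow j hj (0, 0))) i
      simpa only [Int.cast_sub, act, Pi.zero_apply, zero_add, map_const', sum_replicate, nsmul_zero, add_zero,     Nat.cast_pow, Nat.cast_ofNat] using this
    have hbd := stZ_bd w
    -- a big living row
    set M := 2 * w.length + 1 with hM
    have hodd : ¬ dead A (2 * M + 1) := by
      rintro ⟨c, hc, -⟩
      omega
    have hbig : (2 * w.length + 1 : ℤ) < (md (2 * M + 1) : ℤ) := by
      have h1 : 2 * M + 1 + 1 < 3 ^ (2 * M + 1 + 1) := Nat.lt_pow_self (by norm_num)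
      have h2 : 2 * w.length + 1 < 3 ^ (2 * M + 1 + 1) := by omega
      unfold md
      exact_mod_cast h2
    refine ⟨?_, ?_, ?_⟩
    · have h0 := hrow _ hodd (fun i => ind (i = 0), 0)
      have h1 := congrFun (congrArg Prod.fst h0) 0
      simp only [act] at h1
      rw [hfst _ hodd, add_zero] at h1
      have h2 : ((stZ w).1 : ZMod (md (2 * M + 1))) = ((0 : ℤ) : ZMod (md (2 * M + 1))) := by
        by_contra h3
        have h4 : ¬ ((0 : ZMod (md (2 * M + 1))) - ((stZ w).1 : ZMod (md (2 * M + 1))) = 0) := by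
          intro h5
          apply h3
          rw [sub_eq_zero] at h5
          rw [← h5]; simp
        simp only [ind, zero_sub, neg_eq_zero, ↓reduceIte, ite_eq_left_iff, zero_ne_one, imp_false, Decidable.not_not] at h1
        apply h3
        simpa only [Int.cast_zero] using h1
      apply eq_of_cast_eq h2
      have := hbd.1
      rw [sub_zero]
      omega
    · intro s hs
      have h1 := hfst _ hodd ((((stZ w).1 - s : ℤ) : ZMod (md (2 * M + 1))))
      rw [sum_ind, ZMod.natCast_eq_zero_iff_even] at h1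
      convert h1 using 1
      unfold List.count
      apply List.countP_congr
      intro y hy
      simp only [beq_iff_eq, decide_eq_true_eq]
      constructor
      · rintro rfl; rfl
      · intro h2
        have h3 := eq_of_cast_eq h2 (by
          have h4 := hbd.2.1 y hy
          have h5 := hbd.2.1 s hs
          rw [abs_le] at h4 h5
          rw [abs_lt]
          constructor <;> omega)
        omega
    · intro j hj
      have h0 := congrArg Prod.snd (hrow j hj (0, 0))
      simp only [act] at h0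
      rw [sum_ind] at h0
      rw [← ZMod.natCast_eq_zero_iff_even]
      simpa only [Nat.cast_pow, Nat.cast_ofNat, Pi.zero_apply, map_const', sum_replicate, nsmul_zero, add_zero,     zero_add] using h0
  · rintro ⟨h1, h2, h3⟩
    funext j
    rw [lift_gen_apply]
    by_cases hj : dead A j
    · apply Equiv.ext
      intro p
      rw [act_dead hj, h1]
      simp only [Int.cast_zero, sub_zero, Prod.mk.eta, Pi.one_apply, Equiv.Perm.coe_one, id_eq]
    · rw [gen_alive hj]
      apply Equiv.ext
      intro p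
      rw [← act_word]
      have h3' := h3 j hj
      rw [← ZMod.natCast_eq_zero_iff_even, ← sum_ind] at h3'
      unfold act
      rw [h3']
      rw [sum_even _ h2, add_zero, add_zero]
      apply Prod.ext
      · funext i
        rw [h1]
        simp only [Int.cast_zero, sub_zero]
        rw [sum_even _ h2]
        simp
      · rfl

/-! ### The commutators -/

lemma rowT_pow (j n : ℕ) (p : Row j) :
    ((rowT j) ^ n) p = (fun i => p.1 (i - (n : ZMod (md j))), p.2) := by
  induction n generalizing p with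
  | zero => simp
  | succ n ih =>
    rw [pow_succ, Equiv.Perm.mul_apply, ih]
    apply Prod.ext
    · funext i
      show p.1 (i - _ - 1) = _
      congr 1
      push_cast
      ring
    · rfl

lemma rowT_pow_inv (j n : ℕ) (p : Row j) :
    (((rowT j) ^ n)⁻¹) p = (fun i => p.1 (i + (n : ZMod (md j))), p.2) := by
  rw [Equiv.Perm.inv_eq_iff_eq, rowT_pow]
  apply Prod.ext
  · funext i
    simp
  · rfl

/-- `t ^ n * a * (t ^ n)⁻¹` on a row -/
lemma row_conj (j n : ℕ) (p : Row j) :
    ((rowT j) ^ n * rowA j * ((rowT j) ^ n)⁻¹) p =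
      (fun i => p.1 i + ind (i - (n : ZMod (md j)) = 0), p.2 + p.1 (mk j + n)) := by
  rw [Equiv.Perm.mul_apply, Equiv.Perm.mul_apply, rowT_pow_inv, rowT_pow]
  apply Prod.ext
  · funext i
    simp only [rowA, Nat.cast_pow, Nat.cast_ofNat, Equiv.coe_fn_mk, sub_add_cancel]
  · simp only [rowA, Nat.cast_pow, Nat.cast_ofNat, Equiv.coe_fn_mk]

lemma row_comm_iff (j n : ℕ) :
    rowA j * ((rowT j) ^ n * rowA j * ((rowT j) ^ n)⁻¹) =
      ((rowT j) ^ n * rowA j * ((rowT j) ^ n)⁻¹) * rowA j ↔
      ind (mk j - (n : ZMod (md j)) = 0) = ind (mk j + (n : ZMod (md j)) = 0) := by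
  constructor
  · intro h
    generalize hb : (rowT j) ^ n * rowA j * ((rowT j) ^ n)⁻¹ = b at h
    have h1 := congrArg Prod.snd (DFunLike.congr_fun h ((0, 0) : Row j))
    rw [Equiv.Perm.mul_apply, Equiv.Perm.mul_apply, ← hb, row_conj, row_conj] at h1
    simpa only [Nat.cast_pow, Nat.cast_ofNat, rowA, Pi.zero_apply, zero_add, add_zero, Equiv.coe_fn_mk] using h1
  · intro h
    generalize hb : (rowT j) ^ n * rowA j * ((rowT j) ^ n)⁻¹ = b
    apply Equiv.ext
    intro p
    rw [Equiv.Perm.mul_apply, Equiv.Perm.mul_apply, ← hb, row_conj, row_conj]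
    apply Prod.ext
    · funext i
      simp only [rowA, Equiv.coe_fn_mk]
      ring
    · simp only [rowA, Equiv.coe_fn_mk]
      rw [h]
      ring

lemma pow_facts (j c : ℕ) :
    (ind (mk j - ((3 ^ (2 * c) : ℕ) : ZMod (md j)) = 0) =
      ind (mk j + ((3 ^ (2 * c) : ℕ) : ZMod (md j)) = 0)) ↔ j ≠ 2 * c := by
  have hlt : 3 ^ j < 3 ^ (j + 1) := Nat.pow_lt_pow_right (by norm_num) (Nat.lt_succ_self j)
  rcases lt_trichotomy j (2 * c) with h | h | h
  · -- `3 ^ (2c) = 0` in the row
    have h0 : ((3 ^ (2 * c) : ℕ) : ZMod (md j)) = 0 := by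
      rw [ZMod.natCast_eq_zero_iff]
      exact pow_dvd_pow 3 (by omega)
    rw [h0, sub_zero, add_zero]
    simp only [Nat.cast_pow, Nat.cast_ofNat, ne_eq, true_iff]; omega
  · subst h
    have h1 : mk (2 * c) - ((3 ^ (2 * c) : ℕ) : ZMod (md (2 * c))) = 0 := sub_self _
    have h2 : ¬ (mk (2 * c) + ((3 ^ (2 * c) : ℕ) : ZMod (md (2 * c))) = 0) := by
      intro h3
      have h4 : ((3 ^ (2 * c) + 3 ^ (2 * c) : ℕ) : ZMod (md (2 * c))) = 0 := by
        rw [Nat.cast_add]; exact h3
      rw [ZMod.natCast_eq_zero_iff] at h4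
      have h5 := Nat.le_of_dvd (by positivity) h4
      unfold md at h5
      rw [pow_succ] at h5
      have : 0 < 3 ^ (2 * c) := by positivity
      omega
    have h3 : ind (mk (2 * c) - ((3 ^ (2 * c) : ℕ) : ZMod (md (2 * c))) = 0) = 1 := if_pos h1
    have h4 : ind (mk (2 * c) + ((3 ^ (2 * c) : ℕ) : ZMod (md (2 * c))) = 0) = 0 := if_neg h2
    rw [h3, h4]
    simp only [one_ne_zero, ne_eq, not_true_eq_false]
  · have hlt2 : 3 ^ (2 * c) < 3 ^ j := Nat.pow_lt_pow_right (by norm_num) h
    have hpos : 0 < 3 ^ (2 * c) := by positivity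
    have hm : md j = 3 * 3 ^ j := by unfold md; rw [pow_succ]; ring
    have h1 : ¬ (mk j - ((3 ^ (2 * c) : ℕ) : ZMod (md j)) = 0) := by
      intro h3
      have h4 : ((3 ^ j - 3 ^ (2 * c) : ℕ) : ZMod (md j)) = 0 := by
        rw [Nat.cast_sub hlt2.le]; exact h3
      rw [ZMod.natCast_eq_zero_iff] at h4
      have h5 := Nat.le_of_dvd (by omega) h4
      (clear * - hlt hlt2 hpos hm h5; omega)
    have h2 : ¬ (mk j + ((3 ^ (2 * c) : ℕ) : ZMod (md j)) = 0) := by
      intro h3
      have h4 : ((3 ^ j + 3 ^ (2 * c) : ℕ) : ZMod (md j)) = 0 := by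
        rw [Nat.cast_add]; exact h3
      rw [ZMod.natCast_eq_zero_iff] at h4
      have h5 := Nat.le_of_dvd (by positivity) h4
      (clear * - hlt2 hm h5; omega)
    simp only [ind, h1, h2]
    simp; (clear * - h; omega)

/-- the commutation relation number `c` holds iff `A c` -/
lemma gen_comm_iff (A : ℕ → Prop) (c : ℕ) :
    gen A 0 * ((gen A 1) ^ (3 ^ (2 * c)) * gen A 0 * ((gen A 1) ^ (3 ^ (2 * c)))⁻¹) =
      ((gen A 1) ^ (3 ^ (2 * c)) * gen A 0 * ((gen A 1) ^ (3 ^ (2 * c)))⁻¹) * gen A 0 ↔ A c := by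
  classical
  have key : ∀ j, ¬ dead A j →
      ((gen A 0 * ((gen A 1) ^ (3 ^ (2 * c)) * gen A 0 * ((gen A 1) ^ (3 ^ (2 * c)))⁻¹)) j =
      (((gen A 1) ^ (3 ^ (2 * c)) * gen A 0 * ((gen A 1) ^ (3 ^ (2 * c)))⁻¹) * gen A 0) j ↔
        j ≠ 2 * c) := by
    intro j hj
    rw [← pow_facts, ← row_comm_iff]
    simp only [Pi.mul_apply, Pi.pow_apply, Pi.inv_apply]
    have h0 : gen A 0 j = rowA j := by simp [gen, hj]
    have h1 : gen A 1 j = rowT j := by simp [gen]
    rw [h0, h1]
  constructor
  · intro h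
    by_contra hA
    have hj : ¬ dead A (2 * c) := by
      rintro ⟨d, hd, hd'⟩
      have : c = d := by omega
      exact hA (this ▸ hd')
    exact ((key _ hj).1 (congrFun h _)) rfl
  · intro hA
    funext j
    by_cases hj : dead A j
    · have h0 : gen A 0 j = 1 := by simp [gen, hj]
      simp only [Pi.mul_apply, Pi.pow_apply, Pi.inv_apply]
      rw [h0]; simp
    · apply (key j hj).2
      rintro rfl
      exact hj ⟨c, rfl, hA⟩

end Vale.Agent.P193
end
end

section

section

namespace Vale.Agent.P193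

open List

/-! ### The word problem of the group -/

/-- one step, with offset `N` -/
def stepN (N : ℕ) (l : Fin 2 × Bool) (s : ℕ × List ℕ × List ℕ) : ℕ × List ℕ × List ℕ :=
  if l.1 = 0 then (s.1, s.1 :: s.2.1, s.2.1.map (fun x => s.1 + 2 * N - x) ++ s.2.2)
  else if l.2 = true then (s.1 + 1, s.2.1, s.2.2) else (s.1 - 1, s.2.1, s.2.2)

/-- the state with offset `N` -/
def stN (N : ℕ) (w : W2) : ℕ × List ℕ × List ℕ := w.foldr (stepN N) (N, [], [])

lemma stN_eq (N : ℕ) (w : W2) (hw : w.length ≤ N) :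
    stN N w = (((stZ w).1 + N).toNat, (stZ w).2.1.map (fun y : ℤ => (y + N).toNat),
      (stZ w).2.2.map (fun c : ℤ => (c + 2 * N).toNat)) := by
  induction w with
  | nil => simp [stN, stZ]
  | cons l w ih =>
    have hw' : w.length ≤ N := by simp only [List.length_cons] at hw; omega
    have hw2 : w.length + 1 ≤ N := by simpa only [Order.add_one_le_iff, length_cons] using hw
    have h1 : stN N (l :: w) = stepN N l (stN N w) := rfl
    have h2 : stZ (l :: w) = stepZ l (stZ w) := rfl
    rw [h1, h2, ih hw']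
    have hbd := stZ_bd w
    generalize stZ w = s at hbd
    obtain ⟨k, L, C⟩ := s
    obtain ⟨b1, b2, b3⟩ := hbd
    simp only at b1 b2 b3
    rw [abs_le] at b1
    unfold stepN stepZ
    by_cases h4 : l.1 = 0
    · simp only [h4, if_true, List.map_cons, List.map_append, List.map_map]
      refine Prod.ext rfl (Prod.ext rfl ?_)
      simp only
      congr 1
      apply List.map_congr_left
      intro y hy
      have := b2 y hy
      rw [abs_le] at this
      simp only [Function.comp_apply]
      omega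
    · by_cases h5 : l.2 = true
      · simp only [h4, h5, if_false, if_true]
        refine Prod.ext ?_ rfl
        simp only
        omega
      · simp only [h4, h5, if_false]
        refine Prod.ext ?_ rfl
        simp only [Bool.false_eq_true, if_false]
        omega

lemma primrec_pow : Primrec₂ (fun a b : ℕ => a ^ b) :=
  Primrec₂.unpaired'.1 Nat.Primrec.pow

lemma primrec_stepN : Primrec fun p : ℕ × (Fin 2 × Bool) × (ℕ × List ℕ × List ℕ) =>
    stepN p.1 p.2.1 p.2.2 := by
  unfold stepN
  have hk : Primrec fun p : ℕ × (Fin 2 × Bool) × (ℕ × List ℕ × List ℕ) => p.2.2.1 :=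
    Primrec.fst.comp (Primrec.snd.comp Primrec.snd)
  have hL : Primrec fun p : ℕ × (Fin 2 × Bool) × (ℕ × List ℕ × List ℕ) => p.2.2.2.1 :=
    Primrec.fst.comp (Primrec.snd.comp (Primrec.snd.comp Primrec.snd))
  have hC : Primrec fun p : ℕ × (Fin 2 × Bool) × (ℕ × List ℕ × List ℕ) => p.2.2.2.2 :=
    Primrec.snd.comp (Primrec.snd.comp (Primrec.snd.comp Primrec.snd))
  have hl1 : Primrec fun p : ℕ × (Fin 2 × Bool) × (ℕ × List ℕ × List ℕ) => p.2.1.1 :=
    Primrec.fst.comp (Primrec.fst.comp Primrec.snd)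
  have hl2 : Primrec fun p : ℕ × (Fin 2 × Bool) × (ℕ × List ℕ × List ℕ) => p.2.1.2 :=
    Primrec.snd.comp (Primrec.fst.comp Primrec.snd)
  refine Primrec.ite (Primrec.eq.comp hl1 (Primrec.const 0)) ?_ ?_
  · refine Primrec.pair hk (Primrec.pair (Primrec.list_cons.comp hk hL) ?_)
    refine Primrec.list_append.comp (Primrec.list_map hL ?_) hC
    apply Primrec₂.mk
    refine Primrec.nat_sub.comp (Primrec.nat_add.comp (hk.comp Primrec.fst)
      (Primrec.nat_mul.comp (Primrec.const 2) (Primrec.fst.comp Primrec.fst))) Primrec.snd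
  · refine Primrec.ite (Primrec.eq.comp hl2 (Primrec.const true)) ?_ ?_
    · exact Primrec.pair (Primrec.succ.comp hk) (Primrec.pair hL hC)
    · exact Primrec.pair (Primrec.nat_sub.comp hk (Primrec.const 1)) (Primrec.pair hL hC)

lemma primrec_stN : Primrec fun w : W2 => stN w.length w := by
  unfold stN
  refine Primrec.list_foldr (f := fun w : W2 => w)
    (g := fun w : W2 => ((w.length, [], []) : ℕ × List ℕ × List ℕ))
    (h := fun (w : W2) (q : (Fin 2 × Bool) × (ℕ × List ℕ × List ℕ)) =>
      stepN w.length q.1 q.2) Primrec.id ?_ ?_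
  · exact Primrec.pair Primrec.list_length (Primrec.pair (Primrec.const []) (Primrec.const []))
  · apply Primrec₂.mk
    exact primrec_stepN.comp (Primrec.pair (Primrec.list_length.comp Primrec.fst) Primrec.snd)

/-- the parity conditions, one list -/
def PL (L : List ℕ) : Prop := ∀ s ∈ L, (L.filter (fun y => y = s)).length % 2 = 0

/-- the parity conditions, other list -/
def PC (C : List ℕ) (q : ℕ × ℕ) : Prop :=
  (C.filter (fun y => y % 3 ^ (q.1 + 1) = (3 ^ q.1 + 2 * q.2) % 3 ^ (q.1 + 1))).length % 2 = 0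

instance (L : List ℕ) : Decidable (PL L) := by unfold PL; infer_instance

instance (C : List ℕ) (q : ℕ × ℕ) : Decidable (PC C q) := by unfold PC; infer_instance

lemma primrec_PL : PrimrecPred PL := by
  have h1 : Primrec₂ fun (L : List ℕ) (s : ℕ) => L.filter (fun y => decide (y = s)) :=
    PrimrecRel.listFilter (R := fun a b : ℕ => a = b) Primrec.eq
  have h2 : PrimrecRel fun (s : ℕ) (L : List ℕ) => (L.filter (fun y => y = s)).length % 2 = 0 := by
    refine PrimrecRel.comp Primrec.eq (Primrec.nat_mod.comp (Primrec.list_length.comp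
      (h1.comp Primrec.snd Primrec.fst)) (Primrec.const 2)) (Primrec.const 0)
  have h3 := PrimrecRel.forall_mem_list h2
  exact h3.comp Primrec.id Primrec.id

lemma primrec_PC : PrimrecRel PC := by
  have h1 : Primrec₂ fun (L : List ℕ) (q : ℕ × ℕ) => L.filter
      (fun y => decide (y % 3 ^ (q.1 + 1) = (3 ^ q.1 + 2 * q.2) % 3 ^ (q.1 + 1))) := by
    refine PrimrecRel.listFilter (R := fun (y : ℕ) (q : ℕ × ℕ) =>
      y % 3 ^ (q.1 + 1) = (3 ^ q.1 + 2 * q.2) % 3 ^ (q.1 + 1)) ?_
    have hp : Primrec fun p : ℕ × (ℕ × ℕ) => 3 ^ (p.2.1 + 1) :=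
      primrec_pow.comp (Primrec.const 3) (Primrec.succ.comp (Primrec.fst.comp Primrec.snd))
    refine PrimrecRel.comp Primrec.eq (Primrec.nat_mod.comp Primrec.fst hp)
      (Primrec.nat_mod.comp (Primrec.nat_add.comp (primrec_pow.comp (Primrec.const 3)
        (Primrec.fst.comp Primrec.snd)) (Primrec.nat_mul.comp (Primrec.const 2)
          (Primrec.snd.comp Primrec.snd))) hp)
  show PrimrecPred fun p : List ℕ × (ℕ × ℕ) => (p.1.filter (fun y =>
    y % 3 ^ (p.2.1 + 1) = (3 ^ p.2.1 + 2 * p.2.2) % 3 ^ (p.2.1 + 1))).length % 2 = 0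
  exact PrimrecRel.comp Primrec.eq (Primrec.nat_mod.comp (Primrec.list_length.comp
      h1) (Primrec.const 2)) (Primrec.const 0)

/-- bounded conjunction -/
def allB (g : ℕ → Bool) (n : ℕ) : Bool :=
  Nat.rec (motive := fun _ => Bool) true (fun j b => b && g j) n

/-- decision procedure for the criterion -/
def critB (d : ℕ → Bool) (w : W2) : Bool :=
  (decide ((stN w.length w).1 = w.length) && decide (PL (stN w.length w).2.1)) &&
    allB (fun j => d j || decide (PC (stN w.length w).2.2 (j, w.length))) (2 * w.length + 1)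

lemma computable_critB {d : ℕ → Bool} (hd : Computable d) : Computable (critB d) := by
  unfold critB allB
  have hst : Computable fun w : W2 => stN w.length w := primrec_stN.to_comp
  have h1 : Computable fun w : W2 => decide ((stN w.length w).1 = w.length) :=
    (PrimrecPred.decide (PrimrecRel.comp Primrec.eq
      (Primrec.fst.comp primrec_stN) Primrec.list_length)).to_comp
  have h2 : Computable fun w : W2 => decide (PL (stN w.length w).2.1) :=
    (PrimrecPred.decide primrec_PL).to_comp.comp
      (Computable.fst.comp (Computable.snd.comp hst))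
  refine Primrec.and.to_comp.comp (Primrec.and.to_comp.comp h1 h2) ?_
  refine Computable.nat_rec (f := fun w : W2 => 2 * w.length + 1) (g := fun _ => true)
    (h := fun w q => q.2 && (d q.1 || decide (PC (stN w.length w).2.2 (q.1, w.length)))) ?_
    (Computable.const true) ?_
  · exact (Primrec.succ.comp (Primrec.nat_mul.comp (Primrec.const 2)
      Primrec.list_length)).to_comp
  · apply Computable₂.mk
    refine Primrec.and.to_comp.comp (Computable.snd.comp Computable.snd)
      (Primrec.or.to_comp.comp (hd.comp (Computable.fst.comp Computable.snd)) ?_)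
    refine (PrimrecRel.decide primrec_PC).to_comp.comp (Computable.snd.comp
      (Computable.snd.comp (hst.comp Computable.fst)))
      (Computable.pair (Computable.fst.comp Computable.snd)
        (Computable.list_length.comp Computable.fst))

lemma cast_iff (j N : ℕ) (c : ℤ) (hc : |c| ≤ 2 * N) :
    ((c : ZMod (md j)) = mk j) ↔
      (c + 2 * N).toNat % 3 ^ (j + 1) = (3 ^ j + 2 * N) % 3 ^ (j + 1) := by
  have h0 : 0 ≤ c + 2 * N := by rw [abs_le] at hc; omega
  have h1 : (((c + 2 * N).toNat : ℕ) : ZMod (md j)) = (c : ZMod (md j)) + 2 * (N : ZMod (md j)) := by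
    have h2 : ((((c + 2 * N).toNat : ℕ) : ℤ) : ZMod (md j)) = ((c + 2 * N : ℤ) : ZMod (md j)) := by
      rw [Int.toNat_of_nonneg h0]
    rw [Int.cast_natCast] at h2
    rw [h2]
    push_cast
    rfl
  have h3 : ((3 ^ j + 2 * N : ℕ) : ZMod (md j)) = mk j + 2 * (N : ZMod (md j)) := by
    unfold mk
    push_cast
    rfl
  rw [← ZMod.natCast_eq_natCast_iff', h1, h3, add_left_inj]

lemma countP_filter (L : List ℕ) (p : ℕ → Prop) [DecidablePred p] :
    (L.filter (fun y => decide (p y))).length % 2 = 0 ↔ Even (L.countP (fun y => decide (p y))) := by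
  rw [List.countP_eq_length_filter, Nat.even_iff]

lemma PL_iff (N : ℕ) (L : List ℤ) (hL : ∀ y ∈ L, |y| ≤ N) :
    PL (L.map fun y : ℤ => (y + N).toNat) ↔ ∀ s ∈ L, Even (L.count s) := by
  unfold PL
  rw [List.forall_mem_map]
  apply forall₂_congr
  intro s hs
  rw [countP_filter, List.countP_map]
  unfold List.count
  have : List.countP ((fun y => decide (y = (s + N).toNat)) ∘ fun y : ℤ => (y + N).toNat) L =
      List.countP (fun x => x == s) L := by
    apply List.countP_congr
    intro y hy
    have h1 := hL y hy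
    have h2 := hL s hs
    rw [abs_le] at h1 h2
    simp only [Function.comp_apply, decide_eq_true_eq, beq_iff_eq]
    omega
  rw [this]

lemma PC_iff (N j : ℕ) (C : List ℤ) (hC : ∀ y ∈ C, |y| ≤ 2 * N) :
    PC (C.map fun c : ℤ => (c + 2 * N).toNat) (j, N) ↔
      Even (C.countP fun c : ℤ => decide ((c : ZMod (md j)) = mk j)) := by
  unfold PC
  rw [countP_filter, List.countP_map]
  have : List.countP ((fun y => decide (y % 3 ^ (j + 1) = (3 ^ j + 2 * N) % 3 ^ (j + 1))) ∘
      fun c : ℤ => (c + 2 * N).toNat) C =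
      List.countP (fun c : ℤ => decide ((c : ZMod (md j)) = mk j)) C := by
    apply List.countP_congr
    intro c hc
    simp only [Function.comp_apply, decide_eq_true_eq]
    rw [cast_iff j N c (hC c hc)]
  rw [this]

lemma countP_big (N j : ℕ) (C : List ℤ) (hC : ∀ y ∈ C, |y| ≤ 2 * N) (hj : 2 * N < j) :
    C.countP (fun c : ℤ => decide ((c : ZMod (md j)) = mk j)) = 0 := by
  rw [List.countP_eq_zero]
  intro c hc
  rw [decide_eq_true_eq]
  intro h
  have h1 : j < 3 ^ j := Nat.lt_pow_self (by norm_num)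
  have h2 := hC c hc
  have h3 : md j = 3 * 3 ^ j := by unfold md; rw [pow_succ]; ring
  have h4 : (c : ZMod (md j)) = (((3 ^ j : ℕ) : ℤ) : ZMod (md j)) := by
    rw [h]; unfold mk; push_cast; rfl
  have h5 := eq_of_cast_eq h4 (by
    rw [h3]
    rw [abs_le] at h2
    rw [abs_lt]
    generalize 3 ^ j = M at *
    push_cast
    constructor <;> omega)
  rw [h5] at h2
  generalize 3 ^ j = M at *
  rw [abs_le] at h2
  omega

lemma nat_rec_and (g : ℕ → Bool) (n : ℕ) :
    allB g n = true ↔ ∀ j < n, g j = true := by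
  induction n with
  | zero => simp [allB]
  | succ n ih =>
    have : allB g (n + 1) = (allB g n && g n) := rfl
    rw [this, Bool.and_eq_true, ih]
    constructor
    · rintro ⟨h1, h2⟩ j hj
      rcases Nat.lt_succ_iff_lt_or_eq.1 hj with h | h
      · exact h1 j h
      · rw [h]; exact h2
    · intro h
      exact ⟨fun j hj => h j (by omega), h n (by omega)⟩

lemma critB_iff {A : ℕ → Prop} {d : ℕ → Bool} (hd : ∀ j, d j = true ↔ dead A j) (w : W2) :
    critB d w = true ↔ Crit A w := by
  unfold critB Crit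
  rw [stN_eq _ _ le_rfl]
  obtain ⟨b1, b2, b3⟩ := stZ_bd w
  simp only [Bool.and_eq_true, decide_eq_true_eq]
  rw [PL_iff _ _ b2, nat_rec_and, and_assoc]
  have e1 : ((stZ w).1 + (w.length : ℤ)).toNat = w.length ↔ (stZ w).1 = 0 := by
    rw [abs_le] at b1
    omega
  rw [e1]
  refine and_congr_right fun _ => and_congr_right fun _ => ?_
  constructor
  · intro h j hj
    by_cases hj2 : 2 * w.length < j
    · rw [countP_big w.length j _ b3 hj2]
      exact Even.zero
    · have h2 := h j (by (clear * - hj2; omega))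
      rw [Bool.or_eq_true, decide_eq_true_eq, PC_iff _ _ _ b3, hd] at h2
      exact h2.resolve_left hj
  · intro h j _
    rw [Bool.or_eq_true, decide_eq_true_eq, PC_iff _ _ _ b3, hd]
    by_cases hj : dead A j
    · exact Or.inl hj
    · exact Or.inr (h j hj)

lemma dead_iff (A : ℕ → Prop) (j : ℕ) : dead A j ↔ j % 2 = 0 ∧ A (j / 2) := by
  constructor
  · rintro ⟨c, rfl, h⟩
    refine ⟨by omega, ?_⟩
    rw [Nat.mul_div_cancel_left c (by norm_num)]
    exact h
  · rintro ⟨h1, h2⟩
    exact ⟨j / 2, by omega, h2⟩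

lemma computablePred_crit {A : ℕ → Prop} (hA : ComputablePred A) :
    ComputablePred fun w : W2 => FreeGroup.lift (gen A) (FreeGroup.mk w) = 1 := by
  obtain ⟨a, ha, rfl⟩ := ComputablePred.computable_iff.1 hA
  have hd : Computable fun j : ℕ => (decide (j % 2 = 0) && a (j / 2)) :=
    Primrec.and.to_comp.comp
      (PrimrecPred.decide (PrimrecRel.comp Primrec.eq (Primrec.nat_mod.comp Primrec.id
        (Primrec.const 2)) (Primrec.const 0))).to_comp
      (ha.comp (Primrec.nat_div.comp Primrec.id (Primrec.const 2)).to_comp)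
  rw [ComputablePred.computable_iff]
  refine ⟨_, computable_critB hd, ?_⟩
  funext w
  rw [crit_iff, eq_iff_iff, critB_iff]
  intro j
  rw [dead_iff, Bool.and_eq_true, decide_eq_true_eq]

/-! ### The group -/

/-- the group -/
abbrev GG (A : ℕ → Prop) : Type := ↥(Subgroup.closure (Set.range (gen A)))

/-- its two generators -/
noncomputable def gg (A : ℕ → Prop) (i : Fin 2) : GG A :=
  ⟨gen A i, Subgroup.subset_closure ⟨i, rfl⟩⟩

lemma closure_gg (A : ℕ → Prop) : Subgroup.closure (Set.range (gg A)) = ⊤ := by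
  have h := Subgroup.closure_closure_coe_preimage (k := Set.range (gen A))
  convert h using 2
  ext x
  constructor
  · rintro ⟨i, rfl⟩
    exact ⟨i, rfl⟩
  · rintro ⟨i, hi⟩
    exact ⟨i, Subtype.ext hi⟩

lemma lift_gg (A : ℕ → Prop) (x : FreeGroup (Fin 2)) :
    ((FreeGroup.lift (gg A) x : GG A) : ∀ j : ℕ, Equiv.Perm (Row j)) =
      FreeGroup.lift (gen A) x := by
  have : (Subgroup.subtype _).comp (FreeGroup.lift (gg A)) = FreeGroup.lift (gen A) := by
    refine FreeGroup.ext_hom _ _ fun i => ?_
    simp only [MonoidHom.coe_comp, Subgroup.coe_subtype, Function.comp_apply, FreeGroup.lift_apply_of, gg]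
  exact DFunLike.congr_fun this x

lemma lift_gg_eq_one (A : ℕ → Prop) (x : FreeGroup (Fin 2)) :
    FreeGroup.lift (gg A) x = 1 ↔ FreeGroup.lift (gen A) x = 1 := by
  rw [← lift_gg, OneMemClass.coe_eq_one]

lemma decidable_GG {A : ℕ → Prop} (hA : ComputablePred A) : DecidableWordProblem (GG A) := by
  refine ⟨2, gg A, closure_gg A, ?_⟩
  exact (computablePred_crit hA).of_eq fun w => (lift_gg_eq_one A _).symm

lemma gg_comm_iff (A : ℕ → Prop) (c : ℕ) :
    gg A 0 * ((gg A 1) ^ (3 ^ (2 * c)) * gg A 0 * ((gg A 1) ^ (3 ^ (2 * c)))⁻¹) =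
      ((gg A 1) ^ (3 ^ (2 * c)) * gg A 0 * ((gg A 1) ^ (3 ^ (2 * c)))⁻¹) * gg A 0 ↔ A c := by
  rw [← gen_comm_iff A c, Subtype.ext_iff]
  rfl

instance (j : ℕ) : Finite (Row j) := by
  unfold Row
  infer_instance

lemma residuallyFinite_GG (A : ℕ → Prop) : Group.ResiduallyFinite (GG A) := by
  rw [Group.residuallyFinite_iff_exists_finiteIndex]
  intro g hg
  have h1 : ∃ j, (g : ∀ j : ℕ, Equiv.Perm (Row j)) j ≠ 1 := by
    by_contra h2
    simp only [not_exists, not_not] at h2
    exact hg (Subtype.ext (funext h2))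
  obtain ⟨j, hj⟩ := h1
  refine ⟨((Pi.evalMonoidHom (fun j : ℕ => Equiv.Perm (Row j)) j).comp (Subgroup.subtype _)).ker,
    ?_, ?_⟩
  · infer_instance
  · simpa only [MonoidHom.mem_ker, MonoidHom.coe_comp, Pi.coe_evalMonoidHom, Subgroup.coe_subtype,     Function.comp_apply, Function.eval, ne_eq] using hj

end Vale.Agent.P193
end
end

section

section

namespace Vale.Agent.P193

open List

/-! ### Words in presentations -/

abbrev Wd : Type := List (ℕ × Bool)

/-- evaluation of a word -/
def ev (P : Presentation) (w : Wd) : PGroup P :=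
  PresentedGroup.mk (relators P) (restrict P.1 (FreeGroup.mk w))

lemma ev_append (P : Presentation) (u v : Wd) : ev P (u ++ v) = ev P u * ev P v := by
  unfold ev
  rw [← FreeGroup.mul_mk, map_mul, map_mul]

lemma ev_invRev (P : Presentation) (u : Wd) : ev P (FreeGroup.invRev u) = (ev P u)⁻¹ := by
  unfold ev
  rw [← FreeGroup.inv_mk, map_inv, map_inv]

lemma ev_nil (P : Presentation) : ev P [] = 1 := by
  unfold ev
  rw [← FreeGroup.one_eq_mk, map_one, map_one]

/-- inclusion of free groups -/
def incl (n : ℕ) : FreeGroup (Fin n) →* FreeGroup ℕ := FreeGroup.map fun i => i.1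

lemma restrict_incl (n : ℕ) (x : FreeGroup (Fin n)) : restrict n (incl n x) = x := by
  have : (restrict n).comp (incl n) = MonoidHom.id _ := by
    refine FreeGroup.ext_hom _ _ fun i => ?_
    simp [restrict, incl]
  exact DFunLike.congr_fun this x

lemma restrict_surj (n : ℕ) (x : FreeGroup (Fin n)) : ∃ w : Wd, restrict n (FreeGroup.mk w) = x := by
  refine ⟨(incl n x).toWord, ?_⟩
  rw [FreeGroup.mk_toWord, restrict_incl]

lemma ev_surj (P : Presentation) (g : PGroup P) : ∃ w : Wd, ev P w = g := by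
  obtain ⟨x, rfl⟩ := PresentedGroup.mk_surjective (relators P) g
  obtain ⟨w, rfl⟩ := restrict_surj P.1 x
  exact ⟨w, rfl⟩

lemma incl_restrict (n : ℕ) (w : Wd) :
    incl n (restrict n (FreeGroup.mk w)) = FreeGroup.mk (w.filter fun a => decide (a.1 < n)) := by
  induction w with
  | nil =>
    rw [← FreeGroup.one_eq_mk, map_one, map_one]
    simp [FreeGroup.one_eq_mk]
  | cons a w ih =>
    have h1 : (FreeGroup.mk (a :: w) : FreeGroup ℕ) = FreeGroup.mk [a] * FreeGroup.mk w := by
      rw [FreeGroup.mul_mk]; rfl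
    rw [h1, map_mul, map_mul, ih]
    obtain ⟨i, b⟩ := a
    by_cases h : i < n
    · have h2 : (((i, b) :: w).filter fun a => decide (a.1 < n)) =
          [(i, b)] ++ (w.filter fun a => decide (a.1 < n)) := by simp [h]
      rw [h2, ← FreeGroup.mul_mk]
      congr 1
      cases b
      · have h3 : (FreeGroup.mk [(i, false)] : FreeGroup ℕ) = (FreeGroup.of i)⁻¹ := rfl
        rw [h3, map_inv, map_inv]
        simp [restrict, incl, h]
      · have h3 : (FreeGroup.mk [(i, true)] : FreeGroup ℕ) = (FreeGroup.of i) := rfl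
        rw [h3]
        simp [restrict, incl, h]
    · have h2 : (((i, b) :: w).filter fun a => decide (a.1 < n)) =
          (w.filter fun a => decide (a.1 < n)) := by simp [h]
      rw [h2]
      have h4 : incl n (restrict n (FreeGroup.mk [(i, b)])) = 1 := by
        cases b
        · have h3 : (FreeGroup.mk [(i, false)] : FreeGroup ℕ) = (FreeGroup.of i)⁻¹ := rfl
          rw [h3, map_inv, map_inv]
          simp only [incl, restrict, FreeGroup.lift_apply_of, h, ↓reduceDIte, map_one, inv_one]
        · have h3 : (FreeGroup.mk [(i, true)] : FreeGroup ℕ) = (FreeGroup.of i) := rfl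
          rw [h3]
          simp [restrict, incl, h]
      rw [h4, one_mul]

/-- normal form of a word in the free group on `n` letters -/
def norml (n : ℕ) (w : Wd) : Wd := FreeGroup.reduce (w.filter fun a => decide (a.1 < n))

lemma norml_eq_iff (n : ℕ) (w v : Wd) :
    norml n w = norml n v ↔ restrict n (FreeGroup.mk w) = restrict n (FreeGroup.mk v) := by
  unfold norml
  constructor
  · intro h
    have h1 := FreeGroup.reduce.exact h
    rw [← incl_restrict, ← incl_restrict] at h1
    have h2 := congrArg (restrict n) h1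
    rwa [restrict_incl, restrict_incl] at h2
  · intro h
    apply FreeGroup.reduce.sound
    rw [← incl_restrict, ← incl_restrict, h]

/-! ### Certificates -/

abbrev Cert : Type := List (Wd × Wd × Bool)

/-- one conjugate of a relator -/
def piece (e : Wd × Wd × Bool) : Wd :=
  e.1 ++ (cond e.2.2 e.2.1 (FreeGroup.invRev e.2.1) ++ FreeGroup.invRev e.1)

/-- product of conjugates of relators -/
def cword (d : Cert) : Wd := d.flatMap piece

/-- `d` certifies that `w` is trivial -/
def Chk (P : Presentation) (w : Wd) (d : Cert) : Prop :=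
  (∀ e ∈ d, e.2.1 ∈ P.2) ∧ norml P.1 w = norml P.1 (cword d)

/-- free group element of a certificate -/
def cv (n : ℕ) (d : Cert) : FreeGroup (Fin n) := restrict n (FreeGroup.mk (cword d))

lemma cv_nil (n : ℕ) : cv n [] = 1 := by
  unfold cv cword
  rw [List.flatMap_nil, ← FreeGroup.one_eq_mk, map_one]

lemma cv_append (n : ℕ) (d d' : Cert) : cv n (d ++ d') = cv n d * cv n d' := by
  unfold cv cword
  rw [List.flatMap_append, ← FreeGroup.mul_mk, map_mul]

lemma cv_single (n : ℕ) (c r : Wd) (b : Bool) : cv n [(c, r, b)] =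
    restrict n (FreeGroup.mk c) * (cond b (restrict n (FreeGroup.mk r))
      (restrict n (FreeGroup.mk r))⁻¹ * (restrict n (FreeGroup.mk c))⁻¹) := by
  unfold cv cword piece
  rw [List.flatMap_singleton]
  cases b
  · simp only [cond_false]
    rw [← FreeGroup.mul_mk, ← FreeGroup.mul_mk, ← FreeGroup.inv_mk, ← FreeGroup.inv_mk, map_mul,
      map_mul, map_inv, map_inv]
  · simp only [cond_true]
    rw [← FreeGroup.mul_mk, ← FreeGroup.mul_mk, ← FreeGroup.inv_mk, map_mul,
      map_mul, map_inv]

lemma cv_mem (P : Presentation) (d : Cert) (hd : ∀ e ∈ d, e.2.1 ∈ P.2) :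
    cv P.1 d ∈ Subgroup.normalClosure (relators P) := by
  induction d with
  | nil => rw [cv_nil]; exact one_mem _
  | cons e d ih =>
    have h1 : cv P.1 (e :: d) = cv P.1 [e] * cv P.1 d := by rw [← cv_append]; rfl
    rw [h1]
    refine mul_mem ?_ (ih fun e' he' => hd e' (List.mem_cons_of_mem _ he'))
    obtain ⟨c, r, b⟩ := e
    have h2 : r ∈ P.2 := hd _ List.mem_cons_self
    have h3 : restrict P.1 (FreeGroup.mk r) ∈ Subgroup.normalClosure (relators P) :=
      Subgroup.subset_normalClosure ⟨r, h2, rfl⟩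
    rw [cv_single, ← mul_assoc]
    refine Subgroup.Normal.conj_mem inferInstance _ ?_ _
    cases b
    · exact inv_mem h3
    · exact h3

/-- the certified elements form a normal subgroup -/
def certSub (P : Presentation) : Subgroup (FreeGroup (Fin P.1)) where
  carrier := {x | ∃ d : Cert, (∀ e ∈ d, e.2.1 ∈ P.2) ∧ cv P.1 d = x}
  mul_mem' := by
    rintro x y ⟨d, hd, rfl⟩ ⟨d', hd', rfl⟩
    refine ⟨d ++ d', ?_, cv_append _ _ _⟩
    intro e he
    rcases List.mem_append.1 he with h | h
    · exact hd e h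
    · exact hd' e h
  one_mem' := ⟨[], by simp, cv_nil _⟩
  inv_mem' := by
    rintro x ⟨d, hd, rfl⟩
    induction d with
    | nil => exact ⟨[], by simp, by rw [cv_nil, inv_one]⟩
    | cons e d ih =>
      obtain ⟨d', hd', h'⟩ := ih fun e' he' => hd e' (List.mem_cons_of_mem _ he')
      obtain ⟨c, r, b⟩ := e
      refine ⟨d' ++ [(c, r, !b)], ?_, ?_⟩
      · intro e he
        rcases List.mem_append.1 he with h | h
        · exact hd' e h
        · rw [List.mem_singleton] at h
          rw [h]
          exact hd (c, r, b) List.mem_cons_self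
      · have h1 : cv P.1 ((c, r, b) :: d) = cv P.1 [(c, r, b)] * cv P.1 d := by
          rw [← cv_append]; rfl
        rw [cv_append, h', h1, mul_inv_rev, cv_single, cv_single]
        congr 1
        cases b
        · simp [mul_assoc]
        · simp [mul_assoc]

lemma certSub_normal (P : Presentation) : (certSub P).Normal := by
  constructor
  rintro x ⟨d, hd, rfl⟩ g
  obtain ⟨c, rfl⟩ := restrict_surj P.1 g
  refine ⟨d.map fun e => (c ++ e.1, e.2), ?_, ?_⟩
  · intro e he
    obtain ⟨e', he', rfl⟩ := List.mem_map.1 he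
    exact hd e' he'
  · clear hd
    induction d with
    | nil => rw [List.map_nil, cv_nil, mul_one, mul_inv_cancel]
    | cons e d ih =>
      obtain ⟨a, r, b⟩ := e
      have h1 : cv P.1 ((a, r, b) :: d) = cv P.1 [(a, r, b)] * cv P.1 d := by
        rw [← cv_append]; rfl
      have h2 : cv P.1 (((a, r, b) :: d).map fun e => (c ++ e.1, e.2)) =
          cv P.1 [(c ++ a, r, b)] * cv P.1 (d.map fun e => (c ++ e.1, e.2)) := by
        rw [← cv_append]; rfl
      rw [h2, ih, h1, cv_single, cv_single, ← FreeGroup.mul_mk, map_mul]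
      group

lemma ev_eq_one_iff (P : Presentation) (w : Wd) : ev P w = 1 ↔ ∃ d : Cert, Chk P w d := by
  have h0 : ev P w = 1 ↔ restrict P.1 (FreeGroup.mk w) ∈ Subgroup.normalClosure (relators P) :=
    QuotientGroup.eq_one_iff _
  rw [h0]
  constructor
  · intro h
    have hle : Subgroup.normalClosure (relators P) ≤ certSub P := by
      have := certSub_normal P
      apply Subgroup.normalClosure_le_normal
      rintro x ⟨r, hr, rfl⟩
      refine ⟨[([], r, true)], ?_, ?_⟩
      · intro e he
        rw [List.mem_singleton] at he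
        rw [he]; exact hr
      · rw [cv_single, ← FreeGroup.one_eq_mk, map_one]
        simp
    obtain ⟨d, hd, h'⟩ := hle h
    refine ⟨d, hd, ?_⟩
    rw [norml_eq_iff]
    exact h'.symm
  · rintro ⟨d, hd, h⟩
    rw [norml_eq_iff] at h
    rw [h]
    exact cv_mem P d hd

/-! ### Computability of the certificate check -/

/-- one step of the free reduction -/
def rstep (a : ℕ × Bool) (ih : Wd) : Wd :=
  List.casesOn ih [a] fun hd tl => if a.1 = hd.1 ∧ a.2 = not hd.2 then tl else a :: hd :: tl

lemma reduce_eq_foldr (w : Wd) : FreeGroup.reduce w = w.foldr rstep [] := by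
  induction w with
  | nil => rfl
  | cons a w ih =>
    rw [FreeGroup.reduce.cons, List.foldr_cons, ih]
    rfl

lemma primrec_reduce : Primrec (FreeGroup.reduce : Wd → Wd) := by
  refine Primrec.of_eq (f := fun w : Wd => w.foldr rstep []) ?_ fun w => (reduce_eq_foldr w).symm
  refine Primrec.list_foldr (f := fun w : Wd => w) (g := fun _ : Wd => ([] : Wd))
    (h := fun (_ : Wd) (q : (ℕ × Bool) × Wd) => rstep q.1 q.2) Primrec.id (Primrec.const []) ?_
  apply Primrec₂.mk
  unfold rstep
  refine Primrec.list_casesOn (f := fun p : Wd × ((ℕ × Bool) × Wd) => p.2.2)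
    (g := fun p => [p.2.1]) (h := fun p q => if p.2.1.1 = q.1.1 ∧ p.2.1.2 = not q.1.2 then q.2
      else p.2.1 :: q.1 :: q.2) (Primrec.snd.comp Primrec.snd) ?_ ?_
  · exact Primrec.list_cons.comp (Primrec.fst.comp Primrec.snd) (Primrec.const [])
  · apply Primrec₂.mk
    have ha : Primrec fun p : (Wd × ((ℕ × Bool) × Wd)) × ((ℕ × Bool) × Wd) => p.1.2.1 :=
      Primrec.fst.comp (Primrec.snd.comp Primrec.fst)
    have hh : Primrec fun p : (Wd × ((ℕ × Bool) × Wd)) × ((ℕ × Bool) × Wd) => p.2.1 :=
      Primrec.fst.comp Primrec.snd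
    have ht : Primrec fun p : (Wd × ((ℕ × Bool) × Wd)) × ((ℕ × Bool) × Wd) => p.2.2 :=
      Primrec.snd.comp Primrec.snd
    refine Primrec.ite (PrimrecPred.and (PrimrecRel.comp Primrec.eq (Primrec.fst.comp ha)
      (Primrec.fst.comp hh)) (PrimrecRel.comp Primrec.eq (Primrec.snd.comp ha)
      (Primrec.not.comp (Primrec.snd.comp hh)))) ht
      (Primrec.list_cons.comp ha (Primrec.list_cons.comp hh ht))

lemma primrec_invRev : Primrec (FreeGroup.invRev : Wd → Wd) := by
  unfold FreeGroup.invRev
  refine Primrec.list_reverse.comp (Primrec.list_map Primrec.id ?_)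
  apply Primrec₂.mk
  exact Primrec.pair (Primrec.fst.comp Primrec.snd) (Primrec.not.comp (Primrec.snd.comp Primrec.snd))

lemma primrec_norml : Primrec₂ norml := by
  apply Primrec₂.mk
  refine primrec_reduce.comp ?_
  have h1 : Primrec₂ fun (w : Wd) (n : ℕ) => w.filter (fun a => decide (a.1 < n)) :=
    PrimrecRel.listFilter (R := fun (a : ℕ × Bool) (n : ℕ) => a.1 < n)
      (PrimrecRel.comp Primrec.nat_lt (Primrec.fst.comp Primrec.fst) Primrec.snd)
  exact h1.comp Primrec.snd Primrec.fst

lemma primrec_cword : Primrec cword := by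
  unfold cword piece
  refine Primrec.list_flatMap Primrec.id ?_
  apply Primrec₂.mk
  have h1 : Primrec fun p : Cert × (Wd × Wd × Bool) => p.2.1 := Primrec.fst.comp Primrec.snd
  have h2 : Primrec fun p : Cert × (Wd × Wd × Bool) => p.2.2.1 :=
    Primrec.fst.comp (Primrec.snd.comp Primrec.snd)
  have h3 : Primrec fun p : Cert × (Wd × Wd × Bool) => p.2.2.2 :=
    Primrec.snd.comp (Primrec.snd.comp Primrec.snd)
  exact Primrec.list_append.comp h1 (Primrec.list_append.comp
    (Primrec.cond h3 h2 (primrec_invRev.comp h2)) (primrec_invRev.comp h1))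

lemma primrec_Chk : PrimrecPred fun q : (Presentation × Wd) × Cert => Chk q.1.1 q.1.2 q.2 := by
  unfold Chk
  refine PrimrecPred.and ?_ ?_
  · have h1 : PrimrecRel fun (R : List Wd) (x : Wd) => ∃ r ∈ R, r = x :=
      PrimrecRel.exists_mem_list (R := fun r x : Wd => r = x) Primrec.eq
    have h2 : PrimrecRel fun (e : Wd × Wd × Bool) (R : List Wd) => ∃ r ∈ R, r = e.2.1 :=
      h1.comp Primrec.snd (Primrec.fst.comp (Primrec.snd.comp Primrec.fst))
    have h3 := PrimrecRel.forall_mem_list h2
    refine PrimrecPred.of_eq (h3.comp (Primrec.snd (α := Presentation × Wd) (β := Cert))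
      (Primrec.snd.comp (Primrec.fst.comp Primrec.fst))) ?_
    intro q
    simp only [↓existsAndEq, and_true, Prod.forall, Bool.forall_bool]
  · refine PrimrecRel.comp Primrec.eq (primrec_norml.comp (Primrec.fst.comp (Primrec.fst.comp
      Primrec.fst)) (Primrec.snd.comp Primrec.fst)) (primrec_norml.comp (Primrec.fst.comp
      (Primrec.fst.comp Primrec.fst)) (primrec_cword.comp Primrec.snd))

/-- stage `s` witnesses that the word is trivial -/
def Stage (q : (Presentation × Wd) × ℕ) : Prop :=
  ∃ d : Cert, Encodable.decode q.2 = some d ∧ Chk q.1.1 q.1.2 d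

lemma ev_eq_one_iff_stage (P : Presentation) (w : Wd) : ev P w = 1 ↔ ∃ s, Stage ((P, w), s) := by
  rw [ev_eq_one_iff]
  constructor
  · rintro ⟨d, hd⟩
    exact ⟨Encodable.encode d, d, Encodable.encodek d, hd⟩
  · rintro ⟨s, d, -, hd⟩
    exact ⟨d, hd⟩

lemma primrec_Stage : PrimrecPred Stage := by
  classical
  have h1 : Primrec fun q : (Presentation × Wd) × ℕ =>
      (Option.casesOn (Encodable.decode q.2 : Option Cert) false
        (fun d => decide (Chk q.1.1 q.1.2 d)) : Bool) := by
    refine Primrec.option_casesOn (Primrec.decode.comp Primrec.snd) (Primrec.const false) ?_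
    apply Primrec₂.mk
    exact (PrimrecPred.decide primrec_Chk).comp (Primrec.pair (Primrec.fst.comp Primrec.fst)
      Primrec.snd)
  refine PrimrecPred.of_eq (PrimrecRel.comp Primrec.eq h1 (Primrec.const true)) ?_
  intro q
  unfold Stage
  cases h : (Encodable.decode q.2 : Option Cert) with
  | none => simp
  | some d => simp

end Vale.Agent.P193
end
end

section

section

namespace Vale.Agent.P193

open List

/-! ### Kuznetsov's algorithm -/

lemma relators_cons (P : Presentation) (w : Wd) :
    relators (P.1, w :: P.2) = insert (restrict P.1 (FreeGroup.mk w)) (relators P) := by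
  ext x
  simp only [relators, List.mem_cons, Set.mem_insert_iff, Set.mem_setOf_eq]
  constructor
  · rintro ⟨v, rfl | hv, rfl⟩
    · exact Or.inl rfl
    · exact Or.inr ⟨v, hv, rfl⟩
  · rintro (rfl | ⟨v, hv, rfl⟩)
    · exact ⟨w, Or.inl rfl, rfl⟩
    · exact ⟨v, Or.inr hv, rfl⟩

/-- adding a relator -/
abbrev addRel (P : Presentation) (w : Wd) : Presentation := (P.1, w :: P.2)

lemma ev_eq_one (P : Presentation) (w : Wd) :
    ev P w = 1 ↔ restrict P.1 (FreeGroup.mk w) ∈ Subgroup.normalClosure (relators P) :=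
  QuotientGroup.eq_one_iff _

lemma ev_addRel_of_eq_one (P : Presentation) (w v : Wd) (hw : ev P w = 1)
    (h : ev (addRel P w) v = 1) : ev P v = 1 := by
  rw [ev_eq_one] at *
  have h1 : Subgroup.normalClosure (relators (addRel P w)) ≤
      Subgroup.normalClosure (relators P) := by
    apply Subgroup.normalClosure_le_normal
    rw [relators_cons]
    rintro x (rfl | hx)
    · exact hw
    · exact Subgroup.subset_normalClosure hx
  exact h1 h

lemma ev_addRel_of_ne_one (P : Presentation) (hP : IsSimpleGroup (PGroup P)) (w v : Wd)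
    (hw : ev P w ≠ 1) : ev (addRel P w) v = 1 := by
  rw [ev_eq_one]
  show restrict P.1 (FreeGroup.mk v) ∈ Subgroup.normalClosure (relators (addRel P w))
  set N : Subgroup (FreeGroup (Fin P.1)) := Subgroup.normalClosure (relators P) with hN
  set N' : Subgroup (FreeGroup (Fin P.1)) := Subgroup.normalClosure (relators (addRel P w)) with hN'
  have hle : N ≤ N' := by
    apply Subgroup.normalClosure_mono
    rw [relators_cons]
    exact Set.subset_insert _ _
  have hn : (N'.map (PresentedGroup.mk (relators P))).Normal :=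
    Subgroup.Normal.map inferInstance _ (PresentedGroup.mk_surjective _)
  have hw' : ev P w ∈ N'.map (PresentedGroup.mk (relators P)) := by
    refine ⟨restrict P.1 (FreeGroup.mk w), ?_, rfl⟩
    apply Subgroup.subset_normalClosure
    rw [relators_cons]
    exact Set.mem_insert _ _
  rcases hn.eq_bot_or_eq_top with h | h
  · rw [h, Subgroup.mem_bot] at hw'
    exact absurd hw' hw
  · have h1 : ev P v ∈ N'.map (PresentedGroup.mk (relators P)) := by rw [h]; trivial
    obtain ⟨x, hx, hxv⟩ := h1
    have h2 : x⁻¹ * restrict P.1 (FreeGroup.mk v) ∈ N := by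
      rw [← QuotientGroup.eq]
      exact hxv
    have h3 := mul_mem hx (hle h2)
    rwa [mul_inv_cancel_left] at h3

/-- generators as words -/
abbrev genW (j : ℕ) : Wd := [(j, true)]

lemma exists_gen_ne_one (P : Presentation) (hP : IsSimpleGroup (PGroup P)) :
    ∃ j, ev P (genW j) ≠ 1 := by
  by_contra h
  simp only [not_exists, not_not] at h
  have h1 : ∀ w, ev P w = 1 := by
    intro w
    induction w with
    | nil => exact ev_nil P
    | cons a w ih =>
      have h2 : ev P (a :: w) = ev P [a] * ev P w := ev_append P [a] w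
      rw [h2, ih, mul_one]
      obtain ⟨i, b⟩ := a
      cases b
      · have h3 : ([(i, false)] : Wd) = FreeGroup.invRev (genW i) := rfl
        rw [h3, ev_invRev, h, inv_one]
      · exact h i
  obtain ⟨x, hx⟩ := exists_ne (1 : PGroup P)
  obtain ⟨w, rfl⟩ := ev_surj P x
  exact hx (h1 w)

/-- the stage test -/
def Test (R : Presentation × ℕ × ℕ → Prop) (q : ((Presentation × ℕ × ℕ) × Wd) × ℕ) : Prop :=
  Stage ((q.1.1.1, q.1.2), q.2) ∨ Stage ((addRel q.1.1.1 q.1.2, genW q.1.1.2.2), q.2) ∨
    ¬ R (q.1.1.1, q.1.1.2.1, q.2)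

lemma test_ex {S : Set Presentation} (hS : ∀ P ∈ S, IsSimpleGroup (PGroup P))
    {R : Presentation × ℕ × ℕ → Prop} (hR : ∀ P, P ∈ S ↔ ∃ x, ∀ y, R (P, x, y))
    (a : (Presentation × ℕ × ℕ) × Wd) : ∃ s, Test R (a, s) := by
  by_cases h : ∀ y, R (a.1.1, a.1.2.1, y)
  · have hP := hS _ ((hR a.1.1).2 ⟨_, h⟩)
    by_cases hw : ev a.1.1 a.2 = 1
    · obtain ⟨s, hs⟩ := (ev_eq_one_iff_stage _ _).1 hw
      exact ⟨s, Or.inl hs⟩
    · obtain ⟨s, hs⟩ := (ev_eq_one_iff_stage _ _).1
        (ev_addRel_of_ne_one a.1.1 hP a.2 (genW a.1.2.2) hw)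
      exact ⟨s, Or.inr (Or.inl hs)⟩
  · simp only [not_forall] at h
    obtain ⟨s, hs⟩ := h
    exact ⟨s, Or.inr (Or.inr hs)⟩

lemma computablePred_or {α : Type} [Primcodable α] {p q : α → Prop} (hp : ComputablePred p)
    (hq : ComputablePred q) : ComputablePred fun a => p a ∨ q a := by
  obtain ⟨f, hf, rfl⟩ := ComputablePred.computable_iff.1 hp
  obtain ⟨g, hg, rfl⟩ := ComputablePred.computable_iff.1 hq
  rw [ComputablePred.computable_iff]
  refine ⟨fun a => f a || g a, Primrec.or.to_comp.comp hf hg, ?_⟩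
  funext a
  simp

lemma computablePred_comp {α β : Type} [Primcodable α] [Primcodable β] {p : β → Prop}
    (hp : ComputablePred p) {f : α → β} (hf : Computable f) : ComputablePred fun a => p (f a) := by
  obtain ⟨g, hg, rfl⟩ := ComputablePred.computable_iff.1 hp
  rw [ComputablePred.computable_iff]
  exact ⟨fun a => g (f a), hg.comp hf, rfl⟩

lemma computable_test {R : Presentation × ℕ × ℕ → Prop} (hR : ComputablePred R) :
    ComputablePred (Test R) := by
  unfold Test
  have p1 : Primrec fun q : ((Presentation × ℕ × ℕ) × Wd) × ℕ => q.1.1.1 :=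
    Primrec.fst.comp (Primrec.fst.comp Primrec.fst)
  have p2 : Primrec fun q : ((Presentation × ℕ × ℕ) × Wd) × ℕ => q.1.1.2.1 :=
    Primrec.fst.comp (Primrec.snd.comp (Primrec.fst.comp Primrec.fst))
  have p3 : Primrec fun q : ((Presentation × ℕ × ℕ) × Wd) × ℕ => q.1.1.2.2 :=
    Primrec.snd.comp (Primrec.snd.comp (Primrec.fst.comp Primrec.fst))
  have p4 : Primrec fun q : ((Presentation × ℕ × ℕ) × Wd) × ℕ => q.1.2 :=
    Primrec.snd.comp Primrec.fst
  have p5 : Primrec fun q : ((Presentation × ℕ × ℕ) × Wd) × ℕ => q.2 := Primrec.snd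
  refine computablePred_or ?_ (computablePred_or ?_ ?_)
  · exact computablePred_comp (PrimrecPred.computablePred primrec_Stage)
      (Primrec.pair (Primrec.pair p1 p4) p5).to_comp
  · refine computablePred_comp (PrimrecPred.computablePred primrec_Stage)
      (Primrec.pair (Primrec.pair (Primrec.pair (Primrec.fst.comp p1)
        (Primrec.list_cons.comp p4 (Primrec.snd.comp p1))) ?_) p5).to_comp
    exact Primrec.list_cons.comp (Primrec.pair p3 (Primrec.const true)) (Primrec.const [])
  · exact (computablePred_comp hR (Primrec.pair p1 (Primrec.pair p2 p5)).to_comp).not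

/-- Uniform word problem algorithm for a `Sigma^0_2` set of finite presentations of simple
groups. -/
lemma exists_alg {S : Set Presentation} (hS : ∀ P ∈ S, IsSimpleGroup (PGroup P))
    (h2 : IsSigma2 S) : ∃ T : (Presentation × ℕ × ℕ) × Wd → Bool, Computable T ∧
      ∀ P ∈ S, ∃ x j, ∀ w, T ((P, x, j), w) = true ↔ ev P w = 1 := by
  classical
  obtain ⟨R, hRc, hR⟩ := h2
  have hex := test_ex hS hR
  have hfind : Computable fun a => Nat.find (hex a) :=
    Computable.find (P := fun a s => Test R (a, s)) (computable_test hRc) hex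
  refine ⟨fun a => decide (Stage ((a.1.1, a.2), Nat.find (hex a))), ?_, ?_⟩
  · have h1 : Computable fun q => decide (Stage q) := (PrimrecPred.decide primrec_Stage).to_comp
    exact h1.comp (Computable.pair (Computable.pair (Computable.fst.comp Computable.fst)
      Computable.snd) hfind)
  · intro P hP
    obtain ⟨x, hx⟩ := (hR P).1 hP
    obtain ⟨j, hj⟩ := exists_gen_ne_one P (hS P hP)
    refine ⟨x, j, fun w => ?_⟩
    rw [decide_eq_true_eq]
    constructor
    · intro h
      exact (ev_eq_one_iff_stage _ _).2 ⟨_, h⟩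
    · intro h
      rcases Nat.find_spec (hex ((P, x, j), w)) with h1 | h1 | h1
      · exact h1
      · exfalso
        apply hj
        exact ev_addRel_of_eq_one P w _ h ((ev_eq_one_iff_stage _ _).2 ⟨_, h1⟩)
      · exact absurd (hx _) h1

/-! ### The diagonal argument -/

/-- powers of words -/
def wpow (v : Wd) (n : ℕ) : Wd := (List.range n).flatMap fun _ => v

lemma ev_wpow (P : Presentation) (v : Wd) (n : ℕ) : ev P (wpow v n) = ev P v ^ n := by
  induction n with
  | zero => rw [pow_zero]; exact ev_nil P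
  | succ n ih =>
    have : wpow v (n + 1) = wpow v n ++ v := by
      unfold wpow
      rw [List.range_succ, List.flatMap_append, List.flatMap_singleton]
    rw [this, ev_append, ih, pow_succ]

/-- the conjugate -/
def cj (u v : Wd) (n : ℕ) : Wd := wpow v n ++ (u ++ FreeGroup.invRev (wpow v n))

/-- the test word -/
def tw (u v : Wd) (n : ℕ) : Wd := (u ++ cj u v n) ++ FreeGroup.invRev (cj u v n ++ u)

lemma ev_tw (P : Presentation) (u v : Wd) (n : ℕ) : ev P (tw u v n) = 1 ↔
    ev P u * (ev P v ^ n * ev P u * (ev P v ^ n)⁻¹) =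
      (ev P v ^ n * ev P u * (ev P v ^ n)⁻¹) * ev P u := by
  have h : ev P (cj u v n) = ev P v ^ n * ev P u * (ev P v ^ n)⁻¹ := by
    unfold cj
    rw [ev_append, ev_append, ev_invRev, ev_wpow, mul_assoc]
  unfold tw
  rw [ev_append, ev_invRev, ev_append, ev_append, h, mul_inv_eq_one]

abbrev Code : Type := (Presentation × ℕ × ℕ) × Wd × Wd

/-- the diagonal value -/
def dv (T : (Presentation × ℕ × ℕ) × Wd → Bool) (c : ℕ) : Bool :=
  (Option.map (fun q : Code => !(T (q.1, tw q.2.1 q.2.2 (3 ^ (2 * c)))))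
    (Encodable.decode c : Option Code)).getD false

lemma primrec_wpow : Primrec₂ wpow := by
  apply Primrec₂.mk
  unfold wpow
  refine Primrec.list_flatMap (Primrec.list_range.comp Primrec.snd) ?_
  apply Primrec₂.mk
  exact Primrec.fst.comp Primrec.fst

lemma primrec_cj : Primrec fun p : Wd × Wd × ℕ => cj p.1 p.2.1 p.2.2 := by
  unfold cj
  have h1 : Primrec fun p : Wd × Wd × ℕ => wpow p.2.1 p.2.2 :=
    primrec_wpow.comp (Primrec.fst.comp Primrec.snd) (Primrec.snd.comp Primrec.snd)
  exact Primrec.list_append.comp h1 (Primrec.list_append.comp Primrec.fst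
    (primrec_invRev.comp h1))

lemma primrec_tw : Primrec fun p : Wd × Wd × ℕ => tw p.1 p.2.1 p.2.2 := by
  unfold tw
  exact Primrec.list_append.comp (Primrec.list_append.comp Primrec.fst primrec_cj)
    (primrec_invRev.comp (Primrec.list_append.comp primrec_cj Primrec.fst))

lemma computable_dv {T : (Presentation × ℕ × ℕ) × Wd → Bool} (hT : Computable T) :
    Computable (dv T) := by
  unfold dv
  refine Computable.option_getD (Computable.option_map Computable.decode ?_)
    (Computable.const false)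
  apply Computable₂.mk
  refine Primrec.not.to_comp.comp (hT.comp (Computable.pair (Computable.fst.comp Computable.snd)
    ?_))
  have h1 : Primrec fun p : ℕ × Code => (p.2.2.1, p.2.2.2, 3 ^ (2 * p.1)) :=
    Primrec.pair (Primrec.fst.comp (Primrec.snd.comp Primrec.snd))
      (Primrec.pair (Primrec.snd.comp (Primrec.snd.comp Primrec.snd))
        (primrec_pow.comp (Primrec.const 3) (Primrec.nat_mul.comp (Primrec.const 2) Primrec.fst)))
  exact (primrec_tw.comp h1).to_comp

lemma dv_encode (T : (Presentation × ℕ × ℕ) × Wd → Bool) (q : Code) :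
    dv T (Encodable.encode q) = !(T (q.1, tw q.2.1 q.2.2 (3 ^ (2 * Encodable.encode q)))) := by
  unfold dv
  rw [Encodable.encodek]
  rfl

lemma not_embeds {S : Set Presentation} {T : (Presentation × ℕ × ℕ) × Wd → Bool}
    (hT : ∀ P ∈ S, ∃ x j, ∀ w, T ((P, x, j), w) = true ↔ ev P w = 1) (P : Presentation)
    (hP : P ∈ S) : ¬ Embeds (GG fun c => dv T c = true) (PGroup P) := by
  rintro ⟨f, hf⟩
  obtain ⟨x, j, h⟩ := hT P hP
  obtain ⟨u, hu⟩ := ev_surj P (f (gg _ 0))
  obtain ⟨v, hv⟩ := ev_surj P (f (gg _ 1))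
  set q : Code := ((P, x, j), u, v) with hq
  set c := Encodable.encode q with hc
  have h1 : dv T c = true ↔ ¬ (ev P (tw u v (3 ^ (2 * c))) = 1) := by
    rw [hc, dv_encode, ← h]
    simp [hq]
  have h2 : ev P (tw u v (3 ^ (2 * c))) = 1 ↔ dv T c = true := by
    rw [ev_tw, hu, hv, ← gg_comm_iff (fun c => dv T c = true) c, ← map_pow, ← map_inv, ← map_mul,
      ← map_mul, ← map_mul, ← map_mul]
    exact hf.eq_iff
  by_cases h3 : dv T c = true
  · exact (h1.1 h3) (h2.2 h3)
  · exact h3 (h1.2 fun h4 => h3 (h2.1 h4))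

end Vale.Agent.P193
end
end

section

section

namespace Vale.Agent.P193

open List

open scoped commutatorElement

/-! ### Solvability -/

/-- shift of a function -/
def shf {m : ℕ} (k : ZMod m) : (ZMod m → ZMod 2) →+ (ZMod m → ZMod 2) where
  toFun x := fun i => x (i - k)
  map_zero' := rfl
  map_add' _ _ := rfl

lemma shf_shf {m : ℕ} (k k' : ZMod m) (x : ZMod m → ZMod 2) :
    shf k (shf k' x) = shf (k + k') x := by
  funext i
  show x (i - k - k') = x (i - (k + k'))
  rw [sub_sub]

lemma shf_zero {m : ℕ} (x : ZMod m → ZMod 2) : shf 0 x = x := by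
  funext i
  show x (i - 0) = x i
  rw [sub_zero]

/-- affine maps of a row with shift `k` -/
def Aff (j : ℕ) (k : ZMod (md j)) (f : Equiv.Perm (Row j)) : Prop :=
  ∃ (v : ZMod (md j) → ZMod 2) (l : (ZMod (md j) → ZMod 2) →+ ZMod 2) (a : ZMod 2),
    ∀ p : Row j, f p = (shf k p.1 + v, p.2 + l p.1 + a)

lemma Aff.one (j : ℕ) : Aff j 0 1 := by
  refine ⟨0, 0, 0, fun p => ?_⟩
  simp only [Equiv.Perm.coe_one, id_eq, shf_zero, add_zero, AddMonoidHom.zero_apply, Prod.mk.eta]

lemma Aff.mul {j : ℕ} {k k' : ZMod (md j)} {f g : Equiv.Perm (Row j)} (hf : Aff j k f)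
    (hg : Aff j k' g) : Aff j (k + k') (f * g) := by
  obtain ⟨v, l, a, h⟩ := hf
  obtain ⟨v', l', a', h'⟩ := hg
  refine ⟨shf k v' + v, l' + l.comp (shf k'), a' + l v' + a, fun p => ?_⟩
  rw [Equiv.Perm.mul_apply, h', h]
  simp only [map_add, shf_shf, AddMonoidHom.add_apply, AddMonoidHom.comp_apply]
  apply Prod.ext
  · simp only [add_assoc]
  · simp only
    ring

lemma Aff.inv {j : ℕ} {k : ZMod (md j)} {f : Equiv.Perm (Row j)} (hf : Aff j k f) :
    Aff j (-k) f⁻¹ := by
  obtain ⟨v, l, a, h⟩ := hf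
  refine ⟨- shf (-k) v, - l.comp (shf (-k)), l (shf (-k) v) - a, fun p => ?_⟩
  rw [Equiv.Perm.inv_eq_iff_eq, h]
  apply Prod.ext
  · simp only [map_add, shf_shf, add_neg_cancel, shf_zero, map_neg]
    abel
  · simp only [map_add, map_neg, AddMonoidHom.neg_apply, AddMonoidHom.comp_apply]
    ring

/-- the chain of subgroups, level 0 -/
def U0 : Subgroup (∀ j : ℕ, Equiv.Perm (Row j)) where
  carrier := {f | ∀ j, ∃ k, Aff j k (f j)}
  mul_mem' hf hg j := by
    obtain ⟨k, hk⟩ := hf j
    obtain ⟨k', hk'⟩ := hg j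
    exact ⟨_, hk.mul hk'⟩
  one_mem' j := ⟨0, Aff.one j⟩
  inv_mem' hf j := by
    obtain ⟨k, hk⟩ := hf j
    exact ⟨_, hk.inv⟩

/-- level 1 -/
def U1 : Subgroup (∀ j : ℕ, Equiv.Perm (Row j)) where
  carrier := {f | ∀ j, Aff j 0 (f j)}
  mul_mem' hf hg j := by
    have := (hf j).mul (hg j)
    rwa [add_zero] at this
  one_mem' j := Aff.one j
  inv_mem' hf j := by
    have := (hf j).inv
    rwa [neg_zero] at this

/-- translations in the last coordinate -/
def Tr (j : ℕ) (f : Equiv.Perm (Row j)) : Prop := ∃ a : ZMod 2, ∀ p : Row j, f p = (p.1, p.2 + a)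

/-- level 2 -/
def U2 : Subgroup (∀ j : ℕ, Equiv.Perm (Row j)) where
  carrier := {f | ∀ j, Tr j (f j)}
  mul_mem' hf hg j := by
    obtain ⟨a, h⟩ := hf j
    obtain ⟨a', h'⟩ := hg j
    refine ⟨a' + a, fun p => ?_⟩
    rw [Pi.mul_apply, Equiv.Perm.mul_apply, h', h, add_assoc]
  one_mem' j := ⟨0, fun p => by simp⟩
  inv_mem' hf j := by
    obtain ⟨a, h⟩ := hf j
    refine ⟨-a, fun p => ?_⟩
    rw [Pi.inv_apply, Equiv.Perm.inv_eq_iff_eq, h, neg_add_cancel_right]

lemma comm_U0 {f g : ∀ j : ℕ, Equiv.Perm (Row j)} (hf : f ∈ U0) (hg : g ∈ U0) : ⁅f, g⁆ ∈ U1 := by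
  intro j
  obtain ⟨k, hk⟩ := hf j
  obtain ⟨k', hk'⟩ := hg j
  have h := ((hk.mul hk').mul hk.inv).mul hk'.inv
  have e : k + k' + -k + -k' = 0 := by ring
  rw [e] at h
  exact h

lemma comm_U1 {f g : ∀ j : ℕ, Equiv.Perm (Row j)} (hf : f ∈ U1) (hg : g ∈ U1) : ⁅f, g⁆ ∈ U2 := by
  intro j
  obtain ⟨v, l, a, h⟩ := hf j
  obtain ⟨v', l', a', h'⟩ := hg j
  refine ⟨l v' - l' v, fun p => ?_⟩
  have e : f j * g j = ⁅f, g⁆ j * (g j * f j) := by
    rw [commutatorElement_def]
    simp only [Pi.mul_apply, Pi.inv_apply]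
    group
  obtain ⟨q, rfl⟩ : ∃ q, (g j * f j) q = p := ⟨(g j * f j)⁻¹ p, by simp only [mul_inv_rev, Equiv.Perm.coe_mul, Equiv.Perm.coe_inv, Function.comp_apply, Equiv.apply_symm_apply]⟩
  have e2 := DFunLike.congr_fun e q
  rw [Equiv.Perm.mul_apply (⁅f, g⁆ j)] at e2
  rw [← e2, Equiv.Perm.mul_apply, Equiv.Perm.mul_apply, h', h, h, h']
  simp only [shf_zero, map_add]
  apply Prod.ext
  · simp only
    abel
  · simp only
    ring

lemma comm_U2 {f g : ∀ j : ℕ, Equiv.Perm (Row j)} (hf : f ∈ U2) (hg : g ∈ U0) : ⁅f, g⁆ = 1 := by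
  rw [commutatorElement_eq_one_iff_mul_comm]
  funext i
  obtain ⟨a, h⟩ := hf i
  obtain ⟨k, v', l', a', h'⟩ := hg i
  apply Equiv.ext
  intro p
  rw [Pi.mul_apply, Pi.mul_apply, Equiv.Perm.mul_apply, Equiv.Perm.mul_apply, h, h', h, h']
  apply Prod.ext
  · rfl
  · simp only
    ring

lemma gen_mem_U0 (A : ℕ → Prop) (i : Fin 2) : gen A i ∈ U0 := by
  classical
  intro j
  fin_cases i
  · by_cases h : dead A j
    · refine ⟨0, ?_⟩
      have : gen A 0 j = 1 := by simp [gen, h]
      show Aff j 0 (gen A 0 j)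
      rw [this]
      exact Aff.one j
    · refine ⟨0, fun i => ind (i = 0), Pi.evalAddMonoidHom _ (mk j), 0, fun p => ?_⟩
      have : gen A 0 j = rowA j := by simp [gen, h]
      show gen A 0 j p = _
      rw [this, shf_zero]
      simp only [rowA, Equiv.coe_fn_mk, add_zero]
      rfl
  · refine ⟨1, 0, 0, 0, fun p => ?_⟩
    show gen A 1 j p = _
    have : gen A 1 j = rowT j := by simp [gen]
    rw [this]
    simp only [rowT, Equiv.coe_fn_mk, add_zero, AddMonoidHom.zero_apply]
    rfl

lemma closure_le_U0 (A : ℕ → Prop) : Subgroup.closure (Set.range (gen A)) ≤ U0 := by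
  rw [Subgroup.closure_le]
  rintro _ ⟨i, rfl⟩
  exact gen_mem_U0 A i

lemma derived_GG (A : ℕ → Prop) : derivedSeries (GG A) 3 = ⊥ := by
  have h0 : ∀ f : GG A, (f : ∀ j : ℕ, Equiv.Perm (Row j)) ∈ U0 := fun f => closure_le_U0 A f.2
  have h1 : derivedSeries (GG A) 1 ≤ U1.comap (Subgroup.subtype _) := by
    rw [derivedSeries_succ, Subgroup.commutator_le]
    intro f _ g _
    rw [Subgroup.mem_comap, map_commutatorElement]
    exact comm_U0 (h0 f) (h0 g)
  have h2 : derivedSeries (GG A) 2 ≤ U2.comap (Subgroup.subtype _) := by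
    rw [derivedSeries_succ, Subgroup.commutator_le]
    intro f hf g hg
    rw [Subgroup.mem_comap, map_commutatorElement]
    exact comm_U1 (h1 hf) (h1 hg)
  rw [eq_bot_iff, derivedSeries_succ, Subgroup.commutator_le]
  intro f hf g _
  rw [Subgroup.mem_bot]
  have h3 := comm_U2 (h2 hf) (h0 g)
  apply Subtype.ext
  exact h3

end Vale.Agent.P193
end
end

section

section

namespace Vale.Agent.P193

open List

theorem sigma_two_barrier' (S : Set Presentation) (h2 : IsSigma2 S)
    (hS : ∀ P ∈ S, IsSimpleGroup (PGroup P)) :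
    ∃ (G : Type) (_ : Group G), (∃ g : Fin 2 → G, Subgroup.closure (Set.range g) = ⊤) ∧
      Group.ResiduallyFinite G ∧ derivedSeries G 3 = ⊥ ∧ DecidableWordProblem G ∧
      ∀ P ∈ S, ¬ Embeds G (PGroup P) := by
  obtain ⟨T, hTc, hT⟩ := exists_alg hS h2
  refine ⟨GG fun c => dv T c = true, inferInstance, ⟨gg _, closure_gg _⟩,
    residuallyFinite_GG _, derived_GG _, decidable_GG ?_, not_embeds hT⟩
  rw [ComputablePred.computable_iff]
  exact ⟨dv T, computable_dv hTc, rfl⟩

/-! ### Codes of finitely presented groups -/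

lemma exists_code (G : Type) [Group G] (hG : Group.IsFinitelyPresented G) :
    ∃ P : Presentation, Nonempty (G ≃* PGroup P) := by
  obtain ⟨n, s, hs, ⟨e⟩⟩ := Group.IsFinitelyPresented.exists_mulEquiv_presentedGroup (G := G)
  let P : Presentation := (n, hs.toFinset.toList.map fun x => (incl n x).toWord)
  have h : s = relators P := by
    ext x
    constructor
    · intro hx
      refine ⟨(incl n x).toWord, ?_, ?_⟩
      · refine List.mem_map.2 ⟨x, ?_, rfl⟩
        rw [Finset.mem_toList, Set.Finite.mem_toFinset]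
        exact hx
      · show x = restrict n (FreeGroup.mk (incl n x).toWord)
        rw [FreeGroup.mk_toWord, restrict_incl]
    · rintro ⟨w, hw, hx⟩
      obtain ⟨y, hy, rfl⟩ := List.mem_map.1 hw
      rw [Finset.mem_toList, Set.Finite.mem_toFinset] at hy
      have : x = y := by
        rw [hx]
        show restrict n (FreeGroup.mk (incl n y).toWord) = y
        rw [FreeGroup.mk_toWord, restrict_incl]
      rw [this]; exact hy
  exact ⟨P, ⟨e.trans (QuotientGroup.quotientMulEquivOfEq (by rw [h]))⟩⟩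

lemma embeds_trans {G H K : Type} [Group G] [Group H] [Group K] (h1 : Embeds G H)
    (h2 : Embeds H K) : Embeds G K := by
  obtain ⟨f, hf⟩ := h1
  obtain ⟨g, hg⟩ := h2
  exact ⟨g.comp f, hg.comp hf⟩

lemma simple_of_equiv {G H : Type} [Group G] [Group H] (e : G ≃* H) (h : IsSimpleGroup G) :
    IsSimpleGroup H := by
  have := e.symm.toEquiv.nontrivial
  exact IsSimpleGroup.isSimpleGroup_of_surjective e.toMonoidHom e.surjective

theorem bh_consequence (hBH : BooneHigman) (S : Set Presentation) (h2 : IsSigma2 S)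
    (hS : ∀ P ∈ S, IsSimpleGroup (PGroup P)) :
    ∃ P, IsSimpleGroup (PGroup P) ∧ ∀ Q ∈ S, ¬ Embeds (PGroup P) (PGroup Q) := by
  obtain ⟨G, hG, -, -, -, hdec, hne⟩ := sigma_two_barrier' S h2 hS
  obtain ⟨H, hH, hfp, hsimple, hemb⟩ := hBH G hdec
  obtain ⟨P, ⟨e⟩⟩ := exists_code H hfp
  refine ⟨P, simple_of_equiv e hsimple, fun Q hQ hPQ => hne Q hQ ?_⟩
  exact embeds_trans hemb (embeds_trans ⟨e.toMonoidHom, e.injective⟩ hPQ)

theorem bh_not_sigma (hBH : BooneHigman) : ¬ IsSigma2 {P | IsSimpleGroup (PGroup P)} := by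
  intro h
  obtain ⟨P, hP, hne⟩ := bh_consequence hBH _ h fun P hP => hP
  exact hne P hP ⟨MonoidHom.id _, fun _ _ h => h⟩

/-! ### The set of presentations of simple groups is `Pi^0_2` -/

/-- stage `y` certifies that the group is trivial -/
def Triv (P : Presentation) (y : ℕ) : Prop := ∀ j < P.1, ∃ s < y, Stage ((P, genW j), s)

lemma genW_ge (P : Presentation) (j : ℕ) (hj : P.1 ≤ j) : ev P (genW j) = 1 := by
  unfold ev
  have : restrict P.1 (FreeGroup.mk (genW j)) = 1 := by
    have h3 : (FreeGroup.mk (genW j) : FreeGroup ℕ) = (FreeGroup.of j) := rfl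
    rw [h3]
    simp [restrict, not_lt.2 hj]
  rw [this, map_one]

lemma triv_iff (P : Presentation) : (∃ y, Triv P y) ↔ ∀ j, ev P (genW j) = 1 := by
  constructor
  · rintro ⟨y, hy⟩ j
    by_cases hj : j < P.1
    · obtain ⟨s, -, hs⟩ := hy j hj
      exact (ev_eq_one_iff_stage _ _).2 ⟨s, hs⟩
    · exact genW_ge P j (not_lt.1 hj)
  · intro h
    have h1 : ∀ j, ∃ s, Stage ((P, genW j), s) := fun j => (ev_eq_one_iff_stage _ _).1 (h j)
    choose f hf using h1
    refine ⟨(Finset.range P.1).sup f + 1, fun j hj => ⟨f j, ?_, hf j⟩⟩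
    exact Nat.lt_succ_of_le (Finset.le_sup (Finset.mem_range.2 hj))

lemma ev_gen_iff (P : Presentation) : (∀ j, ev P (genW j) = 1) ↔ ∀ w, ev P w = 1 := by
  constructor
  · intro h w
    induction w with
    | nil => exact ev_nil P
    | cons a w ih =>
      have h2 : ev P (a :: w) = ev P [a] * ev P w := ev_append P [a] w
      rw [h2, ih, mul_one]
      obtain ⟨i, b⟩ := a
      cases b
      · have h3 : ([(i, false)] : Wd) = FreeGroup.invRev (genW i) := rfl
        rw [h3, ev_invRev, h, inv_one]
      · exact h i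
  · intro h j
    exact h _

lemma simple_iff (P : Presentation) : IsSimpleGroup (PGroup P) ↔
    (¬ ∀ j, ev P (genW j) = 1) ∧ ∀ w, ev P w = 1 ∨ ∀ j, ev (addRel P w) (genW j) = 1 := by
  constructor
  · intro hP
    constructor
    · obtain ⟨j, hj⟩ := exists_gen_ne_one P hP
      exact fun h => hj (h j)
    · intro w
      by_cases hw : ev P w = 1
      · exact Or.inl hw
      · exact Or.inr fun j => ev_addRel_of_ne_one P hP w _ hw
  · rintro ⟨h1, h2⟩
    rw [ev_gen_iff, not_forall] at h1
    obtain ⟨w0, hw0⟩ := h1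
    have : Nontrivial (PGroup P) := ⟨⟨_, _, hw0⟩⟩
    refine ⟨fun H hH => ?_⟩
    by_cases hbot : H = ⊥
    · exact Or.inl hbot
    · right
      obtain ⟨g, hg, hg1⟩ := (Subgroup.ne_bot_iff_exists_ne_one).1 hbot |> fun ⟨x, hx⟩ =>
        (⟨x.1, x.2, fun h => hx (Subtype.ext h)⟩ : ∃ g : PGroup P, g ∈ H ∧ g ≠ 1)
      obtain ⟨w, rfl⟩ := ev_surj P g
      have h3 := (ev_gen_iff _).1 ((h2 w).resolve_left hg1)
      have hle : Subgroup.normalClosure (relators (addRel P w)) ≤
          H.comap (PresentedGroup.mk (relators P)) := by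
        apply Subgroup.normalClosure_le_normal
        rw [relators_cons]
        rintro x (rfl | hx)
        · exact hg
        · show PresentedGroup.mk (relators P) x ∈ H
          have : PresentedGroup.mk (relators P) x = 1 :=
            (QuotientGroup.eq_one_iff _).2 (Subgroup.subset_normalClosure hx)
          rw [this]
          exact one_mem _
      rw [eq_top_iff]
      intro x _
      obtain ⟨v, rfl⟩ := ev_surj P x
      exact hle ((ev_eq_one _ _).1 (h3 v))

lemma primrec_Triv : PrimrecRel Triv := by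
  unfold Triv
  -- inner bounded existential
  have h1 : PrimrecRel fun (s : ℕ) (q : ℕ × Presentation) =>
      Stage ((q.2, genW q.1), s) := by
    refine primrec_Stage.comp (Primrec.pair (Primrec.pair (Primrec.snd.comp Primrec.snd)
      (Primrec.list_cons.comp (Primrec.pair (Primrec.fst.comp Primrec.snd) (Primrec.const true))
        (Primrec.const []))) Primrec.fst)
  have h2 := PrimrecRel.exists_mem_list h1
  have h3 : PrimrecRel fun (j : ℕ) (q : Presentation × ℕ) =>
      ∃ s ∈ List.range q.2, Stage ((q.1, genW j), s) :=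
    h2.comp (Primrec.list_range.comp (Primrec.snd.comp Primrec.snd))
      (Primrec.pair Primrec.fst (Primrec.fst.comp Primrec.snd))
  have h4 := PrimrecRel.forall_mem_list h3
  have h5 : PrimrecPred fun q : Presentation × ℕ =>
      ∀ j ∈ List.range q.1.1, ∃ s ∈ List.range q.2, Stage ((q.1, genW j), s) :=
    h4.comp (Primrec.list_range.comp (Primrec.fst.comp Primrec.fst)) Primrec.id
  refine PrimrecPred.of_eq h5 ?_
  intro q
  simp only [mem_range]

/-- the matrix of the `Pi^0_2` definition -/
def Mat (q : Presentation × ℕ × ℕ) : Prop :=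
  ¬ Triv q.1 q.2.1 ∧ ∀ w : Wd, Encodable.decode q.2.1 = some w →
    (Stage ((q.1, w), q.2.2) ∨ Triv (addRel q.1 w) q.2.2)

lemma primrec_Mat : PrimrecPred Mat := by
  classical
  unfold Mat
  refine PrimrecPred.and (PrimrecPred.not (primrec_Triv.comp Primrec.fst
    (Primrec.fst.comp Primrec.snd))) ?_
  have h1 : Primrec fun q : Presentation × ℕ × ℕ =>
      (Option.casesOn (Encodable.decode q.2.1 : Option Wd) true
        (fun w => decide (Stage ((q.1, w), q.2.2) ∨ Triv (addRel q.1 w) q.2.2)) : Bool) := by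
    refine Primrec.option_casesOn (Primrec.decode.comp (Primrec.fst.comp Primrec.snd))
      (Primrec.const true) ?_
    apply Primrec₂.mk
    apply PrimrecPred.decide
    have p1 : Primrec fun r : (Presentation × ℕ × ℕ) × Wd => r.1.1 := Primrec.fst.comp Primrec.fst
    have p2 : Primrec fun r : (Presentation × ℕ × ℕ) × Wd => r.1.2.2 :=
      Primrec.snd.comp (Primrec.snd.comp Primrec.fst)
    have p3 : Primrec fun r : (Presentation × ℕ × ℕ) × Wd => r.2 := Primrec.snd
    refine PrimrecPred.or (primrec_Stage.comp (Primrec.pair (Primrec.pair p1 p3) p2)) ?_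
    exact primrec_Triv.comp (Primrec.pair (Primrec.fst.comp p1)
      (Primrec.list_cons.comp p3 (Primrec.snd.comp p1))) p2
  refine PrimrecPred.of_eq (PrimrecRel.comp Primrec.eq h1 (Primrec.const true)) ?_
  intro q
  cases h : (Encodable.decode q.2.1 : Option Wd) with
  | none => simp
  | some d => simp

theorem simple_pi_two : IsPi2 {P | IsSimpleGroup (PGroup P)} := by
  refine ⟨Mat, primrec_Mat.computablePred, ?_⟩
  intro P
  show IsSimpleGroup (PGroup P) ↔ _
  rw [simple_iff]
  constructor
  · rintro ⟨h1, h2⟩ x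
    have h3 : ¬ Triv P x := fun h => h1 ((triv_iff P).1 ⟨x, h⟩)
    cases hx : (Encodable.decode x : Option Wd) with
    | none =>
      refine ⟨0, h3, fun w hw => ?_⟩
      have hw' : (Encodable.decode x : Option Wd) = some w := hw
      rw [hx] at hw'
      exact absurd hw' (by simp)
    | some w =>
      rcases h2 w with h | h
      · obtain ⟨s, hs⟩ := (ev_eq_one_iff_stage P w).1 h
        refine ⟨s, h3, fun w' hw => ?_⟩
        have hw' : (Encodable.decode x : Option Wd) = some w' := hw
        rw [hx, Option.some_inj] at hw'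
        subst hw'
        exact Or.inl hs
      · obtain ⟨y, hy⟩ := (triv_iff (addRel P w)).2 h
        refine ⟨y, h3, fun w' hw => ?_⟩
        have hw' : (Encodable.decode x : Option Wd) = some w' := hw
        rw [hx, Option.some_inj] at hw'
        subst hw'
        exact Or.inr hy
  · intro h
    constructor
    · intro h1
      obtain ⟨y, hy⟩ := (triv_iff P).2 h1
      obtain ⟨z, hz, -⟩ := h y
      exact hz hy
    · intro w
      obtain ⟨y, -, hy⟩ := h (Encodable.encode w)
      rcases hy w (Encodable.encodek w) with h1 | h1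
      · exact Or.inl ((ev_eq_one_iff_stage P w).2 ⟨y, h1⟩)
      · exact Or.inr ((triv_iff (addRel P w)).1 ⟨y, h1⟩)

theorem main :
    (∀ S : Set Presentation, IsSigma2 S → (∀ P ∈ S, IsSimpleGroup (PGroup P)) →
      ∃ (G : Type) (_ : Group G), (∃ g : Fin 2 → G, Subgroup.closure (Set.range g) = ⊤) ∧
        Group.ResiduallyFinite G ∧ derivedSeries G 3 = ⊥ ∧ DecidableWordProblem G ∧
        ∀ P ∈ S, ¬ Embeds G (PGroup P)) ∧
    IsPi2 {P | IsSimpleGroup (PGroup P)} ∧
    (BooneHigman → ¬ IsSigma2 {P | IsSimpleGroup (PGroup P)}) ∧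
    (BooneHigman → ∀ S : Set Presentation, IsSigma2 S → (∀ P ∈ S, IsSimpleGroup (PGroup P)) →
      ∃ P, IsSimpleGroup (PGroup P) ∧ ∀ Q ∈ S, ¬ Embeds (PGroup P) (PGroup Q)) :=
  ⟨sigma_two_barrier', simple_pi_two, bh_not_sigma, bh_consequence⟩

end Vale.Agent.P193
end
end
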