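import Vale.Agent.P193.MathlibUsed
import Vale.Agent.P193.Bdl.B1

set_option linter.all false

section

section


/-! file MDefs -/

section FileMDefs
/-!
Boone-Higman project, part B: letters, machines, irreducible words, run property.
-/

namespace Vale.Agent.P193.BH

/-- stack letters. `i0 k`, `B` form stack 0; `i1 k`, `bot` form stack 1; `t a` are tape letters,
their stack index is given by the machine (at least 2). `i0 0 = b` (fuel), `i0 1, i0 2` digits. -/
inductive SL (T : Type) : Type
  | i0 : Fin 3 → SL T
  | B : SL T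
  | i1 : Fin 3 → SL T
  | bot : SL T
  | t : T → SL T
  deriving DecidableEq

/-- letters of the machine ring -/
inductive Letter (T Q : Type) (n : ℕ) : Type
  | s : SL T → Letter T Q n
  | q0 : Bool → Letter T Q n
  | q : Q → Letter T Q n
  | qh : Letter T Q n
  | E : Letter T Q n
  | X : Letter T Q n
  | Z : Letter T Q n
  | u : Letter T Q n
  | v : Letter T Q n
  | u1 : Letter T Q n
  | v1 : Letter T Q n
  | g : Fin n × Bool → Letter T Q n
  deriving DecidableEq

variable {T Q : Type} {n : ℕ}

/-- stack index -/
def stk (stkT : T → ℕ) : SL T → ℕ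
  | .i0 _ => 0
  | .B => 0
  | .i1 _ => 1
  | .bot => 1
  | .t a => stkT a

/-- weight of a word -/
def wtL (wt : Letter T Q n → ℕ) (w : List (Letter T Q n)) : ℕ := (w.map wt).sum

/-- a machine; a rule `(q, γ, rhs)` means `q γ = rhs` (`none` is zero), `γ` is a nonempty word in
letters of one stack of index at least 1. Rules of the start states `q0 μ` are implicit:
`q0 μ * i0 k = q0 μ * i1 k`, `q0 μ * B = st μ`. -/
structure Machine (T Q : Type) (n : ℕ) where
  stkT : T → ℕ
  rules : List (Q × List (SL T) × Option (List (Letter T Q n)))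
  st : Bool → List (Letter T Q n)
  wt : Letter T Q n → ℕ
  stk_ge : ∀ a, 2 ≤ stkT a
  lhs_ne : ∀ r ∈ rules, r.2.1 ≠ []
  lhs_stk : ∀ r ∈ rules, ∃ j, 1 ≤ j ∧ ∀ a ∈ r.2.1, stk stkT a = j
  det_stk : ∀ r ∈ rules, ∀ r' ∈ rules, r.1 = r'.1 → ∀ a ∈ r.2.1, ∀ b ∈ r'.2.1,
    stk stkT a = stk stkT b
  det : ∀ r ∈ rules, ∀ r' ∈ rules, r.1 = r'.1 → r.2.1 <+: r'.2.1 → r = r'
  wt_rule : ∀ r ∈ rules, ∀ w, r.2.2 = some w → wtL wt w < wt (.q r.1) + wtL wt (r.2.1.map .s)
  wt_hat : ∀ k, wt (.s (.i1 k)) < wt (.s (.i0 k))
  wt_st : ∀ μ, wtL wt (st μ) < wt (.q0 μ) + wt (.s .B)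
  wt_g : ∀ p, wt (.g p) = 0
  /-- stack 1 is read letter by letter -/
  lhs_one : ∀ r ∈ rules, (∃ a ∈ r.2.1, stk stkT a = 1) → r.2.1.length = 1
  /-- the virtual bottom letters are free -/
  wt_bot : wt (.s .bot) = 0

/-- product of the images of the letters of a word -/
def pr {N : Type} [Monoid N] (ρ : Letter T Q n → N) (w : List (Letter T Q n)) : N :=
  (w.map ρ).prod

/-- `ρ` respects the commutation relations and the machine rules -/
structure Machine.Resp (M : Machine T Q n) {N : Type} [Ring N] (ρ : Letter T Q n → N) : Prop where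
  comm : ∀ a b : SL T, stk M.stkT a ≠ stk M.stkT b → ρ (.s a) * ρ (.s b) = ρ (.s b) * ρ (.s a)
  rule_some : ∀ p γ w, (p, γ, some w) ∈ M.rules → ρ (.q p) * pr ρ (γ.map .s) = pr ρ w
  rule_none : ∀ p γ, (p, γ, none) ∈ M.rules → ρ (.q p) * pr ρ (γ.map .s) = 0

/-! ### words -/

/-- maximal initial run of stack letters -/
def srun : List (Letter T Q n) → List (SL T)
  | .s a :: w => a :: srun w
  | _ => []

/-- the rest after the maximal initial run of stack letters -/
def srest : List (Letter T Q n) → List (Letter T Q n)
  | .s _ :: w => srest w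
  | w => w

/-- maximal initial run of group letters -/
def grun : List (Letter T Q n) → List (Fin n × Bool)
  | .g a :: w => a :: grun w
  | _ => []

/-- the part of a run in the stack `j` -/
def part (stkT : T → ℕ) (j : ℕ) (r : List (SL T)) : List (SL T) :=
  r.filter fun a => stk stkT a = j

/-- value of a group word -/
def ev {G : Type*} [Group G] (f : Fin n → G) (w : List (Fin n × Bool)) : G :=
  (w.map fun p => cond p.2 (f p.1) (f p.1)⁻¹).prod

/-- canonical group words: least code -/
def Can {G : Type*} [Group G] (f : Fin n → G) (w : List (Fin n × Bool)) : Prop :=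
  ∀ w', ev f w' = ev f w → Encodable.encode w ≤ Encodable.encode w'

/-- `a :: w` is reducible at its head (`w` irreducible) -/
def Head {G : Type*} [Group G] (M : Machine T Q n) (f : Fin n → G) :
    Letter T Q n → List (Letter T Q n) → Prop
  | .s a, w => (∃ b r, srun w = b :: r ∧ stk M.stkT b < stk M.stkT a) ∨
      ((∃ k, a = .i0 k) ∧ part M.stkT 0 (srun w) = [.B] ∧ ∃ w', srest w = .E :: w') ∨
      (a = .bot ∧ part M.stkT 1 (srun w) = [] ∧ ∃ w', srest w = .E :: w')
  | .q0 _, w => part M.stkT 0 (srun w) ≠ []
  | .q p, w => (∃ j γ rhs, (p, γ, rhs) ∈ M.rules ∧ (∀ a ∈ γ, stk M.stkT a = j) ∧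
        γ <+: part M.stkT j (srun w)) ∨
      (∃ rhs, (p, [.bot], rhs) ∈ M.rules ∧ part M.stkT 1 (srun w) = [] ∧
        ∃ w', srest w = .E :: w')
  | .qh, w => ∃ w', w = .E :: w'
  | .X, w => ∃ (k : ℕ) (m w' : List (Letter T Q n)), m.length ≤ k ∧
      w = List.replicate k .u ++ .v :: (m ++ .v1 :: (List.replicate k .u1 ++ .Z :: w'))
  | .g p, w => ¬ Can f (p :: grun w)
  | _, _ => False

/-- irreducible words -/
def Irr {G : Type*} [Group G] (M : Machine T Q n) (f : Fin n → G) : List (Letter T Q n) → Prop
  | [] => True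
  | a :: w => Irr M f w ∧ ¬ Head M f a w

/-- the word `X u^k v m v1 u1^k Z` -/
def xw (k : ℕ) (m : List (Letter T Q n)) : List (Letter T Q n) :=
  .X :: (List.replicate k .u ++ .v :: (m ++ .v1 :: (List.replicate k .u1 ++ [.Z])))

/-- words forced to be `1`; `tgt` gives the targets -/
def Out1 {G : Type*} [Group G] (M : Machine T Q n) (f : Fin n → G)
    (tgt : ℕ → Option (List (Letter T Q n))) : Set (List (Letter T Q n)) :=
  {w | (∃ c, ev f c = 1 ∧ w = c.map .g) ∨
    ∃ k m, Irr M f m ∧ m.length ≤ k ∧ tgt k = some m ∧ w = xw k m}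

/-- words forced to be `0` -/
def Out0 {G : Type*} [Group G] (M : Machine T Q n) (f : Fin n → G)
    (tgt : ℕ → Option (List (Letter T Q n))) : Set (List (Letter T Q n)) :=
  {w | ∃ k m, Irr M f m ∧ m.length ≤ k ∧ tgt k ≠ some m ∧ w = xw k m}

/-- the run property (interface between the ring part and the machine part).
`tgt` is the target function, every irreducible word is a target for arbitrarily large numbers -/
structure RunProp {G : Type*} [Group G] (M : Machine T Q n) (f : Fin n → G)
    (tgt : ℕ → Option (List (Letter T Q n))) : Prop where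
  tgt_surj : ∀ (m : List (Letter T Q n)) (k₀ : ℕ), ∃ k, k₀ ≤ k ∧ tgt k = some m
  run1 : ∀ y : List (Fin 3), ∃ out, (out = [] ∨ out ∈ Out1 M f tgt) ∧ (y = [] → out = []) ∧
    ∀ (N : Type) [Ring N] (ρ : Letter T Q n → N), M.Resp ρ →
      pr ρ (M.st true) * pr ρ (y.map fun k => .s (.i1 k)) * ρ (.s .bot) = pr ρ out * ρ .qh
  run0 : ∀ y : List (Fin 3), (∀ (N : Type) [Ring N] (ρ : Letter T Q n → N), M.Resp ρ →
      pr ρ (M.st false) * pr ρ (y.map fun k => .s (.i1 k)) * ρ (.s .bot) = 0) ∨
    (y ≠ [] ∧ ∃ out, out ∈ Out0 M f tgt ∧ ∀ (N : Type) [Ring N] (ρ : Letter T Q n → N), M.Resp ρ →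
      pr ρ (M.st false) * pr ρ (y.map fun k => .s (.i1 k)) * ρ (.s .bot) = pr ρ out * ρ .qh)
  surj1 : ∀ out ∈ Out1 M f tgt, ∃ y : List (Fin 3),
    ∀ (N : Type) [Ring N] (ρ : Letter T Q n → N), M.Resp ρ →
      pr ρ (M.st true) * pr ρ (y.map fun k => .s (.i1 k)) * ρ (.s .bot) = pr ρ out * ρ .qh
  surj0 : ∀ out ∈ Out0 M f tgt, ∃ y : List (Fin 3),
    ∀ (N : Type) [Ring N] (ρ : Letter T Q n → N), M.Resp ρ →
      pr ρ (M.st false) * pr ρ (y.map fun k => .s (.i1 k)) * ρ (.s .bot) = pr ρ out * ρ .qh

end Vale.Agent.P193.BH

end FileMDefs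

/-! file BRun -/

section FileBRun
/-!
Boone-Higman project, part B2: sorted runs, insertion, deletion, irreducible words.
-/

namespace Vale.Agent.P193.BH

variable {T Q : Type} {n : ℕ}

/-! ### runs -/

/-- sorted run -/
def SortedR (stkT : T → ℕ) (r : List (SL T)) : Prop :=
  r.Pairwise fun a b => stk stkT a ≤ stk stkT b

/-- sorted insertion in a run -/
def ins (stkT : T → ℕ) (x : SL T) : List (SL T) → List (SL T)
  | [] => [x]
  | y :: r => if stk stkT y < stk stkT x then y :: ins stkT x r else x :: y :: r

/-- deletion of the first `k` letters of stack `j` in a run -/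
def delr (stkT : T → ℕ) (j : ℕ) : ℕ → List (SL T) → List (SL T)
  | 0, r => r
  | _ + 1, [] => []
  | k + 1, a :: r => if stk stkT a = j then delr stkT j k r else a :: delr stkT j (k + 1) r

variable (stkT : T → ℕ)

@[simp] theorem part_nil (j : ℕ) : part stkT j [] = [] := rfl

theorem part_cons (j : ℕ) (a : SL T) (r : List (SL T)) :
    part stkT j (a :: r) = if stk stkT a = j then a :: part stkT j r else part stkT j r := by
  unfold part
  rw [List.filter_cons]
  simp

theorem part_cons_self (a : SL T) (r : List (SL T)) :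
    part stkT (stk stkT a) (a :: r) = a :: part stkT (stk stkT a) r := by
  rw [part_cons, if_pos rfl]

theorem part_cons_of_ne {j : ℕ} {a : SL T} (h : stk stkT a ≠ j) (r : List (SL T)) :
    part stkT j (a :: r) = part stkT j r := by
  rw [part_cons, if_neg h]

theorem mem_part {j : ℕ} {a : SL T} {r : List (SL T)} :
    a ∈ part stkT j r ↔ a ∈ r ∧ stk stkT a = j := by
  simp [part]

theorem SortedR.ext {stkT : T → ℕ} : ∀ {r r' : List (SL T)}, SortedR stkT r → SortedR stkT r' →
    (∀ j, part stkT j r = part stkT j r') → r = r'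
  | [], [], _, _, _ => rfl
  | [], b :: r', _, _, h => by
      have := h (stk stkT b)
      rw [part_cons_self] at this
      simp at this
  | a :: r, [], _, _, h => by
      have := h (stk stkT a)
      rw [part_cons_self] at this
      simp at this
  | a :: r, b :: r', h1, h2, h => by
      have h1' := List.pairwise_cons.1 h1
      have h2' := List.pairwise_cons.1 h2
      have hab : stk stkT a = stk stkT b := by
        apply le_antisymm
        · have hb : b ∈ part stkT (stk stkT b) (a :: r) := by
            rw [h, part_cons_self]; simp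
          rcases (List.mem_cons.1 ((mem_part stkT).1 hb).1) with rfl | hb'
          · exact le_rfl
          · exact h1'.1 _ hb'
        · have ha : a ∈ part stkT (stk stkT a) (b :: r') := by
            rw [← h, part_cons_self]; simp
          rcases (List.mem_cons.1 ((mem_part stkT).1 ha).1) with rfl | ha'
          · exact le_rfl
          · exact h2'.1 _ ha'
      have h0 := h (stk stkT a)
      rw [part_cons_self, hab, part_cons_self] at h0
      have hab' : a = b := (List.cons.inj h0).1
      subst hab'
      congr 1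
      refine SortedR.ext h1'.2 h2'.2 fun j => ?_
      have hj := h j
      by_cases hja : stk stkT a = j
      · subst hja
        rw [part_cons_self, part_cons_self] at hj
        exact (List.cons.inj hj).2
      · rw [part_cons_of_ne stkT hja, part_cons_of_ne stkT hja] at hj
        exact hj

theorem mem_ins {x y : SL T} : ∀ {r : List (SL T)}, y ∈ ins stkT x r ↔ y = x ∨ y ∈ r
  | [] => by simp only [ins, List.mem_cons, List.not_mem_nil, or_false]
  | z :: r => by
      unfold ins
      split_ifs
      · rw [List.mem_cons, mem_ins, List.mem_cons]; tauto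
      · rw [List.mem_cons]

theorem SortedR.ins {stkT : T → ℕ} (x : SL T) : ∀ {r : List (SL T)}, SortedR stkT r →
    SortedR stkT (ins stkT x r)
  | [], _ => by simp only [SortedR, BH.ins, List.pairwise_cons, List.not_mem_nil, IsEmpty.forall_iff, implies_true, List.Pairwise.nil, and_self]
  | y :: r, h => by
      have h' := List.pairwise_cons.1 h
      unfold Vale.Agent.P193.BH.ins
      split_ifs with hy
      · refine List.pairwise_cons.2 ⟨fun z hz => ?_, SortedR.ins x h'.2⟩
        rcases (mem_ins stkT).1 hz with rfl | hz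
        · exact hy.le
        · exact h'.1 z hz
      · refine List.pairwise_cons.2 ⟨fun z hz => ?_, h⟩
        rcases List.mem_cons.1 hz with rfl | hz
        · exact not_lt.1 hy
        · exact (not_lt.1 hy).trans (h'.1 z hz)

theorem part_ins_self (x : SL T) : ∀ r : List (SL T),
    part stkT (stk stkT x) (ins stkT x r) = x :: part stkT (stk stkT x) r
  | [] => by simp only [ins, part_cons, ↓reduceIte, part_nil]
  | y :: r => by
      unfold ins
      split_ifs with hy
      · rw [part_cons_of_ne stkT hy.ne, part_cons_of_ne stkT hy.ne, part_ins_self x r]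
      · rw [part_cons_self]

theorem part_ins_of_ne {x : SL T} {j : ℕ} (h : stk stkT x ≠ j) : ∀ r : List (SL T),
    part stkT j (ins stkT x r) = part stkT j r
  | [] => by simp [ins, part_cons, h]
  | y :: r => by
      unfold ins
      split_ifs with hy
      · rw [part_cons, part_cons, part_ins_of_ne h r]
      · rw [part_cons_of_ne stkT h]

theorem ins_of_le {x : SL T} {r : List (SL T)} (h : ∀ y ∈ r, stk stkT x ≤ stk stkT y) :
    ins stkT x r = x :: r := by
  cases r with
  | nil => rfl
  | cons y r => simp [ins, not_lt.2 (h y (by simp))]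

theorem SortedR.ins_comm {stkT : T → ℕ} {x y : SL T} (h : stk stkT x ≠ stk stkT y)
    {r : List (SL T)} (hr : SortedR stkT r) :
    Vale.Agent.P193.BH.ins stkT x (Vale.Agent.P193.BH.ins stkT y r) =
      Vale.Agent.P193.BH.ins stkT y (Vale.Agent.P193.BH.ins stkT x r) := by
  refine SortedR.ext ((hr.ins y).ins x) ((hr.ins x).ins y) fun j => ?_
  by_cases hx : stk stkT x = j
  · subst hx
    rw [part_ins_self, part_ins_of_ne stkT h.symm, part_ins_of_ne stkT h.symm, part_ins_self]
  · rw [part_ins_of_ne stkT hx]
    by_cases hy : stk stkT y = j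
    · subst hy
      rw [part_ins_self, part_ins_self, part_ins_of_ne stkT hx]
    · rw [part_ins_of_ne stkT hy, part_ins_of_ne stkT hy, part_ins_of_ne stkT hx]

theorem delr_sublist (j : ℕ) : ∀ (k : ℕ) (r : List (SL T)), List.Sublist (delr stkT j k r) r
  | 0, r => by simp only [delr, List.Sublist.refl]
  | k + 1, [] => by simp [delr]
  | k + 1, a :: r => by
      unfold delr
      split_ifs
      · exact (delr_sublist j k r).trans (List.sublist_cons_self a r)
      · exact (delr_sublist j (k + 1) r).cons_cons a

theorem SortedR.delr {stkT : T → ℕ} {r : List (SL T)} (h : SortedR stkT r) (j k : ℕ) :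
    SortedR stkT (Vale.Agent.P193.BH.delr stkT j k r) :=
  List.Pairwise.sublist (delr_sublist stkT j k r) h

theorem part_delr_self (j : ℕ) : ∀ (k : ℕ) (r : List (SL T)),
    part stkT j (delr stkT j k r) = (part stkT j r).drop k
  | 0, r => by simp only [delr, List.drop_zero]
  | k + 1, [] => by simp [delr]
  | k + 1, a :: r => by
      unfold delr
      split_ifs with h
      · subst h
        rw [part_cons_self, part_delr_self, List.drop_succ_cons]
      · rw [part_cons_of_ne stkT h, part_cons_of_ne stkT h, part_delr_self]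

theorem part_delr_of_ne {j j' : ℕ} (h : j ≠ j') : ∀ (k : ℕ) (r : List (SL T)),
    part stkT j' (delr stkT j k r) = part stkT j' r
  | 0, r => by simp [delr]
  | k + 1, [] => by simp [delr]
  | k + 1, a :: r => by
      unfold delr
      split_ifs with ha
      · rw [part_cons_of_ne stkT (by rw [ha]; exact h), part_delr_of_ne h]
      · rw [part_cons, part_cons, part_delr_of_ne h]

/-! ### words -/

@[simp] theorem srun_append (r : List (SL T)) (w : List (Letter T Q n)) :
    srun (r.map .s ++ w) = r ++ srun w := by
  induction r with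
  | nil => rfl
  | cons a r ih => simp only [List.map_cons, List.cons_append, srun, ih]

@[simp] theorem srest_append (r : List (SL T)) (w : List (Letter T Q n)) :
    srest (r.map .s ++ w) = srest w := by
  induction r with
  | nil => rfl
  | cons a r ih => simp only [List.map_cons, List.cons_append, srest, ih]

theorem srun_srest (w : List (Letter T Q n)) : (srun w).map .s ++ srest w = w := by
  induction w with
  | nil => rfl
  | cons a w ih => cases a <;> simp [srun, srest, ih]

@[simp] theorem srun_of_srest (w : List (Letter T Q n)) : srun (srest w) = [] := by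
  induction w with
  | nil => rfl
  | cons a w ih => cases a <;> simp [srun, srest, ih]

@[simp] theorem srest_of_srest (w : List (Letter T Q n)) : srest (srest w) = srest w := by
  induction w with
  | nil => rfl
  | cons a w ih => cases a <;> simp only [srest, ih]

theorem srest_of_srun {w : List (Letter T Q n)} (h : srun w = []) : srest w = w := by
  have := srun_srest w
  rw [h] at this
  simpa using this

/-- followed by `E` -/
def FollE (w : List (Letter T Q n)) : Prop := ∃ w', srest w = .E :: w'

/-- insertion of a stack letter -/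
def insw (x : SL T) (w : List (Letter T Q n)) : List (Letter T Q n) :=
  (ins stkT x (srun w)).map .s ++ srest w

/-- deletion of the first `k` letters of stack `j` in the initial run -/
def delw (j k : ℕ) (w : List (Letter T Q n)) : List (Letter T Q n) :=
  (delr stkT j k (srun w)).map .s ++ srest w

/-- insertion of several stack letters -/
def insL (γ : List (SL T)) (w : List (Letter T Q n)) : List (Letter T Q n) :=
  γ.foldr (insw stkT) w

@[simp] theorem srun_insw (x : SL T) (w : List (Letter T Q n)) :
    srun (insw stkT x w) = ins stkT x (srun w) := by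
  simp [insw]

@[simp] theorem srest_insw (x : SL T) (w : List (Letter T Q n)) :
    srest (insw stkT x w) = srest w := by
  simp [insw]

@[simp] theorem srun_delw (j k : ℕ) (w : List (Letter T Q n)) :
    srun (delw stkT j k w) = delr stkT j k (srun w) := by
  simp [delw]

@[simp] theorem srest_delw (j k : ℕ) (w : List (Letter T Q n)) :
    srest (delw stkT j k w) = srest w := by
  simp [delw]

@[simp] theorem insL_nil (w : List (Letter T Q n)) : insL stkT [] w = w := rfl

@[simp] theorem insL_cons (x : SL T) (γ : List (SL T)) (w : List (Letter T Q n)) :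
    insL stkT (x :: γ) w = insw stkT x (insL stkT γ w) := rfl

@[simp] theorem srest_insL (γ : List (SL T)) (w : List (Letter T Q n)) :
    srest (insL stkT γ w) = srest w := by
  induction γ with
  | nil => rfl
  | cons a γ ih => simp [ih]

theorem sorted_insL {stkT : T → ℕ} (γ : List (SL T)) {w : List (Letter T Q n)}
    (h : SortedR stkT (srun w)) : SortedR stkT (srun (insL stkT γ w)) := by
  induction γ with
  | nil => exact h
  | cons a γ ih => rw [insL_cons, srun_insw]; exact ih.ins a

theorem part_insL_self {j : ℕ} {γ : List (SL T)} (hγ : ∀ a ∈ γ, stk stkT a = j)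
    (w : List (Letter T Q n)) :
    part stkT j (srun (insL stkT γ w)) = γ ++ part stkT j (srun w) := by
  induction γ with
  | nil => rfl
  | cons a γ ih =>
      have ha : stk stkT a = j := hγ a (by simp)
      rw [insL_cons, srun_insw]
      subst ha
      rw [part_ins_self, ih fun b hb => hγ b (by simp [hb])]
      rfl

theorem part_insL_of_ne {j j' : ℕ} {γ : List (SL T)} (hγ : ∀ a ∈ γ, stk stkT a = j) (h : j ≠ j')
    (w : List (Letter T Q n)) :
    part stkT j' (srun (insL stkT γ w)) = part stkT j' (srun w) := by
  induction γ with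
  | nil => rfl
  | cons a γ ih =>
      have ha : stk stkT a = j := hγ a (by simp)
      rw [insL_cons, srun_insw, part_ins_of_ne stkT (by rw [ha]; exact h),
        ih fun b hb => hγ b (by simp [hb])]

/-- two words with sorted runs, equal parts and equal rest are equal -/
theorem word_ext {stkT : T → ℕ} {w w' : List (Letter T Q n)} (h : SortedR stkT (srun w))
    (h' : SortedR stkT (srun w')) (hp : ∀ j, part stkT j (srun w) = part stkT j (srun w'))
    (hr : srest w = srest w') : w = w' := by
  rw [← srun_srest w, ← srun_srest w', hr, h.ext h' hp]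

theorem insw_comm {stkT : T → ℕ} {x y : SL T} (h : stk stkT x ≠ stk stkT y)
    {w : List (Letter T Q n)} (hw : SortedR stkT (srun w)) :
    insw stkT x (insw stkT y w) = insw stkT y (insw stkT x w) := by
  unfold insw
  simp only [srun_append, srun_of_srest, List.append_nil, srest_append, srest_of_srest]
  rw [hw.ins_comm h]

theorem insL_delw {stkT : T → ℕ} {j : ℕ} {γ : List (SL T)} (hγ : ∀ a ∈ γ, stk stkT a = j)
    {w : List (Letter T Q n)} (hw : SortedR stkT (srun w))
    (hp : γ <+: part stkT j (srun w)) : insL stkT γ (delw stkT j γ.length w) = w := by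
  have hd : SortedR stkT (srun (delw stkT j γ.length w)) := by
    rw [srun_delw]; exact hw.delr _ _
  refine word_ext (sorted_insL γ hd) hw (fun i => ?_) (by simp)
  by_cases hi : j = i
  · subst hi
    rw [part_insL_self stkT hγ, srun_delw, part_delr_self]
    obtain ⟨t, ht⟩ := hp
    rw [← ht]
    simp
  · rw [part_insL_of_ne stkT hγ hi, srun_delw, part_delr_of_ne stkT hi]

theorem delw_insL {stkT : T → ℕ} {j : ℕ} {γ : List (SL T)} (hγ : ∀ a ∈ γ, stk stkT a = j)
    {w : List (Letter T Q n)} (hw : SortedR stkT (srun w)) :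
    delw stkT j γ.length (insL stkT γ w) = w := by
  refine word_ext ?_ hw (fun i => ?_) (by simp)
  · rw [srun_delw]; exact (sorted_insL γ hw).delr _ _
  · rw [srun_delw]
    by_cases hi : j = i
    · subst hi
      rw [part_delr_self, part_insL_self stkT hγ]
      simp
    · rw [part_delr_of_ne stkT hi, part_insL_of_ne stkT hγ hi]

/-! ### weights -/

@[simp] theorem wtL_nil (wt : Letter T Q n → ℕ) : wtL wt [] = 0 := rfl

@[simp] theorem wtL_cons (wt : Letter T Q n → ℕ) (a : Letter T Q n) (w : List (Letter T Q n)) :
    wtL wt (a :: w) = wt a + wtL wt w := by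
  simp [wtL]

@[simp] theorem wtL_append (wt : Letter T Q n → ℕ) (w w' : List (Letter T Q n)) :
    wtL wt (w ++ w') = wtL wt w + wtL wt w' := by
  simp [wtL]

theorem wtL_ins (wt : Letter T Q n → ℕ) (x : SL T) : ∀ r : List (SL T),
    wtL wt ((ins stkT x r).map .s) = wt (.s x) + wtL wt (r.map .s)
  | [] => by simp [ins]
  | y :: r => by
      unfold ins
      split_ifs
      · rw [List.map_cons, wtL_cons, wtL_ins wt x r, List.map_cons, wtL_cons]; omega
      · simp

theorem wtL_insw (wt : Letter T Q n → ℕ) (x : SL T) (w : List (Letter T Q n)) :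
    wtL wt (insw stkT x w) = wt (.s x) + wtL wt w := by
  conv_rhs => rw [← srun_srest w]
  rw [insw, wtL_append, wtL_append, wtL_ins, add_assoc]

theorem wtL_delr (wt : Letter T Q n → ℕ) (j : ℕ) : ∀ (k : ℕ) (r : List (SL T)),
    wtL wt ((delr stkT j k r).map .s) + wtL wt (((part stkT j r).take k).map .s) =
      wtL wt (r.map .s)
  | 0, r => by simp [delr]
  | k + 1, [] => by simp [delr]
  | k + 1, a :: r => by
      unfold delr
      split_ifs with h
      · subst h
        have := wtL_delr wt (stk stkT a) k r
        rw [part_cons_self, List.take_succ_cons, List.map_cons, wtL_cons, List.map_cons, wtL_cons]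
        omega
      · have := wtL_delr wt j (k + 1) r
        rw [part_cons_of_ne stkT h, List.map_cons, wtL_cons, List.map_cons, wtL_cons]
        omega

theorem wtL_delw (wt : Letter T Q n → ℕ) {j : ℕ} {γ : List (SL T)} {w : List (Letter T Q n)}
    (hp : γ <+: part stkT j (srun w)) :
    wtL wt (delw stkT j γ.length w) + wtL wt (γ.map .s) = wtL wt w := by
  have h := wtL_delr stkT wt j γ.length (srun w)
  have ht : (part stkT j (srun w)).take γ.length = γ := (List.prefix_iff_eq_take.1 hp).symm
  rw [ht] at h
  conv_rhs => rw [← srun_srest w]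
  rw [delw, wtL_append, wtL_append]
  omega

/-! ### irreducible words and runs -/

section Irr

variable {G : Type*} [Group G] (M : Machine T Q n) (f : Fin n → G)

/-- the condition on a run followed by `E` -/
def RunOK (r : List (SL T)) : Prop :=
  (∀ l k, part stkT 0 r ≠ l ++ [.i0 k, .B]) ∧ (∀ l, part stkT 1 r ≠ l ++ [.bot])

theorem irr_run (r : List (SL T)) (z : List (Letter T Q n)) (hz : srun z = []) :
    Irr M f (r.map .s ++ z) ↔ SortedR M.stkT r ∧ Irr M f z ∧
      ((∃ w', z = .E :: w') → RunOK M.stkT r) := by
  have hz' : srest z = z := srest_of_srun hz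
  induction r with
  | nil =>
      constructor
      · intro h
        refine ⟨List.Pairwise.nil, h, fun _ => ⟨fun l k h => ?_, fun l h => ?_⟩⟩ <;>
          · have := congrArg List.length h
            simp at this
      · intro h
        exact h.2.1
  | cons a r ih =>
      have hIrr : Irr M f ((a :: r).map .s ++ z) ↔ Irr M f (r.map .s ++ z) ∧
          ¬ Head M f (.s a) (r.map .s ++ z) := by
        rw [List.map_cons, List.cons_append]; exact Iff.rfl
      refine (hIrr.trans (and_congr_left' ih)).trans ?_
      have hHead : Head M f (.s a) (r.map .s ++ z) ↔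
          (∃ b r', r = b :: r' ∧ stk M.stkT b < stk M.stkT a) ∨
          ((∃ k, a = .i0 k) ∧ part M.stkT 0 r = [.B] ∧ ∃ w', z = .E :: w') ∨
          (a = .bot ∧ part M.stkT 1 r = [] ∧ ∃ w', z = .E :: w') := by
        simp only [Head, srun_append, hz, List.append_nil, srest_append, hz']
      rw [hHead]
      constructor
      · rintro ⟨⟨hs, hzI, hok⟩, hh⟩
        push Not at hh
        obtain ⟨h1, h2, h3⟩ := hh
        refine ⟨?_, hzI, fun hE => ?_⟩
        · refine List.pairwise_cons.2 ⟨fun b hb => ?_, hs⟩
          cases r with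
          | nil => simp at hb
          | cons c r =>
              have h1' := h1 c r rfl
              rcases List.mem_cons.1 hb with rfl | hb
              · exact h1'
              · exact h1'.trans ((List.pairwise_cons.1 hs).1 b hb)
        · obtain ⟨w', hw'⟩ := hE
          obtain ⟨ho1, ho2⟩ := hok ⟨w', hw'⟩
          refine ⟨fun l k h => ?_, fun l h => ?_⟩
          · by_cases ha : stk M.stkT a = 0
            · rw [part_cons, if_pos ha] at h
              cases l with
              | nil =>
                  simp only [List.nil_append, List.cons.injEq] at h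
                  exact h2 ⟨k, h.1⟩ h.2 w' hw'
              | cons c l =>
                  rw [List.cons_append] at h
                  exact ho1 l k (List.cons.inj h).2
            · rw [part_cons, if_neg ha] at h
              exact ho1 l k h
          · by_cases ha : stk M.stkT a = 1
            · rw [part_cons, if_pos ha] at h
              cases l with
              | nil =>
                  simp only [List.nil_append, List.cons.injEq] at h
                  exact h3 h.1 h.2 w' hw'
              | cons c l =>
                  rw [List.cons_append] at h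
                  exact ho2 l (List.cons.inj h).2
            · rw [part_cons, if_neg ha] at h
              exact ho2 l h
      · rintro ⟨hs, hzI, hok⟩
        have hs' := List.pairwise_cons.1 hs
        refine ⟨⟨hs'.2, hzI, fun hE => ?_⟩, ?_⟩
        · obtain ⟨ho1, ho2⟩ := hok hE
          refine ⟨fun l k h => ?_, fun l h => ?_⟩
          · by_cases ha : stk M.stkT a = 0
            · refine ho1 (a :: l) k ?_
              rw [part_cons, if_pos ha, h]; rfl
            · refine ho1 l k ?_
              rw [part_cons, if_neg ha, h]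
          · by_cases ha : stk M.stkT a = 1
            · refine ho2 (a :: l) ?_
              rw [part_cons, if_pos ha, h]; rfl
            · refine ho2 l ?_
              rw [part_cons, if_neg ha, h]
        · rintro (⟨b, r', rfl, hb⟩ | ⟨⟨k, rfl⟩, hp, hE⟩ | ⟨rfl, hp, hE⟩)
          · exact absurd (hs'.1 b (by simp)) (not_le.2 hb)
          · refine (hok hE).1 [] k ?_
            rw [part_cons, if_pos (show stk M.stkT (SL.i0 k) = 0 from rfl), hp]; rfl
          · refine (hok hE).2 [] ?_
            rw [part_cons, if_pos (show stk M.stkT (SL.bot : SL T) = 1 from rfl), hp]; rfl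

theorem irr_iff (w : List (Letter T Q n)) :
    Irr M f w ↔ SortedR M.stkT (srun w) ∧ Irr M f (srest w) ∧
      (FollE w → RunOK M.stkT (srun w)) := by
  conv_lhs => rw [← srun_srest w]
  exact irr_run M f (srun w) (srest w) (srun_of_srest w)

variable {M f}

theorem Irr.sorted {w : List (Letter T Q n)} (h : Irr M f w) : SortedR M.stkT (srun w) :=
  ((irr_iff M f w).1 h).1

theorem Irr.srest {w : List (Letter T Q n)} (h : Irr M f w) : Irr M f (srest w) :=
  ((irr_iff M f w).1 h).2.1

theorem Irr.runOK {w : List (Letter T Q n)} (h : Irr M f w) (hE : FollE w) :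
    RunOK M.stkT (srun w) :=
  ((irr_iff M f w).1 h).2.2 hE

theorem Irr.tail {a : Letter T Q n} {w : List (Letter T Q n)} (h : Irr M f (a :: w)) :
    Irr M f w := h.1

theorem Irr.suffix {w w' : List (Letter T Q n)} (h : Irr M f (w ++ w')) : Irr M f w' := by
  induction w with
  | nil => exact h
  | cons a w ih => exact ih h.1

theorem Irr.insw {w : List (Letter T Q n)} (h : Irr M f w) (x : SL T)
    (h0 : ¬ ((∃ k, x = .i0 k) ∧ part M.stkT 0 (srun w) = [.B] ∧ FollE w))
    (h1 : ¬ (x = .bot ∧ part M.stkT 1 (srun w) = [] ∧ FollE w)) :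
    Irr M f (insw M.stkT x w) := by
  have hE' : FollE (Vale.Agent.P193.BH.insw M.stkT x w) ↔ FollE w := by
    simp only [FollE, srest_insw]
  rw [irr_iff, srun_insw, srest_insw, hE']
  refine ⟨h.sorted.ins x, h.srest, fun hE => ?_⟩
  obtain ⟨ho1, ho2⟩ := h.runOK hE
  refine ⟨fun l k hl => ?_, fun l hl => ?_⟩
  · by_cases hx : stk M.stkT x = 0
    · rw [← hx, part_ins_self, hx] at hl
      cases l with
      | nil =>
          simp only [List.nil_append, List.cons.injEq] at hl
          exact h0 ⟨⟨k, hl.1⟩, hl.2, hE⟩
      | cons c l =>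
          rw [List.cons_append] at hl
          exact ho1 l k (List.cons.inj hl).2
    · rw [part_ins_of_ne M.stkT hx] at hl
      exact ho1 l k hl
  · by_cases hx : stk M.stkT x = 1
    · rw [← hx, part_ins_self, hx] at hl
      cases l with
      | nil =>
          simp only [List.nil_append, List.cons.injEq] at hl
          exact h1 ⟨hl.1, hl.2, hE⟩
      | cons c l =>
          rw [List.cons_append] at hl
          exact ho2 l (List.cons.inj hl).2
    · rw [part_ins_of_ne M.stkT hx] at hl
      exact ho2 l hl

theorem Irr.delw {w : List (Letter T Q n)} (h : Irr M f w) (j k : ℕ) :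
    Irr M f (delw M.stkT j k w) := by
  have hE' : FollE (Vale.Agent.P193.BH.delw M.stkT j k w) ↔ FollE w := by
    simp only [FollE, srest_delw]
  rw [irr_iff, srun_delw, srest_delw, hE']
  refine ⟨h.sorted.delr j k, h.srest, fun hE => ?_⟩
  obtain ⟨ho1, ho2⟩ := h.runOK hE
  refine ⟨fun l i hl => ?_, fun l hl => ?_⟩
  · by_cases hj : j = 0
    · subst hj
      rw [part_delr_self] at hl
      refine ho1 ((part M.stkT 0 (srun w)).take k ++ l) i ?_
      rw [List.append_assoc, ← hl, List.take_append_drop]
    · rw [part_delr_of_ne M.stkT hj] at hl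
      exact ho1 l i hl
  · by_cases hj : j = 1
    · subst hj
      rw [part_delr_self] at hl
      refine ho2 ((part M.stkT 1 (srun w)).take k ++ l) ?_
      rw [List.append_assoc, ← hl, List.take_append_drop]
    · rw [part_delr_of_ne M.stkT hj] at hl
      exact ho2 l hl

end Irr

end Vale.Agent.P193.BH

end FileBRun

/-! file BDefs -/

section FileBDefs
/-!
Part B: operators on irreducible words, specification `IsOp`.
-/

namespace Vale.Agent.P193.BH

variable {T Q : Type} {n : ℕ} {G : Type*} [Group G]

/-- the letter `x` acts trivially on `w` -/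
def NoOp (M : Machine T Q n) (x : SL T) (w : List (Letter T Q n)) : Prop :=
  ((∃ k, x = .i0 k) ∧ part M.stkT 0 (srun w) = [.B] ∧ FollE w) ∨
    (x = .bot ∧ part M.stkT 1 (srun w) = [] ∧ FollE w)

/-- rest after the maximal initial group run -/
def grest : List (Letter T Q n) → List (Letter T Q n)
  | .g _ :: w => grest w
  | w => w

/-- action of a word, `none` is zero -/
def Lw (L : Letter T Q n → List (Letter T Q n) → Option (List (Letter T Q n)))
    (v w : List (Letter T Q n)) : Option (List (Letter T Q n)) :=
  v.foldr (fun a o => o.bind (L a)) (some w)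

/-- the tail of the pattern at `X` -/
def xt (k : ℕ) (m w : List (Letter T Q n)) : List (Letter T Q n) :=
  List.replicate k .u ++ .v :: (m ++ .v1 :: (List.replicate k .u1 ++ .Z :: w))

/-- specification of the operators -/
structure IsOp (M : Machine T Q n) (f : Fin n → G) (tgt : ℕ → Option (List (Letter T Q n)))
    (L : Letter T Q n → List (Letter T Q n) → Option (List (Letter T Q n))) : Prop where
  /-- irreducible words are preserved -/
  irr : ∀ a w w', Irr M f w → L a w = some w' → Irr M f w'
  /-- no pattern: prepend -/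
  cons : ∀ a w, Irr M f w → ¬ Head M f a w → L a w = some (a :: w)
  noop : ∀ x w, Irr M f w → NoOp M x w → L (.s x) w = some w
  ins : ∀ x w, Irr M f w → ¬ NoOp M x w → L (.s x) w = some (insw M.stkT x w)
  rule : ∀ p γ rhs w, (p, γ, rhs) ∈ M.rules → Irr M f w → Irr M f (insL M.stkT γ w) →
    L (.q p) (insL M.stkT γ w) = rhs.bind fun v => Lw L v w
  virt : ∀ p rhs w, (p, [.bot], rhs) ∈ M.rules → Irr M f w → part M.stkT 1 (srun w) = [] →
    FollE w → L (.q p) w = rhs.bind fun v => Lw L v w
  q0i : ∀ μ k w, Irr M f w → Irr M f (insw M.stkT (.i0 k) w) →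
    L (.q0 μ) (insw M.stkT (.i0 k) w) = (L (.s (.i1 k)) w).bind (L (.q0 μ))
  q0B : ∀ μ w, Irr M f w → Irr M f (insw M.stkT .B w) →
    L (.q0 μ) (insw M.stkT .B w) = Lw L (M.st μ) w
  qhE : ∀ w, Irr M f w → L .qh (.E :: w) = some w
  g : ∀ p w, Irr M f w → ∃ c, Can f c ∧ ev f c = ev f (p :: grun w) ∧
    L (.g p) w = some (c.map .g ++ grest w)
  Xhit : ∀ k m w, Irr M f (xt k m w) → m.length ≤ k → tgt k = some m →
    L .X (xt k m w) = some w
  Xmiss : ∀ k m w, Irr M f (xt k m w) → m.length ≤ k → tgt k ≠ some m →
    L .X (xt k m w) = none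

end Vale.Agent.P193.BH

end FileBDefs

/-! file MPres -/

section FileMPres
/-!
Boone-Higman project, part B1: the machine ring and its derived relations.
-/

namespace Vale.Agent.P193.BH

variable {T Q : Type} {n : ℕ}

@[simp] theorem pr_nil {N : Type} [Monoid N] (ρ : Letter T Q n → N) : pr ρ [] = 1 := rfl

@[simp] theorem pr_cons {N : Type} [Monoid N] (ρ : Letter T Q n → N) (a : Letter T Q n)
    (w : List (Letter T Q n)) : pr ρ (a :: w) = ρ a * pr ρ w := by
  simp [pr]

@[simp] theorem pr_append {N : Type} [Monoid N] (ρ : Letter T Q n → N)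
    (w w' : List (Letter T Q n)) : pr ρ (w ++ w') = pr ρ w * pr ρ w' := by
  simp [pr]

theorem map_pr {N N' : Type} [Monoid N] [Monoid N'] (φ : N →* N') (ρ : Letter T Q n → N)
    (w : List (Letter T Q n)) : φ (pr ρ w) = pr (fun a => φ (ρ a)) w := by
  induction w with
  | nil => simp
  | cons a w ih => simp only [pr_cons, map_mul, ih]

/-- `ρ` respects all defining relations of the machine ring -/
structure Machine.Full (M : Machine T Q n) {N : Type} [Ring N] (ρ : Letter T Q n → N) : Prop
    extends M.Resp ρ where
  hat : ∀ μ k, ρ (.q0 μ) * ρ (.s (.i0 k)) = ρ (.q0 μ) * ρ (.s (.i1 k))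
  start : ∀ μ, ρ (.q0 μ) * ρ (.s .B) = pr ρ (M.st μ)
  eat : ∀ k, ρ (.s (.i0 k)) * (ρ (.s .B) * ρ .E) = ρ (.s .B) * ρ .E
  vbot : ρ (.s .bot) * ρ .E = ρ .E
  halt : ρ .qh * ρ .E = 1

/-- defining relations of the machine ring -/
inductive MRel (M : Machine T Q n) :
    FreeAlgebra (ZMod 2) (Letter T Q n) → FreeAlgebra (ZMod 2) (Letter T Q n) → Prop
  | comm (a b : SL T) (h : stk M.stkT a ≠ stk M.stkT b) :
      MRel M (FreeAlgebra.ι _ (.s a) * FreeAlgebra.ι _ (.s b))
        (FreeAlgebra.ι _ (.s b) * FreeAlgebra.ι _ (.s a))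
  | rule_some (p : Q) (γ : List (SL T)) (w : List (Letter T Q n)) (h : (p, γ, some w) ∈ M.rules) :
      MRel M (FreeAlgebra.ι _ (.q p) * pr (FreeAlgebra.ι _) (γ.map .s)) (pr (FreeAlgebra.ι _) w)
  | rule_none (p : Q) (γ : List (SL T)) (h : (p, γ, none) ∈ M.rules) :
      MRel M (FreeAlgebra.ι _ (.q p) * pr (FreeAlgebra.ι _) (γ.map .s)) 0
  | hat (μ : Bool) (k : Fin 3) :
      MRel M (FreeAlgebra.ι _ (.q0 μ) * FreeAlgebra.ι _ (.s (.i0 k)))
        (FreeAlgebra.ι _ (.q0 μ) * FreeAlgebra.ι _ (.s (.i1 k)))
  | start (μ : Bool) :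
      MRel M (FreeAlgebra.ι _ (.q0 μ) * FreeAlgebra.ι _ (.s .B)) (pr (FreeAlgebra.ι _) (M.st μ))
  | eat (k : Fin 3) :
      MRel M (FreeAlgebra.ι _ (.s (.i0 k)) * (FreeAlgebra.ι _ (.s .B) * FreeAlgebra.ι _ .E))
        (FreeAlgebra.ι _ (.s .B) * FreeAlgebra.ι _ .E)
  | vbot : MRel M (FreeAlgebra.ι _ (.s .bot) * FreeAlgebra.ι _ .E) (FreeAlgebra.ι _ .E)
  | halt : MRel M (FreeAlgebra.ι _ .qh * FreeAlgebra.ι _ .E) 1

/-- the machine ring -/
abbrev MAlg (M : Machine T Q n) : Type := RingQuot (MRel M)

/-- the letters in the machine ring -/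
noncomputable def mlet (M : Machine T Q n) (a : Letter T Q n) : MAlg M :=
  RingQuot.mkAlgHom (ZMod 2) (MRel M) (FreeAlgebra.ι _ a)

theorem pr_mlet (M : Machine T Q n) (w : List (Letter T Q n)) :
    pr (mlet M) w = RingQuot.mkAlgHom (ZMod 2) (MRel M) (pr (FreeAlgebra.ι _) w) :=
  (map_pr (RingQuot.mkAlgHom (ZMod 2) (MRel M) : _ →* MAlg M) (FreeAlgebra.ι (ZMod 2)) w).symm

theorem mlet_full (M : Machine T Q n) : M.Full (mlet M) where
  comm a b h := by
    have := RingQuot.mkAlgHom_rel (ZMod 2) (MRel.comm (M := M) a b h)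
    rw [map_mul, map_mul] at this
    exact this
  rule_some p γ w h := by
    have := RingQuot.mkAlgHom_rel (ZMod 2) (MRel.rule_some (M := M) p γ w h)
    rw [pr_mlet, pr_mlet, ← this, map_mul]
    rfl
  rule_none p γ h := by
    have := RingQuot.mkAlgHom_rel (ZMod 2) (MRel.rule_none (M := M) p γ h)
    rw [map_mul, map_zero] at this
    rw [pr_mlet, ← this]
    rfl
  hat μ k := by
    have := RingQuot.mkAlgHom_rel (ZMod 2) (MRel.hat (M := M) μ k)
    rw [map_mul, map_mul] at this
    exact this
  start μ := by
    have := RingQuot.mkAlgHom_rel (ZMod 2) (MRel.start (M := M) μ)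
    rw [map_mul] at this
    rw [pr_mlet, ← this]
    rfl
  eat k := by
    have := RingQuot.mkAlgHom_rel (ZMod 2) (MRel.eat (M := M) k)
    rw [map_mul, map_mul] at this
    exact this
  vbot := by
    have := RingQuot.mkAlgHom_rel (ZMod 2) (MRel.vbot (M := M))
    rw [map_mul] at this
    exact this
  halt := by
    have := RingQuot.mkAlgHom_rel (ZMod 2) (MRel.halt (M := M))
    rw [map_mul, map_one] at this
    exact this

/-- universal property -/
noncomputable def MAlg.lift (M : Machine T Q n) {N : Type} [Ring N] [Algebra (ZMod 2) N]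
    (ρ : Letter T Q n → N) (h : M.Full ρ) : MAlg M →ₐ[ZMod 2] N :=
  RingQuot.liftAlgHom (ZMod 2) ⟨FreeAlgebra.lift (ZMod 2) ρ, by
    have key : ∀ w, FreeAlgebra.lift (ZMod 2) ρ (pr (FreeAlgebra.ι (ZMod 2)) w) = pr ρ w := by
      intro w
      have := map_pr (FreeAlgebra.lift (ZMod 2) ρ : _ →* N) (FreeAlgebra.ι (ZMod 2)) w
      refine this.trans ?_
      congr 1
      funext a
      exact FreeAlgebra.lift_ι_apply _ _
    intro x y hxy
    induction hxy with
    | comm a b hab => simpa using h.comm a b hab
    | rule_some p γ w hr => rw [map_mul, key, key, FreeAlgebra.lift_ι_apply]; exact h.rule_some p γ w hr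
    | rule_none p γ hr => rw [map_mul, key, map_zero, FreeAlgebra.lift_ι_apply]; exact h.rule_none p γ hr
    | hat μ k => simpa using h.hat μ k
    | start μ => rw [map_mul, key, FreeAlgebra.lift_ι_apply, FreeAlgebra.lift_ι_apply]; exact h.start μ
    | eat k => simpa using h.eat k
    | vbot => simpa using h.vbot
    | halt => simpa using h.halt⟩

theorem MAlg.lift_mlet (M : Machine T Q n) {N : Type} [Ring N] [Algebra (ZMod 2) N]
    (ρ : Letter T Q n → N) (h : M.Full ρ) (a : Letter T Q n) :
    MAlg.lift M ρ h (mlet M a) = ρ a := by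
  unfold MAlg.lift mlet
  rw [RingQuot.liftAlgHom_mkAlgHom_apply, FreeAlgebra.lift_ι_apply]

theorem MAlg.lift_pr (M : Machine T Q n) {N : Type} [Ring N] [Algebra (ZMod 2) N]
    (ρ : Letter T Q n → N) (h : M.Full ρ) (w : List (Letter T Q n)) :
    MAlg.lift M ρ h (pr (mlet M) w) = pr ρ w := by
  have := map_pr (MAlg.lift M ρ h : _ →* N) (mlet M) w
  refine this.trans ?_
  congr 1
  funext a
  exact MAlg.lift_mlet M ρ h a

instance finite_SL [Finite T] : Finite (SL T) := by
  refine Finite.of_injective (β := Fin 3 ⊕ Unit ⊕ Fin 3 ⊕ Unit ⊕ T) (fun x => match x with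
    | .i0 k => .inl k
    | .B => .inr (.inl ())
    | .i1 k => .inr (.inr (.inl k))
    | .bot => .inr (.inr (.inr (.inl ())))
    | .t a => .inr (.inr (.inr (.inr a)))) ?_
  intro x y hxy
  cases x <;> cases y <;> simp_all

instance finite_Letter [Finite T] [Finite Q] : Finite (Letter T Q n) := by
  refine Finite.of_injective (β := SL T ⊕ Bool ⊕ Q ⊕ Fin 8 ⊕ (Fin n × Bool)) (fun x => match x with
    | .s k => .inl k
    | .q0 b => .inr (.inl b)
    | .q p => .inr (.inr (.inl p))
    | .qh => .inr (.inr (.inr (.inl 0)))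
    | .E => .inr (.inr (.inr (.inl 1)))
    | .X => .inr (.inr (.inr (.inl 2)))
    | .Z => .inr (.inr (.inr (.inl 3)))
    | .u => .inr (.inr (.inr (.inl 4)))
    | .v => .inr (.inr (.inr (.inl 5)))
    | .u1 => .inr (.inr (.inr (.inl 6)))
    | .v1 => .inr (.inr (.inr (.inl 7)))
    | .g a => .inr (.inr (.inr (.inr a)))) ?_
  intro x y hxy
  cases x <;> cases y <;> simp_all

theorem finite_mrel [Finite T] [Finite Q] (M : Machine T Q n) :
    {p : FreeAlgebra (ZMod 2) (Letter T Q n) × FreeAlgebra (ZMod 2) (Letter T Q n) |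
      MRel M p.1 p.2}.Finite := by
  have h1 : (Set.range fun z : SL T × SL T =>
      ((FreeAlgebra.ι (ZMod 2) (Letter.s z.1 : Letter T Q n) *
        FreeAlgebra.ι (ZMod 2) (Letter.s z.2)),
      (FreeAlgebra.ι (ZMod 2) (Letter.s z.2 : Letter T Q n) *
        FreeAlgebra.ι (ZMod 2) (Letter.s z.1)))).Finite := Set.finite_range _
  have h2 : ((fun z : Q × List (SL T) × Option (List (Letter T Q n)) =>
      ((FreeAlgebra.ι (ZMod 2) (.q z.1 : Letter T Q n) *
        pr (FreeAlgebra.ι (ZMod 2)) (z.2.1.map .s)),
      (z.2.2.elim 0 (pr (FreeAlgebra.ι (ZMod 2)))))) '' {r | r ∈ M.rules}).Finite :=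
    (List.finite_toSet M.rules).image _
  have h3 : (Set.range fun z : Bool × Fin 3 =>
      ((FreeAlgebra.ι (ZMod 2) (Letter.q0 z.1 : Letter T Q n) *
        FreeAlgebra.ι (ZMod 2) (Letter.s (.i0 z.2))),
      (FreeAlgebra.ι (ZMod 2) (Letter.q0 z.1 : Letter T Q n) *
        FreeAlgebra.ι (ZMod 2) (Letter.s (.i1 z.2))))).Finite := Set.finite_range _
  have h4 : (Set.range fun z : Bool =>
      ((FreeAlgebra.ι (ZMod 2) (Letter.q0 z : Letter T Q n) *
        FreeAlgebra.ι (ZMod 2) (Letter.s .B)),
      pr (FreeAlgebra.ι (ZMod 2)) (M.st z))).Finite := Set.finite_range _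
  have h5 : (Set.range fun z : Fin 3 =>
      ((FreeAlgebra.ι (ZMod 2) (Letter.s (.i0 z) : Letter T Q n) *
        (FreeAlgebra.ι (ZMod 2) (Letter.s .B) * FreeAlgebra.ι (ZMod 2) .E)),
      (FreeAlgebra.ι (ZMod 2) (Letter.s .B : Letter T Q n) *
        FreeAlgebra.ι (ZMod 2) .E))).Finite := Set.finite_range _
  have h6 : ({((FreeAlgebra.ι (ZMod 2) (Letter.s .bot : Letter T Q n) *
      FreeAlgebra.ι (ZMod 2) .E), FreeAlgebra.ι (ZMod 2) (.E : Letter T Q n)),
      (FreeAlgebra.ι (ZMod 2) (.qh : Letter T Q n) * FreeAlgebra.ι (ZMod 2) .E, 1)} :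
      Set (FreeAlgebra (ZMod 2) (Letter T Q n) × FreeAlgebra (ZMod 2) (Letter T Q n))).Finite :=
    Set.toFinite _
  refine (h1.union (h2.union (h3.union (h4.union (h5.union h6))))).subset ?_
  rintro ⟨x, y⟩ hxy
  cases hxy with
  | comm a b h => exact Or.inl ⟨(a, b), rfl⟩
  | rule_some p γ w h => exact Or.inr (Or.inl ⟨(p, γ, some w), h, rfl⟩)
  | rule_none p γ h => exact Or.inr (Or.inl ⟨(p, γ, none), h, rfl⟩)
  | hat μ k => exact Or.inr (Or.inr (Or.inl ⟨(μ, k), rfl⟩))
  | start μ => exact Or.inr (Or.inr (Or.inr (Or.inl ⟨μ, rfl⟩)))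
  | eat k => exact Or.inr (Or.inr (Or.inr (Or.inr (Or.inl ⟨k, rfl⟩))))
  | vbot => exact Or.inr (Or.inr (Or.inr (Or.inr (Or.inr (Or.inl rfl)))))
  | halt => exact Or.inr (Or.inr (Or.inr (Or.inr (Or.inr (Or.inr rfl)))))

theorem fpAlg_mAlg [Finite T] [Finite Q] (M : Machine T Q n) : FPAlg (MAlg M) :=
  fpAlg_ringQuot _ _ (finite_mrel M)

section rels

variable {G : Type*} [Group G] {M : Machine T Q n} {f : Fin n → G}
  {tgt : ℕ → Option (List (Letter T Q n))} {N : Type} [Ring N] {ρ : Letter T Q n → N}

theorem Machine.Resp.comm_pr (hρ : M.Resp ρ) (a : SL T) (w : List (SL T))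
    (h : ∀ b ∈ w, stk M.stkT a ≠ stk M.stkT b) :
    ρ (.s a) * pr ρ (w.map .s) = pr ρ (w.map .s) * ρ (.s a) := by
  induction w with
  | nil => simp
  | cons b w ih =>
    have h1 := hρ.comm a b (h b (by simp))
    have h2 := ih fun c hc => h c (by simp [hc])
    rw [List.map_cons, pr_cons, ← mul_assoc, h1, mul_assoc, h2, mul_assoc]

/-- the word of input letters of stack 0 -/
theorem Machine.Full.q0_word (hρ : M.Full ρ) (μ : Bool) (y : List (Fin 3)) :
    ρ (.q0 μ) * pr ρ (y.reverse.map fun k => .s (.i0 k)) =
      ρ (.q0 μ) * pr ρ (y.map fun k => .s (.i1 k)) := by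
  have key : ∀ (x y : List (Fin 3)), ρ (.q0 μ) * pr ρ (x.map fun k => .s (.i0 k)) *
      pr ρ (y.map fun k => .s (.i1 k)) =
      ρ (.q0 μ) * pr ρ ((x.reverse ++ y).map fun k => .s (.i1 k)) := by
    intro x
    induction x with
    | nil => intro y; simp
    | cons k x ih =>
      intro y
      have h1 : ρ (.s (.i1 k)) * pr ρ (x.map fun k => .s (.i0 k)) =
          pr ρ (x.map fun k => .s (.i0 k)) * ρ (.s (.i1 k)) := by
        have := hρ.toResp.comm_pr (.i1 k) (x.map .i0) (by
          intro b hb
          simp only [List.mem_map] at hb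
          obtain ⟨c, -, rfl⟩ := hb
          simp [stk])
        simpa only [List.map_map, Function.comp_def] using this
      have h2 := ih (k :: y)
      simp only [List.map_cons, pr_cons, List.reverse_cons, List.append_assoc,
        List.cons_append, List.nil_append] at h2 ⊢
      rw [← h2, ← mul_assoc (ρ (.q0 μ)), hρ.hat, mul_assoc (ρ (.q0 μ)), h1]
      simp only [mul_assoc]
  have := key y.reverse []
  simpa only [List.map_reverse, List.map_nil, pr_nil, mul_one, List.reverse_reverse, List.append_nil] using this

theorem Machine.Full.eat_word (hρ : M.Full ρ) (y : List (Fin 3)) :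
    pr ρ (y.map fun k => .s (.i0 k)) * (ρ (.s .B) * ρ .E) = ρ (.s .B) * ρ .E := by
  induction y with
  | nil => simp
  | cons k y ih => rw [List.map_cons, pr_cons, mul_assoc, ih, hρ.eat]

theorem Machine.Full.run_E (hρ : M.Full ρ) (μ : Bool) (y : List (Fin 3)) :
    pr ρ (M.st μ) * pr ρ (y.map fun k => .s (.i1 k)) * ρ (.s .bot) * ρ .E =
      ρ (.q0 μ) * (ρ (.s .B) * ρ .E) := by
  have h1 : ρ (.s .B) * pr ρ (y.map fun k => .s (.i1 k)) =
      pr ρ (y.map fun k => .s (.i1 k)) * ρ (.s .B) := by
    have := hρ.toResp.comm_pr .B (y.map .i1) (by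
      intro b hb
      simp only [List.mem_map] at hb
      obtain ⟨c, -, rfl⟩ := hb
      simp [stk])
    simpa only [List.map_map, Function.comp_def] using this
  calc pr ρ (M.st μ) * pr ρ (y.map fun k => .s (.i1 k)) * ρ (.s .bot) * ρ .E
      = ρ (.q0 μ) * (ρ (.s .B) * pr ρ (y.map fun k => .s (.i1 k))) * (ρ (.s .bot) * ρ .E) := by
        rw [← hρ.start]; simp only [mul_assoc]
    _ = ρ (.q0 μ) * pr ρ (y.map fun k => .s (.i1 k)) * (ρ (.s .B) * ρ .E) := by
        rw [h1, hρ.vbot]; simp only [mul_assoc]
    _ = ρ (.q0 μ) * (pr ρ (y.reverse.map fun k => .s (.i0 k)) * (ρ (.s .B) * ρ .E)) := by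
        rw [← hρ.q0_word, mul_assoc]
    _ = _ := by rw [hρ.eat_word]

/-- words of `Out1` are one -/
theorem Machine.Full.out1 (hρ : M.Full ρ) (h : RunProp M f tgt) (w : List (Letter T Q n))
    (hw : w ∈ Out1 M f tgt) : pr ρ w = 1 := by
  obtain ⟨y, hy⟩ := h.surj1 w hw
  have h1 := hρ.run_E true y
  rw [hy N ρ hρ.toResp, mul_assoc, hρ.halt, mul_one] at h1
  obtain ⟨out, -, h0, hrun⟩ := h.run1 []
  have h2 := hρ.run_E true []
  rw [hrun N ρ hρ.toResp, h0 rfl, mul_assoc, hρ.halt, mul_one] at h2
  rw [h1, ← h2, pr_nil]

/-- words of `Out0` are zero -/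
theorem Machine.Full.out0 (hρ : M.Full ρ) (h : RunProp M f tgt) (w : List (Letter T Q n))
    (hw : w ∈ Out0 M f tgt) : pr ρ w = 0 := by
  obtain ⟨y, hy⟩ := h.surj0 w hw
  have h1 := hρ.run_E false y
  rw [hy N ρ hρ.toResp, mul_assoc, hρ.halt, mul_one] at h1
  rcases h.run0 [] with hrun | ⟨h0, -⟩
  · have h2 := hρ.run_E false []
    rw [hrun N ρ hρ.toResp, zero_mul] at h2
    rw [h1, ← h2]
  · exact absurd rfl h0

end rels

end Vale.Agent.P193.BH

end FileMPres

/-! file BRelA -/

section FileBRelA
/-!
Part B: commutation of the operators of stack letters and the relations F4, F5, F6.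
-/

namespace Vale.Agent.P193.BH

variable {T Q : Type} {n : ℕ} {G : Type*} [Group G]

theorem follE_insw (stkT : T → ℕ) (x : SL T) (w : List (Letter T Q n)) :
    FollE (insw stkT x w) ↔ FollE w := by
  simp only [FollE, srest_insw]

theorem noOp_insw (M : Machine T Q n) {a b : SL T} (hab : stk M.stkT a ≠ stk M.stkT b)
    (w : List (Letter T Q n)) : NoOp M a (insw M.stkT b w) ↔ NoOp M a w := by
  unfold NoOp
  rw [follE_insw]
  have h0 : (∃ k, a = .i0 k) →
      part M.stkT 0 (srun (insw M.stkT b w)) = part M.stkT 0 (srun w) := by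
    rintro ⟨k, rfl⟩
    rw [srun_insw, part_ins_of_ne M.stkT]
    exact fun h => hab h.symm
  have h1 : a = .bot →
      part M.stkT 1 (srun (insw M.stkT b w)) = part M.stkT 1 (srun w) := by
    rintro rfl
    rw [srun_insw, part_ins_of_ne M.stkT]
    exact fun h => hab h.symm
  constructor
  · rintro (⟨h, hp, hE⟩ | ⟨h, hp, hE⟩)
    · exact Or.inl ⟨h, (h0 h).symm.trans hp, hE⟩
    · exact Or.inr ⟨h, (h1 h).symm.trans hp, hE⟩
  · rintro (⟨h, hp, hE⟩ | ⟨h, hp, hE⟩)
    · exact Or.inl ⟨h, (h0 h).trans hp, hE⟩
    · exact Or.inr ⟨h, (h1 h).trans hp, hE⟩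

section
variable {M : Machine T Q n} {f : Fin n → G} {tgt : ℕ → Option (List (Letter T Q n))}
  {L : Letter T Q n → List (Letter T Q n) → Option (List (Letter T Q n))}

theorem irr_insw_of_isOp (hL : IsOp M f tgt L) {x : SL T} {w : List (Letter T Q n)}
    (hw : Irr M f w) (hx : ¬ NoOp M x w) : Irr M f (insw M.stkT x w) :=
  hL.irr (.s x) w _ hw (hL.ins x w hw hx)

theorem rel_comm (hL : IsOp M f tgt L) (a b : SL T) (hab : stk M.stkT a ≠ stk M.stkT b)
    (w : List (Letter T Q n)) (hw : Irr M f w) :
    (L (.s b) w).bind (L (.s a)) = (L (.s a) w).bind (L (.s b)) := by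
  by_cases ha : NoOp M a w <;> by_cases hb : NoOp M b w
  · rw [hL.noop a w hw ha, hL.noop b w hw hb]
    simp only [Option.bind_some]
    rw [hL.noop a w hw ha, hL.noop b w hw hb]
  · rw [hL.noop a w hw ha, hL.ins b w hw hb]
    simp only [Option.bind_some]
    rw [hL.noop a _ (irr_insw_of_isOp hL hw hb) ((noOp_insw M hab w).2 ha), hL.ins b w hw hb]
  · rw [hL.noop b w hw hb, hL.ins a w hw ha]
    simp only [Option.bind_some]
    rw [hL.noop b _ (irr_insw_of_isOp hL hw ha) ((noOp_insw M hab.symm w).2 hb),
      hL.ins a w hw ha]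
  · rw [hL.ins b w hw hb, hL.ins a w hw ha]
    simp only [Option.bind_some]
    rw [hL.ins b _ (irr_insw_of_isOp hL hw ha) (fun h => hb ((noOp_insw M hab.symm w).1 h)),
      hL.ins a _ (irr_insw_of_isOp hL hw hb) (fun h => ha ((noOp_insw M hab w).1 h)),
      insw_comm hab hw.sorted]

theorem irr_E {w : List (Letter T Q n)} (hw : Irr M f w) : Irr M f (.E :: w) :=
  ⟨hw, fun h => h⟩

theorem L_E (hL : IsOp M f tgt L) {w : List (Letter T Q n)} (hw : Irr M f w) :
    L .E w = some (.E :: w) := hL.cons .E w hw fun h => h

theorem L_B_E (hL : IsOp M f tgt L) {w : List (Letter T Q n)} (hw : Irr M f w) :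
    L (.s .B) (.E :: w) = some (.s .B :: .E :: w) := by
  rw [hL.ins .B _ (irr_E hw)]
  · rfl
  · rintro (⟨⟨k, h⟩, -⟩ | ⟨h, -⟩)
    · cases h
    · cases h

/-- F4 -/
theorem rel_F4 (hL : IsOp M f tgt L) (k : Fin 3) (w : List (Letter T Q n)) (hw : Irr M f w) :
    Lw L [.s (.i0 k), .s .B, .E] w = Lw L [.s .B, .E] w := by
  simp only [Lw, List.foldr_cons, List.foldr_nil, Option.bind_some]
  rw [L_E hL hw]
  simp only [Option.bind_some]
  have hirr : Irr M f (.s .B :: .E :: w) := hL.irr _ _ _ (irr_E hw) (L_B_E hL hw)
  rw [L_B_E hL hw]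
  simp only [Option.bind_some]
  refine hL.noop _ _ hirr (Or.inl ⟨⟨k, rfl⟩, ?_, ⟨w, rfl⟩⟩)
  simp [srun, part, stk]

/-- F6 -/
theorem rel_F6 (hL : IsOp M f tgt L) (w : List (Letter T Q n)) (hw : Irr M f w) :
    Lw L [.s .bot, .E] w = Lw L [.E] w := by
  simp only [Lw, List.foldr_cons, List.foldr_nil, Option.bind_some]
  rw [L_E hL hw]
  simp only [Option.bind_some]
  exact hL.noop _ _ (irr_E hw) (Or.inr ⟨rfl, rfl, ⟨w, rfl⟩⟩)

/-- F5 -/
theorem rel_F5 (hL : IsOp M f tgt L) (w : List (Letter T Q n)) (hw : Irr M f w) :
    Lw L [.qh, .E] w = some w := by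
  simp only [Lw, List.foldr_cons, List.foldr_nil, Option.bind_some]
  rw [L_E hL hw]
  simp only [Option.bind_some]
  exact hL.qhE w hw

end

end Vale.Agent.P193.BH

end FileBRelA

/-! file BRelB -/

section FileBRelB
/-!
Part B: the machine rules hold for the operators (from the specification `IsOp`).
-/

namespace Vale.Agent.P193.BH

variable {T Q : Type} {n : ℕ} {G : Type*} [Group G]
variable {M : Machine T Q n} {f : Fin n → G} {tgt : ℕ → Option (List (Letter T Q n))}
  {L : Letter T Q n → List (Letter T Q n) → Option (List (Letter T Q n))}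

theorem NoOp.stk_le {x : SL T} {w : List (Letter T Q n)} (h : NoOp M x w) :
    stk M.stkT x ≤ 1 := by
  rcases h with ⟨⟨k, rfl⟩, -⟩ | ⟨rfl, -⟩
  · exact Nat.zero_le _
  · exact le_rfl

theorem NoOp.eq_bot {x : SL T} {w : List (Letter T Q n)} (h : NoOp M x w)
    (hx : 1 ≤ stk M.stkT x) : x = .bot ∧ part M.stkT 1 (srun w) = [] ∧ FollE w := by
  rcases h with ⟨⟨k, rfl⟩, -⟩ | h
  · exact absurd hx (by decide : ¬ (1 ≤ 0))
  · exact h

theorem not_noOp_B (w : List (Letter T Q n)) : ¬ NoOp M (.B : SL T) w := by
  rintro (⟨⟨k, h⟩, -⟩ | ⟨h, -⟩) <;> simp at h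

/-- letters which are inserted -/
theorem IsOp.ins' (hL : IsOp M f tgt L) {x : SL T} {w : List (Letter T Q n)} (hw : Irr M f w)
    (hx : ¬ NoOp M x w) : L (.s x) w = some (insw M.stkT x w) ∧ Irr M f (insw M.stkT x w) :=
  ⟨hL.ins x w hw hx, hL.irr (.s x) w _ hw (hL.ins x w hw hx)⟩

theorem Lw_insL (hL : IsOp M f tgt L) (γ : List (SL T)) (hγ : ∀ a ∈ γ, 2 ≤ stk M.stkT a)
    (w : List (Letter T Q n)) (hw : Irr M f w) :
    Lw L (γ.map .s) w = some (insL M.stkT γ w) ∧ Irr M f (insL M.stkT γ w) := by
  induction γ with
  | nil => exact ⟨rfl, hw⟩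
  | cons a γ ih =>
    obtain ⟨h1, h2⟩ := ih fun b hb => hγ b (List.mem_cons_of_mem _ hb)
    have ha := hγ a (by simp)
    have hn : ¬ NoOp M a (insL M.stkT γ w) := fun h => by
      have := h.stk_le
      omega
    obtain ⟨h3, h4⟩ := hL.ins' h2 hn
    refine ⟨?_, h4⟩
    change (Lw L (γ.map .s) w).bind (L (.s a)) = _
    rw [h1, Option.bind_some, h3]
    rfl

theorem rel_rule (hL : IsOp M f tgt L) (p : Q) (γ : List (SL T))
    (rhs : Option (List (Letter T Q n))) (h : (p, γ, rhs) ∈ M.rules)
    (w : List (Letter T Q n)) (hw : Irr M f w) :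
    (Lw L (γ.map .s) w).bind (L (.q p)) = rhs.bind fun v => Lw L v w := by
  obtain ⟨j, hj, hγ⟩ := M.lhs_stk _ h
  rcases Nat.lt_or_ge 1 j with hj2 | hj2
  · obtain ⟨h1, h2⟩ := Lw_insL hL γ (fun a ha => by rw [hγ a ha]; exact hj2) w hw
    rw [h1, Option.bind_some]
    exact hL.rule p γ rhs w h hw h2
  · have hj1 : j = 1 := le_antisymm hj2 hj
    subst hj1
    have hne := M.lhs_ne _ h
    have hlen : γ.length = 1 := by
      obtain ⟨a, ha⟩ := List.exists_mem_of_ne_nil _ hne
      exact M.lhs_one _ h ⟨a, ha, hγ a ha⟩
    obtain ⟨a, rfl⟩ := List.length_eq_one_iff.1 hlen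
    have ha : stk M.stkT a = 1 := hγ a (by simp)
    change ((some w).bind (L (.s a))).bind (L (.q p)) = _
    rw [Option.bind_some]
    by_cases hn : NoOp M a w
    · obtain ⟨rfl, h1, h2⟩ := hn.eq_bot ha.ge
      rw [hL.noop _ w hw hn, Option.bind_some]
      exact hL.virt p rhs w h hw h1 h2
    · obtain ⟨h3, h4⟩ := hL.ins' hw hn
      rw [h3, Option.bind_some]
      exact hL.rule p [a] rhs w h hw h4

theorem rel_q0B (hL : IsOp M f tgt L) (μ : Bool) (w : List (Letter T Q n)) (hw : Irr M f w) :
    (L (.s .B) w).bind (L (.q0 μ)) = Lw L (M.st μ) w := by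
  obtain ⟨h3, h4⟩ := hL.ins' hw (not_noOp_B w)
  rw [h3, Option.bind_some]
  exact hL.q0B μ w hw h4

end Vale.Agent.P193.BH

end FileBRelB

/-! file BQ0 -/

section FileBQ0
/-!
Part B: the relation `q0 x = q0 (hat x)` in the model: the case where `x` does not act.
-/

namespace Vale.Agent.P193.BH

variable {T Q : Type} {n : ℕ} {G : Type*} [Group G]
variable {M : Machine T Q n} {f : Fin n → G} {tgt : ℕ → Option (List (Letter T Q n))}
  {L : Letter T Q n → List (Letter T Q n) → Option (List (Letter T Q n))}

theorem Lw_cons (a : Letter T Q n) (v w : List (Letter T Q n)) :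
    Lw L (a :: v) w = (Lw L v w).bind (L a) := rfl

theorem Lw_append (v v' w : List (Letter T Q n)) :
    Lw L (v ++ v') w = (Lw L v' w).bind (Lw L v) := by
  induction v with
  | nil =>
    rw [List.nil_append]
    cases Lw L v' w <;> rfl
  | cons a v ih =>
    rw [List.cons_append, Lw_cons, ih]
    cases Lw L v' w <;> rfl

theorem Lw_singleton (a : Letter T Q n) (w : List (Letter T Q n)) : Lw L [a] w = L a w := rfl

theorem q0_not_noOp_i1 (k : Fin 3) (w : List (Letter T Q n)) : ¬ NoOp M (.i1 k) w := by
  rintro (⟨⟨j, h⟩, -⟩ | ⟨h, -⟩) <;> cases h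

theorem IsOp.i1 (hL : IsOp M f tgt L) (k : Fin 3) {w : List (Letter T Q n)} (hw : Irr M f w) :
    L (.s (.i1 k)) w = some (insw M.stkT (.i1 k) w) := hL.ins _ w hw (q0_not_noOp_i1 k w)

theorem IsOp.irr_i1 (hL : IsOp M f tgt L) (k : Fin 3) {w : List (Letter T Q n)}
    (hw : Irr M f w) : Irr M f (insw M.stkT (.i1 k) w) :=
  hL.irr _ w _ hw (hL.i1 k hw)

theorem IsOp.Lw_i1 (hL : IsOp M f tgt L) (y : List (Fin 3)) {w : List (Letter T Q n)}
    (hw : Irr M f w) : Lw L (y.map fun k => .s (.i1 k)) w = some (insL M.stkT (y.map .i1) w) ∧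
      Irr M f (insL M.stkT (y.map .i1) w) := by
  induction y with
  | nil => exact ⟨rfl, hw⟩
  | cons k y ih =>
    rw [List.map_cons, List.map_cons, Lw_cons, ih.1, Option.bind_some, insL_cons, hL.i1 k ih.2]
    exact ⟨rfl, hL.irr_i1 k ih.2⟩

theorem stk_one {stkT : T → ℕ} (h2 : ∀ a, 2 ≤ stkT a) {a : SL T} (h : stk stkT a = 1) :
    (∃ k, a = .i1 k) ∨ a = .bot := by
  cases a with
  | i0 k => simp [stk] at h
  | B => simp [stk] at h
  | i1 k => exact Or.inl ⟨k, rfl⟩
  | bot => exact Or.inr rfl
  | t b =>
    have := h2 b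
    simp only [stk] at h
    omega

theorem split_one {stkT : T → ℕ} (h2 : ∀ a, 2 ≤ stkT a) (P : List (SL T))
    (hP : ∀ a ∈ P, stk stkT a = 1) : ∃ y : List (Fin 3), P = y.map .i1 ∨
      ∃ P2, P = y.map .i1 ++ .bot :: P2 := by
  induction P with
  | nil => exact ⟨[], Or.inl rfl⟩
  | cons a P ih =>
    obtain ⟨y, hy⟩ := ih fun b hb => hP b (List.mem_cons_of_mem _ hb)
    rcases stk_one h2 (hP a List.mem_cons_self) with ⟨k, rfl⟩ | rfl
    · refine ⟨k :: y, ?_⟩
      rcases hy with rfl | ⟨P2, rfl⟩
      · exact Or.inl rfl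
      · exact Or.inr ⟨P2, rfl⟩
    · exact ⟨[], Or.inr ⟨P, rfl⟩⟩

/-- the only case of `q0 x` which is not immediate: `L x` does not act -/
theorem q0_split (hL : IsOp M f tgt L) (μ : Bool) (k : Fin 3) (w : List (Letter T Q n))
    (hw : Irr M f w) :
    (L (.s (.i0 k)) w).bind (L (.q0 μ)) = (L (.s (.i1 k)) w).bind (L (.q0 μ)) ∨
    ∃ (y : List (Fin 3)) (w2 : List (Letter T Q n)), Irr M f w2 ∧
      (L (.s (.i0 k)) w).bind (L (.q0 μ)) =
        Lw L (M.st μ ++ y.map (fun k => .s (.i1 k)) ++ [.s .bot]) w2 ∧
      (L (.s (.i1 k)) w).bind (L (.q0 μ)) =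
        Lw L (M.st μ ++ (k :: y).map (fun k => .s (.i1 k)) ++ [.s .bot]) w2 := by
  by_cases hno : NoOp M (.i0 k) w
  · right
    have hno' : part M.stkT 0 (srun w) = [.B] ∧ FollE w := by
      rcases hno with ⟨-, h⟩ | ⟨h, -⟩
      · exact h
      · cases h
    obtain ⟨hp, hE⟩ := hno'
    -- remove `B`
    obtain ⟨w1, hw1⟩ : ∃ w1, w1 = delw M.stkT 0 1 w := ⟨_, rfl⟩
    have hi1 : Irr M f w1 := hw1 ▸ hw.delw 0 1
    have hins : insw M.stkT .B w1 = w := by
      have := insL_delw (stkT := M.stkT) (j := 0) (γ := [.B])
        (by intro a ha; rw [List.mem_singleton] at ha; rw [ha]; rfl) hw.sorted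
        (by rw [hp])
      rw [hw1]
      exact this
    have hE1 : FollE w1 := by
      obtain ⟨w', h⟩ := hE
      exact ⟨w', by rw [hw1, srest_delw, h]⟩
    have e0 : (L (.s (.i0 k)) w).bind (L (.q0 μ)) = Lw L (M.st μ) w1 := by
      rw [hL.noop _ w hw hno, Option.bind_some]
      conv_lhs => rw [← hins]
      exact hL.q0B μ w1 hi1 (by rw [hins]; exact hw)
    have e1 : (L (.s (.i1 k)) w).bind (L (.q0 μ)) = Lw L (M.st μ) (insw M.stkT (.i1 k) w1) := by
      have hc : insw M.stkT (.i1 k) w = insw M.stkT .B (insw M.stkT (.i1 k) w1) := by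
        conv_lhs => rw [← hins]
        exact insw_comm (by simp [stk]) hi1.sorted
      rw [hL.i1 k hw, Option.bind_some, hc]
      exact hL.q0B μ _ (hL.irr_i1 k hi1) (by rw [← hc]; exact hL.irr_i1 k hw)
    -- split the part of stack 1
    obtain ⟨y, hy⟩ := split_one M.stk_ge (part M.stkT 1 (srun w1))
      (fun a ha => ((mem_part M.stkT).1 ha).2)
    have hpre : (y.map SL.i1 : List (SL T)) <+: part M.stkT 1 (srun w1) := by
      rcases hy with hy | ⟨P2, hy⟩
      · rw [hy]
      · rw [hy]; exact List.prefix_append _ _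
    obtain ⟨w1', hw1'⟩ : ∃ w1', w1' = delw M.stkT 1 y.length w1 := ⟨_, rfl⟩
    have hi1' : Irr M f w1' := hw1' ▸ hi1.delw 1 y.length
    have hins1 : insL M.stkT (y.map .i1) w1' = w1 := by
      have := insL_delw (stkT := M.stkT) (j := 1) (γ := y.map .i1)
        (by
          intro a ha
          obtain ⟨b, -, rfl⟩ := List.mem_map.1 ha
          rfl) hi1.sorted hpre
      rw [List.length_map] at this
      rw [hw1']
      exact this
    have hE1' : FollE w1' := by
      obtain ⟨w', h⟩ := hE1
      exact ⟨w', by rw [hw1', srest_delw, h]⟩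
    -- the word `w2`
    obtain ⟨w2, hi2, hb⟩ : ∃ w2, Irr M f w2 ∧ L (.s .bot) w2 = some w1' := by
      rcases hy with hy | ⟨P2, hy⟩
      · refine ⟨w1', hi1', hL.noop _ w1' hi1' (Or.inr ⟨rfl, ?_, hE1'⟩)⟩
        rw [hw1', srun_delw, part_delr_self, hy, List.drop_eq_nil_of_le (by simp)]
      · have hp' : part M.stkT 1 (srun w1') = .bot :: P2 := by
          rw [hw1', srun_delw, part_delr_self, hy, List.drop_append_of_le_length (by simp),
            List.drop_eq_nil_of_le (by simp), List.nil_append]
        have hins2 : insw M.stkT .bot (delw M.stkT 1 1 w1') = w1' := by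
          have := insL_delw (stkT := M.stkT) (j := 1) (γ := [.bot])
            (by intro a ha; rw [List.mem_singleton] at ha; rw [ha]; rfl) hi1'.sorted
            (by rw [hp']; exact ⟨P2, rfl⟩)
          exact this
        refine ⟨delw M.stkT 1 1 w1', hi1'.delw 1 1, ?_⟩
        have := hL.ins .bot (delw M.stkT 1 1 w1') (hi1'.delw 1 1) (by
          rintro (⟨⟨j, h⟩, -⟩ | ⟨-, h, -⟩)
          · cases h
          · rw [srun_delw, part_delr_self, hp'] at h
            have h' : P2 = [] := by simpa using h
            subst h'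
            have := (hi1.runOK hE1).2 (y.map .i1)
            exact this hy)
        rw [this, hins2]
    refine ⟨y, w2, hi2, ?_, ?_⟩
    · rw [e0, Lw_append, Lw_singleton, hb, Option.bind_some, Lw_append, (hL.Lw_i1 y hi1').1,
        Option.bind_some, hins1]
    · rw [e1, Lw_append, Lw_singleton, hb, Option.bind_some, Lw_append,
        (hL.Lw_i1 (k :: y) hi1').1, Option.bind_some, List.map_cons, insL_cons, hins1]
  · left
    have hi := hL.ins _ w hw hno
    rw [hi, Option.bind_some]
    exact hL.q0i μ k w hw (hL.irr _ w _ hw hi)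

end Vale.Agent.P193.BH

end FileBQ0

/-! file BCross -/

section FileBCross
/-! word combinatorics of part B: crossing lemma, unique parse, factors of irreducible words -/

namespace Vale.Agent.P193.BH

variable {T Q : Type} {n : ℕ}

/-! ### runs of words continued by `v1` -/

theorem srun_append_v1 (m R : List (Letter T Q n)) : srun (m ++ .v1 :: R) = srun m := by
  induction m with
  | nil => rfl
  | cons a m ih =>
    cases a <;> first | rfl | (simp only [List.cons_append, srun, ih])

theorem srest_append_v1 (m R : List (Letter T Q n)) :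
    srest (m ++ .v1 :: R) = srest m ++ .v1 :: R := by
  induction m with
  | nil => rfl
  | cons a m ih =>
    cases a <;> first | rfl | (simp only [List.cons_append, srest, ih])

theorem grun_append_v1 (m R : List (Letter T Q n)) : grun (m ++ .v1 :: R) = grun m := by
  induction m with
  | nil => rfl
  | cons a m ih =>
    cases a <;> first | rfl | (simp only [List.cons_append, grun, ih])

theorem append_v1_eq_E (m R : List (Letter T Q n)) :
    (∃ w', m ++ .v1 :: R = .E :: w') ↔ ∃ w', m = .E :: w' := by
  cases m with
  | nil => simp only [List.nil_append, List.cons.injEq, reduceCtorEq, false_and, exists_const, List.nil_eq]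
  | cons a m => simp only [List.cons_append, List.cons.injEq, exists_and_left, ↓existsAndEq, and_true]

/-- the pattern after `X` -/
def xp (k : ℕ) (m : List (Letter T Q n)) : List (Letter T Q n) :=
  List.replicate k .u ++ .v :: (m ++ .v1 :: (List.replicate k .u1 ++ [.Z]))

theorem xp_append (k : ℕ) (m w : List (Letter T Q n)) :
    xp k m ++ w = List.replicate k .u ++ .v :: (m ++ .v1 :: (List.replicate k .u1 ++ .Z :: w)) := by
  simp [xp]

theorem xp_length (k : ℕ) (m : List (Letter T Q n)) : (xp k m).length = 2 * k + m.length + 3 := by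
  simp only [xp, List.length_append, List.length_replicate, List.length_cons, List.length_nil, zero_add]
  omega

theorem xw_eq (k : ℕ) (m : List (Letter T Q n)) : xw k m = .X :: xp k m := rfl

theorem xt_eq (k : ℕ) (m w : List (Letter T Q n)) : xt k m w = xp k m ++ w := by
  rw [xp_append]; rfl

/-! letters of the pattern -/

theorem xp_get_u (k : ℕ) (m w : List (Letter T Q n)) (i : ℕ) (h : i < k) :
    (xp k m ++ w)[i]? = some .u := by
  rw [xp_append, List.getElem?_append_left (by simpa using h)]
  simp [h]

theorem xp_get_v (k : ℕ) (m w : List (Letter T Q n)) : (xp k m ++ w)[k]? = some .v := by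
  rw [xp_append, List.getElem?_append_right (by simp)]
  simp only [List.length_replicate, tsub_self, List.length_cons, List.length_append, Order.lt_add_one_iff, zero_le, getElem?_pos, List.getElem_cons_zero]

theorem xp_get_v1 (k : ℕ) (m w : List (Letter T Q n)) :
    (xp k m ++ w)[k + 1 + m.length]? = some .v1 := by
  rw [xp_append, List.getElem?_append_right (by simp; omega)]
  have e : k + 1 + m.length - (List.replicate k (Letter.u : Letter T Q n)).length
      = m.length + 1 := by simp only [List.length_replicate]; omega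
  rw [e, List.getElem?_cons_succ, List.getElem?_append_right le_rfl]
  simp only [tsub_self, List.length_cons, List.length_append, List.length_replicate, Order.lt_add_one_iff, zero_le, getElem?_pos, List.getElem_cons_zero]

theorem xp_get_u1 (k : ℕ) (m w : List (Letter T Q n)) (j : ℕ) (h1 : 1 ≤ j) (h2 : j ≤ k) :
    (xp k m ++ w)[k + 1 + m.length + j]? = some .u1 := by
  rw [xp_append, List.getElem?_append_right (by simp; omega)]
  have e : k + 1 + m.length + j - (List.replicate k (Letter.u : Letter T Q n)).length
      = (m.length + j) + 1 := by simp only [List.length_replicate]; omega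
  rw [e, List.getElem?_cons_succ, List.getElem?_append_right (by omega)]
  have e2 : m.length + j - m.length = (j - 1) + 1 := by omega
  rw [e2, List.getElem?_cons_succ, List.getElem?_append_left (by
    rw [List.length_replicate]; omega), List.getElem?_replicate, if_pos (by omega)]

theorem xp_get_Z (k : ℕ) (m w : List (Letter T Q n)) :
    (xp k m ++ w)[2 * k + m.length + 2]? = some .Z := by
  rw [xp_append, List.getElem?_append_right (by simp; omega)]
  have e : 2 * k + m.length + 2 - (List.replicate k (Letter.u : Letter T Q n)).length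
      = (m.length + (k + 1)) + 1 := by simp only [List.length_replicate]; omega
  rw [e, List.getElem?_cons_succ, List.getElem?_append_right (by omega)]
  have e2 : m.length + (k + 1) - m.length = k + 1 := by omega
  rw [e2, List.getElem?_cons_succ, List.getElem?_append_right (by simp)]
  simp

/-! letters of the continuation `m' v1 u1^n Z` -/

theorem cont_get_v1 (m w : List (Letter T Q n)) (k : ℕ) :
    (m ++ .v1 :: (List.replicate k .u1 ++ .Z :: w))[m.length]? = some .v1 := by
  rw [List.getElem?_append_right le_rfl]
  simp only [tsub_self, List.length_cons, List.length_append, List.length_replicate, Order.lt_add_one_iff, zero_le, getElem?_pos, List.getElem_cons_zero]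

theorem cont_get_u1 (m w : List (Letter T Q n)) (k j : ℕ) (h1 : 1 ≤ j) (h2 : j ≤ k) :
    (m ++ .v1 :: (List.replicate k .u1 ++ .Z :: w))[m.length + j]? = some .u1 := by
  rw [List.getElem?_append_right (by omega)]
  have e2 : m.length + j - m.length = (j - 1) + 1 := by omega
  rw [e2, List.getElem?_cons_succ, List.getElem?_append_left (by
    rw [List.length_replicate]; omega), List.getElem?_replicate, if_pos (by omega)]

/-- no `X` pattern crosses the boundary -/
theorem no_cross {k : ℕ} {m' w : List (Letter T Q n)} (hm : m'.length < k)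
    {k' : ℕ} {p w' : List (Letter T Q n)} (hp : p.length ≤ k')
    (h : m' ++ .v1 :: (List.replicate k .u1 ++ .Z :: w) = xp k' p ++ w') :
    ∃ w'', m' = xp k' p ++ w'' := by
  by_cases hlen : (xp k' p).length ≤ m'.length
  · have h1 : m' <+: m' ++ .v1 :: (List.replicate k .u1 ++ .Z :: w) := List.prefix_append _ _
    have h2 : xp k' p <+: m' ++ .v1 :: (List.replicate k .u1 ++ .Z :: w) := by
      rw [h]; exact List.prefix_append _ _
    obtain ⟨w'', hw⟩ := List.prefix_of_prefix_length_le h2 h1 hlen
    exact ⟨w'', hw.symm⟩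
  · exfalso
    rw [xp_length] at hlen
    have hv1 := cont_get_v1 m' w k
    have hu1 := cont_get_u1 m' w k
    rw [h] at hv1 hu1
    rcases lt_or_ge m'.length k' with c1 | c1
    · rw [xp_get_u k' p w' _ c1] at hv1
      simp at hv1
    rcases eq_or_lt_of_le c1 with c2 | c2
    · rw [← c2, xp_get_v] at hv1
      simp at hv1
    rcases lt_trichotomy m'.length (k' + 1 + p.length) with c3 | c3 | c3
    · have h3 := hu1 (k' + 1 + p.length - m'.length) (by omega) (by omega)
      have e : m'.length + (k' + 1 + p.length - m'.length) = k' + 1 + p.length := by omega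
      rw [e, xp_get_v1] at h3
      simp at h3
    · have h3 := hu1 (k' + 1) (by omega) (by omega)
      have e : m'.length + (k' + 1) = 2 * k' + p.length + 2 := by omega
      rw [e, xp_get_Z] at h3
      simp at h3
    · rcases Nat.lt_or_ge (k' + 1 + p.length + k') m'.length with c4 | c4
      · have e : m'.length = 2 * k' + p.length + 2 := by omega
        rw [e, xp_get_Z] at hv1
        simp at hv1
      · have h3 := xp_get_u1 k' p w' (m'.length - (k' + 1 + p.length)) (by omega) (by omega)
        have e : k' + 1 + p.length + (m'.length - (k' + 1 + p.length)) = m'.length := by omega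
        rw [e, hv1] at h3
        simp at h3

variable {G : Type*} [Group G] (M : Machine T Q n) (f : Fin n → G)

theorem head_X_iff (w : List (Letter T Q n)) :
    Head M f .X w ↔ ∃ (k : ℕ) (m w' : List (Letter T Q n)), m.length ≤ k ∧ w = xp k m ++ w' := by
  constructor
  · rintro ⟨k, m, w', h1, h2⟩
    exact ⟨k, m, w', h1, by rw [h2, xp_append]⟩
  · rintro ⟨k, m, w', h1, h2⟩
    exact ⟨k, m, w', h1, by rw [h2, xp_append]⟩

/-- head patterns persist when a word is continued by `v1` -/
theorem Head.append_v1 {a : Letter T Q n} {m : List (Letter T Q n)} (h : Head M f a m)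
    (R : List (Letter T Q n)) : Head M f a (m ++ .v1 :: R) := by
  cases a with
  | s a =>
    simp only [Head, srun_append_v1, srest_append_v1, append_v1_eq_E] at h ⊢
    exact h
  | q0 μ =>
    simp only [Head, srun_append_v1] at h ⊢
    exact h
  | q p =>
    simp only [Head, srun_append_v1, srest_append_v1, append_v1_eq_E] at h ⊢
    exact h
  | qh =>
    simp only [Head, append_v1_eq_E] at h ⊢
    exact h
  | X =>
    rw [head_X_iff] at h ⊢
    obtain ⟨k, p, w', h1, rfl⟩ := h
    exact ⟨k, p, w' ++ .v1 :: R, h1, by rw [List.append_assoc]⟩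
  | g p =>
    simp only [Head, grun_append_v1] at h ⊢
    exact h
  | E => exact h
  | Z => exact h
  | u => exact h
  | v => exact h
  | u1 => exact h
  | v1 => exact h

/-- head patterns of words continued by `v1`, except for the letter `X` -/
theorem Head.of_append_v1 {a : Letter T Q n} (ha : a ≠ .X) {m R : List (Letter T Q n)}
    (h : Head M f a (m ++ .v1 :: R)) : Head M f a m := by
  cases a with
  | s a =>
    simp only [Head, srun_append_v1, srest_append_v1, append_v1_eq_E] at h ⊢
    exact h
  | q0 μ =>
    simp only [Head, srun_append_v1] at h ⊢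
    exact h
  | q p =>
    simp only [Head, srun_append_v1, srest_append_v1, append_v1_eq_E] at h ⊢
    exact h
  | qh =>
    simp only [Head, append_v1_eq_E] at h ⊢
    exact h
  | X => exact absurd rfl ha
  | g p =>
    simp only [Head, grun_append_v1] at h ⊢
    exact h
  | E => exact h
  | Z => exact h
  | u => exact h
  | v => exact h
  | u1 => exact h
  | v1 => exact h

/-- the part before `v1` of an irreducible word is irreducible -/
theorem Irr.of_append_v1 {m R : List (Letter T Q n)} (h : Irr M f (m ++ .v1 :: R)) :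
    Irr M f m := by
  induction m with
  | nil => trivial
  | cons a m ih => exact ⟨ih h.1, fun hh => h.2 (Head.append_v1 M f hh R)⟩

theorem irr_plain {a : Letter T Q n} (ha : ∀ w, ¬ Head M f a w) (k : ℕ)
    {w : List (Letter T Q n)} (h : Irr M f w) : Irr M f (List.replicate k a ++ w) := by
  induction k with
  | zero => exact h
  | succ k ih => exact ⟨ih, ha _⟩

/-- CROSSING: no pattern crosses the boundary `m | v1 u1^k Z` if `|m| ≤ k`. -/
theorem irr_cross {m w : List (Letter T Q n)} {k : ℕ} (hm : Irr M f m) (hk : m.length ≤ k)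
    (hw : Irr M f w) : Irr M f (m ++ .v1 :: (List.replicate k .u1 ++ .Z :: w)) := by
  induction m with
  | nil =>
    refine ⟨?_, fun h => h⟩
    exact irr_plain M f (a := .u1) (fun _ h => h) k ⟨hw, fun h => h⟩
  | cons a m ih =>
    rw [List.length_cons] at hk
    refine ⟨ih hm.1 (by omega), fun hh => ?_⟩
    by_cases ha : a = .X
    · subst ha
      apply hm.2
      have hh' : Head M f .X (m ++ .v1 :: (List.replicate k .u1 ++ .Z :: w)) := hh
      rw [head_X_iff] at hh' ⊢
      obtain ⟨k', p, w', h1, h2⟩ := hh'
      obtain ⟨w'', hw''⟩ := no_cross (by omega) h1 h2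
      exact ⟨k', p, w'', h1, hw''⟩
    · exact hm.2 (Head.of_append_v1 M f ha hh)

/-- consequences of irreducibility of `xp k m ++ w` -/
theorem Irr.of_xp {m w : List (Letter T Q n)} {k : ℕ} (h : Irr M f (xp k m ++ w)) :
    Irr M f m ∧ Irr M f w := by
  rw [xp_append] at h
  have h1 := (Irr.suffix h).1
  refine ⟨Irr.of_append_v1 M f h1, ?_⟩
  have h2 := (Irr.suffix h1).1
  exact (Irr.suffix h2).1

theorem irr_xp {m w : List (Letter T Q n)} {k : ℕ} (hm : Irr M f m) (hk : m.length ≤ k)
    (hw : Irr M f w) : Irr M f (xp k m ++ w) := by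
  rw [xp_append]
  exact irr_plain M f (a := .u) (fun _ h => h) k ⟨irr_cross M f hm hk hw, fun h => h⟩

/-- canonical group words are closed under tails -/
theorem Can.tail {p : Fin n × Bool} {w : List (Fin n × Bool)} (h : Can f (p :: w)) : Can f w := by
  intro w' hw'
  have h1 := h (p :: w') (by simp only [ev, List.map_cons, List.prod_cons] at hw' ⊢; rw [hw'])
  by_contra hcon
  rw [not_le] at hcon
  rw [Encodable.encode_list_cons, Encodable.encode_list_cons] at h1
  have h2 := Nat.pair_lt_pair_right (Encodable.encode p) hcon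
  omega

end Vale.Agent.P193.BH

end FileBCross

/-! file BOut -/

section FileBOut
/-!
Part B: the words of `Out1` act as the identity, the words of `Out0` act as zero.
-/

namespace Vale.Agent.P193.BH

variable {T Q : Type} {n : ℕ} {G : Type*} [Group G]
variable {M : Machine T Q n} {f : Fin n → G} {tgt : ℕ → Option (List (Letter T Q n))}
  {L : Letter T Q n → List (Letter T Q n) → Option (List (Letter T Q n))}

theorem Lw_cons_of_irr (hL : IsOp M f tgt L) (v w : List (Letter T Q n))
    (h : Irr M f (v ++ w)) : Lw L v w = some (v ++ w) := by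
  induction v with
  | nil => rfl
  | cons a v ih =>
    rw [Lw_cons, ih h.1, Option.bind_some]
    exact hL.cons a (v ++ w) h.1 h.2

namespace BOutAux

theorem grun_grest (w : List (Letter T Q n)) : (grun w).map .g ++ grest w = w := by
  induction w with
  | nil => rfl
  | cons a w ih => cases a <;> simp [grun, grest, ih]

theorem grun_of_grest (w : List (Letter T Q n)) : grun (grest w) = [] := by
  induction w with
  | nil => rfl
  | cons a w ih => cases a <;> simp [grun, grest, ih]

theorem grest_of_grest (w : List (Letter T Q n)) : grest (grest w) = grest w := by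
  induction w with
  | nil => rfl
  | cons a w ih => cases a <;> simp [grest, ih]

theorem grun_app (c : List (Fin n × Bool)) (w : List (Letter T Q n)) :
    grun (c.map .g ++ w) = c ++ grun w := by
  induction c with
  | nil => rfl
  | cons a c ih => simp only [List.map_cons, List.cons_append, grun, ih]

theorem grest_app (c : List (Fin n × Bool)) (w : List (Letter T Q n)) :
    grest (c.map .g ++ w) = grest w := by
  induction c with
  | nil => rfl
  | cons a c ih => simp only [List.map_cons, List.cons_append, grest, ih]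

theorem can_nil' (f : Fin n → G) : Can f [] := by
  intro w' _
  simp

theorem can_grun {w : List (Letter T Q n)} (h : Irr M f w) : Can f (grun w) := by
  cases w with
  | nil => exact can_nil' f
  | cons a w =>
    cases a with
    | g p =>
      have h2 : ¬ Head M f (.g p) w := h.2
      simp only [Head, not_not] at h2
      exact h2
    | _ => exact can_nil' f

theorem can_unique {c c' : List (Fin n × Bool)} (h : Can f c) (h' : Can f c')
    (he : ev f c = ev f c') : c = c' :=
  Encodable.encode_injective (le_antisymm (h c' he.symm) (h' c he))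

theorem Lw_g (hL : IsOp M f tgt L) (c : List (Fin n × Bool)) (w : List (Letter T Q n))
    (hw : Irr M f w) : ∃ c', Can f c' ∧ ev f c' = ev f c * ev f (grun w) ∧
      Lw L (c.map .g) w = some (c'.map .g ++ grest w) ∧ Irr M f (c'.map .g ++ grest w) := by
  induction c with
  | nil =>
    refine ⟨grun w, can_grun hw, ?_, ?_, ?_⟩
    · simp [ev]
    · rw [grun_grest]; rfl
    · rw [grun_grest]; exact hw
  | cons p c ih =>
    obtain ⟨c', h1, h2, h3, h4⟩ := ih
    obtain ⟨c'', g1, g2, g3⟩ := hL.g p _ h4
    have e1 : grun (c'.map .g ++ grest w) = c' := by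
      rw [grun_app, grun_of_grest, List.append_nil]
    have e2 : grest (c'.map .g ++ grest w) = grest w := by
      rw [grest_app, grest_of_grest]
    rw [e1] at g2
    rw [e2] at g3
    refine ⟨c'', g1, ?_, ?_, hL.irr _ _ _ h4 g3⟩
    · rw [g2]
      simp only [ev, List.map_cons, List.prod_cons] at h2 ⊢
      rw [h2, mul_assoc]
    · rw [List.map_cons, Lw_cons, h3, Option.bind_some, g3]

end BOutAux

open BOutAux in
theorem out1_id (hL : IsOp M f tgt L) (out : List (Letter T Q n)) (h : out ∈ Out1 M f tgt)
    (w : List (Letter T Q n)) (hw : Irr M f w) : Lw L out w = some w := by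
  rcases h with ⟨c, hc, rfl⟩ | ⟨k, m, hm, hk, ht, rfl⟩
  · obtain ⟨c', h1, h2, h3, -⟩ := Lw_g hL c w hw
    rw [hc, one_mul] at h2
    rw [h3, can_unique h1 (can_grun hw) h2, grun_grest]
  · have hi : Irr M f (xp k m ++ w) := irr_xp M f hm hk hw
    rw [xw_eq, Lw_cons, Lw_cons_of_irr hL _ _ hi, Option.bind_some, ← xt_eq]
    exact hL.Xhit k m w (by rw [xt_eq]; exact hi) hk ht

theorem out0_none (hL : IsOp M f tgt L) (out : List (Letter T Q n)) (h : out ∈ Out0 M f tgt)
    (w : List (Letter T Q n)) (hw : Irr M f w) : Lw L out w = none := by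
  obtain ⟨k, m, hm, hk, ht, rfl⟩ := h
  have hi : Irr M f (xp k m ++ w) := irr_xp M f hm hk hw
  rw [xw_eq, Lw_cons, Lw_cons_of_irr hL _ _ hi, Option.bind_some, ← xt_eq]
  exact hL.Xmiss k m w (by rw [xt_eq]; exact hi) hk ht

end Vale.Agent.P193.BH

end FileBOut

/-! file BOp -/

section FileBOp
/-!
Boone-Higman project, part B2: canonical group words and the operators `L` on words.
`none` plays the role of zero.
-/

namespace Vale.Agent.P193.BH.Op

open Vale.Agent.P193.BH

variable {T Q : Type} {n : ℕ}

/-! ### canonical group words -/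

section Can

variable {G : Type*} [Group G] (f : Fin n → G)

@[simp] theorem ev_nil : ev f [] = 1 := rfl

@[simp] theorem ev_cons (p : Fin n × Bool) (c : List (Fin n × Bool)) :
    ev f (p :: c) = cond p.2 (f p.1) (f p.1)⁻¹ * ev f c := by
  simp [ev]

@[simp] theorem ev_append (c c' : List (Fin n × Bool)) :
    ev f (c ++ c') = ev f c * ev f c' := by
  simp [ev]

theorem exists_can (c : List (Fin n × Bool)) : ∃ c', ev f c' = ev f c ∧ Can f c' := by
  classical
  have hne : ∃ k, ∃ c', ev f c' = ev f c ∧ Encodable.encode c' = k := ⟨_, c, rfl, rfl⟩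
  obtain ⟨c', h1, h2⟩ := Nat.find_spec hne
  refine ⟨c', h1, fun w hw => ?_⟩
  rw [h2]
  exact Nat.find_min' hne ⟨w, hw.trans h1, rfl⟩

/-- the canonical word -/
noncomputable def canW (c : List (Fin n × Bool)) : List (Fin n × Bool) :=
  Classical.choose (exists_can f c)

theorem ev_canW (c : List (Fin n × Bool)) : ev f (canW f c) = ev f c :=
  (Classical.choose_spec (exists_can f c)).1

theorem can_canW (c : List (Fin n × Bool)) : Can f (canW f c) :=
  (Classical.choose_spec (exists_can f c)).2

variable {f}

theorem can_eq {c c' : List (Fin n × Bool)} (h : Can f c) (h' : Can f c')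
    (he : ev f c = ev f c') : c = c' :=
  Encodable.encode_injective (le_antisymm (h _ he.symm) (h' _ he))

theorem canW_eq {c c' : List (Fin n × Bool)} (h : Can f c') (he : ev f c' = ev f c) :
    canW f c = c' :=
  can_eq (can_canW f c) h ((ev_canW f c).trans he.symm)

theorem can_nil : Can f [] := fun w _ => by simp

theorem can_tail {p : Fin n × Bool} {c : List (Fin n × Bool)} (h : Can f (p :: c)) :
    Can f c := by
  intro w hw
  by_contra hlt
  push Not at hlt
  have h1 : ev f (p :: w) = ev f (p :: c) := by simp [hw]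
  have h2 := h _ h1
  rw [Encodable.encode_list_cons, Encodable.encode_list_cons] at h2
  have h3 := Nat.pair_lt_pair_right (Encodable.encode p) hlt
  omega

end Can

/-! ### group runs -/

@[simp] theorem grun_append (c : List (Fin n × Bool)) (w : List (Letter T Q n)) :
    grun (c.map .g ++ w) = c ++ grun w := by
  induction c with
  | nil => rfl
  | cons a r ih => simp only [List.map_cons, List.cons_append, grun, ih]

@[simp] theorem grest_append (c : List (Fin n × Bool)) (w : List (Letter T Q n)) :
    grest (c.map .g ++ w) = grest w := by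
  induction c with
  | nil => rfl
  | cons a r ih => simp only [List.map_cons, List.cons_append, grest, ih]

theorem grun_grest (w : List (Letter T Q n)) : (grun w).map .g ++ grest w = w := by
  induction w with
  | nil => rfl
  | cons a w ih => cases a <;> simp [grun, grest, ih]

@[simp] theorem grun_of_grest (w : List (Letter T Q n)) : grun (grest w) = [] := by
  induction w with
  | nil => rfl
  | cons a w ih => cases a <;> simp [grun, grest, ih]

@[simp] theorem grest_of_grest (w : List (Letter T Q n)) : grest (grest w) = grest w := by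
  induction w with
  | nil => rfl
  | cons a w ih => cases a <;> simp only [grest, ih]

section Irr

variable {G : Type*} [Group G] (M : Machine T Q n) (f : Fin n → G)

theorem irr_grun (c : List (Fin n × Bool)) (z : List (Letter T Q n)) (hz : grun z = []) :
    Irr M f (c.map .g ++ z) ↔ Can f c ∧ Irr M f z := by
  induction c with
  | nil => exact ⟨fun h => ⟨can_nil, h⟩, fun h => h.2⟩
  | cons p c ih =>
      have h0 : Irr M f ((p :: c).map .g ++ z) ↔ Irr M f (c.map .g ++ z) ∧
          ¬ Head M f (.g p) (c.map .g ++ z) := by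
        rw [List.map_cons, List.cons_append]; exact Iff.rfl
      have h1 : Head M f (.g p) (c.map .g ++ z) ↔ ¬ Can f (p :: c) := by
        simp only [Head, grun_append, hz, List.append_nil]
      rw [h0, h1, not_not]
      refine ⟨fun h => ⟨h.2, (ih.1 h.1).2⟩, fun h => ⟨ih.2 ⟨can_tail h.1, h.2⟩, h.1⟩⟩

end Irr

/-! ### matching of rules -/

/-- the rule of `p` with right hand side `rhs` applies to `p :: w`, the rest is `w1` -/
def PMatch (M : Machine T Q n) (p : Q) (w : List (Letter T Q n))
    (rhs : Option (List (Letter T Q n))) (w1 : List (Letter T Q n)) : Prop :=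
  (∃ γ j, (p, γ, rhs) ∈ M.rules ∧ (∀ a ∈ γ, stk M.stkT a = j) ∧
      γ <+: part M.stkT j (srun w) ∧ w1 = delw M.stkT j γ.length w) ∨
    ((p, [.bot], rhs) ∈ M.rules ∧ part M.stkT 1 (srun w) = [] ∧ FollE w ∧ w1 = w)

theorem pmatch_unique {M : Machine T Q n} {p : Q} {w : List (Letter T Q n)}
    {rhs rhs' : Option (List (Letter T Q n))} {w1 w1' : List (Letter T Q n)}
    (h : PMatch M p w rhs w1) (h' : PMatch M p w rhs' w1') : rhs = rhs' ∧ w1 = w1' := by
  -- a real rule with `bot` rule and empty part 1 is impossible
  have key : ∀ {γ : List (SL T)} {j : ℕ} {r r' : Option (List (Letter T Q n))},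
      (p, γ, r) ∈ M.rules → (∀ a ∈ γ, stk M.stkT a = j) → γ <+: part M.stkT j (srun w) →
      (p, [.bot], r') ∈ M.rules → part M.stkT 1 (srun w) = [] → False := by
    intro γ j r r' h1 h2 h3 h4 h5
    have hne := M.lhs_ne _ h1
    obtain ⟨a, γ', rfl⟩ := List.exists_cons_of_ne_nil hne
    have ha : stk M.stkT a = 1 :=
      M.det_stk _ h1 _ h4 rfl a (by simp) .bot (by simp)
    have hj : j = 1 := (h2 a (by simp)).symm.trans ha
    subst hj
    rw [h5] at h3
    simp at h3
  rcases h with ⟨γ, j, h1, h2, h3, rfl⟩ | ⟨h1, h2, h3, rfl⟩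
  · rcases h' with ⟨γ', j', h1', h2', h3', rfl⟩ | ⟨h1', h2', h3', rfl⟩
    · have hne := M.lhs_ne _ h1
      have hne' := M.lhs_ne _ h1'
      obtain ⟨a, γa, ha⟩ := List.exists_cons_of_ne_nil hne
      obtain ⟨b, γb, hb⟩ := List.exists_cons_of_ne_nil hne'
      have ham : a ∈ γ := by simp only at ha; rw [ha]; simp
      have hbm : b ∈ γ' := by simp only at hb; rw [hb]; simp
      have hab : stk M.stkT a = stk M.stkT b := M.det_stk _ h1 _ h1' rfl a ham b hbm
      have hj : j = j' := (h2 a ham).symm.trans (hab.trans (h2' b hbm))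
      subst hj
      have hor := List.prefix_or_prefix_of_prefix h3 h3'
      have : ((p, γ, rhs) : Q × List (SL T) × Option (List (Letter T Q n))) = (p, γ', rhs') := by
        rcases hor with hp | hp
        · exact M.det _ h1 _ h1' rfl hp
        · exact (M.det _ h1' _ h1 rfl hp).symm
      simp only [Prod.mk.injEq, true_and] at this
      obtain ⟨rfl, rfl⟩ := this
      exact ⟨rfl, rfl⟩
    · exact (key h1 h2 h3 h1' h2').elim
  · rcases h' with ⟨γ', j', h1', h2', h3', rfl⟩ | ⟨h1', h2', h3', rfl⟩
    · exact (key h1' h2' h3' h1 h2).elim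
    · have := M.det _ h1 _ h1' rfl (List.prefix_refl _)
      simp only [Prod.mk.injEq, true_and] at this
      exact ⟨this, rfl⟩

theorem pmatch_wt_lt {M : Machine T Q n} {p : Q} {w : List (Letter T Q n)}
    {v w1 : List (Letter T Q n)} (h : PMatch M p w (some v) w1) :
    wtL M.wt v + wtL M.wt w1 < M.wt (.q p) + wtL M.wt w := by
  rcases h with ⟨γ, j, h1, h2, h3, rfl⟩ | ⟨h1, h2, h3, rfl⟩
  · have h4 := M.wt_rule _ h1 v rfl
    have h5 := wtL_delw M.stkT M.wt h3
    simp only at h4
    omega
  · have h4 := M.wt_rule _ h1 v rfl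
    simp only [List.map_cons, List.map_nil, wtL_cons, wtL_nil, M.wt_bot] at h4
    omega

/-- the pattern of `X` -/
def XMatch (w : List (Letter T Q n)) (k : ℕ) (m w' : List (Letter T Q n)) : Prop :=
  m.length ≤ k ∧
    w = List.replicate k .u ++ .v :: (m ++ .v1 :: (List.replicate k .u1 ++ .Z :: w'))

theorem replicate_u_unique {k k' : ℕ} {w w' : List (Letter T Q n)}
    (h : List.replicate k (.u : Letter T Q n) ++ .v :: w = List.replicate k' .u ++ .v :: w') :
    k = k' ∧ w = w' := by
  induction k generalizing k' with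
  | zero =>
      cases k' with
      | zero => simpa using h
      | succ k' => simp [List.replicate_succ] at h
  | succ k ih =>
      cases k' with
      | zero => simp [List.replicate_succ] at h
      | succ k' =>
          simp only [List.replicate_succ, List.cons_append, List.cons.injEq, true_and] at h
          obtain ⟨h1, h2⟩ := ih h
          exact ⟨by rw [h1], h2⟩

theorem replicate_u1_unique {k k' : ℕ} {w w' : List (Letter T Q n)}
    (h : List.replicate k (.u1 : Letter T Q n) ++ .Z :: w = List.replicate k' .u1 ++ .Z :: w') :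
    k = k' ∧ w = w' := by
  induction k generalizing k' with
  | zero =>
      cases k' with
      | zero => simpa using h
      | succ k' => simp [List.replicate_succ] at h
  | succ k ih =>
      cases k' with
      | zero => simp [List.replicate_succ] at h
      | succ k' =>
          simp only [List.replicate_succ, List.cons_append, List.cons.injEq, true_and] at h
          obtain ⟨h1, h2⟩ := ih h
          exact ⟨by rw [h1], h2⟩

theorem xmatch_aux {k k' : ℕ} {m m' w w' : List (Letter T Q n)} (hm' : m'.length ≤ k)
    (h : m ++ .v1 :: (List.replicate k .u1 ++ .Z :: w) =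
      m' ++ .v1 :: (List.replicate k' .u1 ++ .Z :: w')) : m.length ≤ m'.length → m = m' := by
  intro hl
  have hp : m <+: m' := by
    refine List.prefix_of_prefix_length_le (l₃ := m' ++ .v1 :: (List.replicate k' .u1 ++ .Z :: w'))
      ⟨_, h⟩ ⟨_, rfl⟩ hl
  obtain ⟨t, rfl⟩ := hp
  rw [List.append_assoc, List.append_cancel_left_eq] at h
  cases t with
  | nil => simp
  | cons a t =>
      rw [List.cons_append, List.cons.injEq] at h
      obtain ⟨rfl, h⟩ := h
      -- t begins inside the block `u1^k Z`, too long
      exfalso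
      have ht : t.length < k := by
        rw [List.length_append, List.length_cons] at hm'; omega
      have h2 : (List.replicate k (.u1 : Letter T Q n) ++ .Z :: w)[t.length]? =
          (t ++ .v1 :: (List.replicate k' .u1 ++ .Z :: w'))[t.length]? := by rw [h]
      rw [List.getElem?_append_left (by simpa using ht), List.getElem?_append_right le_rfl] at h2
      simp only [List.length_replicate, ht, getElem?_pos, List.getElem_replicate, tsub_self, List.length_cons, List.length_append, Order.lt_add_one_iff, zero_le, List.getElem_cons_zero, Option.some.injEq, reduceCtorEq] at h2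

theorem xmatch_unique {w : List (Letter T Q n)} {k k' : ℕ} {m m' w1 w1' : List (Letter T Q n)}
    (h : XMatch w k m w1) (h' : XMatch w k' m' w1') : k = k' ∧ m = m' ∧ w1 = w1' := by
  obtain ⟨h1, rfl⟩ := h
  obtain ⟨h1', h2'⟩ := h'
  obtain ⟨rfl, h3⟩ := replicate_u_unique h2'
  have hmm : m = m' := by
    rcases le_total m.length m'.length with hl | hl
    · exact xmatch_aux h1' h3 hl
    · exact (xmatch_aux h1 h3.symm hl).symm
  subst hmm
  rw [List.append_cancel_left_eq, List.cons.injEq] at h3
  exact ⟨rfl, rfl, (replicate_u1_unique h3.2).2⟩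

/-! ### the operators -/

section Op

variable {G : Type*} [Group G] (M : Machine T Q n) (f : Fin n → G)
  (tgt : ℕ → Option (List (Letter T Q n)))

open Classical in
/-- one step of the recursive definition of the operators -/
noncomputable def Lstep
    (rec : List (Letter T Q n) → List (Letter T Q n) → Option (List (Letter T Q n))) :
    Letter T Q n → List (Letter T Q n) → Option (List (Letter T Q n))
  | .s x, w => if NoOp M x w then some w else some (insw M.stkT x w)
  | .q0 μ, .s (.i0 k) :: w => rec [.q0 μ, .s (.i1 k)] w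
  | .q0 μ, .s .B :: w => rec (M.st μ) w
  | .q0 μ, w => some (.q0 μ :: w)
  | .q p, w => if h : ∃ o : Option (List (Letter T Q n)) × List (Letter T Q n),
        PMatch M p w o.1 o.2 then
      h.choose.1.bind fun v => rec v h.choose.2
    else some (.q p :: w)
  | .qh, .E :: w => some w
  | .qh, w => some (.qh :: w)
  | .X, w => if h : ∃ o : ℕ × List (Letter T Q n) × List (Letter T Q n),
        XMatch w o.1 o.2.1 o.2.2 then
      if tgt h.choose.1 = some h.choose.2.1 then some h.choose.2.2 else none
    else some (.X :: w)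
  | .g p, w => some ((canW f (p :: grun w)).map .g ++ grest w)
  | .E, w => some (.E :: w)
  | .Z, w => some (.Z :: w)
  | .u, w => some (.u :: w)
  | .v, w => some (.v :: w)
  | .u1, w => some (.u1 :: w)
  | .v1, w => some (.v1 :: w)

variable {M f tgt}

theorem wtL_gmap (c : List (Fin n × Bool)) : wtL M.wt (c.map .g) = 0 := by
  induction c with
  | nil => rfl
  | cons a c ih => rw [List.map_cons, wtL_cons, ih, M.wt_g]

theorem wtL_grest (w : List (Letter T Q n)) : wtL M.wt (grest w) = wtL M.wt w := by
  conv_rhs => rw [← grun_grest w]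
  rw [wtL_append, wtL_gmap, zero_add]

theorem Lstep_congr
    {rec rec' : List (Letter T Q n) → List (Letter T Q n) → Option (List (Letter T Q n))}
    {a : Letter T Q n} {w : List (Letter T Q n)}
    (h : ∀ v1 w1, wtL M.wt v1 + wtL M.wt w1 < M.wt a + wtL M.wt w → rec v1 w1 = rec' v1 w1) :
    Lstep M f tgt rec a w = Lstep M f tgt rec' a w := by
  unfold Lstep
  split
  · rfl
  · rename_i μ k w
    apply h
    have := M.wt_hat k
    simp only [wtL_cons, wtL_nil]
    omega
  · rename_i μ w
    apply h
    have := M.wt_st μ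
    simp only [wtL_cons]
    omega
  · rfl
  · rename_i p w
    split_ifs with hm
    · have hs := hm.choose_spec
      cases ho : hm.choose.1 with
      | none => rfl
      | some v =>
          rw [ho] at hs
          simp only [Option.bind_some]
          exact h _ _ (pmatch_wt_lt hs)
    · rfl
  all_goals rfl

theorem Lstep_wt
    {rec : List (Letter T Q n) → List (Letter T Q n) → Option (List (Letter T Q n))}
    {a : Letter T Q n} {w : List (Letter T Q n)}
    (h : ∀ v1 w1, wtL M.wt v1 + wtL M.wt w1 < M.wt a + wtL M.wt w →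
      ∀ w' ∈ rec v1 w1, wtL M.wt w' ≤ wtL M.wt v1 + wtL M.wt w1) :
    ∀ w' ∈ Lstep M f tgt rec a w, wtL M.wt w' ≤ M.wt a + wtL M.wt w := by
  unfold Lstep
  split
  · rename_i x w
    intro w' hw'
    split_ifs at hw'
    · simp only [Option.mem_def, Option.some.injEq] at hw'
      subst hw'; omega
    · simp only [Option.mem_def, Option.some.injEq] at hw'
      subst hw'
      rw [wtL_insw]
  · rename_i μ k w
    intro w' hw'
    have h1 := M.wt_hat k
    have h2 := h [.q0 μ, .s (.i1 k)] w (by simp only [wtL_cons, wtL_nil]; omega) w' hw'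
    simp only [wtL_cons, wtL_nil] at h2 ⊢
    omega
  · rename_i μ w
    intro w' hw'
    have h1 := M.wt_st μ
    have h2 := h (M.st μ) w (by simp only [wtL_cons]; omega) w' hw'
    simp only [wtL_cons] at h2 ⊢
    omega
  · intro w' hw'
    simp only [Option.mem_def, Option.some.injEq] at hw'
    subst hw'
    simp
  · rename_i p w
    intro w' hw'
    split_ifs at hw' with hm
    · have hs := hm.choose_spec
      cases ho : hm.choose.1 with
      | none => rw [ho] at hw'; simp at hw'
      | some v =>
          rw [ho] at hs hw'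
          simp only [Option.bind_some] at hw'
          have h1 := (pmatch_wt_lt hs)
          have h2 := h _ _ h1 w' hw'
          omega
    · simp only [Option.mem_def, Option.some.injEq] at hw'
      subst hw'
      simp
  · intro w' hw'
    simp only [Option.mem_def, Option.some.injEq] at hw'
    subst hw'
    simp only [wtL_cons]; omega
  · intro w' hw'
    simp only [Option.mem_def, Option.some.injEq] at hw'
    subst hw'
    simp
  · rename_i w
    intro w' hw'
    split_ifs at hw' with hm ht
    · simp only [Option.mem_def, Option.some.injEq] at hw'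
      subst hw'
      have hs := hm.choose_spec.2
      have := congrArg (wtL M.wt) hs
      simp only [wtL_append, wtL_cons] at this
      omega
    · simp at hw'
    · simp only [Option.mem_def, Option.some.injEq] at hw'
      subst hw'
      simp
  · rename_i p w
    intro w' hw'
    simp only [Option.mem_def, Option.some.injEq] at hw'
    subst hw'
    rw [wtL_append, wtL_gmap, wtL_grest]
    omega
  all_goals
    intro w' hw'
    simp only [Option.mem_def, Option.some.injEq] at hw'
    subst hw'
    simp

variable (M f tgt)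

/-- the operators with fuel -/
noncomputable def Lfuel : ℕ → List (Letter T Q n) → List (Letter T Q n) →
    Option (List (Letter T Q n))
  | 0, _, _ => none
  | k + 1, v, w => v.foldr (fun a o => o.bind (Lstep M f tgt (Lfuel k) a)) (some w)

theorem Lfuel_nil (k : ℕ) (w : List (Letter T Q n)) : Lfuel M f tgt (k + 1) [] w = some w := rfl

theorem Lfuel_cons (k : ℕ) (a : Letter T Q n) (v w : List (Letter T Q n)) :
    Lfuel M f tgt (k + 1) (a :: v) w =
      (Lfuel M f tgt (k + 1) v w).bind (Lstep M f tgt (Lfuel M f tgt k) a) := rfl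

theorem Lfuel_spec : ∀ (k : ℕ) (v w : List (Letter T Q n)), wtL M.wt v + wtL M.wt w < k →
    (∀ w' ∈ Lfuel M f tgt k v w, wtL M.wt w' ≤ wtL M.wt v + wtL M.wt w) ∧
      ∀ k', k ≤ k' → Lfuel M f tgt k' v w = Lfuel M f tgt k v w := by
  intro k
  induction k with
  | zero => intro v w h; omega
  | succ k ih =>
      intro v w
      induction v with
      | nil =>
          intro _
          refine ⟨fun w' hw' => ?_, fun k' hk' => ?_⟩
          · rw [Lfuel_nil] at hw'
            simp only [Option.mem_def, Option.some.injEq] at hw'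
            subst hw'
            simp
          · obtain ⟨k', rfl⟩ : ∃ l, k' = l + 1 := ⟨k' - 1, by omega⟩
            rw [Lfuel_nil, Lfuel_nil]
      | cons a v ihv =>
          intro hlt
          rw [wtL_cons] at hlt
          obtain ⟨h1, h2⟩ := ihv (by omega)
          refine ⟨fun w' hw' => ?_, fun k' hk' => ?_⟩
          · rw [Lfuel_cons, Option.mem_def, Option.bind_eq_some_iff] at hw'
            obtain ⟨w1, hw1, hw'⟩ := hw'
            have h3 := h1 w1 hw1
            have h4 := Lstep_wt (M := M) (f := f) (tgt := tgt) (rec := Lfuel M f tgt k) (a := a)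
              (w := w1) (fun v2 w2 hlt2 => (ih v2 w2 (by omega)).1) w' hw'
            rw [wtL_cons]
            omega
          · obtain ⟨k', rfl⟩ : ∃ l, k' = l + 1 := ⟨k' - 1, by omega⟩
            rw [Lfuel_cons, Lfuel_cons, h2 _ hk']
            cases ho : Lfuel M f tgt (k + 1) v w with
            | none => rfl
            | some w1 =>
                have h3 := h1 w1 ho
                simp only [Option.bind_some]
                refine Lstep_congr fun v2 w2 hlt2 => ?_
                exact (ih v2 w2 (by omega)).2 _ (by omega)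

/-- action of a word -/
noncomputable def LW (v w : List (Letter T Q n)) : Option (List (Letter T Q n)) :=
  Lfuel M f tgt (wtL M.wt v + wtL M.wt w + 1) v w

/-- action of a letter -/
noncomputable def LO (a : Letter T Q n) (w : List (Letter T Q n)) :
    Option (List (Letter T Q n)) :=
  Lstep M f tgt (LW M f tgt) a w

@[simp] theorem LW_nil (w : List (Letter T Q n)) : LW M f tgt [] w = some w := rfl

theorem LW_cons (a : Letter T Q n) (v w : List (Letter T Q n)) :
    LW M f tgt (a :: v) w = (LW M f tgt v w).bind (LO M f tgt a) := by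
  unfold LW
  rw [Lfuel_cons]
  have h1 := Lfuel_spec M f tgt (wtL M.wt v + wtL M.wt w + 1) v w (by omega)
  rw [h1.2 _ (by rw [wtL_cons]; omega)]
  cases ho : Lfuel M f tgt (wtL M.wt v + wtL M.wt w + 1) v w with
  | none => rfl
  | some w1 =>
      have h3 := h1.1 w1 ho
      simp only [Option.bind_some]
      refine Lstep_congr fun v2 w2 hlt2 => ?_
      exact (Lfuel_spec M f tgt (wtL M.wt v2 + wtL M.wt w2 + 1) v2 w2 (by omega)).2 _
        (by rw [wtL_cons]; omega)

theorem LW_singleton (a : Letter T Q n) (w : List (Letter T Q n)) :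
    LW M f tgt [a] w = LO M f tgt a w := by
  rw [LW_cons]; simp

theorem wtL_LW {v w w' : List (Letter T Q n)} (h : LW M f tgt v w = some w') :
    wtL M.wt w' ≤ wtL M.wt v + wtL M.wt w :=
  (Lfuel_spec M f tgt _ v w (by omega)).1 w' h

/-! ### unfolding equations -/

theorem LO_noop {x : SL T} {w : List (Letter T Q n)} (h : NoOp M x w) :
    LO M f tgt (.s x) w = some w := by
  simp only [LO, Lstep, h, ↓reduceIte]

theorem LO_ins {x : SL T} {w : List (Letter T Q n)} (h : ¬ NoOp M x w) :
    LO M f tgt (.s x) w = some (insw M.stkT x w) := by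
  simp [LO, Lstep, h]

theorem LO_q0_i0 (μ : Bool) (k : Fin 3) (w : List (Letter T Q n)) :
    LO M f tgt (.q0 μ) (.s (.i0 k) :: w) = (LO M f tgt (.s (.i1 k)) w).bind (LO M f tgt (.q0 μ)) := by
  have : LO M f tgt (.q0 μ) (.s (.i0 k) :: w) = LW M f tgt [.q0 μ, .s (.i1 k)] w := rfl
  rw [this, LW_cons, LW_singleton]

theorem LO_q0_B (μ : Bool) (w : List (Letter T Q n)) :
    LO M f tgt (.q0 μ) (.s .B :: w) = LW M f tgt (M.st μ) w := rfl

theorem LO_q0_of_part {μ : Bool} {w : List (Letter T Q n)}
    (h : part M.stkT 0 (srun w) = []) : LO M f tgt (.q0 μ) w = some (.q0 μ :: w) := by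
  cases w with
  | nil => rfl
  | cons a w =>
      cases a with
      | s x =>
          cases x with
          | i0 k => simp only [srun, part_cons, stk, ↓reduceIte, reduceCtorEq] at h
          | B => simp only [srun, part_cons, stk, ↓reduceIte, reduceCtorEq] at h
          | _ => rfl
      | _ => rfl

theorem LO_q_match {p : Q} {w w1 : List (Letter T Q n)} {rhs : Option (List (Letter T Q n))}
    (h : PMatch M p w rhs w1) : LO M f tgt (.q p) w = rhs.bind fun v => LW M f tgt v w1 := by
  have hm : ∃ o : Option (List (Letter T Q n)) × List (Letter T Q n),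
      PMatch M p w o.1 o.2 := ⟨(rhs, w1), h⟩
  have h1 : LO M f tgt (.q p) w = hm.choose.1.bind fun v => LW M f tgt v hm.choose.2 := by
    simp only [LO, Lstep]
    rw [dif_pos hm]
  obtain ⟨h2, h3⟩ := pmatch_unique hm.choose_spec h
  rw [h1, h2, h3]

theorem LO_q_none {p : Q} {w : List (Letter T Q n)} (h : ∀ rhs w1, ¬ PMatch M p w rhs w1) :
    LO M f tgt (.q p) w = some (.q p :: w) := by
  have hm : ¬ ∃ o : Option (List (Letter T Q n)) × List (Letter T Q n),
      PMatch M p w o.1 o.2 := fun ⟨o, ho⟩ => h _ _ ho
  simp only [LO, Lstep]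
  rw [dif_neg hm]

theorem LO_qh_E (w : List (Letter T Q n)) : LO M f tgt .qh (.E :: w) = some w := rfl

theorem LO_qh_of_ne {w : List (Letter T Q n)} (h : ¬ ∃ w', w = .E :: w') :
    LO M f tgt .qh w = some (.qh :: w) := by
  cases w with
  | nil => rfl
  | cons a w =>
      cases a with
      | E => exact absurd ⟨w, rfl⟩ h
      | _ => rfl

open Classical in
theorem LO_X_match {w m w' : List (Letter T Q n)} {k : ℕ} (h : XMatch w k m w') :
    LO M f tgt .X w = if tgt k = some m then some w' else none := by
  have hm : ∃ o : ℕ × List (Letter T Q n) × List (Letter T Q n),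
        XMatch w o.1 o.2.1 o.2.2 := ⟨(k, m, w'), h⟩
  have h1 : LO M f tgt .X w =
      if tgt hm.choose.1 = some hm.choose.2.1 then some hm.choose.2.2 else none := by
    simp only [LO, Lstep]
    rw [dif_pos hm]
  obtain ⟨h2, h3, h4⟩ := xmatch_unique hm.choose_spec h
  rw [h1, h2, h3, h4]

theorem LO_X_none {w : List (Letter T Q n)} (h : ∀ k m w', ¬ XMatch w k m w') :
    LO M f tgt .X w = some (.X :: w) := by
  have hm : ¬ ∃ o : ℕ × List (Letter T Q n) × List (Letter T Q n),
        XMatch w o.1 o.2.1 o.2.2 := fun ⟨o, ho⟩ => h _ _ _ ho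
  simp only [LO, Lstep]
  rw [dif_neg hm]

theorem LO_g (p : Fin n × Bool) (w : List (Letter T Q n)) :
    LO M f tgt (.g p) w = some ((canW f (p :: grun w)).map .g ++ grest w) := rfl

/-- if `a` is not reducible at the head then `L a` prepends `a` -/
theorem LO_of_not_head {a : Letter T Q n} {w : List (Letter T Q n)} (h : ¬ Head M f a w) :
    LO M f tgt a w = some (a :: w) := by
  cases a with
  | s x =>
      simp only [Head] at h
      push Not at h
      obtain ⟨h1, h2, h3⟩ := h
      have hn : ¬ NoOp M x w := by
        rintro (⟨hk, hp, w', hE⟩ | ⟨hk, hp, w', hE⟩)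
        · exact h2 hk hp w' hE
        · exact h3 hk hp w' hE
      rw [LO_ins M f tgt hn]
      congr 1
      unfold insw
      cases hr : srun w with
      | nil =>
          have := srun_srest w
          rw [hr] at this
          simp only [List.map_nil, List.nil_append] at this
          simp [ins, this]
      | cons b r =>
          have hb := h1 b r hr
          have := srun_srest w
          rw [hr] at this
          rw [ins, if_neg (not_lt.2 hb), List.map_cons, List.cons_append, this]
  | q0 μ =>
      simp only [Head, ne_eq, not_not] at h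
      exact LO_q0_of_part M f tgt h
  | q p =>
      refine LO_q_none M f tgt fun rhs w1 hm => h ?_
      rcases hm with ⟨γ, j, h1, h2, h3, -⟩ | ⟨h1, h2, h3, -⟩
      · exact Or.inl ⟨j, γ, rhs, h1, h2, h3⟩
      · exact Or.inr ⟨rhs, h1, h2, h3⟩
  | qh => exact LO_qh_of_ne M f tgt h
  | X =>
      refine LO_X_none M f tgt fun k m w' hm => h ⟨k, m, w', hm.1, hm.2⟩
  | g p =>
      simp only [Head, not_not] at h
      rw [LO_g, canW_eq h rfl, List.map_cons, List.cons_append, grun_grest]
  | E => rfl
  | Z => rfl
  | u => rfl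
  | v => rfl
  | u1 => rfl
  | v1 => rfl

/-! ### the operators preserve irreducibility -/

theorem irr_LW_aux : ∀ (k : ℕ),
    (∀ (v w w' : List (Letter T Q n)), wtL M.wt v + wtL M.wt w ≤ k → Irr M f w →
      LW M f tgt v w = some w' → Irr M f w') := by
  intro k
  induction k using Nat.strong_induction_on with
  | _ k ihk =>
    intro v
    induction v with
    | nil =>
        intro w w' _ hw h
        rw [LW_nil, Option.some.injEq] at h
        exact h ▸ hw
    | cons a v ihv =>
        intro w w' hk hw h
        rw [LW_cons, Option.bind_eq_some_iff] at h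
        obtain ⟨w1, h1, h2⟩ := h
        rw [wtL_cons] at hk
        have hw1 : Irr M f w1 := ihv w w1 (by omega) hw h1
        have hwt : M.wt a + wtL M.wt w1 ≤ k := by
          have := wtL_LW M f tgt h1
          omega
        by_cases hh : Head M f a w1
        · cases a with
          | s x =>
              by_cases hn : NoOp M x w1
              · rw [LO_noop M f tgt hn, Option.some.injEq] at h2
                exact h2 ▸ hw1
              · rw [LO_ins M f tgt hn, Option.some.injEq] at h2
                subst h2
                exact hw1.insw x (fun h => hn (Or.inl h)) (fun h => hn (Or.inr h))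
          | q0 μ =>
              cases w1 with
              | nil => simp [Head, srun] at hh
              | cons b w1 =>
                  cases b with
                  | s x =>
                      cases x with
                      | i0 i =>
                          rw [LO_q0_i0] at h2
                          have h3 : LW M f tgt [.q0 μ, .s (.i1 i)] w1 = some w' := by
                            rw [LW_cons, LW_singleton, h2]
                          have hlt := M.wt_hat i
                          refine ihk (wtL M.wt [.q0 μ, .s (.i1 i)] + wtL M.wt w1) ?_ _ _ _ le_rfl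
                            hw1.1 h3
                          simp only [wtL_cons, wtL_nil] at hwt ⊢
                          omega
                      | B =>
                          rw [LO_q0_B] at h2
                          have hlt := M.wt_st μ
                          refine ihk (wtL M.wt (M.st μ) + wtL M.wt w1) ?_ _ _ _ le_rfl
                            hw1.1 h2
                          simp only [wtL_cons] at hwt ⊢
                          omega
                      | i1 i =>
                          rw [show LO M f tgt (.q0 μ) (.s (.i1 i) :: w1) =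
                            some (.q0 μ :: .s (.i1 i) :: w1) from rfl, Option.some.injEq] at h2
                          exfalso
                          apply hh
                          have hs := hw1.sorted
                          rw [List.eq_nil_iff_forall_not_mem]
                          intro c hc
                          rw [mem_part] at hc
                          rw [show srun (.s (.i1 i) :: w1) = .i1 i :: srun w1 from rfl] at hs hc
                          have hs' := (List.pairwise_cons.1 hs).1
                          rcases List.mem_cons.1 hc.1 with rfl | hc1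
                          · exact absurd hc.2 (by simp [stk])
                          · have := hs' c hc1
                            rw [hc.2] at this
                            simp [stk] at this
                      | bot =>
                          exfalso
                          apply hh
                          have hs := hw1.sorted
                          rw [List.eq_nil_iff_forall_not_mem]
                          intro c hc
                          rw [mem_part] at hc
                          rw [show srun (.s .bot :: w1) = .bot :: srun w1 from rfl] at hs hc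
                          have hs' := (List.pairwise_cons.1 hs).1
                          rcases List.mem_cons.1 hc.1 with rfl | hc1
                          · exact absurd hc.2 (by simp [stk])
                          · have := hs' c hc1
                            rw [hc.2] at this
                            simp [stk] at this
                      | t b =>
                          exfalso
                          apply hh
                          have hs := hw1.sorted
                          rw [List.eq_nil_iff_forall_not_mem]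
                          intro c hc
                          rw [mem_part] at hc
                          rw [show srun (.s (.t b) :: w1) = .t b :: srun w1 from rfl] at hs hc
                          have hs' := (List.pairwise_cons.1 hs).1
                          have hb := M.stk_ge b
                          rcases List.mem_cons.1 hc.1 with rfl | hc1
                          · have := hc.2
                            simp only [stk] at this
                            omega
                          · have := hs' c hc1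
                            rw [hc.2] at this
                            simp only [stk] at this
                            omega
                  | _ => simp [Head, srun] at hh
          | q p =>
              have hm : ∃ rhs w2, PMatch M p w1 rhs w2 := by
                rcases hh with ⟨j, γ, rhs, h3, h4, h5⟩ | ⟨rhs, h3, h4, h5⟩
                · exact ⟨rhs, _, Or.inl ⟨γ, j, h3, h4, h5, rfl⟩⟩
                · exact ⟨rhs, _, Or.inr ⟨h3, h4, h5, rfl⟩⟩
              obtain ⟨rhs, w2, hm⟩ := hm
              rw [LO_q_match M f tgt hm, Option.bind_eq_some_iff] at h2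
              obtain ⟨v2, rfl, h2⟩ := h2
              have hlt := (pmatch_wt_lt hm)
              have hw2 : Irr M f w2 := by
                rcases hm with ⟨γ, j, -, -, -, rfl⟩ | ⟨-, -, -, rfl⟩
                · exact hw1.delw _ _
                · exact hw1
              exact ihk (wtL M.wt v2 + wtL M.wt w2) (by omega) _ _ _ le_rfl hw2 h2
          | qh =>
              obtain ⟨w2, rfl⟩ := hh
              rw [LO_qh_E, Option.some.injEq] at h2
              subst h2
              exact hw1.1
          | X =>
              classical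
              obtain ⟨i, m, w2, h3, h4⟩ := hh
              rw [LO_X_match M f tgt ⟨h3, h4⟩] at h2
              split_ifs at h2
              rw [Option.some.injEq] at h2
              subst h2
              rw [h4] at hw1
              exact Irr.suffix (w := List.replicate i .u ++ .v :: (m ++ .v1 ::
                (List.replicate i .u1 ++ [.Z]))) (by simpa using hw1)
          | g p =>
              rw [LO_g, Option.some.injEq] at h2
              subst h2
              rw [irr_grun _ _ _ _ (grun_of_grest w1)]
              refine ⟨can_canW f _, ?_⟩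
              rw [← grun_grest w1] at hw1
              exact hw1.suffix
          | E => simp [Head] at hh
          | Z => simp [Head] at hh
          | u => simp [Head] at hh
          | v => simp [Head] at hh
          | u1 => simp [Head] at hh
          | v1 => simp [Head] at hh
        · rw [LO_of_not_head M f tgt hh, Option.some.injEq] at h2
          subst h2
          exact ⟨hw1, hh⟩

variable {M f tgt}

theorem irr_LW {v w w' : List (Letter T Q n)} (hw : Irr M f w)
    (h : LW M f tgt v w = some w') : Irr M f w' :=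
  irr_LW_aux M f tgt _ v w w' le_rfl hw h

theorem irr_LO {a : Letter T Q n} {w w' : List (Letter T Q n)} (hw : Irr M f w)
    (h : LO M f tgt a w = some w') : Irr M f w' :=
  irr_LW hw (v := [a]) (by rw [LW_singleton]; exact h)

end Op


section Final

variable {G : Type*} [Group G] (M : Machine T Q n) (f : Fin n → G)
  (tgt : ℕ → Option (List (Letter T Q n)))

theorem LW_eq_Lw (v w : List (Letter T Q n)) : LW M f tgt v w = Lw (LO M f tgt) v w := by
  induction v with
  | nil => rfl
  | cons a v ih => rw [LW_cons, ih]; rfl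

end Final

end Vale.Agent.P193.BH.Op

namespace Vale.Agent.P193.BH

open Op

variable {T Q : Type} {n : ℕ} {G : Type*} [Group G]

/-- existence of the operators -/
theorem exists_isOp (M : Machine T Q n) (f : Fin n → G)
    (tgt : ℕ → Option (List (Letter T Q n))) : ∃ L, IsOp M f tgt L := by
  classical
  have h0 : ∀ (x : SL T) (w : List (Letter T Q n)), stk M.stkT x = 0 →
      insw M.stkT x w = .s x :: w := by
    intro x w hx
    unfold insw
    rw [ins_of_le M.stkT (by intro y _; rw [hx]; exact Nat.zero_le _), List.map_cons,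
      List.cons_append, srun_srest]
  refine ⟨LO M f tgt, ?_⟩
  constructor
  · intro a w w' hw h
    exact irr_LO hw h
  · intro a w _ h
    exact LO_of_not_head M f tgt h
  · intro x w _ h
    exact LO_noop M f tgt h
  · intro x w _ h
    exact LO_ins M f tgt h
  · intro p γ rhs w h hw _
    obtain ⟨j, -, hj⟩ := M.lhs_stk _ h
    have hm : PMatch M p (insL M.stkT γ w) rhs w := by
      refine Or.inl ⟨γ, j, h, hj, ?_, ?_⟩
      · rw [part_insL_self M.stkT hj]
        exact List.prefix_append _ _
      · rw [delw_insL hj hw.sorted]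
    rw [LO_q_match M f tgt hm]
    simp only [LW_eq_Lw]
  · intro p rhs w h hw h1 hE
    have hm : PMatch M p w rhs w := Or.inr ⟨h, h1, hE, rfl⟩
    rw [LO_q_match M f tgt hm]
    simp only [LW_eq_Lw]
  · intro μ k w _ _
    rw [h0 _ _ rfl, LO_q0_i0]
  · intro μ w _ _
    rw [h0 _ _ rfl, LO_q0_B, LW_eq_Lw]
  · intro w _
    rfl
  · intro p w _
    exact ⟨canW f (p :: grun w), can_canW f _, ev_canW f _, rfl⟩
  · intro k m w _ hk ht
    rw [LO_X_match M f tgt (w := xt k m w) ⟨hk, rfl⟩, if_pos ht]
  · intro k m w _ hk ht
    rw [LO_X_match M f tgt (w := xt k m w) ⟨hk, rfl⟩, if_neg ht]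

end Vale.Agent.P193.BH

end FileBOp

/-! file BGrp -/

section FileBGrp
/-!
Part B: the group letters in the model.
-/

namespace Vale.Agent.P193.BH

variable {T Q : Type} {n : ℕ} {G : Type*} [Group G]
variable {M : Machine T Q n} {f : Fin n → G} {tgt : ℕ → Option (List (Letter T Q n))}
  {L : Letter T Q n → List (Letter T Q n) → Option (List (Letter T Q n))}

theorem irr_group_iff (w : List (Letter T Q n)) :
    Irr M f w ↔ Can f (grun w) ∧ Irr M f (grest w) := by
  have h := Op.irr_grun M f (grun w) (grest w) (Op.grun_of_grest w)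
  rwa [Op.grun_grest] at h

/-- group letters act on the initial group run -/
theorem Lw_group (hL : IsOp M f tgt L) (c : List (Fin n × Bool)) (w : List (Letter T Q n))
    (hw : Irr M f w) : ∃ c', Can f c' ∧ ev f c' = ev f c * ev f (grun w) ∧
      Lw L (c.map .g) w = some (c'.map .g ++ grest w) := by
  induction c with
  | nil =>
    exact ⟨grun w, ((irr_group_iff w).1 hw).1, by simp [ev], by rw [Op.grun_grest]; rfl⟩
  | cons p c ih =>
    obtain ⟨c1, hc1, hev1, h1⟩ := ih
    have hi : Irr M f (c1.map .g ++ grest w) :=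
      (Op.irr_grun M f c1 (grest w) (Op.grun_of_grest w)).2 ⟨hc1, ((irr_group_iff w).1 hw).2⟩
    obtain ⟨c2, hc2, hev2, h2⟩ := hL.g p _ hi
    refine ⟨c2, hc2, ?_, ?_⟩
    · rw [hev2, Op.grun_append, Op.grun_of_grest, List.append_nil, Op.ev_cons, Op.ev_cons, hev1,
        mul_assoc]
    · change (Lw L (c.map .g) w).bind (L (.g p)) = _
      rw [h1]
      change L (.g p) (c1.map .g ++ grest w) = _
      rw [h2, Op.grest_append, Op.grest_of_grest]

end Vale.Agent.P193.BH

end FileBGrp

/-! file BEnd -/

section FileBEnd
/-!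
Part B: the representation of the machine ring on irreducible words.
-/

namespace Vale.Agent.P193.BH

variable {T Q : Type} {n : ℕ} {G : Type*} [Group G]

/-- irreducible words -/
abbrev NF (M : Machine T Q n) (f : Fin n → G) : Type := {w : List (Letter T Q n) // Irr M f w}

variable {M : Machine T Q n} {f : Fin n → G} {tgt : ℕ → Option (List (Letter T Q n))}
  {L : Letter T Q n → List (Letter T Q n) → Option (List (Letter T Q n))}

/-- the operators on irreducible words -/
def Lo (hL : IsOp M f tgt L) (a : Letter T Q n) (w : NF M f) : Option (NF M f) :=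
  Option.pmap (fun x hx => ⟨x, hx⟩) (L a w.1) (fun x hx => hL.irr a w.1 x w.2 hx)

theorem Lo_map (hL : IsOp M f tgt L) (a : Letter T Q n) (w : NF M f) :
    (Lo hL a w).map Subtype.val = L a w.1 := by
  simp [Lo, Option.map_pmap]

/-- words acting -/
def Low (hL : IsOp M f tgt L) (v : List (Letter T Q n)) (w : NF M f) : Option (NF M f) :=
  v.foldr (fun a o => o.bind (Lo hL a)) (some w)

theorem Low_map (hL : IsOp M f tgt L) (v : List (Letter T Q n)) (w : NF M f) :
    (Low hL v w).map Subtype.val = Lw L v w.1 := by
  induction v with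
  | nil => rfl
  | cons a v ih =>
    change ((Low hL v w).bind (Lo hL a)).map Subtype.val = (Lw L v w.1).bind (L a)
    rw [← ih]
    cases h : Low hL v w with
    | none => rfl
    | some x => exact Lo_map hL a x

theorem Low_ext {o o' : Option (NF M f)}
    (h : o.map Subtype.val = o'.map Subtype.val) : o = o' :=
  Option.map_injective Subtype.val_injective h

/-- the linear operators -/
noncomputable def opEnd (hL : IsOp M f tgt L) (a : Letter T Q n) :
    Module.End (ZMod 2) (NF M f →₀ ZMod 2) :=
  Finsupp.linearCombination (ZMod 2) fun w : NF M f =>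
    (Lo hL a w).elim 0 fun w' => Finsupp.single w' 1

/-- value on basis vectors or zero -/
noncomputable def vec (o : Option (NF M f)) : NF M f →₀ ZMod 2 :=
  o.elim 0 fun w' => Finsupp.single w' 1

theorem opEnd_vec (hL : IsOp M f tgt L) (a : Letter T Q n) (o : Option (NF M f)) :
    opEnd hL a (vec o) = vec (o.bind (Lo hL a)) := by
  cases o with
  | none => simp [vec]
  | some w => simp [vec, opEnd]

theorem pr_opEnd_vec (hL : IsOp M f tgt L) (v : List (Letter T Q n)) (w : NF M f) :
    pr (opEnd hL) v (vec (some w)) = vec (Low hL v w) := by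
  induction v with
  | nil => rfl
  | cons a v ih =>
    rw [pr_cons, Module.End.mul_apply, ih, opEnd_vec]
    rfl

theorem end_ext {φ φ' : Module.End (ZMod 2) (NF M f →₀ ZMod 2)}
    (h : ∀ w : NF M f, φ (vec (some w)) = φ' (vec (some w))) : φ = φ' := by
  refine Finsupp.lhom_ext' fun w => LinearMap.ext_ring ?_
  exact h w

theorem vec_injective : Function.Injective (vec : Option (NF M f) → _) := by
  intro o o' h
  cases o with
  | none =>
    cases o' with
    | none => rfl
    | some w =>
      exfalso
      have := DFunLike.congr_fun h w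
      simp only [vec, Option.elim_none, Finsupp.coe_zero, Pi.zero_apply, Option.elim_some, Finsupp.single_eq_same, zero_ne_one] at this
  | some w =>
    cases o' with
    | none =>
      exfalso
      have := DFunLike.congr_fun h w
      simp only [vec, Option.elim_some, Finsupp.single_eq_same, Option.elim_none, Finsupp.coe_zero, Pi.zero_apply, one_ne_zero] at this
    | some w' =>
      have := Finsupp.single_left_injective (one_ne_zero) h
      rw [this]

theorem pr_opEnd_eq (hL : IsOp M f tgt L) {v v' : List (Letter T Q n)}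
    (h : ∀ w, Irr M f w → Lw L v w = Lw L v' w) : pr (opEnd hL) v = pr (opEnd hL) v' := by
  refine end_ext fun w => ?_
  rw [pr_opEnd_vec, pr_opEnd_vec]
  congr 1
  refine Low_ext ?_
  rw [Low_map, Low_map]
  exact h w.1 w.2

theorem pr_opEnd_zero (hL : IsOp M f tgt L) {v : List (Letter T Q n)}
    (h : ∀ w, Irr M f w → Lw L v w = none) : pr (opEnd hL) v = 0 := by
  refine end_ext fun w => ?_
  rw [pr_opEnd_vec]
  have : Low hL v w = none := by
    refine Low_ext ?_
    rw [Low_map]
    exact h w.1 w.2
  rw [this]
  rfl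

theorem opEnd_resp (hL : IsOp M f tgt L) : M.Resp (opEnd hL) where
  comm a b hab := by
    have h := pr_opEnd_eq hL (v := [.s a, .s b]) (v' := [.s b, .s a]) fun w hw => by
      change ((some w).bind (L (.s b))).bind (L (.s a)) = ((some w).bind (L (.s a))).bind (L (.s b))
      exact rel_comm hL a b hab w hw
    simpa only [pr_cons, pr_nil, mul_one] using h
  rule_some p γ v hr := by
    have h := pr_opEnd_eq hL (v := .q p :: γ.map .s) (v' := v) fun w hw => by
      exact rel_rule hL p γ (some v) hr w hw
    simpa only [pr_cons] using h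
  rule_none p γ hr := by
    have h := pr_opEnd_zero hL (v := .q p :: γ.map .s) fun w hw => by
      exact rel_rule hL p γ none hr w hw
    simpa only [pr_cons] using h

theorem pr_out1 (hL : IsOp M f tgt L) {out : List (Letter T Q n)}
    (h : out = [] ∨ out ∈ Out1 M f tgt) : pr (opEnd hL) out = 1 := by
  rcases h with rfl | h
  · rfl
  · exact pr_opEnd_eq hL (v := out) (v' := []) fun w hw => out1_id hL out h w hw

theorem pr_out0 (hL : IsOp M f tgt L) {out : List (Letter T Q n)}
    (h : out ∈ Out0 M f tgt) : pr (opEnd hL) out = 0 :=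
  pr_opEnd_zero hL fun w hw => out0_none hL out h w hw

theorem run_eq (hL : IsOp M f tgt L) (hR : RunProp M f tgt) (y y' : List (Fin 3)) (μ : Bool) :
    pr (opEnd hL) (M.st μ ++ y.map (fun k => .s (.i1 k)) ++ [.s .bot]) =
      pr (opEnd hL) (M.st μ ++ y'.map (fun k => .s (.i1 k)) ++ [.s .bot]) := by
  cases μ with
  | true =>
    have key : ∀ y : List (Fin 3),
        pr (opEnd hL) (M.st true ++ y.map (fun k => .s (.i1 k)) ++ [.s .bot]) = opEnd hL .qh := by
      intro y
      obtain ⟨out, ho, -, h⟩ := hR.run1 y
      have := h _ (opEnd hL) (opEnd_resp hL)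
      rw [pr_out1 hL ho, one_mul] at this
      rw [pr_append, pr_append, ← this]
      simp
    rw [key, key]
  | false =>
    have key : ∀ y : List (Fin 3),
        pr (opEnd hL) (M.st false ++ y.map (fun k => .s (.i1 k)) ++ [.s .bot]) = 0 := by
      intro y
      rcases hR.run0 y with h | ⟨-, out, ho, h⟩
      · have := h _ (opEnd hL) (opEnd_resp hL)
        rw [pr_append, pr_append, ← this]
        simp
      · have := h _ (opEnd hL) (opEnd_resp hL)
        rw [pr_out0 hL ho, zero_mul] at this
        rw [pr_append, pr_append, ← this]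
        simp
    rw [key, key]

theorem opEnd_full (hL : IsOp M f tgt L) (hR : RunProp M f tgt) : M.Full (opEnd hL) where
  toResp := opEnd_resp hL
  hat μ k := by
    refine end_ext fun w => ?_
    have h1 : ∀ a b, (opEnd hL a * opEnd hL b) (vec (some w)) = vec (Low hL [a, b] w) := by
      intro a b
      have := pr_opEnd_vec hL [a, b] w
      simpa only [Module.End.mul_apply, pr_cons, pr_nil, mul_one] using this
    rw [h1, h1]
    rcases q0_split hL μ k w.1 w.2 with h | ⟨y, w2, hw2, hl, hr⟩
    · congr 1
      refine Low_ext ?_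
      rw [Low_map, Low_map]
      exact h
    · have e1 : Low hL [.q0 μ, .s (.i0 k)] w =
          Low hL (M.st μ ++ y.map (fun k => .s (.i1 k)) ++ [.s .bot]) ⟨w2, hw2⟩ := by
        refine Low_ext ?_
        rw [Low_map, Low_map]
        exact hl
      have e2 : Low hL [.q0 μ, .s (.i1 k)] w =
          Low hL (M.st μ ++ (k :: y).map (fun k => .s (.i1 k)) ++ [.s .bot]) ⟨w2, hw2⟩ := by
        refine Low_ext ?_
        rw [Low_map, Low_map]
        exact hr
      rw [e1, e2, ← pr_opEnd_vec, ← pr_opEnd_vec, run_eq hL hR y (k :: y) μ]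
  start μ := by
    have h := pr_opEnd_eq hL (v := [.q0 μ, .s .B]) (v' := M.st μ) fun w hw => by
      exact rel_q0B hL μ w hw
    simpa only [pr_cons, pr_nil, mul_one] using h
  eat k := by
    have h := pr_opEnd_eq hL (v := [.s (.i0 k), .s .B, .E]) (v' := [.s .B, .E]) fun w hw =>
      rel_F4 hL k w hw
    simpa only [pr_cons, pr_nil, mul_one] using h
  vbot := by
    have h := pr_opEnd_eq hL (v := [.s .bot, .E]) (v' := [.E]) fun w hw => rel_F6 hL w hw
    simpa only [pr_cons, pr_nil, mul_one] using h
  halt := by
    have h := pr_opEnd_eq hL (v := [.qh, .E]) (v' := []) fun w hw => rel_F5 hL w hw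
    simpa only [pr_cons, pr_nil, mul_one] using h

end Vale.Agent.P193.BH

end FileBEnd

/-! file BFinal -/

section FileBFinal
/-!
Part B: nontriviality of the machine ring and the embedding of the group.
-/

namespace Vale.Agent.P193.BH

variable {T Q : Type} {n : ℕ} {G : Type*} [Group G]
variable {M : Machine T Q n} {f : Fin n → G} {tgt : ℕ → Option (List (Letter T Q n))}

theorem ev_append (f : Fin n → G) (c d : List (Fin n × Bool)) :
    ev f (c ++ d) = ev f c * ev f d := by
  simp only [ev, List.map_append, List.prod_append]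

theorem ev_inv (f : Fin n → G) (c : List (Fin n × Bool)) :
    ev f (c.map fun p => (p.1, !p.2)).reverse = (ev f c)⁻¹ := by
  induction c with
  | nil => simp [ev]
  | cons p c ih =>
    rw [List.map_cons, List.reverse_cons, ev_append, ih]
    rcases p with ⟨i, b⟩
    cases b <;> simp [ev]

/-- every group element is the value of a word -/
theorem exists_ev (f : Fin n → G) (hf : Subgroup.closure (Set.range f) = ⊤) (g : G) :
    ∃ c, ev f c = g := by
  have hg : g ∈ Subgroup.closure (Set.range f) := by rw [hf]; exact Subgroup.mem_top g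
  induction hg using Subgroup.closure_induction with
  | mem x hx =>
    obtain ⟨i, rfl⟩ := hx
    exact ⟨[(i, true)], by simp [ev]⟩
  | one => exact ⟨[], rfl⟩
  | mul x y _ _ hx hy =>
    obtain ⟨c, rfl⟩ := hx
    obtain ⟨d, rfl⟩ := hy
    exact ⟨c ++ d, ev_append f c d⟩
  | inv x _ hx =>
    obtain ⟨c, rfl⟩ := hx
    exact ⟨(c.map fun p => (p.1, !p.2)).reverse, ev_inv f c⟩

theorem pr_group (h : RunProp M f tgt) {c : List (Fin n × Bool)} (hc : ev f c = 1) :
    pr (mlet M) (c.map .g) = 1 :=
  (mlet_full M).out1 h _ (Or.inl ⟨c, hc, rfl⟩)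

/-- the group in the units of the machine ring -/
theorem exists_unitsHom (hf : Subgroup.closure (Set.range f) = ⊤) (h : RunProp M f tgt) :
    ∃ ψ : G →* (MAlg M)ˣ, ∀ g, ∃ c, ev f c = g ∧ (ψ g : MAlg M) = pr (mlet M) (c.map .g) := by
  choose W hW using exists_ev f hf
  have key : ∀ c d, ev f c = ev f d → pr (mlet M) (c.map .g) = pr (mlet M) (d.map .g) := by
    intro c d hcd
    have h1 : pr (mlet M) ((c ++ W (ev f c)⁻¹).map .g) = 1 :=
      pr_group h (by rw [ev_append, hW, mul_inv_cancel])
    have h2 : pr (mlet M) ((W (ev f c)⁻¹ ++ d).map .g) = 1 :=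
      pr_group h (by rw [ev_append, hW, ← hcd, inv_mul_cancel])
    rw [List.map_append, pr_append] at h1 h2
    calc pr (mlet M) (c.map .g)
        = pr (mlet M) (c.map .g) * (pr (mlet M) ((W (ev f c)⁻¹).map .g) *
            pr (mlet M) (d.map .g)) := by rw [h2, mul_one]
      _ = pr (mlet M) (d.map .g) := by rw [← mul_assoc, h1, one_mul]
  have hmul : ∀ x y : G, pr (mlet M) ((W (x * y)).map .g) =
      pr (mlet M) ((W x).map .g) * pr (mlet M) ((W y).map .g) := by
    intro x y
    rw [← pr_append, ← List.map_append]
    exact key _ _ (by rw [ev_append, hW, hW, hW])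
  have hone : pr (mlet M) ((W (1 : G)).map .g) = 1 := pr_group h (hW 1)
  refine ⟨MonoidHom.mk' (fun x => ⟨pr (mlet M) ((W x).map .g), pr (mlet M) ((W x⁻¹).map .g),
    ?_, ?_⟩) ?_, fun g => ⟨W g, hW g, rfl⟩⟩
  · rw [← hmul, mul_inv_cancel, hone]
  · rw [← hmul, inv_mul_cancel, hone]
  · intro x y
    exact Units.ext (hmul x y)

/-- nontriviality and injectivity -/
theorem mAlg_faithful (hf : Subgroup.closure (Set.range f) = ⊤) (h : RunProp M f tgt) :
    Nontrivial (MAlg M) ∧ ∃ ψ : G →* (MAlg M)ˣ, Function.Injective ψ := by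
  obtain ⟨L, hL⟩ := exists_isOp M f tgt
  have hfull := opEnd_full hL h
  let Φ := MAlg.lift M (opEnd hL) hfull
  let e : NF M f := ⟨[], trivial⟩
  constructor
  · refine ⟨⟨0, 1, fun h01 => ?_⟩⟩
    have h1 : Φ 0 (vec (some e)) = Φ 1 (vec (some e)) := by rw [h01]
    rw [map_zero, map_one] at h1
    exact absurd (vec_injective (a₁ := none) (a₂ := some e) h1) (by simp)
  · obtain ⟨ψ, hψ⟩ := exists_unitsHom hf h
    refine ⟨ψ, (injective_iff_map_eq_one ψ).2 fun g hg => ?_⟩
    obtain ⟨c, rfl, hc⟩ := hψ g
    rw [hg, Units.val_one] at hc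
    have h1 : Φ 1 (vec (some e)) = Φ (pr (mlet M) (c.map .g)) (vec (some e)) := by rw [← hc]
    rw [map_one, MAlg.lift_pr, pr_opEnd_vec] at h1
    have h2 : some e = Low hL (c.map .g) e := vec_injective h1
    have h3 := congrArg (Option.map Subtype.val) h2
    rw [Low_map] at h3
    obtain ⟨c', -, hev, hc'⟩ := Lw_group hL c [] trivial
    change some [] = Lw L (c.map .g) [] at h3
    rw [hc'] at h3
    have h4 : c' = [] := by
      have := Option.some.inj h3
      simpa using (List.append_eq_nil_iff.1 this.symm).1
    rw [h4] at hev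
    simpa [ev, grun] using hev.symm

end Vale.Agent.P193.BH

end FileBFinal

/-! file MSpan -/

section FileMSpan
/-!
Boone-Higman project, part B: irreducible words span the machine ring; separation property.
-/

namespace Vale.Agent.P193.BH

variable {T Q : Type} {n : ℕ}

section spanning

variable {G : Type*} [Group G] {M : Machine T Q n} {f : Fin n → G}
  {tgt : ℕ → Option (List (Letter T Q n))} {N : Type} [Ring N] {ρ : Letter T Q n → N}

theorem Machine.Resp.pr_ins (hρ : M.Resp ρ) (x : SL T) (r : List (SL T)) :
    pr ρ ((ins M.stkT x r).map .s) = ρ (.s x) * pr ρ (r.map .s) := by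
  induction r with
  | nil => simp [ins]
  | cons b r ih =>
    unfold ins
    split_ifs with h
    · rw [List.map_cons, pr_cons, ih, List.map_cons, pr_cons, ← mul_assoc,
        hρ.comm b x h.ne, mul_assoc]
    · simp

theorem Machine.Resp.pr_insw (hρ : M.Resp ρ) (x : SL T) (w : List (Letter T Q n)) :
    pr ρ (insw M.stkT x w) = ρ (.s x) * pr ρ w := by
  conv_rhs => rw [← srun_srest w]
  rw [insw, pr_append, pr_append, hρ.pr_ins, mul_assoc]

theorem Machine.Resp.pr_insL (hρ : M.Resp ρ) (γ : List (SL T)) (w : List (Letter T Q n)) :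
    pr ρ (insL M.stkT γ w) = pr ρ (γ.map .s) * pr ρ w := by
  induction γ with
  | nil => simp
  | cons a γ ih => rw [insL_cons, hρ.pr_insw, ih, List.map_cons, pr_cons, mul_assoc]

theorem Machine.Resp.pr_part (hρ : M.Resp ρ) (j : ℕ) (r : List (SL T)) :
    pr ρ (r.map .s) = pr ρ ((r.filter fun a => stk M.stkT a ≠ j).map .s) *
      pr ρ ((part M.stkT j r).map .s) := by
  induction r with
  | nil => simp
  | cons b r ih =>
    by_cases hb : stk M.stkT b = j
    · have h1 : (b :: r).filter (fun a => stk M.stkT a ≠ j) =
          r.filter fun a => stk M.stkT a ≠ j := by simp [hb]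
      have h2 : part M.stkT j (b :: r) = b :: part M.stkT j r := by
        rw [part_cons, if_pos hb]
      have h3 := hρ.comm_pr b (r.filter fun a => stk M.stkT a ≠ j) (by
        intro c hc
        have := (List.mem_filter.1 hc).2
        simp only [ne_eq, decide_not, Bool.not_eq_eq_eq_not, Bool.not_true,
          decide_eq_false_iff_not] at this
        rw [hb]
        exact fun h => this h.symm)
      rw [h1, h2, List.map_cons, pr_cons, List.map_cons, pr_cons, ih, ← mul_assoc, h3, mul_assoc]
    · have h1 : (b :: r).filter (fun a => stk M.stkT a ≠ j) =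
          b :: r.filter fun a => stk M.stkT a ≠ j := by simp [hb]
      have h2 : part M.stkT j (b :: r) = part M.stkT j r := by
        rw [part_cons, if_neg hb]
      rw [h1, h2, List.map_cons, pr_cons, List.map_cons, pr_cons, ih, mul_assoc]

/-- letters without effect -/
theorem Machine.Full.pr_noop (hρ : M.Full ρ) {x : SL T} {w : List (Letter T Q n)}
    (h : NoOp M x w) : ρ (.s x) * pr ρ w = pr ρ w := by
  have hw : pr ρ w = pr ρ ((srun w).map .s) * pr ρ (srest w) := by
    conv_lhs => rw [← srun_srest w]
    rw [pr_append]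
  rcases h with ⟨⟨k, rfl⟩, hp, w', hw'⟩ | ⟨rfl, hp, w', hw'⟩
  · have h3 := hρ.toResp.comm_pr (.i0 k) ((srun w).filter fun a => stk M.stkT a ≠ 0) (by
      intro c hc
      have := (List.mem_filter.1 hc).2
      simp only [ne_eq, decide_not, Bool.not_eq_eq_eq_not, Bool.not_true,
        decide_eq_false_iff_not] at this
      intro h
      exact this h.symm)
    have h4 : pr ρ w = pr ρ (((srun w).filter fun a => stk M.stkT a ≠ 0).map .s) *
        ((ρ (.s .B) * ρ .E) * pr ρ w') := by
      rw [hw, hw', hρ.toResp.pr_part 0, hp]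
      simp [mul_assoc]
    calc ρ (.s (.i0 k)) * pr ρ w
        = (ρ (.s (.i0 k)) * pr ρ (((srun w).filter fun a => stk M.stkT a ≠ 0).map .s)) *
          ((ρ (.s .B) * ρ .E) * pr ρ w') := by rw [h4]; simp only [mul_assoc]
      _ = pr ρ (((srun w).filter fun a => stk M.stkT a ≠ 0).map .s) *
          ((ρ (.s (.i0 k)) * (ρ (.s .B) * ρ .E)) * pr ρ w') := by
          rw [h3]; simp only [mul_assoc]
      _ = pr ρ w := by rw [hρ.eat, ← h4]
  · have h3 := hρ.toResp.comm_pr .bot (srun w) (by
      intro c hc h
      have : c ∈ part M.stkT 1 (srun w) := (mem_part M.stkT).2 ⟨hc, h.symm⟩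
      rw [hp] at this
      simp at this)
    calc ρ (.s .bot) * pr ρ w
        = (ρ (.s .bot) * pr ρ ((srun w).map .s)) * (ρ .E * pr ρ w') := by
          rw [hw, hw', pr_cons, mul_assoc]
      _ = pr ρ ((srun w).map .s) * ((ρ (.s .bot) * ρ .E) * pr ρ w') := by
          rw [h3]; simp only [mul_assoc]
      _ = pr ρ w := by rw [hρ.vbot, hw, hw', pr_cons]

/-! ### group letters -/

/-- inverse group word -/
def msp_inv (c : List (Fin n × Bool)) : List (Fin n × Bool) :=
  (c.map fun p => (p.1, !p.2)).reverse

theorem msp_ev_nil (f : Fin n → G) : ev f [] = 1 := rfl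

theorem msp_ev_cons (f : Fin n → G) (p : Fin n × Bool) (c : List (Fin n × Bool)) :
    ev f (p :: c) = cond p.2 (f p.1) (f p.1)⁻¹ * ev f c := by simp [ev]

theorem msp_ev_append (f : Fin n → G) (c c' : List (Fin n × Bool)) :
    ev f (c ++ c') = ev f c * ev f c' := by simp [ev]

theorem msp_ev_inv (f : Fin n → G) (c : List (Fin n × Bool)) :
    ev f (msp_inv c) = (ev f c)⁻¹ := by
  induction c with
  | nil => simp [msp_inv, ev]
  | cons p c ih =>
    have : msp_inv (p :: c) = msp_inv c ++ [(p.1, !p.2)] := by simp [msp_inv]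
    rw [this, msp_ev_append, ih, msp_ev_cons, msp_ev_cons, mul_inv_rev, msp_ev_nil, mul_one]
    cases p.2 <;> simp

theorem msp_exists_can (f : Fin n → G) (c : List (Fin n × Bool)) :
    ∃ c', Can f c' ∧ ev f c' = ev f c := by
  classical
  have hex : ∃ k, ∃ c', ev f c' = ev f c ∧ Encodable.encode c' = k := ⟨_, c, rfl, rfl⟩
  obtain ⟨c', h1, h2⟩ := Nat.find_spec hex
  refine ⟨c', fun w' hw' => ?_, h1⟩
  rw [h2]
  exact Nat.find_min' hex ⟨w', hw'.trans h1, rfl⟩

theorem msp_grun_grest (w : List (Letter T Q n)) : (grun w).map .g ++ grest w = w := by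
  induction w with
  | nil => rfl
  | cons a w ih => cases a <;> simp [grun, grest, ih]

theorem msp_grun_append (c : List (Fin n × Bool)) (w : List (Letter T Q n)) :
    grun (c.map .g ++ w) = c ++ grun w := by
  induction c with
  | nil => rfl
  | cons a c ih => simp only [List.map_cons, List.cons_append, grun, ih]

theorem msp_grun_grest_nil (w : List (Letter T Q n)) : grun (grest w) = [] := by
  induction w with
  | nil => rfl
  | cons a w ih => cases a <;> simp [grun, grest, ih]

theorem msp_irr_can {c : List (Fin n × Bool)} (hc : Can f c) {w : List (Letter T Q n)}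
    (hw : Irr M f w) (h0 : grun w = []) : Irr M f (c.map .g ++ w) := by
  induction c with
  | nil => exact hw
  | cons p c ih =>
    refine ⟨ih (Can.tail f hc), ?_⟩
    show ¬ ¬ Can f (p :: grun (c.map .g ++ w))
    rw [msp_grun_append, h0, List.append_nil]
    exact not_not.2 hc

theorem msp_pr_group (h1 : ∀ w ∈ Out1 M f tgt, pr ρ w = 1) {c c' : List (Fin n × Bool)}
    (h : ev f c' = ev f c) :
    pr ρ (c'.map .g) = pr ρ (c.map .g) := by
  have e1 : pr ρ ((c ++ msp_inv c).map .g) = 1 :=
    h1 _ (Or.inl ⟨c ++ msp_inv c, by rw [msp_ev_append, msp_ev_inv, mul_inv_cancel], rfl⟩)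
  have e2 : pr ρ ((msp_inv c ++ c').map .g) = 1 :=
    h1 _ (Or.inl ⟨msp_inv c ++ c', by rw [msp_ev_append, msp_ev_inv, h, inv_mul_cancel], rfl⟩)
  rw [List.map_append, pr_append] at e1 e2
  calc pr ρ (c'.map .g) = (pr ρ (c.map .g) * pr ρ ((msp_inv c).map .g)) * pr ρ (c'.map .g) := by
        rw [e1, one_mul]
    _ = pr ρ (c.map .g) := by rw [mul_assoc, e2, mul_one]

theorem msp_wt_g (c : List (Fin n × Bool)) : wtL M.wt (c.map .g) = 0 := by
  induction c with
  | nil => rfl
  | cons p c ih => rw [List.map_cons, wtL_cons, ih, M.wt_g]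

/-! ### closure -/

/-- `x` is zero or an irreducible word of weight at most `b` -/
def MRes (M : Machine T Q n) (f : Fin n → G) (ρ : Letter T Q n → N) (x : N) (b : ℕ) : Prop :=
  x = 0 ∨ ∃ w, Irr M f w ∧ wtL M.wt w ≤ b ∧ x = pr ρ w

/-- closure statement -/
def MCl (M : Machine T Q n) (f : Fin n → G) (ρ : Letter T Q n → N) (k : ℕ) : Prop :=
  ∀ a w, Irr M f w → M.wt a + wtL M.wt w < k → MRes M f ρ (ρ a * pr ρ w) (M.wt a + wtL M.wt w)

theorem MRes.mono {x : N} {b b' : ℕ} (h : MRes M f ρ x b) (hb : b ≤ b') : MRes M f ρ x b' := by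
  rcases h with h | ⟨w, h1, h2, h3⟩
  · exact Or.inl h
  · exact Or.inr ⟨w, h1, h2.trans hb, h3⟩

theorem MCl.word {k : ℕ} (h : MCl M f ρ k) (v w : List (Letter T Q n)) (hw : Irr M f w)
    (hk : wtL M.wt v + wtL M.wt w < k) :
    MRes M f ρ (pr ρ v * pr ρ w) (wtL M.wt v + wtL M.wt w) := by
  induction v with
  | nil => exact Or.inr ⟨w, hw, by simp, by simp⟩
  | cons a v ih =>
    rw [wtL_cons] at hk ⊢
    rw [pr_cons, mul_assoc]
    rcases ih (by omega) with h0 | ⟨w', h1, h2, h3⟩
    · rw [h0, mul_zero]
      exact Or.inl rfl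
    · rw [h3]
      exact (h a w' h1 (by omega)).mono (by omega)

theorem stk_zero {M : Machine T Q n} {x : SL T} (h : stk M.stkT x = 0) :
    (∃ k, x = .i0 k) ∨ x = .B := by
  cases x with
  | i0 k => exact Or.inl ⟨k, rfl⟩
  | B => exact Or.inr rfl
  | i1 k => simp [stk] at h
  | bot => simp [stk] at h
  | t a => have := M.stk_ge a; simp [stk] at h; omega

theorem mCl (hρ : M.Full ρ) (h1 : ∀ w ∈ Out1 M f tgt, pr ρ w = 1)
    (h0 : ∀ w ∈ Out0 M f tgt, pr ρ w = 0) (k : ℕ) : MCl M f ρ k := by
  induction k with
  | zero => intro a w _ h; omega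
  | succ k ih =>
    intro a w hw hk
    by_cases hh : Head M f a w
    · cases a with
      | s x =>
        by_cases hn : NoOp M x w
        · exact Or.inr ⟨w, hw, by omega, hρ.pr_noop hn⟩
        · refine Or.inr ⟨insw M.stkT x w, ?_, ?_, (hρ.toResp.pr_insw x w).symm⟩
          · exact Irr.insw hw x (fun h => hn (Or.inl h)) (fun h => hn (Or.inr h))
          · rw [wtL_insw]
      | q0 μ =>
        cases hp : part M.stkT 0 (srun w) with
        | nil => exact absurd hp hh
        | cons x t =>
          have hx : stk M.stkT x = 0 := ((mem_part M.stkT).1 (show x ∈ part M.stkT 0 (srun w) by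
            rw [hp]; simp)).2
          have hpre : [x] <+: part M.stkT 0 (srun w) := by
            rw [hp]; exact ⟨t, rfl⟩
          have hins := insL_delw (γ := [x]) (by simpa using hx) hw.sorted hpre
          have hpr : pr ρ w = ρ (.s x) * pr ρ (delw M.stkT 0 [x].length w) := by
            have := hρ.toResp.pr_insL [x] (delw M.stkT 0 [x].length w)
            rw [hins] at this
            simpa using this
          have hwt := wtL_delw M.stkT M.wt hpre
          have hI : Irr M f (delw M.stkT 0 [x].length w) := hw.delw 0 _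
          simp only [List.map_cons, List.map_nil, wtL_cons, wtL_nil] at hwt
          rcases stk_zero hx with ⟨i, rfl⟩ | rfl
          · have h2 := M.wt_hat i
            have h3 := ih.word [.q0 μ, .s (.i1 i)] _ hI (by simp only [wtL_cons, wtL_nil]; omega)
            rw [hpr, ← mul_assoc, hρ.hat, mul_assoc]
            have h4 := h3.mono (b' := M.wt (.q0 μ) + wtL M.wt w) (by
              simp only [wtL_cons, wtL_nil]; omega)
            simpa [mul_assoc] using h4
          · have h2 := M.wt_st μ
            have h3 := ih.word (M.st μ) _ hI (by omega)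
            rw [hpr, ← mul_assoc, hρ.start]
            exact h3.mono (by omega)
      | q p =>
        rcases hh with ⟨j, γ, rhs, hr, hγ, hpre⟩ | ⟨rhs, hr, hp, w', hw'⟩
        · have hins := insL_delw hγ hw.sorted hpre
          have hpr : pr ρ w = pr ρ (γ.map .s) * pr ρ (delw M.stkT j γ.length w) := by
            have := hρ.toResp.pr_insL γ (delw M.stkT j γ.length w)
            rwa [hins] at this
          have hwt := wtL_delw M.stkT M.wt hpre
          have hI : Irr M f (delw M.stkT j γ.length w) := hw.delw j _
          cases rhs with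
          | none =>
            left
            rw [hpr, ← mul_assoc, hρ.rule_none p γ hr, zero_mul]
          | some v =>
            have h2 := M.wt_rule _ hr v rfl
            have h3 := ih.word v _ hI (by simp only at h2; omega)
            rw [hpr, ← mul_assoc, hρ.rule_some p γ v hr]
            exact h3.mono (by simp only at h2; omega)
        · have hn : ρ (.s .bot) * pr ρ w = pr ρ w := hρ.pr_noop (Or.inr ⟨rfl, hp, w', hw'⟩)
          cases rhs with
          | none =>
            left
            have h2 := hρ.rule_none p _ hr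
            simp only [List.map_cons, List.map_nil, pr_cons, pr_nil, mul_one] at h2
            rw [← hn, ← mul_assoc, h2, zero_mul]
          | some v =>
            have h4 := hρ.rule_some p _ v hr
            simp only [List.map_cons, List.map_nil, pr_cons, pr_nil, mul_one] at h4
            have h2 := M.wt_rule _ hr v rfl
            simp only [List.map_cons, List.map_nil, wtL_cons, wtL_nil, M.wt_bot] at h2
            have h3 := ih.word v w hw (by omega)
            rw [← hn, ← mul_assoc, h4]
            exact h3.mono (by omega)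
      | qh =>
        obtain ⟨w', rfl⟩ := hh
        refine Or.inr ⟨w', hw.tail, ?_, ?_⟩
        · rw [wtL_cons]; omega
        · rw [pr_cons, ← mul_assoc, hρ.halt, one_mul]
      | X =>
        obtain ⟨i, m, w', hm, hw'⟩ := (head_X_iff M f w).1 hh
        subst hw'
        have hI := Irr.of_xp M f hw
        have hpr : ρ .X * pr ρ (xp i m ++ w') = pr ρ (xw i m) * pr ρ w' := by
          rw [xw_eq, pr_append, pr_cons, mul_assoc]
        rw [hpr]
        by_cases ht : tgt i = some m
        · refine Or.inr ⟨w', hI.2, ?_, ?_⟩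
          · rw [wtL_append]; omega
          · rw [h1 _ (Or.inr ⟨i, m, hI.1, hm, ht, rfl⟩), one_mul]
        · left
          rw [h0 _ ⟨i, m, hI.1, hm, ht, rfl⟩, zero_mul]
      | g p =>
        obtain ⟨c, hc, hce⟩ := msp_exists_can f (p :: grun w)
        refine Or.inr ⟨c.map .g ++ grest w, ?_, ?_, ?_⟩
        · refine msp_irr_can hc ?_ (msp_grun_grest_nil w)
          rw [← msp_grun_grest w] at hw
          exact hw.suffix
        · rw [wtL_append, msp_wt_g, M.wt_g]
          conv_rhs => rw [← msp_grun_grest w]
          rw [wtL_append]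
          omega
        · rw [pr_append, msp_pr_group h1 hce]
          conv_lhs => rw [← msp_grun_grest w]
          rw [pr_append, List.map_cons, pr_cons, mul_assoc]
      | _ => exact absurd hh (fun h => h)
    · exact Or.inr ⟨a :: w, ⟨hw, hh⟩, by rw [wtL_cons], by rw [pr_cons]⟩

end spanning

section final

variable {G : Type*} [Group G] {M : Machine T Q n} {f : Fin n → G}
  {tgt : ℕ → Option (List (Letter T Q n))}

theorem span_irr (h : RunProp M f tgt) :
    Submodule.span (ZMod 2) (pr (mlet M) '' {w | Irr M f w}) = ⊤ := by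
  have hcl := fun k => mCl (f := f) (tgt := tgt) (mlet_full M) ((mlet_full M).out1 h)
    ((mlet_full M).out0 h) k
  have h1 : ∀ a : Letter T Q n, ∀ x ∈ Submodule.span (ZMod 2) (pr (mlet M) '' {w | Irr M f w}),
      mlet M a * x ∈ Submodule.span (ZMod 2) (pr (mlet M) '' {w | Irr M f w}) := by
    intro a x hx
    induction hx using Submodule.span_induction with
    | mem x hx =>
      obtain ⟨w, hw, rfl⟩ := hx
      rcases hcl _ a w hw (Nat.lt_succ_self _) with h0 | ⟨w', hw', -, h3⟩
      · rw [h0]; exact Submodule.zero_mem _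
      · rw [h3]; exact Submodule.subset_span ⟨w', hw', rfl⟩
    | zero => rw [mul_zero]; exact Submodule.zero_mem _
    | add x y _ _ hx hy => rw [mul_add]; exact Submodule.add_mem _ hx hy
    | smul c x _ hx => rw [mul_smul_comm]; exact Submodule.smul_mem _ _ hx
  have h2 : ∀ z : FreeAlgebra (ZMod 2) (Letter T Q n),
      ∀ x ∈ Submodule.span (ZMod 2) (pr (mlet M) '' {w | Irr M f w}),
      RingQuot.mkAlgHom (ZMod 2) (MRel M) z * x ∈
        Submodule.span (ZMod 2) (pr (mlet M) '' {w | Irr M f w}) := by
    intro z
    induction z using FreeAlgebra.induction with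
    | grade0 r =>
      intro x hx
      rw [AlgHom.commutes, ← Algebra.smul_def]
      exact Submodule.smul_mem _ _ hx
    | grade1 a => exact fun x hx => h1 a x hx
    | mul a b ha hb =>
      intro x hx
      rw [map_mul, mul_assoc]
      exact ha _ (hb x hx)
    | add a b ha hb =>
      intro x hx
      rw [map_add, add_mul]
      exact Submodule.add_mem _ (ha x hx) (hb x hx)
  rw [eq_top_iff]
  intro z _
  obtain ⟨z, rfl⟩ := RingQuot.mkAlgHom_surjective (ZMod 2) (MRel M) z
  have h3 := h2 z 1 (Submodule.subset_span ⟨[], (show Irr M f [] from trivial), rfl⟩)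
  rwa [mul_one] at h3

theorem sep_mAlg (h : RunProp M f tgt) : Sep (MAlg M) (pr (mlet M) '' {w | Irr M f w}) := by
  classical
  refine ⟨⟨[], (show Irr M f [] from trivial), rfl⟩, span_irr h, ?_⟩
  rintro _ ⟨m, hm, rfl⟩ S hS hmS
  have hch : ∀ t ∈ S, ∃ w, Irr M f w ∧ pr (mlet M) w = t := fun t ht => hS ht
  choose! g hg using hch
  obtain ⟨k, hk, ht⟩ := h.tgt_surj m (max m.length (S.sup fun t => (g t).length))
  have hpr : ∀ w, pr (mlet M) (Letter.X :: (List.replicate k Letter.u ++ [Letter.v])) * pr (mlet M) w *
      pr (mlet M) (Letter.v1 :: (List.replicate k Letter.u1 ++ [Letter.Z])) = pr (mlet M) (xw k w) := by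
    intro w
    rw [← pr_append, ← pr_append]
    congr 1
    simp [xw]
  refine ⟨pr (mlet M) (.X :: (List.replicate k .u ++ [.v])),
    pr (mlet M) (.v1 :: (List.replicate k .u1 ++ [.Z])), ?_, ?_⟩
  · rw [hpr]
    exact (mlet_full M).out1 h _ (Or.inr ⟨k, m, hm, (le_max_left _ _).trans hk, ht, rfl⟩)
  · intro t htS
    obtain ⟨h1, h2⟩ := hg t htS
    rw [← h2, hpr]
    refine (mlet_full M).out0 h _ ⟨k, g t, h1, ?_, ?_, rfl⟩
    · exact ((Finset.le_sup (f := fun t => (g t).length) htS).trans (le_max_right _ _)).trans hk
    · rw [ht]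
      intro heq
      rw [Option.some.injEq] at heq
      apply hmS
      rw [heq, h2]
      exact htS

end final

end Vale.Agent.P193.BH

end FileMSpan

/-! file MRing -/

section FileMRing
/-! part B: the machine ring, final statement -/

namespace Vale.Agent.P193.BH

/-- part B -/
theorem machineRing {T Q : Type} {n : ℕ} [Finite T] [Finite Q] {G : Type*} [Group G]
    (f : Fin n → G) (hf : Subgroup.closure (Set.range f) = ⊤) (M : Machine T Q n)
    (tgt : ℕ → Option (List (Letter T Q n))) (h : RunProp M f tgt) :
    ∃ (R : Type) (_ : Ring R) (_ : Algebra (ZMod 2) R), Nontrivial R ∧ FPAlg R ∧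
      (∃ S, Sep R S) ∧ ∃ ψ : G →* Rˣ, Function.Injective ψ := by
  obtain ⟨h1, h2⟩ := mAlg_faithful hf h
  exact ⟨MAlg M, inferInstance, inferInstance, h1, fpAlg_mAlg M, ⟨_, sep_mAlg h⟩, h2⟩

end Vale.Agent.P193.BH

end FileMRing

/-! file CEM -/

section FileCEM
/-!
Boone-Higman project, part C: elementary machines with four stacks (Mathlib's `PartrecToTM2`).
-/

namespace Vale.Agent.P193.BH

open Turing.PartrecToTM2 (Γ' K' trNat trList)

/-- contents of the four stacks, top first -/
abbrev Stacks := K' → List Γ'

/-- elementary machine with four stacks. `δ s = none`: halt. `δ s = some (k, nx)`: pop the top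
letter `o` of the stack `k` (`none` if empty), go to the state `(nx o).1` and push the list
`(nx o).2` (top first) on the stack `k`. -/
structure EM (S : Type) where
  init : S
  δ : S → Option (K' × (Option Γ' → S × List Γ'))
  len : ∀ s k nx, δ s = some (k, nx) → ∀ o, (nx o).2.length ≤ o.toList.length + 1

variable {S : Type}

/-- one step -/
def EM.step (E : EM S) (c : S × Stacks) : Option (S × Stacks) :=
  (E.δ c.1).map fun d => ((d.2 (c.2 d.1).head?).1,
    Function.update c.2 d.1 ((d.2 (c.2 d.1).head?).2 ++ (c.2 d.1).tail))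

/-- `t` steps (`none` if the machine halts before) -/
def EM.iter (E : EM S) : ℕ → S × Stacks → Option (S × Stacks)
  | 0, c => some c
  | t + 1, c => (E.step c).bind (E.iter t)

/-- stacks holding the list `v` on the main stack -/
def stOf (v : List ℕ) : Stacks := K'.elim (trList v) [] [] []

/-! ### reachability -/

theorem EM.iter_of_reaches (E : EM S) {c d : S × Stacks}
    (h : StateTransition.Reaches E.step c d) : ∃ t, E.iter t c = some d := by
  refine Relation.ReflTransGen.head_induction_on h ⟨0, rfl⟩ ?_
  rintro a b hab _ ⟨t, ht⟩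
  refine ⟨t + 1, ?_⟩
  have hab' : E.step a = some b := hab
  simp [EM.iter, hab', ht]

theorem EM.reaches_of_iter (E : EM S) : ∀ {t : ℕ} {c d : S × Stacks},
    E.iter t c = some d → StateTransition.Reaches E.step c d
  | 0, c, d, h => by
    have : c = d := by simpa [EM.iter] using h
    subst this
    exact Relation.ReflTransGen.refl
  | t + 1, c, d, h => by
    simp only [EM.iter, Option.bind_eq_some_iff] at h
    obtain ⟨b, hb, hbd⟩ := h
    exact Relation.ReflTransGen.head hb (E.reaches_of_iter hbd)

theorem EM.step_eq_none (E : EM S) (c : S × Stacks) : E.step c = none ↔ E.δ c.1 = none := by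
  simp [EM.step]

/-! ### restriction to a finite closed set of states -/

open Classical in
/-- restriction of a machine to a set of states -/
noncomputable def EM.restr (E : EM S) (F : Set S) (h0 : E.init ∈ F) : EM F where
  init := ⟨E.init, h0⟩
  δ s := (E.δ s.1).map fun d => (d.1, fun o =>
    (if h : (d.2 o).1 ∈ F then ⟨(d.2 o).1, h⟩ else s, (d.2 o).2))
  len := by
    intro s k nx h o
    simp only [Option.map_eq_some_iff] at h
    obtain ⟨d, hd, he⟩ := h
    have h1 : d.1 = k := congrArg Prod.fst he
    have h2 := congrFun (congrArg Prod.snd he) o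
    have h3 : (d.2 o).2 = (nx o).2 := congrArg Prod.snd h2
    rw [← h3]
    exact E.len s.1 d.1 d.2 hd o

theorem EM.restr_step (E : EM S) (F : Set S) (h0 : E.init ∈ F)
    (hF : ∀ s ∈ F, ∀ d, E.δ s = some d → ∀ o, (d.2 o).1 ∈ F) (s : F) (T : Stacks) :
    E.step (s.1, T) = ((E.restr F h0).step (s, T)).map fun c => (c.1.1, c.2) := by
  rcases h : E.δ s.1 with _ | d
  · simp only [step, h, Option.map_none, restr]
  · have := hF s.1 s.2 d h ((T d.1).head?)
    simp only [step, h, Option.map_some, restr, this, ↓reduceDIte]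

theorem EM.restr_iter (E : EM S) (F : Set S) (h0 : E.init ∈ F)
    (hF : ∀ s ∈ F, ∀ d, E.δ s = some d → ∀ o, (d.2 o).1 ∈ F) : ∀ (t : ℕ) (s : F) (T : Stacks),
    E.iter t (s.1, T) = ((E.restr F h0).iter t (s, T)).map fun c => (c.1.1, c.2)
  | 0, s, T => by simp only [iter, Option.map_some]
  | t + 1, s, T => by
    rw [EM.iter, EM.iter, E.restr_step F h0 hF]
    rcases h : (E.restr F h0).step (s, T) with _ | ⟨s', T'⟩
    · simp
    · simp [E.restr_iter F h0 hF t s' T']

theorem EM.restr_δ (E : EM S) (F : Set S) (h0 : E.init ∈ F) (s : F) :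
    (E.restr F h0).δ s = none ↔ E.δ s.1 = none := by
  simp only [restr, Option.map_eq_none_iff]

/-! ### the machine executing the statements of `PartrecToTM2` one by one -/

/-- statements -/
abbrev St2 := Turing.TM2.Stmt (fun _ : K' => Γ') Turing.PartrecToTM2.Λ' (Option Γ')

/-- configurations -/
abbrev Cf2 := Turing.TM2.Cfg (fun _ : K' => Γ') Turing.PartrecToTM2.Λ' (Option Γ')

/-- transition function: one elementary statement at a time -/
def emδ : Option St2 × Option Γ' →
    Option (K' × (Option Γ' → (Option St2 × Option Γ') × List Γ'))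
  | (none, _) => none
  | (some (.push k f q), v) => some (k, fun o => ((some q, v), f v :: o.toList))
  | (some (.peek k f q), v) => some (k, fun o => ((some q, f v o), o.toList))
  | (some (.pop k f q), v) => some (k, fun o => ((some q, f v o), []))
  | (some (.load a q), v) => some (.main, fun o => ((some q, a v), o.toList))
  | (some (.branch f q₁ q₂), v) =>
      some (.main, fun o => ((some (cond (f v) q₁ q₂), v), o.toList))
  | (some (.goto f), v) =>
      some (.main, fun o => ((some (Turing.PartrecToTM2.tr (f v)), v), o.toList))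
  | (some .halt, v) => some (.main, fun o => ((none, v), o.toList))

/-- the machine executing the code `c` -/
def emOf (c : Turing.ToPartrec.Code) : EM (Option St2 × Option Γ') where
  init := (some (Turing.PartrecToTM2.tr
    (Turing.PartrecToTM2.trNormal c Turing.PartrecToTM2.Cont'.halt)), none)
  δ := emδ
  len := by
    rintro ⟨s, v⟩ k nx h o
    rcases s with _ | s
    · simp [emδ] at h
    · cases s <;> simp only [emδ, Option.some.injEq, Prod.mk.injEq] at h <;>
        obtain ⟨-, rfl⟩ := h <;> cases o <;> simp

/-- configurations of `TM2` as configurations of the machine -/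
def cfOf (c : Cf2) : (Option St2 × Option Γ') × Stacks :=
  ((c.l.map Turing.PartrecToTM2.tr, c.var), c.stk)

theorem head?_toList_append_tail {α : Type*} (l : List α) : l.head?.toList ++ l.tail = l := by
  cases l <;> simp

theorem emOf_reaches (c : Turing.ToPartrec.Code) (q : St2) : ∀ (v : Option Γ') (T : Stacks),
    StateTransition.Reaches₁ (emOf c).step ((some q, v), T) (cfOf (Turing.TM2.stepAux q v T)) := by
  induction q with
  | push k f q ih =>
    intro v T
    refine Relation.TransGen.head ?_ (ih v (Function.update T k (f v :: T k)))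
    simp only [EM.step, emOf, emδ, Option.map_some, List.cons_append, head?_toList_append_tail, Option.mem_def]
  | peek k f q ih =>
    intro v T
    refine Relation.TransGen.head ?_ (ih (f v (T k).head?) T)
    simp [EM.step, emOf, emδ, head?_toList_append_tail]
  | pop k f q ih =>
    intro v T
    refine Relation.TransGen.head ?_ (ih (f v (T k).head?) (Function.update T k (T k).tail))
    simp [EM.step, emOf, emδ]
  | load a q ih =>
    intro v T
    refine Relation.TransGen.head ?_ (ih (a v) T)
    simp [EM.step, emOf, emδ, head?_toList_append_tail]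
  | branch f q₁ q₂ ih₁ ih₂ =>
    intro v T
    rcases h : f v with _ | _
    · have h2 := ih₂ v T
      rw [Turing.TM2.stepAux, h]
      refine Relation.TransGen.head ?_ h2
      simp [EM.step, emOf, emδ, h, head?_toList_append_tail]
    · have h2 := ih₁ v T
      rw [Turing.TM2.stepAux, h]
      refine Relation.TransGen.head ?_ h2
      simp [EM.step, emOf, emδ, h, head?_toList_append_tail]
  | goto f =>
    intro v T
    refine Relation.TransGen.single ?_
    simp [EM.step, emOf, emδ, cfOf, head?_toList_append_tail]
    rfl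
  | halt =>
    intro v T
    refine Relation.TransGen.single ?_
    simp [EM.step, emOf, emδ, cfOf, head?_toList_append_tail]
    rfl

theorem emOf_respects (c : Turing.ToPartrec.Code) :
    StateTransition.Respects (Turing.TM2.step Turing.PartrecToTM2.tr) (emOf c).step
      (fun a b => cfOf a = b) := by
  rw [StateTransition.fun_respects]
  rintro ⟨l, v, T⟩
  rcases l with _ | l
  · simp only [Turing.TM2.step, StateTransition.FRespects]
    rfl
  · simp only [Turing.TM2.step, StateTransition.FRespects]
    exact emOf_reaches c _ v T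

theorem emOf_eval (c : Turing.ToPartrec.Code) (v : List ℕ) :
    StateTransition.eval (emOf c).step ((emOf c).init, stOf v) =
      cfOf <$> (Turing.PartrecToTM2.halt <$> c.eval v) := by
  have h := StateTransition.tr_eval' _ _ _ (emOf_respects c) (Turing.PartrecToTM2.init c v)
  rw [Turing.PartrecToTM2.tr_eval] at h
  exact h

/-! ### the finite set of states -/

/-- the states reached by the machine -/
def emF (c : Turing.ToPartrec.Code) : Set (Option St2 × Option Γ') :=
  {s | s.1 ∈ Turing.TM2.stmts Turing.PartrecToTM2.tr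
    (Turing.PartrecToTM2.codeSupp c Turing.PartrecToTM2.Cont'.halt)}

theorem emF_finite (c : Turing.ToPartrec.Code) : (emF c).Finite := by
  have h : (emF c) = ((Turing.TM2.stmts Turing.PartrecToTM2.tr
    (Turing.PartrecToTM2.codeSupp c Turing.PartrecToTM2.Cont'.halt) : Finset _) :
      Set (Option St2)) ×ˢ (Set.univ : Set (Option Γ')) := by
    ext s
    simp [emF]
  rw [h]
  exact (Finset.finite_toSet _).prod Set.finite_univ

theorem mem_stmts_of_mem {M : Turing.PartrecToTM2.Λ' → St2}
    {S : Finset Turing.PartrecToTM2.Λ'} {l : Turing.PartrecToTM2.Λ'} (hl : l ∈ S) :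
    some (M l) ∈ Turing.TM2.stmts M S := by
  simp only [Turing.TM2.stmts, Finset.some_mem_insertNone, Finset.mem_biUnion]
  exact ⟨l, hl, Turing.TM2.stmts₁_self⟩

theorem emF_init (c : Turing.ToPartrec.Code) : (emOf c).init ∈ emF c :=
  mem_stmts_of_mem (Turing.PartrecToTM2.tr_supports c Turing.PartrecToTM2.Cont'.halt).1

theorem emF_closed (c : Turing.ToPartrec.Code) : ∀ s ∈ emF c, ∀ d, (emOf c).δ s = some d →
    ∀ o, (d.2 o).1 ∈ emF c := by
  rintro ⟨q, v⟩ hs d hd o
  rcases q with _ | q
  · simp [emOf, emδ] at hd
  · have hsup := fun h => @Turing.TM2.stmts_supportsStmt _ _ _ _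
      ⟨Turing.PartrecToTM2.trNormal c Turing.PartrecToTM2.Cont'.halt⟩
      Turing.PartrecToTM2.tr _ q
      (Turing.PartrecToTM2.tr_supports c Turing.PartrecToTM2.Cont'.halt) h
    have hs' : some q ∈ Turing.TM2.stmts Turing.PartrecToTM2.tr
      (Turing.PartrecToTM2.codeSupp c Turing.PartrecToTM2.Cont'.halt) := hs
    specialize hsup hs'
    simp only [emOf] at hd
    change (d.2 o).1.1 ∈ Turing.TM2.stmts Turing.PartrecToTM2.tr
      (Turing.PartrecToTM2.codeSupp c Turing.PartrecToTM2.Cont'.halt)
    cases q with
    | push k f q =>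
      simp only [emδ, Option.some.injEq] at hd
      subst hd
      exact Turing.TM2.stmts_trans (by simp [Turing.TM2.stmts₁, Turing.TM2.stmts₁_self]) hs'
    | peek k f q =>
      simp only [emδ, Option.some.injEq] at hd
      subst hd
      exact Turing.TM2.stmts_trans (by simp [Turing.TM2.stmts₁, Turing.TM2.stmts₁_self]) hs'
    | pop k f q =>
      simp only [emδ, Option.some.injEq] at hd
      subst hd
      exact Turing.TM2.stmts_trans (by simp [Turing.TM2.stmts₁, Turing.TM2.stmts₁_self]) hs'
    | load a q =>
      simp only [emδ, Option.some.injEq] at hd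
      subst hd
      exact Turing.TM2.stmts_trans (by simp [Turing.TM2.stmts₁, Turing.TM2.stmts₁_self]) hs'
    | branch f q₁ q₂ =>
      simp only [emδ, Option.some.injEq] at hd
      subst hd
      refine Turing.TM2.stmts_trans ?_ hs'
      rcases h : f v with _ | _
      · simp [Turing.TM2.stmts₁, Turing.TM2.stmts₁_self]
      · simp [Turing.TM2.stmts₁, Turing.TM2.stmts₁_self]
    | goto f =>
      simp only [emδ, Option.some.injEq] at hd
      subst hd
      exact mem_stmts_of_mem (hsup v)
    | halt =>
      simp only [emδ, Option.some.injEq] at hd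
      subst hd
      simp [Turing.TM2.stmts]

/-- a universal code -/
theorem exists_univ : ∃ U : Turing.ToPartrec.Code, ∀ e m : ℕ,
    U.eval [e, m] = pure <$> (Denumerable.ofNat Nat.Partrec.Code e).eval m := by
  have h1 : Partrec₂ fun e m : ℕ => (Denumerable.ofNat Nat.Partrec.Code e).eval m :=
    Nat.Partrec.Code.eval_part.comp ((Computable.ofNat _).comp Computable.fst) Computable.snd
  obtain ⟨U, hU⟩ := Turing.ToPartrec.Code.exists_code (Nat.Partrec'.part_iff₂.2 h1)
  exact ⟨U, fun e m => hU (e ::ᵥ m ::ᵥ List.Vector.nil)⟩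

/-- C1: a universal elementary machine. -/
theorem exists_EM : ∃ (S : Type) (_ : Finite S) (E : EM S),
    (∀ e m r, r ∈ (Denumerable.ofNat Nat.Partrec.Code e).eval m →
      ∃ t s, E.iter t (E.init, stOf [e, m]) = some (s, stOf [r]) ∧ E.δ s = none) ∧
    (∀ e m t s T, E.iter t (E.init, stOf [e, m]) = some (s, T) → E.δ s = none →
      ∃ r ∈ (Denumerable.ofNat Nat.Partrec.Code e).eval m, T = stOf [r]) := by
  obtain ⟨U, hU⟩ := exists_univ
  have h0 := emF_init U
  refine ⟨emF U, (emF_finite U).to_subtype, (emOf U).restr (emF U) h0, ?_, ?_⟩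
  · intro e m r hr
    have h1 : cfOf (Turing.PartrecToTM2.halt [r]) ∈
        StateTransition.eval (emOf U).step ((emOf U).init, stOf [e, m]) := by
      rw [emOf_eval, hU]
      exact (Part.mem_map_iff _).2 ⟨_, (Part.mem_map_iff _).2
        ⟨_, (Part.mem_map_iff _).2 ⟨r, hr, rfl⟩, rfl⟩, rfl⟩
    obtain ⟨h2, h3⟩ := StateTransition.mem_eval.1 h1
    obtain ⟨t, ht⟩ := (emOf U).iter_of_reaches h2
    rw [show ((emOf U).init, stOf [e, m]) =
      ((((emOf U).restr (emF U) h0).init).1, stOf [e, m]) from rfl,
      (emOf U).restr_iter (emF U) h0 (emF_closed U), Option.map_eq_some_iff] at ht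
    obtain ⟨⟨s, T⟩, hs, hsT⟩ := ht
    have hT : T = stOf [r] := congrArg Prod.snd hsT
    have hs1 : s.1 = (cfOf (Turing.PartrecToTM2.halt [r])).1 := congrArg Prod.fst hsT
    subst hT
    refine ⟨t, s, hs, ?_⟩
    rw [EM.restr_δ, hs1]
    exact ((emOf U).step_eq_none _).1 h3
  · intro e m t s T ht hs
    have h1 : (emOf U).iter t ((emOf U).init, stOf [e, m]) = some (s.1, T) := by
      rw [show ((emOf U).init, stOf [e, m]) =
        ((((emOf U).restr (emF U) h0).init).1, stOf [e, m]) from rfl,
        (emOf U).restr_iter (emF U) h0 (emF_closed U), ht]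
      rfl
    have h2 : (s.1, T) ∈ StateTransition.eval (emOf U).step ((emOf U).init, stOf [e, m]) := by
      rw [StateTransition.mem_eval]
      refine ⟨(emOf U).reaches_of_iter h1, ?_⟩
      rw [EM.step_eq_none]
      exact ((emOf U).restr_δ (emF U) h0 s).1 hs
    rw [emOf_eval, hU] at h2
    obtain ⟨_, h4, h3⟩ := (Part.mem_map_iff _).1 h2
    obtain ⟨_, h5, rfl⟩ := (Part.mem_map_iff _).1 h4
    obtain ⟨r, hr, rfl⟩ := (Part.mem_map_iff _).1 h5
    exact ⟨r, hr, (congrArg Prod.snd h3).symm⟩

end Vale.Agent.P193.BH

end FileCEM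

/-! file CMach -/

section FileCMach
/-!
Boone-Higman project, part C: the machine of the ring.
-/

namespace Vale.Agent.P193.BH

open Turing.PartrecToTM2 (Γ' K' trNat trList)

/-- tape letters: `(k, some a)` is the letter `a` of stack `k`, `(k, none)` is its bottom -/
abbrev TT := K' × Option Γ'

/-- stack indices -/
def kidx : K' → ℕ
  | .main => 2
  | .rev => 3
  | .aux => 4
  | .stack => 5

/-- states: `rd μ` reads the input digits, `A μ s` eats fuel, `R μ s` reads the stack,
`cl b k` cleans the stacks starting with `k`, `pr` prints, `eat` eats the remaining fuel -/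
inductive QQ (S : Type) : Type
  | rd : Bool → QQ S
  | A : Bool → S → QQ S
  | R : Bool → S → QQ S
  | cl : Bool → K' → QQ S
  | pr : QQ S
  | eat : QQ S

/-- letters -/
abbrev LL (S : Type) (n : ℕ) := Letter TT (QQ S) n

/-- letter `a` of stack `k` -/
abbrev tl (k : K') (a : Γ') : SL TT := .t (k, some a)

/-- bottom letter of stack `k` -/
abbrev bl (k : K') : SL TT := .t (k, none)

/-- next stack to clean -/
def nextK : K' → Option K'
  | .main => some .rev
  | .rev => some .aux
  | .aux => some .stack
  | .stack => none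

/-- rule indices -/
inductive RI (S : Type) (n : ℕ) : Type
  | rd0 : Bool → RI S n
  | rdD : Bool → Bool → RI S n
  | rdBot : Bool → RI S n
  | AF : Bool → S → Fin 3 → RI S n
  | Abot : Bool → S → RI S n
  | Rd : Bool → S → Option Γ' → RI S n
  | prL : LL S n → RI S n
  | prE : RI S n
  | cl : Bool → K' → Option Γ' → RI S n
  | eatF : Fin 3 → RI S n
  | eatB : RI S n

variable {S : Type} {n L : ℕ}

/-- stack read by the state `R μ s` -/
def EM.stkOf (E : EM S) (s : S) : K' := ((E.δ s).map Prod.fst).getD .main

/-- right hand side of the read rule -/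
def EM.rdRhs (E : EM S) (n : ℕ) (μ : Bool) (s : S) (o : Option Γ') : Option (List (LL S n)) :=
  (E.δ s).map fun d => .q (.A μ (d.2 o).1) :: (((d.2 o).2.map fun a => .s (tl d.1 a)) ++
    if o = none then [.s (bl d.1)] else [])

/-- next state (or final letter) of the cleaning phase -/
def clNext (n : ℕ) (S : Type) (b : Bool) (k : K') : LL S n :=
  match nextK k with
  | some k' => .q (.cl b k')
  | none => if b then .q .eat else .qh

/-- the rules. `N` is a large number, `e` numbers the letters, `W μ` is the word written by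
`rd μ` in front of the input. -/
def ruleOf (E : EM S) (e : LL S n ≃ Fin L) (N : ℕ) (W : Bool → List Γ') :
    RI S n → QQ S × List (SL TT) × Option (List (LL S n))
  | .rd0 μ => (.rd μ, [.i1 0],
      some (.q (.A μ E.init) :: (W μ).map fun a => .s (tl .main a)))
  | .rdD μ b => (.rd μ, [.i1 (if b then 2 else 1)],
      some [.q (.rd μ), .s (tl .main (if b then .bit1 else .bit0))])
  | .rdBot μ => (.rd μ, [.bot], if μ then some [.q (.cl false .main)] else none)
  | .AF μ s j => (.A μ s, [.i1 j], some [.q (if (E.δ s).isSome then .R μ s else .pr)])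
  | .Abot μ s => (.A μ s, [.bot], if μ then some [.q (.cl false .main)] else none)
  | .Rd μ s o => (.R μ s, [.t (E.stkOf s, o)], E.rdRhs n μ s o)
  | .prL a => (.pr, List.replicate (N + (e a : ℕ)) (tl .main .bit0) ++ [tl .main .bit1],
      some [a, .q .pr])
  | .prE => (.pr, [tl .main .bit1, tl .main .cons], some [.q (.cl true .main)])
  | .cl b k (some a) => (.cl b k, [tl k a], some [.q (.cl b k)])
  | .cl b k none => (.cl b k, [bl k], some [clNext n S b k])
  | .eatF j => (.eat, [.i1 j], some [.q .eat])
  | .eatB => (.eat, [.bot], some [.qh])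

/-- start words -/
def stW (S : Type) (n : ℕ) (μ : Bool) : List (LL S n) :=
  [.q (.rd μ), .s (tl .main .bit1), .s (tl .main .cons), .s (bl .main), .s (bl .rev),
    .s (bl .aux), .s (bl .stack)]

/-- weights -/
def wtW (W : Bool → List Γ') : LL S n → ℕ
  | .s (.i0 _) => 4
  | .s .B => 1
  | .s (.i1 _) => 3
  | .s .bot => 0
  | .s (.t _) => 1
  | .q0 μ => (W μ).length + 12
  | .q (.rd μ) => (W μ).length + 4
  | .q (.A _ _) => 3
  | .q (.R _ _) => 5
  | .q (.cl _ _) => 2
  | .q .pr => 2
  | .q .eat => 2
  | .g _ => 0
  | _ => 1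

instance finite_K' : Finite K' := Finite.of_equiv _ (proxy_equiv% K')

/-- finiteness -/
instance finite_QQ [Finite S] : Finite (QQ S) :=
  Finite.of_equiv _ (proxy_equiv% (QQ S))

instance finite_SL_c2 {T : Type} [Finite T] : Finite (SL T) :=
  Finite.of_equiv _ (proxy_equiv% (SL T))

instance finite_Letter_c2 {T Q : Type} {n : ℕ} [Finite T] [Finite Q] : Finite (Letter T Q n) :=
  Finite.of_equiv _ (proxy_equiv% (Letter T Q n))

instance : Finite TT := inferInstanceAs (Finite (K' × Option Γ'))

/-- finiteness -/
instance finite_LL [Finite S] : Finite (LL S n) := finite_Letter_c2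

instance finite_RI [Finite S] : Finite (RI S n) :=
  Finite.of_equiv _ (proxy_equiv% (RI S n))

theorem kidx_ge (k : K') : 2 ≤ kidx k := by cases k <;> simp [kidx]

/-- stack read by a state -/
def rstk (E : EM S) : QQ S → ℕ
  | .rd _ => 1
  | .A _ _ => 1
  | .R _ s => kidx (E.stkOf s)
  | .cl _ k => kidx k
  | .pr => 2
  | .eat => 1

theorem rstk_spec (E : EM S) (e : LL S n ≃ Fin L) (N : ℕ) (W : Bool → List Γ') (i : RI S n) :
    ∀ a ∈ (ruleOf E e N W i).2.1,
      stk (fun a : TT => kidx a.1) a = rstk E (ruleOf E e N W i).1 := by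
  cases i with
  | rd0 μ => simp only [ruleOf, Fin.isValue, List.mem_cons, List.not_mem_nil, or_false, stk, rstk, forall_eq]
  | rdD μ b => simp only [ruleOf, Fin.isValue, List.mem_cons, List.not_mem_nil, or_false, stk, rstk, forall_eq]
  | rdBot μ => simp only [ruleOf, List.mem_cons, List.not_mem_nil, or_false, stk, rstk, forall_eq]
  | AF μ s j => simp [ruleOf, rstk, stk]
  | Abot μ s => simp [ruleOf, rstk, stk]
  | Rd μ s o => simp [ruleOf, rstk, stk]
  | prL a =>
    intro x hx
    simp only [ruleOf, List.mem_append, List.mem_replicate, List.mem_singleton] at hx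
    rcases hx with ⟨-, rfl⟩ | rfl <;> simp [ruleOf, rstk, stk, kidx]
  | prE => simp only [ruleOf, List.mem_cons, List.not_mem_nil, or_false, stk, kidx, rstk, forall_eq_or_imp, forall_eq, and_self]
  | cl b k o => cases o <;> simp [ruleOf, rstk, stk]
  | eatF j => simp [ruleOf, rstk, stk]
  | eatB => simp [ruleOf, rstk, stk]

theorem rstk_ge (E : EM S) (q : QQ S) : 1 ≤ rstk E q := by
  cases q <;> simp [rstk]
  · exact le_trans (by norm_num) (kidx_ge _)
  · exact le_trans (by norm_num) (kidx_ge _)

theorem lhs_ne' (E : EM S) (e : LL S n ≃ Fin L) (N : ℕ) (W : Bool → List Γ') (i : RI S n) :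
    (ruleOf E e N W i).2.1 ≠ [] := by
  cases i with
  | cl b k o => cases o <;> simp [ruleOf]
  | _ => simp [ruleOf]

theorem lhs_len (E : EM S) (e : LL S n ≃ Fin L) (N : ℕ) (W : Bool → List Γ') (i : RI S n)
    (h : rstk E (ruleOf E e N W i).1 = 1) : (ruleOf E e N W i).2.1.length = 1 := by
  cases i with
  | cl b k o => cases o <;> simp [ruleOf]
  | prL a => simp [ruleOf, rstk] at h
  | prE => simp [ruleOf, rstk] at h
  | _ => simp [ruleOf]

theorem wt_rule' (E : EM S) (e : LL S n ≃ Fin L) (N : ℕ) (W : Bool → List Γ')
    (hN : ∀ μ, (W μ).length + 12 ≤ N) (i : RI S n) (w : List (LL S n))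
    (h : (ruleOf E e N W i).2.2 = some w) :
    wtL (wtW W) w < wtW W (.q (ruleOf E e N W i).1 : LL S n) +
      wtL (wtW W) ((ruleOf E e N W i).2.1.map fun a => (.s a : LL S n)) := by
  cases i with
  | rd0 μ =>
    simp only [ruleOf, Option.some.injEq] at h
    subst h
    have h1 : (List.map (wtW W) (List.map (fun a => (.s (tl .main a) : LL S n)) (W μ))).sum =
        (W μ).length := by
      rw [List.map_map]
      have : (wtW W ∘ fun a => (.s (tl .main a) : LL S n)) = fun _ => 1 := rfl
      rw [this]; simp
    simp only [wtL, ruleOf, List.map_cons, List.sum_cons, h1, List.map_nil, List.sum_nil]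
    simp only [wtW]
    omega
  | rdD μ b =>
    simp only [ruleOf, Option.some.injEq] at h
    subst h
    simp [wtL, ruleOf, wtW]
  | rdBot μ =>
    cases μ with
    | true =>
      simp only [ruleOf, if_true, Option.some.injEq] at h
      subst h
      simp only [wtL, List.map_cons, wtW, List.map_nil, List.sum_cons, List.sum_nil, add_zero, ruleOf, ↓reduceIte, lt_add_iff_pos_left, add_pos_iff, Order.lt_two_iff, zero_le, or_true]
    | false => simp [ruleOf] at h
  | AF μ s j =>
    simp only [ruleOf, Option.some.injEq] at h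
    subst h
    by_cases hs : (E.δ s).isSome
    · simp [wtL, ruleOf, wtW, hs]
    · simp [wtL, ruleOf, wtW, hs]
  | Abot μ s =>
    cases μ with
    | true =>
      simp only [ruleOf, if_true, Option.some.injEq] at h
      subst h
      simp [wtL, ruleOf, wtW]
    | false => simp [ruleOf] at h
  | Rd μ s o =>
    simp only [ruleOf, EM.rdRhs] at h
    obtain ⟨d, hd, hd'⟩ := Option.map_eq_some_iff.1 h
    subst hd'
    have hlen := E.len s d.1 d.2 hd o
    have h1 : (List.map (wtW W) (List.map (fun a => (.s (tl d.1 a) : LL S n))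
        (d.2 o).2)).sum = (d.2 o).2.length := by
      rw [List.map_map]
      have : (wtW W ∘ fun a => (.s (tl d.1 a) : LL S n)) = fun _ => 1 := rfl
      rw [this]; simp
    simp only [wtL, ruleOf, List.map_cons, List.sum_cons, List.map_append, List.sum_append, h1,
      List.map_nil, List.sum_nil]
    cases o with
    | none =>
      simp only [Option.toList_none, List.length_nil] at hlen
      simp [wtW]
      omega
    | some a =>
      simp only [Option.toList_some, List.length_cons, List.length_nil] at hlen
      simp [wtW]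
      omega
  | prL a =>
    simp only [ruleOf, Option.some.injEq] at h
    subst h
    have h1 : (List.map (wtW W) (List.map (fun a => (.s a : LL S n))
        (List.replicate (N + (e a : ℕ)) (tl .main .bit0)))).sum = N + (e a : ℕ) := by
      rw [List.map_replicate, List.map_replicate]
      simp [wtW]
    have h2 : wtW W a ≤ N := by
      have t := hN true
      have f := hN false
      cases a with
      | s a => cases a <;> simp only [wtW] <;> omega
      | q0 μ => exact hN μ
      | q p =>
        cases p with
        | rd μ => have := hN μ; simp only [wtW]; omega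
        | _ => simp only [wtW]; omega
      | _ => simp only [wtW]; omega
    simp only [wtL, ruleOf, List.map_cons, List.sum_cons, List.map_append, List.sum_append, h1,
      List.map_nil, List.sum_nil]
    generalize wtW W a = z at *
    simp only [wtW]
    omega
  | prE =>
    simp only [ruleOf, Option.some.injEq] at h
    subst h
    simp [wtL, ruleOf, wtW]
  | cl b k o =>
    cases o with
    | none =>
      simp only [ruleOf, Option.some.injEq] at h
      subst h
      cases k <;> cases b <;> simp [wtL, ruleOf, wtW, clNext, nextK]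
    | some a =>
      simp only [ruleOf, Option.some.injEq] at h
      subst h
      simp [wtL, ruleOf, wtW]
  | eatF j =>
    simp only [ruleOf, Option.some.injEq] at h
    subst h
    simp [wtL, ruleOf, wtW]
  | eatB =>
    simp only [ruleOf, Option.some.injEq] at h
    subst h
    simp [wtL, ruleOf, wtW]

theorem det' (E : EM S) (e : LL S n ≃ Fin L) (N : ℕ) (W : Bool → List Γ')
    (hN : 1 ≤ N) (i i' : RI S n)
    (h : (ruleOf E e N W i).1 = (ruleOf E e N W i').1)
    (h' : (ruleOf E e N W i).2.1 <+: (ruleOf E e N W i').2.1) :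
    ruleOf E e N W i = ruleOf E e N W i' := by
  have sing : ∀ {A : Type} {x y : A}, [x] <+: [y] → x = y := by
    intro A x y h
    simpa using h
  cases i with
  | rd0 μ =>
    cases i' with
    | rd0 μ' => simp only [ruleOf, QQ.rd.injEq] at h; subst h; rfl
    | rdD μ' b' =>
      simp only [ruleOf] at h'
      have := sing h'
      cases b' <;> simp at this
    | rdBot μ' => simp only [ruleOf] at h'; have := sing h'; simp at this
    | cl b k o => cases o <;> simp [ruleOf] at h
    | _ => simp [ruleOf] at h
  | rdD μ b =>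
    cases i' with
    | rd0 μ' =>
      simp only [ruleOf] at h'
      have := sing h'
      cases b <;> simp at this
    | rdD μ' b' =>
      simp only [ruleOf, QQ.rd.injEq] at h
      subst h
      simp only [ruleOf] at h'
      have := sing h'
      cases b <;> cases b' <;> simp at this <;> rfl
    | rdBot μ' => simp only [ruleOf] at h'; have := sing h'; simp at this
    | cl b k o => cases o <;> simp [ruleOf] at h
    | _ => simp [ruleOf] at h
  | rdBot μ =>
    cases i' with
    | rd0 μ' => simp only [ruleOf] at h'; have := sing h'; simp at this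
    | rdD μ' b' => simp only [ruleOf] at h'; have := sing h'; simp at this
    | rdBot μ' => simp only [ruleOf, QQ.rd.injEq] at h; subst h; rfl
    | cl b k o => cases o <;> simp [ruleOf] at h
    | _ => simp [ruleOf] at h
  | AF μ s j =>
    cases i' with
    | AF μ' s' j' =>
      simp only [ruleOf, QQ.A.injEq] at h
      obtain ⟨rfl, rfl⟩ := h
      simp only [ruleOf] at h'
      have := sing h'
      simp at this
      subst this
      rfl
    | Abot μ' s' => simp only [ruleOf] at h'; have := sing h'; simp at this
    | cl b k o => cases o <;> simp [ruleOf] at h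
    | _ => simp [ruleOf] at h
  | Abot μ s =>
    cases i' with
    | AF μ' s' j' => simp only [ruleOf] at h'; have := sing h'; simp at this
    | Abot μ' s' =>
      simp only [ruleOf, QQ.A.injEq] at h
      obtain ⟨rfl, rfl⟩ := h
      rfl
    | cl b k o => cases o <;> simp [ruleOf] at h
    | _ => simp [ruleOf] at h
  | Rd μ s o =>
    cases i' with
    | Rd μ' s' o' =>
      simp only [ruleOf, QQ.R.injEq] at h
      obtain ⟨rfl, rfl⟩ := h
      simp only [ruleOf] at h'
      have := sing h'
      simp at this
      subst this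
      rfl
    | cl b k o => cases o <;> simp [ruleOf] at h
    | _ => simp [ruleOf] at h
  | prL a =>
    obtain ⟨m, hm⟩ : ∃ m, N + (e a : ℕ) = m + 1 := ⟨N + (e a : ℕ) - 1, by omega⟩
    cases i' with
    | prL a' =>
      have key : ∀ (x y : ℕ) (c d : SL TT), c ≠ d →
          List.replicate x c ++ [d] <+: List.replicate y c ++ [d] → x = y := by
        intro x
        induction x with
        | zero =>
          intro y c d hcd hp
          cases y with
          | zero => rfl
          | succ y =>
            simp only [List.replicate_zero, List.nil_append, List.replicate_succ,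
              List.cons_append, List.cons_prefix_cons] at hp
            exact absurd hp.1.symm hcd
        | succ x ih =>
          intro y c d hcd hp
          cases y with
          | zero =>
            simp only [List.replicate_zero, List.nil_append, List.replicate_succ,
              List.cons_append, List.cons_prefix_cons] at hp
            exact absurd hp.1 hcd
          | succ y =>
            simp only [List.replicate_succ, List.cons_append, List.cons_prefix_cons] at hp
            rw [ih y c d hcd hp.2]
      simp only [ruleOf] at h'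
      have h1 := key _ _ _ _ (by simp) h'
      have h2 : e a = e a' := Fin.ext (by omega)
      rw [e.injective h2]
    | prE =>
      simp only [ruleOf] at h'
      rw [hm, List.replicate_succ, List.cons_append, List.cons_prefix_cons] at h'
      simp at h'
    | cl b k o => cases o <;> simp [ruleOf] at h
    | _ => simp [ruleOf] at h
  | prE =>
    cases i' with
    | prL a =>
      obtain ⟨m, hm⟩ : ∃ m, N + (e a : ℕ) = m + 1 := ⟨N + (e a : ℕ) - 1, by omega⟩
      simp only [ruleOf] at h'
      rw [hm, List.replicate_succ, List.cons_append, List.cons_prefix_cons] at h'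
      simp at h'
    | prE => rfl
    | cl b k o => cases o <;> simp [ruleOf] at h
    | _ => simp [ruleOf] at h
  | cl b k o =>
    cases i' with
    | cl b' k' o' =>
      cases o <;> cases o' <;> simp only [ruleOf, QQ.cl.injEq] at h <;>
        obtain ⟨rfl, rfl⟩ := h <;> simp only [ruleOf] at h' <;> have := sing h' <;>
        simp at this
      · rfl
      · subst this; rfl
    | _ => cases o <;> simp [ruleOf] at h
  | eatF j =>
    cases i' with
    | eatF j' =>
      simp only [ruleOf] at h'
      have := sing h'
      simp at this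
      subst this
      rfl
    | eatB => simp only [ruleOf] at h'; have := sing h'; simp at this
    | cl b k o => cases o <;> simp [ruleOf] at h
    | _ => simp [ruleOf] at h
  | eatB =>
    cases i' with
    | eatF j' => simp only [ruleOf] at h'; have := sing h'; simp at this
    | eatB => rfl
    | cl b k o => cases o <;> simp [ruleOf] at h
    | _ => simp [ruleOf] at h

/-- C2: the machine exists -/
theorem exists_mach (E : EM S) [Finite S] (e : LL S n ≃ Fin L) (N : ℕ) (W : Bool → List Γ')
    (hN : ∀ μ, (W μ).length + 12 ≤ N) :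
    ∃ M : Machine TT (QQ S) n, M.stkT = (fun a => kidx a.1) ∧
      (∀ r, r ∈ M.rules ↔ ∃ i, ruleOf E e N W i = r) ∧ M.st = stW S n := by
  let rules : List (QQ S × List (SL TT) × Option (List (LL S n))) :=
    (Set.finite_univ : (Set.univ : Set (RI S n)).Finite).toFinset.toList.map (ruleOf E e N W)
  have hmem : ∀ r, r ∈ rules ↔ ∃ i, ruleOf E e N W i = r := by
    intro r
    simp [rules]
  refine ⟨{ stkT := fun a => kidx a.1
            rules := rules
            st := stW S n
            wt := wtW W
            stk_ge := fun a => kidx_ge a.1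
            lhs_ne := ?_
            lhs_stk := ?_
            det_stk := ?_
            det := ?_
            wt_rule := ?_
            wt_hat := ?_
            wt_st := ?_
            wt_g := ?_
            lhs_one := ?_
            wt_bot := ?_ }, rfl, hmem, rfl⟩
  · intro r hr
    obtain ⟨i, rfl⟩ := (hmem r).1 hr
    exact lhs_ne' E e N W i
  · intro r hr
    obtain ⟨i, rfl⟩ := (hmem r).1 hr
    exact ⟨_, rstk_ge E _, rstk_spec E e N W i⟩
  · intro r hr r' hr' h a ha b hb
    obtain ⟨i, rfl⟩ := (hmem r).1 hr
    obtain ⟨i', rfl⟩ := (hmem r').1 hr'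
    rw [rstk_spec E e N W i a ha, rstk_spec E e N W i' b hb, h]
  · intro r hr r' hr' h h'
    obtain ⟨i, rfl⟩ := (hmem r).1 hr
    obtain ⟨i', rfl⟩ := (hmem r').1 hr'
    exact det' E e N W (by have := hN true; omega) i i' h h'
  · intro r hr w hw
    obtain ⟨i, rfl⟩ := (hmem r).1 hr
    exact wt_rule' E e N W hN i w hw
  · intro k
    simp [wtW]
  · intro μ
    simp [wtW, stW, wtL]
  · intro p
    rfl
  · rintro r hr ⟨a, ha, ha'⟩
    obtain ⟨i, rfl⟩ := (hmem r).1 hr
    exact lhs_len E e N W i (by rw [← rstk_spec E e N W i a ha, ha'])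
  · rfl

end Vale.Agent.P193.BH

end FileCMach

/-! file CEnc -/

section FileCEnc
/-!
Boone-Higman project, part C: binary encodings.
-/

namespace Vale.Agent.P193.BH

open Turing.PartrecToTM2 (Γ' K' trNat trList)

variable {S : Type} {n L : ℕ}

/-- digits, most significant first, after a leading one -/
def val (l : List Bool) : ℕ := l.foldl (fun v b => 2 * v + cond b 1 0) 1

/-- bits as letters -/
def bit (b : Bool) : Γ' := cond b .bit1 .bit0

theorem trNat_one : trNat 1 = [.bit1] := by
  rfl

theorem trNat_bit (b : Bool) {v : ℕ} (hv : v ≠ 0) :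
    trNat (2 * v + cond b 1 0) = bit b :: trNat v := by
  have h : ∃ p : PosNum, (v : Num) = Num.pos p := by
    cases h : (v : Num) with
    | zero =>
      exfalso; apply hv
      have := congrArg (fun x : Num => (x : ℕ)) h
      simp only [Num.to_of_nat] at this
      exact this
    | pos p => exact ⟨p, rfl⟩
  obtain ⟨p, hp⟩ := h
  have hp' : v = (p : ℕ) := by
    have := congrArg (fun x : Num => (x : ℕ)) hp
    simp only [Num.to_of_nat] at this
    exact this
  cases b
  · have : ((2 * v + cond false 1 0 : ℕ) : Num) = Num.pos (PosNum.bit0 p) := by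
      rw [← Num.to_nat_inj, Num.to_of_nat]
      change 2 * v + 0 = (PosNum.bit0 p : ℕ)
      rw [PosNum.cast_bit0, hp']
      omega
    unfold trNat
    rw [this, hp]
    rfl
  · have : ((2 * v + cond true 1 0 : ℕ) : Num) = Num.pos (PosNum.bit1 p) := by
      rw [← Num.to_nat_inj, Num.to_of_nat]
      change 2 * v + 1 = (PosNum.bit1 p : ℕ)
      rw [PosNum.cast_bit1, hp']
      omega
    unfold trNat
    rw [this, hp]
    rfl

theorem trNat_length_le (v : ℕ) : (trNat v).length ≤ v := by
  induction v using Nat.strong_induction_on with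
  | _ v ih =>
    rcases Nat.eq_zero_or_pos v with rfl | hv
    · simp
    rcases Nat.lt_or_ge v 2 with h2 | h2
    · have : v = 1 := by omega
      subst this
      simp [trNat_one]
    · have hv2 : v / 2 ≠ 0 := by omega
      rcases Nat.mod_two_eq_zero_or_one v with h | h
      · have e : v = 2 * (v / 2) + cond false 1 0 := by simp; omega
        rw [e, trNat_bit false hv2]
        have := ih (v / 2) (by omega)
        simp only [List.length_cons, cond_false]
        omega
      · have e : v = 2 * (v / 2) + cond true 1 0 := by simp; omega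
        rw [e, trNat_bit true hv2]
        have := ih (v / 2) (by omega)
        simp only [List.length_cons, cond_true]
        omega

theorem val_ne_zero (l : List Bool) : val l ≠ 0 := by
  unfold val
  suffices ∀ (l : List Bool) (v : ℕ), v ≠ 0 → l.foldl (fun v b => 2 * v + cond b 1 0) v ≠ 0 from
    this l 1 one_ne_zero
  intro l
  induction l with
  | nil => intro v hv; exact hv
  | cons b l ih =>
    intro v hv
    refine ih _ ?_
    intro h0
    rcases Nat.add_eq_zero_iff.1 h0 with ⟨h1, _⟩
    exact hv (by omega)

theorem val_concat (l : List Bool) (b : Bool) : val (l ++ [b]) = 2 * val l + cond b 1 0 := by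
  simp [val, List.foldl_append]

theorem exists_val {v : ℕ} (hv : v ≠ 0) : ∃ l, val l = v := by
  induction v using Nat.strong_induction_on with
  | _ v ih =>
    rcases Nat.lt_or_ge v 2 with h2 | h2
    · exact ⟨[], by simp only [val, List.foldl_nil]; omega⟩
    · obtain ⟨l, hl⟩ := ih (v / 2) (by omega) (by omega)
      rcases Nat.mod_two_eq_zero_or_one v with h | h
      · exact ⟨l ++ [false], by rw [val_concat, hl]; simp; omega⟩
      · exact ⟨l ++ [true], by rw [val_concat, hl]; simp; omega⟩

theorem trNat_val (l : List Bool) : trNat (val l) = (l.reverse.map bit) ++ [.bit1] := by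
  induction l using List.reverseRecOn with
  | nil => rfl
  | append_singleton l b ih =>
    rw [val_concat, trNat_bit b (val_ne_zero l), ih]
    simp

/-- number printed as the word `w` -/
def encW (e : LL S n ≃ Fin L) (N : ℕ) : List (LL S n) → ℕ
  | [] => 1
  | a :: w => 2 ^ (N + (e a : ℕ)) * (2 * encW e N w + 1)

theorem encW_ne_zero (e : LL S n ≃ Fin L) (N : ℕ) (w : List (LL S n)) : encW e N w ≠ 0 := by
  cases w with
  | nil => exact one_ne_zero
  | cons a w =>
    simp only [encW]
    positivity

theorem trNat_encW_nil (e : LL S n ≃ Fin L) (N : ℕ) : trNat (encW e N []) = [.bit1] := by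
  simp only [encW]
  exact trNat_one

theorem trNat_two_pow_mul (k : ℕ) {v : ℕ} (hv : v ≠ 0) :
    trNat (2 ^ k * v) = List.replicate k .bit0 ++ trNat v := by
  induction k with
  | zero => simp
  | succ k ih =>
    have h : 2 ^ (k + 1) * v = 2 * (2 ^ k * v) + cond false 1 0 := by
      simp only [cond_false]; ring
    rw [h, trNat_bit false (by positivity), ih]
    rfl

theorem trNat_encW_cons (e : LL S n ≃ Fin L) (N : ℕ) (a : LL S n) (w : List (LL S n)) :
    trNat (encW e N (a :: w)) =
      List.replicate (N + (e a : ℕ)) .bit0 ++ .bit1 :: trNat (encW e N w) := by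
  simp only [encW]
  rw [trNat_two_pow_mul _ (by omega)]
  have := trNat_bit true (encW_ne_zero e N w)
  simp only [cond_true] at this
  rw [this]
  rfl

end Vale.Agent.P193.BH

end FileCEnc

/-! file CRun -/

section FileCRun
/-!
Boone-Higman project, part C: runs of the machine in the ring.
-/

namespace Vale.Agent.P193.BH

open Turing.PartrecToTM2 (Γ' K' trNat trList)

variable {S : Type} {n L : ℕ}

/-- word of one stack -/
def kword (n : ℕ) (S : Type) (T : Stacks) (k : K') : List (LL S n) :=
  ((T k).map fun a => .s (tl k a)) ++ [.s (bl k)]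

/-- word of the stacks -/
def tword (n : ℕ) (S : Type) (T : Stacks) : List (LL S n) :=
  kword n S T .main ++ (kword n S T .rev ++ (kword n S T .aux ++ kword n S T .stack))

/-- fuel words -/
def fw (n : ℕ) (S : Type) (y : List (Fin 3)) : List (LL S n) := y.map fun k => .s (.i1 k)

/-- value of a configuration -/
def V {N : Type} [Ring N] (ρ : LL S n → N) (p : QQ S) (T : Stacks) (y : List (Fin 3)) : N :=
  ρ (.q p) * pr ρ (tword n S T) * pr ρ (fw n S y) * ρ (.s .bot)

section PrAux

variable {N : Type} [Monoid N] (ρ : LL S n → N)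

theorem pr_nil' : pr ρ [] = 1 := rfl

theorem pr_cons' (a : LL S n) (w : List (LL S n)) : pr ρ (a :: w) = ρ a * pr ρ w := by
  simp [pr]

theorem pr_append' (w w' : List (LL S n)) : pr ρ (w ++ w') = pr ρ w * pr ρ w' := by
  simp [pr]

theorem pr_single' (a : LL S n) : pr ρ [a] = ρ a := by
  simp [pr]

end PrAux

/-- the start word is a configuration -/
theorem pr_stW {N : Type} [Ring N] (ρ : LL S n → N) (μ : Bool) (y : List (Fin 3)) :
    pr ρ (stW S n μ) * pr ρ (fw n S y) * ρ (.s .bot) =
      V ρ (.rd μ) (K'.elim [.bit1, .cons] [] [] []) y := by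
  simp [V, stW, tword, kword, K'.elim, pr_cons', pr_nil', mul_assoc]

/-- hypotheses of this file: `M` is a machine given by `exists_mach`, `ρ` respects it -/
structure RH (E : EM S) (e : LL S n ≃ Fin L) (N₀ : ℕ) (W : Bool → List Γ')
    (M : Machine TT (QQ S) n) {N : Type} [Ring N] (ρ : LL S n → N) : Prop where
  hs : M.stkT = fun a => kidx a.1
  hr : ∀ r, r ∈ M.rules ↔ ∃ i, ruleOf E e N₀ W i = r
  resp : M.Resp ρ

variable {E : EM S} {e : LL S n ≃ Fin L} {N₀ : ℕ} {W : Bool → List Γ'}
    {M : Machine TT (QQ S) n} {N : Type} [Ring N] {ρ : LL S n → N}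

/-- a stack letter commutes with words of other stacks -/
theorem comm_list (h : RH E e N₀ W M ρ) (a : SL TT) (l : List (SL TT))
    (hl : ∀ b ∈ l, stk M.stkT b ≠ stk M.stkT a) :
    ρ (.s a) * pr ρ (l.map .s) = pr ρ (l.map .s) * ρ (.s a) := by
  induction l with
  | nil => simp [pr_nil']
  | cons b l ih =>
    have h1 := ih fun c hc => hl c (List.mem_cons_of_mem _ hc)
    have h2 := h.resp.comm a b (hl b List.mem_cons_self).symm
    rw [List.map_cons, pr_cons', ← mul_assoc, h2, mul_assoc, h1, mul_assoc]

/-- the letters of one stack -/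
def kw (T : Stacks) (k : K') : List (SL TT) := (T k).map (tl k) ++ [bl k]

theorem kword_eq (T : Stacks) (k : K') : kword n S T k = (kw T k).map .s := by
  simp [kword, kw]

theorem kw_stk (h : RH E e N₀ W M ρ) (T : Stacks) (k : K') (b : SL TT) (hb : b ∈ kw T k) :
    stk M.stkT b = kidx k := by
  rw [h.hs]
  simp only [kw, List.mem_append, List.mem_map, List.mem_singleton] at hb
  rcases hb with ⟨a, -, rfl⟩ | rfl <;> rfl

theorem kidx_ne {k k' : K'} (hk : k ≠ k') : kidx k ≠ kidx k' := by
  cases k <;> cases k' <;> simp_all [kidx]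

theorem comm_kword (h : RH E e N₀ W M ρ) (T : Stacks) (k k' : K') (o : Option Γ')
    (hk : k ≠ k') : ρ (.s (.t (k, o))) * pr ρ (kword n S T k') =
      pr ρ (kword n S T k') * ρ (.s (.t (k, o))) := by
  rw [kword_eq]
  apply comm_list h
  intro b hb
  rw [kw_stk h T k' b hb, h.hs]
  exact kidx_ne hk.symm

theorem comm_fuel_kword (h : RH E e N₀ W M ρ) (T : Stacks) (a : SL TT)
    (ha : stk M.stkT a = 1) (k : K') :
    ρ (.s a) * pr ρ (kword n S T k) = pr ρ (kword n S T k) * ρ (.s a) := by
  rw [kword_eq]
  apply comm_list h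
  intro b hb
  rw [kw_stk h T k b hb, ha]
  cases k <;> simp [kidx]

theorem comm_fuel (h : RH E e N₀ W M ρ) (T : Stacks) (a : SL TT) (ha : stk M.stkT a = 1) :
    ρ (.s a) * pr ρ (tword n S T) = pr ρ (tword n S T) * ρ (.s a) := by
  have h1 := comm_fuel_kword h T a ha .main
  have h2 := comm_fuel_kword h T a ha .rev
  have h3 := comm_fuel_kword h T a ha .aux
  have h4 := comm_fuel_kword h T a ha .stack
  simp only [tword, pr_append']
  rw [← mul_assoc, h1, mul_assoc, ← mul_assoc (ρ (.s a)), h2, mul_assoc,
    ← mul_assoc (ρ (.s a)) (pr ρ (kword n S T .aux)), h3, mul_assoc, h4]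
  simp only [mul_assoc]

theorem kword_update_of_ne (T : Stacks) {k k' : K'} (hk : k' ≠ k) (l : List Γ') :
    kword n S (Function.update T k l) k' = kword n S T k' := by
  simp [kword, Function.update_of_ne hk]

theorem kword_update_self (T : Stacks) (k : K') (l : List Γ') :
    kword n S (Function.update T k l) k = (l.map fun a => .s (tl k a)) ++ [.s (bl k)] := by
  simp [kword]

theorem tword_front (h : RH E e N₀ W M ρ) (T : Stacks) (k : K') (o : Option Γ')
    (T' : Stacks) (R : List (LL S n)) (hT : kword n S T k = .s (.t (k, o)) :: R)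
    (hne : ∀ k', k' ≠ k → kword n S T' k' = kword n S T k')
    (hk : kword n S T' k = R) :
    pr ρ (tword n S T) = ρ (.s (.t (k, o))) * pr ρ (tword n S T') := by
  cases k
  · rw [tword, tword, hT, hk, hne .rev (by simp), hne .aux (by simp), hne .stack (by simp)]
    simp only [pr_append', pr_cons', mul_assoc]
  · rw [tword, tword, hT, hk, hne .main (by simp), hne .aux (by simp), hne .stack (by simp)]
    have h1 := comm_kword h T .rev .main o (by simp)
    simp only [pr_append', pr_cons', mul_assoc]
    rw [← mul_assoc (ρ _) (pr ρ (kword n S T .main)), h1]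
    simp only [mul_assoc]
  · rw [tword, tword, hT, hk, hne .main (by simp), hne .rev (by simp), hne .stack (by simp)]
    have h1 := comm_kword h T .aux .main o (by simp)
    have h2 := comm_kword h T .aux .rev o (by simp)
    simp only [pr_append', pr_cons', mul_assoc]
    rw [← mul_assoc (ρ _) (pr ρ (kword n S T .main)), h1, mul_assoc,
      ← mul_assoc (ρ _) (pr ρ (kword n S T .rev)), h2]
    simp only [mul_assoc]
  · rw [tword, tword, hT, hk, hne .main (by simp), hne .rev (by simp), hne .aux (by simp)]
    have h1 := comm_kword h T .stack .main o (by simp)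
    have h2 := comm_kword h T .stack .rev o (by simp)
    have h3 := comm_kword h T .stack .aux o (by simp)
    simp only [pr_append', pr_cons']
    rw [← mul_assoc (ρ _) (pr ρ (kword n S T .main)), h1, mul_assoc,
      ← mul_assoc (ρ _) (pr ρ (kword n S T .rev)), h2, mul_assoc,
      ← mul_assoc (ρ _) (pr ρ (kword n S T .aux)), h3]
    simp only [mul_assoc]

/-- the top letter of a stack in front -/
theorem tword_top (h : RH E e N₀ W M ρ) (T : Stacks) (k : K') (a : Γ') (r : List Γ')
    (hT : T k = a :: r) : pr ρ (tword n S T) =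
      ρ (.s (tl k a)) * pr ρ (tword n S (Function.update T k r)) := by
  refine tword_front h T k (some a) _ _ ?_ (fun k' hk => kword_update_of_ne T hk r) rfl
  rw [kword_update_self, kword, hT]
  rfl

/-- the bottom letter of an empty stack in front -/
theorem tword_bottom (h : RH E e N₀ W M ρ) (T : Stacks) (k : K') (hT : T k = []) :
    ∃ Q : N, pr ρ (tword n S T) = ρ (.s (bl k)) * Q := by
  have hk : kword n S T k = [.s (bl k)] := by simp [kword, hT]
  cases k
  · refine ⟨pr ρ (kword n S T .rev ++ (kword n S T .aux ++ kword n S T .stack)), ?_⟩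
    rw [tword, hk]
    simp only [List.singleton_append, pr_cons']
  · refine ⟨pr ρ (kword n S T .main ++ (kword n S T .aux ++ kword n S T .stack)), ?_⟩
    have h1 := comm_kword h T .rev .main none (by simp)
    rw [tword, hk]
    simp only [pr_append', pr_cons', pr_nil', mul_one]
    rw [← mul_assoc (ρ _) (pr ρ (kword n S T .main)), h1]
    simp only [mul_assoc]
  · refine ⟨pr ρ (kword n S T .main ++ (kword n S T .rev ++ kword n S T .stack)), ?_⟩
    have h1 := comm_kword h T .aux .main none (by simp)
    have h2 := comm_kword h T .aux .rev none (by simp)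
    rw [tword, hk]
    simp only [pr_append', pr_cons', pr_nil', mul_one]
    rw [← mul_assoc (ρ _) (pr ρ (kword n S T .main)), h1, mul_assoc,
      ← mul_assoc (ρ _) (pr ρ (kword n S T .rev)), h2]
    simp only [mul_assoc]
  · refine ⟨pr ρ (kword n S T .main ++ (kword n S T .rev ++ kword n S T .aux)), ?_⟩
    have h1 := comm_kword h T .stack .main none (by simp)
    have h2 := comm_kword h T .stack .rev none (by simp)
    have h3 := comm_kword h T .stack .aux none (by simp)
    rw [tword, hk]
    simp only [pr_append', pr_cons', pr_nil', mul_one]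
    rw [← mul_assoc (ρ _) (pr ρ (kword n S T .main)), h1, mul_assoc,
      ← mul_assoc (ρ _) (pr ρ (kword n S T .rev)), h2, mul_assoc,
      h3]

/-- reading the fuel -/
theorem V_fuel (h : RH E e N₀ W M ρ) (p : QQ S) (T : Stacks) (y : List (Fin 3)) (j : Fin 3) :
    V ρ p T (j :: y) = ρ (.q p) * ρ (.s (.i1 j)) * pr ρ (tword n S T) *
      pr ρ (fw n S y) * ρ (.s .bot) := by
  have h1 := comm_fuel h T (.i1 j) rfl
  rw [V, fw, List.map_cons, pr_cons']
  rw [mul_assoc (ρ (.q p)) (ρ (.s (.i1 j))), h1]
  simp only [fw, mul_assoc]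

/-- pushing a list on the stack `k` -/
theorem pr_push (h : RH E e N₀ W M ρ) (T : Stacks) (k : K') (l : List Γ') :
    pr ρ (l.map fun a => .s (tl k a)) * pr ρ (tword n S T) =
      pr ρ (tword n S (Function.update T k (l ++ T k))) := by
  induction l with
  | nil => simp [pr_nil']
  | cons a l ih =>
    rw [List.map_cons, pr_cons', mul_assoc, ih,
      tword_top h (Function.update T k ((a :: l) ++ T k)) k a (l ++ T k) (by simp)]
    simp

/-- digits -/
theorem V_digit (h : RH E e N₀ W M ρ) (μ b : Bool) (T : Stacks) (y : List (Fin 3)) :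
    V ρ (.rd μ) T ((if b then 2 else 1) :: y) =
      V ρ (.rd μ) (Function.update T .main (bit b :: T .main)) y := by
  have h1 := h.resp.rule_some (.rd μ) [.i1 (if b then 2 else 1)]
    [.q (.rd μ), .s (tl .main (if b then .bit1 else .bit0))] ((h.hr _).2 ⟨.rdD μ b, rfl⟩)
  simp only [List.map_cons, List.map_nil, pr_cons', pr_nil', mul_one] at h1
  have h2 := pr_push h T .main [bit b]
  simp only [List.map_cons, List.map_nil, pr_cons', pr_nil', mul_one, List.singleton_append] at h2
  have h3 : (if b = true then Γ'.bit1 else Γ'.bit0) = bit b := by cases b <;> rfl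
  rw [V_fuel h, h1, h3, mul_assoc (ρ (.q (.rd μ))), h2, V]

/-- end of the digits -/
theorem V_sep (h : RH E e N₀ W M ρ) (μ : Bool) (T : Stacks) (y : List (Fin 3)) :
    V ρ (.rd μ) T (0 :: y) = V ρ (.A μ E.init) (Function.update T .main (W μ ++ T .main)) y := by
  have h1 := h.resp.rule_some (.rd μ) [.i1 0]
    (.q (.A μ E.init) :: (W μ).map fun a => .s (tl .main a)) ((h.hr _).2 ⟨.rd0 μ, rfl⟩)
  simp only [List.map_cons, List.map_nil, pr_cons', pr_nil', mul_one] at h1
  have h2 := pr_push h T .main (W μ)
  rw [V_fuel h, h1, mul_assoc (ρ (.q (.A μ E.init))), h2, V]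

theorem rule_AF (h : RH E e N₀ W M ρ) (μ : Bool) (s : S) (j : Fin 3) :
    ρ (.q (.A μ s)) * ρ (.s (.i1 j)) =
      ρ (.q (if (E.δ s).isSome then .R μ s else .pr)) := by
  have h1 := h.resp.rule_some (.A μ s) [.i1 j]
    [.q (if (E.δ s).isSome then .R μ s else .pr)] ((h.hr _).2 ⟨.AF μ s j, rfl⟩)
  simpa only [List.map_cons, List.map_nil, pr_cons', pr_nil', mul_one] using h1

/-- one step -/
theorem V_step (h : RH E e N₀ W M ρ) (μ : Bool) (s s' : S) (T T' : Stacks) (j : Fin 3)
    (y : List (Fin 3)) (hs : E.step (s, T) = some (s', T')) :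
    V ρ (.A μ s) T (j :: y) = V ρ (.A μ s') T' y := by
  obtain ⟨⟨k, nx⟩, hd, heq⟩ := Option.map_eq_some_iff.mp hs
  simp only [Prod.mk.injEq] at heq
  obtain ⟨hs', hT'⟩ := heq
  have hA := rule_AF h μ s j
  rw [if_pos (by simp only at hd; rw [hd]; rfl)] at hA
  have hk : E.stkOf s = k := by
    simp only at hd
    simp [EM.stkOf, hd]
  have key : ρ (.q (.R μ s)) * pr ρ (tword n S T) = ρ (.q (.A μ s')) * pr ρ (tword n S T') := by
    cases hTk : T k with
    | nil =>
      have h1 := h.resp.rule_some (.R μ s) [.t (E.stkOf s, none)]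
        (.q (.A μ (nx none).1) :: (((nx none).2.map fun a => .s (tl k a)) ++ [.s (bl k)]))
        ((h.hr _).2 ⟨.Rd μ s none, by simp only at hd; simp only [ruleOf, EM.rdRhs, ↓reduceIte, hd, Option.map_some]⟩)
      obtain ⟨Q, hQ⟩ := tword_bottom h T k hTk
      have h2 := pr_push h T k (nx none).2
      rw [hTk] at h2 hs' hT'
      simp only [List.head?_nil, List.tail_nil] at hs' hT'
      rw [hs'] at h1
      rw [← hT', ← h2, hQ, ← mul_assoc]
      simp only [List.map_cons, List.map_nil, pr_cons', pr_nil', mul_one, pr_append', hk] at h1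
      rw [h1]
      simp only [mul_assoc]
    | cons a r =>
      have h1 := h.resp.rule_some (.R μ s) [.t (E.stkOf s, some a)]
        (.q (.A μ (nx (some a)).1) :: (((nx (some a)).2.map fun a => .s (tl k a)) ++ []))
        ((h.hr _).2 ⟨.Rd μ s (some a), by simp only at hd; simp [ruleOf, EM.rdRhs, hd]⟩)
      have h2 := pr_push h (Function.update T k r) k (nx (some a)).2
      rw [hTk] at hs' hT'
      simp only [List.head?_cons, List.tail_cons] at hs' hT'
      rw [hs'] at h1
      rw [Function.update_self, Function.update_idem, hT'] at h2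
      rw [← h2, tword_top h T k a r hTk, ← mul_assoc]
      simp only [List.map_cons, List.map_nil, pr_cons', pr_nil', mul_one, List.append_nil, hk]
        at h1
      rw [h1]
      simp only [mul_assoc]
  rw [V_fuel h, hA, key, V]

/-- halting -/
theorem V_halt (h : RH E e N₀ W M ρ) (μ : Bool) (s : S) (T : Stacks) (j : Fin 3)
    (y : List (Fin 3)) (hs : E.δ s = none) :
    V ρ (.A μ s) T (j :: y) = V ρ .pr T y := by
  have hA := rule_AF h μ s j
  rw [if_neg (by rw [hs]; simp)] at hA
  rw [V_fuel h, hA, V]

theorem cl_kword (h : RH E e N₀ W M ρ) (b : Bool) (k : K') (T : Stacks) :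
    ρ (.q (.cl b k)) * pr ρ (kword n S T k) = ρ (clNext n S b k) := by
  rw [kword]
  generalize T k = l
  induction l with
  | nil =>
    have h1 := h.resp.rule_some (.cl b k) [bl k] [clNext n S b k]
      ((h.hr _).2 ⟨.cl b k none, rfl⟩)
    simpa only [List.map_cons, List.map_nil, pr_cons', pr_nil', mul_one, List.nil_append] using h1
  | cons a l ih =>
    have h1 := h.resp.rule_some (.cl b k) [tl k a] [.q (.cl b k)]
      ((h.hr _).2 ⟨.cl b k (some a), rfl⟩)
    simp only [List.map_cons, List.map_nil, pr_cons', pr_nil', mul_one] at h1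
    rw [List.map_cons, List.cons_append, pr_cons', ← mul_assoc, h1, ih]

theorem cl_tword (h : RH E e N₀ W M ρ) (b : Bool) (T : Stacks) :
    ρ (.q (.cl b .main)) * pr ρ (tword n S T) = ρ (if b then .q .eat else .qh) := by
  have h1 := cl_kword h b .main T
  have h2 := cl_kword h b .rev T
  have h3 := cl_kword h b .aux T
  have h4 := cl_kword h b .stack T
  simp only [clNext, nextK] at h1 h2 h3 h4
  simp only [tword, pr_append']
  rw [← mul_assoc, h1, ← mul_assoc, h2, ← mul_assoc, h3, h4]

/-- cleaning, then eating or stopping -/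
theorem V_clean (h : RH E e N₀ W M ρ) (T : Stacks) (y : List (Fin 3)) :
    V ρ (.cl true .main) T y = ρ .qh := by
  have h1 := cl_tword h true T
  rw [if_pos rfl] at h1
  rw [V, h1]
  induction y with
  | nil =>
    have h2 := h.resp.rule_some .eat [.bot] [.qh] ((h.hr _).2 ⟨.eatB, rfl⟩)
    simpa only [fw, List.map_cons, List.map_nil, pr_cons', pr_nil', mul_one] using h2
  | cons j y ih =>
    have h2 := h.resp.rule_some .eat [.i1 j] [.q .eat] ((h.hr _).2 ⟨.eatF j, rfl⟩)
    simp only [List.map_cons, List.map_nil, pr_cons', pr_nil', mul_one] at h2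
    rw [fw, List.map_cons, pr_cons', ← mul_assoc, h2]
    exact ih

/-- cleaning without fuel -/
theorem V_clean' (h : RH E e N₀ W M ρ) (T : Stacks) :
    ρ (.q (.cl false .main)) * pr ρ (tword n S T) = ρ .qh := by
  have h1 := cl_tword h false T
  rwa [if_neg (by simp)] at h1

/-- out of fuel -/
theorem V_out (h : RH E e N₀ W M ρ) (μ : Bool) (s : S) (T : Stacks) :
    V ρ (.A μ s) T [] = if μ then ρ .qh else 0 := by
  have h1 := comm_fuel h T .bot rfl
  rw [V, fw, List.map_nil, pr_nil', mul_one, mul_assoc, ← h1, ← mul_assoc]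
  cases μ with
  | true =>
    have h2 := h.resp.rule_some (.A true s) [.bot] [.q (.cl false .main)]
      ((h.hr _).2 ⟨.Abot true s, rfl⟩)
    simp only [List.map_cons, List.map_nil, pr_cons', pr_nil', mul_one] at h2
    rw [h2, V_clean' h, if_pos rfl]
  | false =>
    have h2 := h.resp.rule_none (.A false s) [.bot] ((h.hr _).2 ⟨.Abot false s, rfl⟩)
    simp only [List.map_cons, List.map_nil, pr_cons', pr_nil', mul_one] at h2
    rw [h2, zero_mul, if_neg (by simp)]

/-- out of fuel while reading -/
theorem V_rd_out (h : RH E e N₀ W M ρ) (μ : Bool) (T : Stacks) :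
    V ρ (.rd μ) T [] = if μ then ρ .qh else 0 := by
  have h1 := comm_fuel h T .bot rfl
  rw [V, fw, List.map_nil, pr_nil', mul_one, mul_assoc, ← h1, ← mul_assoc]
  cases μ with
  | true =>
    have h2 := h.resp.rule_some (.rd true) [.bot] [.q (.cl false .main)]
      ((h.hr _).2 ⟨.rdBot true, rfl⟩)
    simp only [List.map_cons, List.map_nil, pr_cons', pr_nil', mul_one] at h2
    rw [h2, V_clean' h, if_pos rfl]
  | false =>
    have h2 := h.resp.rule_none (.rd false) [.bot] ((h.hr _).2 ⟨.rdBot false, rfl⟩)
    simp only [List.map_cons, List.map_nil, pr_cons', pr_nil', mul_one] at h2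
    rw [h2, zero_mul, if_neg (by simp)]

theorem pr_push_main (h : RH E e N₀ W M ρ) (l r : List Γ') :
    pr ρ (tword n S (K'.elim (l ++ r) [] [] [])) =
      pr ρ (l.map fun a => .s (tl .main a)) * pr ρ (tword n S (K'.elim r [] [] [])) := by
  rw [pr_push h, K'.elim_update_main]
  rfl

/-- printing -/
theorem V_print (h : RH E e N₀ W M ρ) (w : List (LL S n)) (y : List (Fin 3)) :
    V ρ .pr (stOf [encW e N₀ w]) y = pr ρ w * ρ .qh := by
  have hst : ∀ v, stOf [v] = K'.elim (trNat v ++ [.cons]) [] [] [] := fun v => rfl
  induction w with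
  | nil =>
    have h1 := h.resp.rule_some .pr [tl .main .bit1, tl .main .cons] [.q (.cl true .main)]
      ((h.hr _).2 ⟨.prE, rfl⟩)
    have h2 := pr_push_main h [.bit1, .cons] []
    simp only [List.map_cons, List.map_nil, pr_cons', pr_nil', mul_one] at h1 h2
    rw [hst, trNat_encW_nil, V, pr_nil', one_mul, ← V_clean h (K'.elim [] [] [] []) y, V]
    simp only [List.cons_append, List.nil_append] at h2 ⊢
    rw [h2, ← mul_assoc, h1]
  | cons a w ih =>
    have h1 := h.resp.rule_some .pr
      (List.replicate (N₀ + (e a : ℕ)) (tl .main .bit0) ++ [tl .main .bit1])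
      [a, .q .pr] ((h.hr _).2 ⟨.prL a, rfl⟩)
    have h2 := pr_push_main h (List.replicate (N₀ + (e a : ℕ)) .bit0 ++ [.bit1])
      (trNat (encW e N₀ w) ++ [.cons])
    rw [hst, V] at ih
    rw [hst, trNat_encW_cons, V, pr_cons', mul_assoc (ρ a), ← ih]
    have h3 : List.replicate (N₀ + (e a : ℕ)) Γ'.bit0 ++ Γ'.bit1 :: trNat (encW e N₀ w) ++
        [Γ'.cons] = List.replicate (N₀ + (e a : ℕ)) Γ'.bit0 ++ [Γ'.bit1] ++
          (trNat (encW e N₀ w) ++ [Γ'.cons]) := by simp
    have h4 : ((List.replicate (N₀ + (e a : ℕ)) (tl .main .bit0) ++ [tl .main .bit1]).map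
        Letter.s : List (LL S n)) =
        (List.replicate (N₀ + (e a : ℕ)) Γ'.bit0 ++ [Γ'.bit1]).map fun a => .s (tl .main a) := by
      simp
    rw [h4] at h1
    rw [h3, h2, ← mul_assoc, h1, pr_cons', pr_single']
    simp only [mul_assoc]

/-- digits as fuel letters -/
def dig (l : List Bool) : List (Fin 3) := l.map fun b => if b then 2 else 1

theorem V_digits (h : RH E e N₀ W M ρ) (μ : Bool) (l : List Bool) (y : List (Fin 3))
    (m : List Γ') :
    V ρ (.rd μ) (K'.elim m [] [] []) (dig l ++ y) =
      V ρ (.rd μ) (K'.elim (l.reverse.map bit ++ m) [] [] []) y := by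
  induction l generalizing m with
  | nil => rfl
  | cons b l ih =>
    rw [dig, List.map_cons, List.cons_append, V_digit h, K'.elim_update_main]
    have h1 := ih (bit b :: m)
    rw [dig] at h1
    rw [K'.elim_main, h1]
    simp only [List.map_reverse, List.reverse_cons, List.map_append, List.map_cons, List.map_nil, List.append_assoc, List.cons_append, List.nil_append]

/-- C3a: only digits -/
theorem run_digits (h : RH E e N₀ W M ρ) (μ : Bool) (l : List Bool) :
    pr ρ (stW S n μ) * pr ρ (fw n S (dig l)) * ρ (.s .bot) = if μ then ρ .qh else 0 := by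
  rw [pr_stW]
  have h1 := V_digits h μ l [] [.bit1, .cons]
  rw [List.append_nil] at h1
  rw [h1, V_rd_out h]

/-- C3b: digits, separator, fuel -/
theorem run_sep (h : RH E e N₀ W M ρ) (μ : Bool) (v : ℕ) (hW : W μ = trNat v ++ [.cons])
    (l : List Bool) (y : List (Fin 3)) :
    pr ρ (stW S n μ) * pr ρ (fw n S (dig l ++ 0 :: y)) * ρ (.s .bot) =
      V ρ (.A μ E.init) (stOf [v, val l]) y := by
  rw [pr_stW, V_digits h, V_sep h, K'.elim_update_main, K'.elim_main, hW]
  congr 1
  rw [stOf, trList, trList, trList, trNat_val]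
  simp

/-- C3c: enough fuel -/
theorem run_halt (h : RH E e N₀ W M ρ) (μ : Bool) (t : ℕ) (c : S × Stacks) (s : S)
    (w : List (LL S n)) (hc : E.iter t c = some (s, stOf [encW e N₀ w])) (hs : E.δ s = none)
    (y : List (Fin 3)) (hy : t < y.length) :
    V ρ (.A μ c.1) c.2 y = pr ρ w * ρ .qh := by
  induction t generalizing c y with
  | zero =>
    cases y with
    | nil => simp at hy
    | cons j y =>
      rw [EM.iter, Option.some.injEq] at hc
      subst hc
      rw [V_halt h μ s _ j y hs, V_print h]
  | succ t ih =>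
    cases y with
    | nil => simp at hy
    | cons j y =>
      rw [EM.iter, Option.bind_eq_some_iff] at hc
      obtain ⟨c', hc', hit⟩ := hc
      have h1 := V_step h μ c.1 c'.1 c.2 c'.2 j y hc'
      rw [h1]
      exact ih c' hit y (by simpa only [List.length_cons, Order.lt_add_one_iff, Order.add_one_le_iff] using hy)

/-- C3d: not enough fuel -/
theorem run_out (h : RH E e N₀ W M ρ) (μ : Bool) (c : S × Stacks) (y : List (Fin 3))
    (hc : ∀ t s T, E.iter t c = some (s, T) → E.δ s = none → y.length ≤ t) :
    V ρ (.A μ c.1) c.2 y = if μ then ρ .qh else 0 := by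
  induction y generalizing c with
  | nil => exact V_out h μ c.1 c.2
  | cons j y ih =>
    cases hd : E.δ c.1 with
    | none =>
      have := hc 0 c.1 c.2 rfl hd
      simp only [List.length_cons, nonpos_iff_eq_zero, Nat.add_eq_zero_iff, List.length_eq_zero_iff, one_ne_zero, and_false] at this
    | some d =>
      obtain ⟨c', hc'⟩ : ∃ c', E.step c = some c' := ⟨_, by rw [EM.step, hd]; rfl⟩
      rw [V_step h μ c.1 c'.1 c.2 c'.2 j y hc']
      apply ih
      intro t s T h1 h2
      have h3 := hc (t + 1) s T (by rw [EM.iter, hc']; exact h1) h2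
      simpa only [ge_iff_le, List.length_cons, add_le_add_iff_right] using h3

/-- every list of fuel letters is a list of digits or has a first separator -/
theorem dig_split (y : List (Fin 3)) : (∃ l, y = dig l) ∨ ∃ l y', y = dig l ++ 0 :: y' := by
  induction y with
  | nil => exact Or.inl ⟨[], rfl⟩
  | cons j y ih =>
    have hj : j = 0 ∨ ∃ b : Bool, j = if b then 2 else 1 := by
      fin_cases j
      · exact Or.inl rfl
      · exact Or.inr ⟨false, rfl⟩
      · exact Or.inr ⟨true, rfl⟩
    rcases hj with rfl | ⟨b, rfl⟩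
    · exact Or.inr ⟨[], y, rfl⟩
    · rcases ih with ⟨l, rfl⟩ | ⟨l, y', rfl⟩
      · exact Or.inl ⟨b :: l, rfl⟩
      · exact Or.inr ⟨b :: l, y', rfl⟩

end Vale.Agent.P193.BH

end FileCRun

/-! file CGen -/

section FileCGen
/-! Boone-Higman, part C3: general closure lemmas for primitive recursive and computable predicates -/

namespace Vale.Agent.P193.BH

open Encodable

section prim

variable {α β σ : Type*} [Primcodable α] [Primcodable β] [Primcodable σ]

/-- `PrimrecPred` through an equality of computed values -/
theorem primrecPred_eq {f g : α → β} (hf : Primrec f) (hg : Primrec g) :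
    PrimrecPred fun a => f a = g a := Primrec.eq.comp hf hg

/-- a list replicate -/
theorem primrec_replicate (b : β) : Primrec (fun k : ℕ => List.replicate k b) := by
  have h : Primrec fun k : ℕ => (List.range k).map fun _ => b :=
    Primrec.list_map Primrec.list_range (Primrec.const b).to₂
  refine h.of_eq fun k => ?_
  simp

end prim

section comp

variable {α β σ : Type*} [Primcodable α] [Primcodable β] [Primcodable σ]

end comp

end Vale.Agent.P193.BH

end FileCGen

/-! file CFixOut -/

section FileCFixOut
/-!
Boone-Higman project, part C5: the enumeration function of the outputs is computable.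
-/

namespace Vale.Agent.P193.BH

open Turing.PartrecToTM2 (Γ' K' trNat trList)
open Nat.Partrec (Code)

variable {S : Type} {n L : ℕ}

/-- targets -/
def tgtF [Primcodable (LL S n)] (k : ℕ) : Option (List (LL S n)) :=
  Encodable.decode (Nat.unpair k).1

open Classical in
/-- the output with number `m` in mode `μ`. `p N w` decides whether `w` is irreducible,
`g c` decides whether the group word `c` is trivial. -/
noncomputable def outFn [Primcodable (LL S n)] (p : ℕ → List (LL S n) → Bool)
    (g : List (Fin n × Bool) → Bool) (N : ℕ) (μ : Bool) (m : ℕ) : Option (List (LL S n)) :=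
  match (Encodable.decode m : Option (List (Fin n × Bool) ⊕ (ℕ × List (LL S n)))) with
  | some (.inl c) => if (μ && g c) = true then some (c.map .g) else none
  | some (.inr x) => if (p N x.2 && decide (x.2.length ≤ x.1) &&
      (μ == decide (tgtF x.1 = some x.2))) = true then some (xw x.1 x.2) else none
  | none => none

theorem xw_primrec [Primcodable (LL S n)] :
    Primrec fun x : ℕ × List (LL S n) => xw x.1 x.2 := by
  have h1 : Primrec fun x : ℕ × List (LL S n) => List.replicate x.1 (.u1 : LL S n) :=
    (primrec_replicate _).comp Primrec.fst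
  have h2 : Primrec fun x : ℕ × List (LL S n) => List.replicate x.1 (.u : LL S n) :=
    (primrec_replicate _).comp Primrec.fst
  have h3 := Primrec.list_append.comp h1 (Primrec.const [(.Z : LL S n)])
  have h4 := Primrec.list_cons.comp (Primrec.const (.v1 : LL S n)) h3
  have h5 : Primrec fun x : ℕ × List (LL S n) => x.2 := Primrec.snd
  have h6 := Primrec.list_append.comp h5 h4
  have h7 := Primrec.list_cons.comp (Primrec.const (.v : LL S n)) h6
  have h8 := Primrec.list_append.comp h2 h7
  exact Primrec.list_cons.comp (Primrec.const (.X : LL S n)) h8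

theorem tgtF_primrec [Primcodable (LL S n)] :
    Primrec (tgtF : ℕ → Option (List (LL S n))) := by
  have h := (Primrec.decode (α := List (LL S n))).comp (Primrec.fst.comp Primrec.unpair)
  exact h

section
variable [Primcodable (LL S n)] (p : ℕ → List (LL S n) → Bool)
    (g : List (Fin n × Bool) → Bool)

/-- first branch -/
def outL (x : ℕ × Bool × ℕ) (c : List (Fin n × Bool)) : Option (List (LL S n)) :=
  bif (x.2.1 && g c) then some (c.map .g) else none

open Classical in
/-- second branch -/
noncomputable def outR (x : ℕ × Bool × ℕ) (y : ℕ × List (LL S n)) : Option (List (LL S n)) :=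
  bif (p x.1 y.2 && decide (y.2.length ≤ y.1) &&
      (x.2.1 == decide (tgtF y.1 = some y.2))) then some (xw y.1 y.2) else none

theorem outL_computable (hg : Computable g) :
    Computable fun z : (ℕ × Bool × ℕ) × List (Fin n × Bool) =>
      (outL g z.1 z.2 : Option (List (LL S n))) := by
  have h1 : Computable fun z : (ℕ × Bool × ℕ) × List (Fin n × Bool) => z.1.2.1 :=
    Computable.fst.comp (Computable.snd.comp Computable.fst)
  have h2 : Computable fun z : (ℕ × Bool × ℕ) × List (Fin n × Bool) => g z.2 :=
    hg.comp Computable.snd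
  have h3 := Primrec.and.to_comp.comp h1 h2
  have h4 : Primrec fun c : List (Fin n × Bool) => c.map (Letter.g : _ → LL S n) :=
    Primrec.list_map Primrec.id ((Primrec.dom_finite _).comp Primrec.snd).to₂
  have h5 : Computable fun z : (ℕ × Bool × ℕ) × List (Fin n × Bool) =>
      z.2.map (Letter.g : _ → LL S n) := h4.to_comp.comp Computable.snd
  have h6 := Computable.option_some.comp h5
  exact Computable.cond h3 h6 (Computable.const _)

theorem outR_computable (hp : Computable₂ p) :
    Computable fun z : (ℕ × Bool × ℕ) × (ℕ × List (LL S n)) => outR p z.1 z.2 := by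
  classical
  have h0 : Computable fun z : (ℕ × Bool × ℕ) × (ℕ × List (LL S n)) => z.2.2 :=
    Computable.snd.comp Computable.snd
  have h00 : Computable fun z : (ℕ × Bool × ℕ) × (ℕ × List (LL S n)) => z.2.1 :=
    Computable.fst.comp Computable.snd
  have h1 : Computable fun z : (ℕ × Bool × ℕ) × (ℕ × List (LL S n)) => z.1.2.1 :=
    Computable.fst.comp (Computable.snd.comp Computable.fst)
  have h2 : Computable fun z : (ℕ × Bool × ℕ) × (ℕ × List (LL S n)) => z.1.1 :=
    Computable.fst.comp Computable.fst
  have h3 := hp.comp h2 h0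
  have h4 : Computable fun z : (ℕ × Bool × ℕ) × (ℕ × List (LL S n)) =>
      decide (z.2.2.length ≤ z.2.1) := by
    have : PrimrecPred fun y : ℕ × List (LL S n) => y.2.length ≤ y.1 :=
      Primrec.nat_le.comp (Primrec.list_length.comp Primrec.snd) Primrec.fst
    have h := this.decide.to_comp.comp (Computable.snd (α := ℕ × Bool × ℕ) (β := ℕ × List (LL S n)))
    exact h
  have h5 : Computable fun z : (ℕ × Bool × ℕ) × (ℕ × List (LL S n)) =>
      decide (tgtF z.2.1 = some z.2.2) := by
    have : PrimrecPred fun y : ℕ × List (LL S n) => tgtF y.1 = some y.2 :=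
      primrecPred_eq (tgtF_primrec.comp Primrec.fst) (Primrec.option_some.comp Primrec.snd)
    have h := this.decide.to_comp.comp (Computable.snd (α := ℕ × Bool × ℕ) (β := ℕ × List (LL S n)))
    exact h
  have h6 := Primrec.and.to_comp.comp h3 h4
  have h7 := (Primrec.beq (α := Bool)).to_comp.comp h1 h5
  have h8 := Primrec.and.to_comp.comp h6 h7
  have h9 : Computable fun z : (ℕ × Bool × ℕ) × (ℕ × List (LL S n)) => xw z.2.1 z.2.2 := by
    have h := (xw_primrec (S := S) (n := n)).to_comp.comp
      (Computable.snd (α := ℕ × Bool × ℕ) (β := ℕ × List (LL S n)))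
    exact h
  have h10 := Computable.option_some.comp h9
  exact Computable.cond h8 h10 (Computable.const _)

/-- input type of the two branches -/
abbrev OI : Type := ℕ × Bool × ℕ

/-- both branches -/
noncomputable def outS (x : OI) (z : List (Fin n × Bool) ⊕ (ℕ × List (LL S n))) :
    Option (List (LL S n)) :=
  Sum.casesOn z (fun c => outL g x c) (fun y => outR p x y)

theorem outS_computable (hp : Computable₂ p) (hg : Computable g) :
    Computable fun z : OI × (List (Fin n × Bool) ⊕ (ℕ × List (LL S n))) => outS p g z.1 z.2 := by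
  have h1 : Computable fun w : (OI × (List (Fin n × Bool) ⊕ (ℕ × List (LL S n)))) ×
      List (Fin n × Bool) => (w.1.1, w.2) :=
    Computable.pair (Computable.fst.comp Computable.fst) Computable.snd
  have h1' := (outL_computable (S := S) g hg).comp h1
  have h2 : Computable fun w : (OI × (List (Fin n × Bool) ⊕ (ℕ × List (LL S n)))) ×
      (ℕ × List (LL S n)) => (w.1.1, w.2) :=
    Computable.pair (Computable.fst.comp Computable.fst) Computable.snd
  have h2' := (outR_computable p hp).comp h2
  have h3 := Computable.sumCasesOn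
    (f := fun z : OI × (List (Fin n × Bool) ⊕ (ℕ × List (LL S n))) => z.2)
    Computable.snd h1'.to₂ h2'.to₂
  exact h3

theorem outFn_computable (hp : Computable₂ p) (hg : Computable g) :
    Computable fun x : ℕ × Bool × ℕ => outFn p g x.1 x.2.1 x.2.2 := by
  classical
  have hm : Computable fun x : OI => x.2.2 := Computable.snd.comp Computable.snd
  have hd := (Computable.decode (α := List (Fin n × Bool) ⊕ (ℕ × List (LL S n)))).comp hm
  have h := Computable.option_bind hd (outS_computable p g hp hg).to₂
  refine h.of_eq fun x => ?_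
  unfold outFn
  rcases (Encodable.decode x.2.2 : Option (List (Fin n × Bool) ⊕ (ℕ × List (LL S n)))) with
    _ | (c | y)
  · rfl
  · simp only [Option.bind_some, outS, outL]
    cases hb : (x.2.1 && g c) <;> simp
  · simp only [Option.bind_some, outS, outR]
    cases hb : (p x.1 y.2 && decide (y.2.length ≤ y.1) &&
      (x.2.1 == decide (tgtF y.1 = some y.2))) <;> simp

end

end Vale.Agent.P193.BH

end FileCFixOut

/-! file CFix -/

section FileCFix
/-!
Boone-Higman project, part C: the enumeration of the outputs and the fixed point.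
-/

namespace Vale.Agent.P193.BH

open Turing.PartrecToTM2 (Γ' K' trNat trList)
open Nat.Partrec (Code)

variable {S : Type} {n L : ℕ}

/-- the number `N` attached to a code -/
def NN (c : Code) : ℕ := Encodable.encode (c.curry 0) + Encodable.encode (c.curry 1) + 20

theorem NN_computable : Computable NN := by
  have h0 := Nat.Partrec.Code.primrec₂_curry.comp Primrec.id (Primrec.const 0)
  have h1 := Nat.Partrec.Code.primrec₂_curry.comp Primrec.id (Primrec.const 1)
  have h2 := Primrec.nat_add.comp (Primrec.nat_add.comp (Primrec.encode.comp h0)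
    (Primrec.encode.comp h1)) (Primrec.const 20)
  exact h2.to_comp

theorem pow_primrec : Primrec₂ fun a b : ℕ => a ^ b :=
  Primrec₂.unpaired'.1 Nat.Primrec.pow

theorem encW_foldr (e : LL S n ≃ Fin L) (N : ℕ) (w : List (LL S n)) :
    encW e N w = w.foldr (fun a s => 2 ^ (N + (e a : ℕ)) * (2 * s + 1)) 1 := by
  induction w with
  | nil => rfl
  | cons a w ih => rw [encW, ih]; rfl

theorem encW_computable [Finite S] [Primcodable (LL S n)] (e : LL S n ≃ Fin L) :
    Computable₂ (encW e) := by
  have he : Primrec fun a : LL S n => (e a : ℕ) := Primrec.dom_finite _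
  have hN : Primrec fun z : (ℕ × List (LL S n)) × (LL S n × ℕ) => z.1.1 :=
    Primrec.fst.comp Primrec.fst
  have ha : Primrec fun z : (ℕ × List (LL S n)) × (LL S n × ℕ) => (e z.2.1 : ℕ) :=
    he.comp (Primrec.fst.comp Primrec.snd)
  have hs : Primrec fun z : (ℕ × List (LL S n)) × (LL S n × ℕ) => z.2.2 :=
    Primrec.snd.comp Primrec.snd
  have h1 := pow_primrec.comp (Primrec.const 2) (Primrec.nat_add.comp hN ha)
  have h2 := Primrec.succ.comp (Primrec.nat_mul.comp (Primrec.const 2) hs)
  have h3 := Primrec.nat_mul.comp h1 h2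
  have h4 := Primrec.list_foldr (Primrec.snd (α := ℕ) (β := List (LL S n))) (Primrec.const 1)
    h3.to₂
  exact (h4.of_eq fun x => (encW_foldr e x.1 x.2).symm).to_comp

/-- the total part of the fixed point functional -/
noncomputable def fixFn [Primcodable (LL S n)] (e : LL S n ≃ Fin L)
    (p : ℕ → List (LL S n) → Bool) (g : List (Fin n × Bool) → Bool) (c : Code) (m : ℕ) :
    Option ℕ :=
  (outFn p g (NN c) m.unpair.1.bodd (m.unpair.2 - 1)).map (encW e (NN c))

theorem fixFn_computable [Finite S] [Primcodable (LL S n)] (e : LL S n ≃ Fin L)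
    (p : ℕ → List (LL S n) → Bool) (hp : Computable₂ p)
    (g : List (Fin n × Bool) → Bool) (hg : Computable g) :
    Computable fun x : Code × ℕ => fixFn e p g x.1 x.2 := by
  have h1 : Computable fun x : Code × ℕ => NN x.1 := NN_computable.comp Computable.fst
  have h2 : Computable fun x : Code × ℕ => x.2.unpair.1.bodd :=
    (Computable.nat_bodd.comp (Computable.fst.comp (Computable.unpair.comp Computable.snd)))
  have h3 : Computable fun x : Code × ℕ => x.2.unpair.2 - 1 :=
    Computable.pred.comp (Computable.snd.comp (Computable.unpair.comp Computable.snd))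
  have h4 := Computable.pair h1 (Computable.pair h2 h3)
  have h5 := (outFn_computable p g hp hg).comp h4
  have h6 : Computable fun z : (Code × ℕ) × List (LL S n) => (NN z.1.1, z.2) :=
    Computable.pair (h1.comp Computable.fst) Computable.snd
  have h7 : Computable fun z : (Code × ℕ) × List (LL S n) => encW e (NN z.1.1) z.2 := by
    have h := (encW_computable (S := S) e).comp (h1.comp (Computable.fst (α := Code × ℕ)
      (β := List (LL S n)))) (Computable.snd (α := Code × ℕ) (β := List (LL S n)))
    exact h
  have h8 := Computable.option_map h5 h7.to₂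
  exact h8

/-- C5: the fixed point -/
theorem exists_fix [Finite S] [Primcodable (LL S n)] (e : LL S n ≃ Fin L)
    (p : ℕ → List (LL S n) → Bool) (hp : Computable₂ p)
    (g : List (Fin n × Bool) → Bool) (hg : Computable g) :
    ∃ c : Code, ∀ (μ : Bool) (m r : ℕ), r ∈ (c.curry (cond μ 1 0)).eval m ↔
      ∃ w, outFn p g (NN c) μ (m - 1) = some w ∧ r = encW e (NN c) w := by
  have h : Partrec₂ fun (c : Code) (m : ℕ) => (fixFn e p g c m : Part ℕ) :=
    (fixFn_computable e p hp g hg).ofOption
  obtain ⟨c, hc⟩ := Nat.Partrec.Code.fixed_point₂ h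
  refine ⟨c, fun μ m r => ?_⟩
  rw [Nat.Partrec.Code.eval_curry, hc]
  have hb : (cond μ 1 0 : ℕ).bodd = μ := by cases μ <;> simp
  simp only [fixFn, Nat.unpair_pair, hb, Part.mem_ofOption, Option.mem_def, Option.map_eq_some_iff]
  constructor
  · rintro ⟨w, h1, h2⟩
    exact ⟨w, h1, h2.symm⟩
  · rintro ⟨w, h1, h2⟩
    exact ⟨w, h1, h2.symm⟩

end Vale.Agent.P193.BH

end FileCFix

/-! file CompIrr -/

section FileCompIrr
/-!
Boone-Higman project, part C3: the irreducibility test is computable (uniformly in a
parameter `N`), and the output words can be enumerated by an algorithm.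
-/

namespace Vale.Agent.P193.BH

/-! ### general closure properties -/

section general

variable {α β : Type*} [Primcodable α] [Primcodable β]

theorem CI.pcomp {p : β → Prop} (hp : ComputablePred p) {f : α → β} (hf : Computable f) :
    ComputablePred fun a => p (f a) := by
  obtain ⟨_, hp⟩ := hp
  exact ⟨fun a => inferInstance, hp.comp hf⟩

theorem CI.pand {p q : α → Prop} (hp : ComputablePred p) (hq : ComputablePred q) :
    ComputablePred fun a => p a ∧ q a := by
  obtain ⟨_, hp⟩ := hp
  obtain ⟨_, hq⟩ := hq
  refine ⟨fun a => inferInstance, ?_⟩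
  refine (Primrec.and.to_comp.comp hp hq).of_eq fun a => ?_
  simp

theorem CI.por {p q : α → Prop} (hp : ComputablePred p) (hq : ComputablePred q) :
    ComputablePred fun a => p a ∨ q a := by
  obtain ⟨_, hp⟩ := hp
  obtain ⟨_, hq⟩ := hq
  refine ⟨fun a => inferInstance, ?_⟩
  refine (Primrec.or.to_comp.comp hp hq).of_eq fun a => ?_
  simp

/-- bounded quantifiers over computable predicates -/
theorem CI.pball {p : α → ℕ → Prop} (hp : ComputablePred fun x : α × ℕ => p x.1 x.2)
    {b : α → ℕ} (hb : Computable b) : ComputablePred fun a => ∀ k < b a, p a k := by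
  classical
  have hd : Computable fun x : α × ℕ => decide (p x.1 x.2) := by
    obtain ⟨_, h⟩ := hp
    exact h.of_eq fun a => by congr
  refine ⟨fun a => inferInstance, ?_⟩
  have h1 : Computable fun a =>
      (Nat.rec true (fun k r => r && decide (p a k)) (b a) : Bool) := by
    refine Computable.nat_rec (h := fun (a : α) (kr : ℕ × Bool) => kr.2 && decide (p a kr.1))
      hb (Computable.const true) ?_
    refine Primrec.and.to_comp.comp (Computable.snd.comp Computable.snd) ?_
    exact hd.comp (Computable.pair Computable.fst (Computable.fst.comp Computable.snd))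
  refine h1.of_eq fun a => ?_
  have key : ∀ m : ℕ, (Nat.rec true (fun k r => r && decide (p a k)) m : Bool) =
      decide (∀ k < m, p a k) := by
    intro m
    induction m with
    | zero => simp
    | succ m ih =>
      have : (Nat.rec true (fun k r => r && decide (p a k)) (m + 1) : Bool) =
        ((Nat.rec true (fun k r => r && decide (p a k)) m : Bool) && decide (p a m)) := rfl
      rw [this, ih]
      rw [Bool.eq_iff_iff]
      simp only [Bool.and_eq_true, decide_eq_true_eq]
      exact Nat.forall_lt_succ_right.symm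
  exact key _

theorem CI.rball {R : ℕ → β → Prop} (hR : PrimrecRel R) {b : β → ℕ} (hb : Primrec b) :
    PrimrecPred fun y => ∀ x < b y, R x y := by
  refine (hR.forall_mem_list.comp (Primrec.list_range.comp hb) Primrec.id).of_eq ?_
  intro y
  simp only [List.mem_range, id_eq]

theorem CI.rbex {R : ℕ → β → Prop} (hR : PrimrecRel R) {b : β → ℕ} (hb : Primrec b) :
    PrimrecPred fun y => ∃ x < b y, R x y := by
  refine (hR.exists_mem_list.comp (Primrec.list_range.comp hb) Primrec.id).of_eq ?_
  intro y
  simp

theorem CI.fin {α : Type*} [Finite α] [Primcodable α] (p : α → Prop) : PrimrecPred p := by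
  classical
  exact ⟨inferInstance, Primrec.dom_finite _⟩

theorem CI.replicate : Primrec₂ fun (k : ℕ) (a : α) => List.replicate k a := by
  refine (Primrec.list_map (f := fun x : ℕ × α => List.range x.1) (g := fun x _ => x.2)
    (Primrec.list_range.comp Primrec.fst) (Primrec.snd.comp Primrec.fst).to₂).of_eq ?_
  intro x
  simp

end general

/-! ### letter tests -/

variable {T Q : Type} {n : ℕ}

/-- stack letter -/
def isS : Letter T Q n → Bool
  | .s _ => true
  | _ => false

/-- stack index of a letter -/
def sIdx (stkT : T → ℕ) : Letter T Q n → ℕ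
  | .s a => stk stkT a
  | _ => 0

/-- a letter `i0 k` -/
def isI0 : Letter T Q n → Bool
  | .s (.i0 _) => true
  | _ => false

/-- a letter `q0 μ` -/
def isQ0 : Letter T Q n → Bool
  | .q0 _ => true
  | _ => false

/-- the group letter -/
def gOf : Letter T Q n → Option (Fin n × Bool)
  | .g p => some p
  | _ => none

/-- the part of the initial stack run in the stack `j` -/
def sPart (stkT : T → ℕ) (j : ℕ) (w : List (Letter T Q n)) : List (Letter T Q n) :=
  (w.takeWhile isS).filter fun a => sIdx stkT a = j

theorem map_srun (w : List (Letter T Q n)) : (srun w).map .s = w.takeWhile isS := by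
  induction w with
  | nil => rfl
  | cons a w ih => cases a <;> simp [srun, isS, ih, List.takeWhile_cons]

theorem srest_eq (w : List (Letter T Q n)) : srest w = w.dropWhile isS := by
  induction w with
  | nil => rfl
  | cons a w ih => cases a <;> simp [srest, isS, ih, List.dropWhile_cons]

theorem map_part (stkT : T → ℕ) (j : ℕ) (w : List (Letter T Q n)) :
    (part stkT j (srun w)).map .s = sPart stkT j w := by
  rw [sPart, ← map_srun, part, List.filter_map]
  rfl

theorem grun_eq (w : List (Letter T Q n)) :
    grun w = (w.takeWhile fun a => (gOf a).isSome).filterMap gOf := by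
  induction w with
  | nil => rfl
  | cons a w ih => cases a <;> simp [grun, gOf, ih]

/-! ### the head test -/

/-- the primitive recursive part of the head test; the machine is given by the list `L` of words
`q γ` (left hand sides of the rules) -/
def HeadP (stkT : T → ℕ) (L : List (List (Letter T Q n))) (a : Letter T Q n)
    (w : List (Letter T Q n)) : Prop :=
  (isS a = true ∧ ∃ b, w.head? = some b ∧ isS b = true ∧ sIdx stkT b < sIdx stkT a) ∨
  (isI0 a = true ∧ sPart stkT 0 w = [.s .B] ∧ (w.dropWhile isS).head? = some .E) ∨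
  (a = .s .bot ∧ sPart stkT 1 w = [] ∧ (w.dropWhile isS).head? = some .E) ∨
  (isQ0 a = true ∧ sPart stkT 0 w ≠ []) ∨
  (∃ r ∈ L, r.head? = some a ∧
    (sPart stkT (sIdx stkT (r.getD 1 .E)) w).take (r.length - 1) = r.tail) ∨
  (∃ r ∈ L, r = [a, .s .bot] ∧ sPart stkT 1 w = [] ∧ (w.dropWhile isS).head? = some .E) ∨
  (a = .qh ∧ w.head? = some .E) ∨
  (a = .X ∧ ∃ k < w.length + 1, ∃ j < k + 1, w.take (k + 1) = List.replicate k .u ++ [.v] ∧
    (w.drop (k + 1 + j)).take (k + 2) = .v1 :: (List.replicate k .u1 ++ [.Z]))

theorem head?_eq_some_iff' {α : Type*} {w : List α} {a : α} :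
    w.head? = some a ↔ ∃ w', w = a :: w' := by
  cases w <;> simp

theorem xpat_iff {w : List (Letter T Q n)} :
    (∃ (k : ℕ) (m w' : List (Letter T Q n)), m.length ≤ k ∧
      w = List.replicate k .u ++ .v :: (m ++ .v1 :: (List.replicate k .u1 ++ .Z :: w'))) ↔
    ∃ k < w.length + 1, ∃ j < k + 1, w.take (k + 1) = List.replicate k .u ++ [.v] ∧
    (w.drop (k + 1 + j)).take (k + 2) = .v1 :: (List.replicate k .u1 ++ [.Z]) := by
  constructor
  · rintro ⟨k, m, w', hm, rfl⟩
    refine ⟨k, by simp only [List.length_append, List.length_replicate, List.length_cons, Order.lt_add_one_iff, le_add_iff_nonneg_right, zero_le], m.length, by omega, ?_, ?_⟩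
    · have : List.replicate k (Letter.u : Letter T Q n) ++ .v ::
        (m ++ .v1 :: (List.replicate k .u1 ++ .Z :: w')) =
        (List.replicate k .u ++ [.v]) ++ (m ++ .v1 :: (List.replicate k .u1 ++ .Z :: w')) := by
        simp
      rw [this, List.take_append_of_le_length (by simp), List.take_of_length_le (by simp)]
    · have : List.replicate k (Letter.u : Letter T Q n) ++ .v ::
        (m ++ .v1 :: (List.replicate k .u1 ++ .Z :: w')) =
        (List.replicate k .u ++ .v :: m) ++ ((.v1 :: (List.replicate k .u1 ++ [.Z])) ++ w') := by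
        simp
      rw [this, List.drop_append_of_le_length (by simp only [List.length_append, List.length_replicate, List.length_cons]; try omega),
        List.drop_of_length_le (by simp only [List.length_append, List.length_replicate, List.length_cons]; try omega), List.nil_append,
        List.take_append_of_le_length (by simp), List.take_of_length_le (by simp)]
  · rintro ⟨k, -, j, hj, h1, h2⟩
    refine ⟨k, (w.drop (k + 1)).take j, (w.drop (k + 1 + j)).drop (k + 2), ?_, ?_⟩
    · rw [List.length_take]; omega
    · have e1 : w = w.take (k + 1) ++ w.drop (k + 1) := (List.take_append_drop _ _).symm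
      have e2 : w.drop (k + 1) = (w.drop (k + 1)).take j ++ w.drop (k + 1 + j) := by
        have := List.take_append_drop j (w.drop (k + 1))
        rw [List.drop_drop] at this
        exact this.symm
      have e3 : w.drop (k + 1 + j) = (w.drop (k + 1 + j)).take (k + 2) ++
          (w.drop (k + 1 + j)).drop (k + 2) := (List.take_append_drop _ _).symm
      calc w = w.take (k + 1) ++ w.drop (k + 1) := e1
        _ = w.take (k + 1) ++ ((w.drop (k + 1)).take j ++ w.drop (k + 1 + j)) := by rw [← e2]
        _ = w.take (k + 1) ++ ((w.drop (k + 1)).take j ++ ((w.drop (k + 1 + j)).take (k + 2) ++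
          (w.drop (k + 1 + j)).drop (k + 2))) := by rw [← e3]
        _ = _ := by rw [h1, h2]; simp

/-- the list `L` is the list of left hand sides of the rules of `M` -/
structure Lhs (M : Machine T Q n) (stkT : T → ℕ) (L : List (List (Letter T Q n))) : Prop where
  stk_eq : M.stkT = stkT
  mem_iff : ∀ (p : Q) (γ : List (SL T)), (.q p :: γ.map .s) ∈ L ↔ ∃ rhs, (p, γ, rhs) ∈ M.rules
  form : ∀ r ∈ L, ∃ (p : Q) (γ : List (SL T)), r = .q p :: γ.map .s

theorem s_injective : Function.Injective (Letter.s : SL T → Letter T Q n) :=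
  fun _ _ h => by injection h

theorem head_iff {G : Type*} [Group G] {M : Machine T Q n} {stkT : T → ℕ}
    {L : List (List (Letter T Q n))} (hL : Lhs M stkT L) (f : Fin n → G)
    (a : Letter T Q n) (w : List (Letter T Q n)) :
    Head M f a w ↔ HeadP stkT L a w ∨ ∃ p, a = .g p ∧ ¬ Can f (p :: grun w) := by
  obtain ⟨rfl, hmem, hform⟩ := hL
  have hp0 : part M.stkT 0 (srun w) = [.B] ↔ sPart M.stkT 0 w = [.s .B] := by
    rw [← map_part]
    constructor
    · intro h; rw [h]; rfl
    · intro h; exact s_injective.list_map (by rw [h]; rfl)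
  have hp1 : ∀ j, part M.stkT j (srun w) = [] ↔ sPart M.stkT j w = [] := by
    intro j
    rw [← map_part]; simp
  have hE : (∃ w', srest w = .E :: w') ↔ (w.dropWhile isS).head? = some .E := by
    rw [head?_eq_some_iff', srest_eq]
  cases a with
  | s x =>
    have h1 : (∃ b r, srun w = b :: r ∧ stk M.stkT b < stk M.stkT x) ↔
        ∃ b : Letter T Q n, w.head? = some b ∧ isS b = true ∧
          sIdx M.stkT b < sIdx M.stkT (Letter.s x : Letter T Q n) := by
      cases w with
      | nil => simp [srun]
      | cons c w => cases c <;> simp [srun, isS, sIdx]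
    have h5 : ¬ ∃ r ∈ L, r.head? = some (Letter.s x) ∧
      (sPart M.stkT (sIdx M.stkT (r.getD 1 .E)) w).take (r.length - 1) = r.tail := by
      rintro ⟨r, hr, h, -⟩
      obtain ⟨p, γ, rfl⟩ := hform r hr
      simp at h
    have h6 : ¬ ∃ r ∈ L, r = [Letter.s x, .s .bot] ∧ sPart M.stkT 1 w = [] ∧
        (w.dropWhile isS).head? = some .E := by
      rintro ⟨r, hr, h, -⟩
      obtain ⟨p, γ, rfl⟩ := hform r hr
      simp at h
    have hI : (∃ k, x = .i0 k) ↔ isI0 (Letter.s x : Letter T Q n) = true := by
      cases x <;> simp [isI0]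
    have hbot : x = .bot ↔ (Letter.s x : Letter T Q n) = .s .bot :=
      ⟨fun h => by rw [h], fun h => s_injective h⟩
    simp only [Head, h1, hI, hp0, hE, hp1, HeadP, ← hbot, isQ0, h5, h6]
    simp only [isS, true_and, Bool.false_eq_true, ne_eq, false_and, reduceCtorEq, Order.lt_add_one_iff, or_self, or_false, exists_false]
  | q0 μ => 
    have h5 : ¬ ∃ r ∈ L, r.head? = some (Letter.q0 μ) ∧
      (sPart M.stkT (sIdx M.stkT (r.getD 1 .E)) w).take (r.length - 1) = r.tail := by
      rintro ⟨r, hr, h, -⟩
      obtain ⟨p, γ, rfl⟩ := hform r hr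
      simp at h
    have h6 : ¬ ∃ r ∈ L, r = [Letter.q0 μ, .s .bot] ∧ sPart M.stkT 1 w = [] ∧
        (w.dropWhile isS).head? = some .E := by
      rintro ⟨r, hr, h, -⟩
      obtain ⟨p, γ, rfl⟩ := hform r hr
      simp only [List.cons.injEq, reduceCtorEq, List.map_eq_singleton_iff, Letter.s.injEq, exists_eq_right, false_and] at h
    simp only [Head, HeadP, h5, h6, ne_eq, hp1]
    simp only [isS, Bool.false_eq_true, false_and, isI0, reduceCtorEq, isQ0, true_and, Order.lt_add_one_iff, or_self, or_false, false_or, exists_false]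
  | q p =>
    have hq : (∃ j γ rhs, (p, γ, rhs) ∈ M.rules ∧ (∀ a ∈ γ, stk M.stkT a = j) ∧
        γ <+: part M.stkT j (srun w)) ↔ ∃ r ∈ L, r.head? = some (Letter.q p) ∧
      (sPart M.stkT (sIdx M.stkT (r.getD 1 .E)) w).take (r.length - 1) = r.tail := by
      constructor
      · rintro ⟨j, γ, rhs, hr, hj, hpre⟩
        refine ⟨.q p :: γ.map .s, (hmem p γ).2 ⟨rhs, hr⟩, rfl, ?_⟩
        have hne := M.lhs_ne _ hr
        obtain ⟨a, γ', rfl⟩ : ∃ a γ', γ = a :: γ' := by
          cases γ with
          | nil => exact absurd rfl hne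
          | cons a γ' => exact ⟨a, γ', rfl⟩
        have ha : stk M.stkT a = j := hj a (by simp)
        have : sIdx M.stkT ((Letter.q p :: List.map Letter.s (a :: γ') :
            List (Letter T Q n)).getD 1 .E) = j := by
          simp [sIdx, ha]
        rw [this, ← map_part]
        obtain ⟨t, ht⟩ := hpre
        rw [← ht]
        simp only [List.map_cons, List.length_cons, List.length_map, add_tsub_cancel_right, List.cons_append, List.map_append, List.take_succ_cons, List.take_left', List.tail_cons]
      · rintro ⟨r, hr, hh, ht⟩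
        obtain ⟨p', γ, rfl⟩ := hform r hr
        have hpp : p' = p := by simpa using hh
        subst hpp
        obtain ⟨rhs, hrhs⟩ := (hmem _ _).1 hr
        obtain ⟨j, -, hj⟩ := M.lhs_stk _ hrhs
        refine ⟨j, γ, rhs, hrhs, hj, ?_⟩
        have hne := M.lhs_ne _ hrhs
        obtain ⟨a, γ', rfl⟩ : ∃ a γ', γ = a :: γ' := by
          cases γ with
          | nil => exact absurd rfl hne
          | cons a γ' => exact ⟨a, γ', rfl⟩
        have ha : stk M.stkT a = j := hj a (by simp)
        have : sIdx M.stkT ((Letter.q p' :: List.map Letter.s (a :: γ') :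
            List (Letter T Q n)).getD 1 .E) = j := by
          simp [sIdx, ha]
        rw [this, ← map_part, List.tail_cons, ← List.map_take] at ht
        have h2 := s_injective.list_map ht
        rw [← h2]
        exact List.take_prefix _ _
    have hb : (∃ rhs, (p, [SL.bot], rhs) ∈ M.rules ∧ part M.stkT 1 (srun w) = [] ∧
        ∃ w', srest w = .E :: w') ↔ ∃ r ∈ L, r = [Letter.q p, .s .bot] ∧
          sPart M.stkT 1 w = [] ∧ (w.dropWhile isS).head? = some .E := by
      rw [hp1, hE]
      constructor
      · rintro ⟨rhs, hr, h1, h2⟩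
        exact ⟨_, (hmem p [.bot]).2 ⟨rhs, hr⟩, rfl, h1, h2⟩
      · rintro ⟨r, hr, rfl, h1, h2⟩
        obtain ⟨rhs, hrhs⟩ := (hmem p [.bot]).1 hr
        exact ⟨rhs, hrhs, h1, h2⟩
    simp only [Head, HeadP, hq, hb]
    simp only [List.getD_eq_getElem?_getD, ↓existsAndEq, true_and, isS, Bool.false_eq_true, false_and, isI0, reduceCtorEq, isQ0, ne_eq, Order.lt_add_one_iff, or_self, or_false, false_or, exists_false]
  | qh =>
    have h5 : ¬ ∃ r ∈ L, r.head? = some (Letter.qh) ∧
      (sPart M.stkT (sIdx M.stkT (r.getD 1 .E)) w).take (r.length - 1) = r.tail := by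
      rintro ⟨r, hr, h, -⟩
      obtain ⟨p, γ, rfl⟩ := hform r hr
      simp at h
    have h6 : ¬ ∃ r ∈ L, r = [Letter.qh, .s .bot] ∧ sPart M.stkT 1 w = [] ∧
        (w.dropWhile isS).head? = some .E := by
      rintro ⟨r, hr, h, -⟩
      obtain ⟨p, γ, rfl⟩ := hform r hr
      simp only [List.cons.injEq, reduceCtorEq, List.map_eq_singleton_iff, Letter.s.injEq, exists_eq_right, false_and] at h
    have hh : (∃ w', w = Letter.E :: w') ↔ w.head? = some .E := head?_eq_some_iff'.symm
    simp only [Head, HeadP, h5, h6, hh]
    simp only [isS, Bool.false_eq_true, false_and, isI0, reduceCtorEq, isQ0, ne_eq, true_and, Order.lt_add_one_iff, or_false, false_or, exists_false]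
  | X =>
    have h5 : ¬ ∃ r ∈ L, r.head? = some (Letter.X) ∧
      (sPart M.stkT (sIdx M.stkT (r.getD 1 .E)) w).take (r.length - 1) = r.tail := by
      rintro ⟨r, hr, h, -⟩
      obtain ⟨p, γ, rfl⟩ := hform r hr
      simp at h
    have h6 : ¬ ∃ r ∈ L, r = [Letter.X, .s .bot] ∧ sPart M.stkT 1 w = [] ∧
        (w.dropWhile isS).head? = some .E := by
      rintro ⟨r, hr, h, -⟩
      obtain ⟨p, γ, rfl⟩ := hform r hr
      simp only [List.cons.injEq, reduceCtorEq, List.map_eq_singleton_iff, Letter.s.injEq, exists_eq_right, false_and] at h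
    simp only [Head, HeadP, h5, h6, ← xpat_iff]
    simp only [exists_and_left, isS, Bool.false_eq_true, false_and, isI0, reduceCtorEq, isQ0, ne_eq, true_and, false_or, exists_false, or_false]
  | g x =>
    have h5 : ¬ ∃ r ∈ L, r.head? = some (Letter.g x) ∧
      (sPart M.stkT (sIdx M.stkT (r.getD 1 .E)) w).take (r.length - 1) = r.tail := by
      rintro ⟨r, hr, h, -⟩
      obtain ⟨p, γ, rfl⟩ := hform r hr
      simp at h
    have h6 : ¬ ∃ r ∈ L, r = [Letter.g x, .s .bot] ∧ sPart M.stkT 1 w = [] ∧
        (w.dropWhile isS).head? = some .E := by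
      rintro ⟨r, hr, h, -⟩
      obtain ⟨p, γ, rfl⟩ := hform r hr
      simp only [List.cons.injEq, reduceCtorEq, List.map_eq_singleton_iff, Letter.s.injEq, exists_eq_right, false_and] at h
    simp only [Head, HeadP, h5, h6]
    simp only [isS, Bool.false_eq_true, false_and, isI0, reduceCtorEq, isQ0, ne_eq, Order.lt_add_one_iff, or_self, Letter.g.injEq, exists_eq_left', false_or]
  | _ =>
    simp only [Head, HeadP, false_iff]
    rintro (h | ⟨p, h, -⟩)
    · rcases h with h | h | h | h | ⟨r, hr, h, -⟩ | ⟨r, hr, h, -⟩ | h | h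
      · simp only [isS, Bool.false_eq_true, false_and] at h
      · simp [isI0] at h
      · simp at h
      · simp [isQ0] at h
      · obtain ⟨p, γ, rfl⟩ := hform r hr
        simp at h
      · obtain ⟨p, γ, rfl⟩ := hform r hr
        simp at h
      · simp at h
      · simp only [reduceCtorEq, Order.lt_add_one_iff, false_and] at h
    · simp at h

/-! ### computability of the head test -/

theorem SL.finite [Finite T] : Finite (SL T) := by
  let φ : SL T → Fin 3 ⊕ Fin 3 ⊕ Bool ⊕ T
    | .i0 k => .inl k
    | .i1 k => .inr (.inl k)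
    | .B => .inr (.inr (.inl true))
    | .bot => .inr (.inr (.inl false))
    | .t a => .inr (.inr (.inr a))
  refine Finite.of_injective φ ?_
  intro a b h
  cases a <;> cases b <;> simp_all [φ]

theorem Letter.finite [Finite T] [Finite Q] : Finite (Letter T Q n) := by
  have := SL.finite (T := T)
  let φ : Letter T Q n → SL T ⊕ Bool ⊕ Q ⊕ Fin 8 ⊕ (Fin n × Bool)
    | .s a => .inl a
    | .q0 μ => .inr (.inl μ)
    | .q p => .inr (.inr (.inl p))
    | .qh => .inr (.inr (.inr (.inl 0)))
    | .E => .inr (.inr (.inr (.inl 1)))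
    | .X => .inr (.inr (.inr (.inl 2)))
    | .Z => .inr (.inr (.inr (.inl 3)))
    | .u => .inr (.inr (.inr (.inl 4)))
    | .v => .inr (.inr (.inr (.inl 5)))
    | .u1 => .inr (.inr (.inr (.inl 6)))
    | .v1 => .inr (.inr (.inr (.inl 7)))
    | .g x => .inr (.inr (.inr (.inr x)))
  refine Finite.of_injective φ ?_
  intro a b h
  cases a <;> cases b <;> simp_all [φ]

section comp

variable [Finite T] [Finite Q] [Primcodable (Letter T Q n)]

theorem sPart_primrec (stkT : T → ℕ) :
    Primrec₂ fun (j : ℕ) (w : List (Letter T Q n)) => sPart stkT j w := by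
  have : Finite (Letter T Q n) := Letter.finite
  have hR : PrimrecRel fun (a : Letter T Q n) (j : ℕ) => sIdx stkT a = j :=
    (Primrec.eq.comp ((Primrec.dom_finite (sIdx stkT)).comp Primrec.fst) Primrec.snd)
  exact (hR.listFilter.comp ((Primrec.list_takeWhile (Primrec.dom_finite isS)).comp Primrec.snd)
    Primrec.fst)

theorem rest_primrec :
    Primrec fun (w : List (Letter T Q n)) => (w.dropWhile isS).head? := by
  have : Finite (Letter T Q n) := Letter.finite
  exact Primrec.list_head?.comp (Primrec.list_dropWhile (Primrec.dom_finite isS))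

theorem headP_primrec (stkT : T → ℕ) :
    PrimrecPred fun x : List (List (Letter T Q n)) × Letter T Q n × List (Letter T Q n) =>
      HeadP stkT x.1 x.2.1 x.2.2 := by
  have : Finite (Letter T Q n) := Letter.finite
  have ha : Primrec fun x : List (List (Letter T Q n)) × Letter T Q n × List (Letter T Q n) =>
    x.2.1 := Primrec.fst.comp Primrec.snd
  have hw : Primrec fun x : List (List (Letter T Q n)) × Letter T Q n × List (Letter T Q n) =>
    x.2.2 := Primrec.snd.comp Primrec.snd
  have hE : PrimrecPred fun x : List (List (Letter T Q n)) × Letter T Q n × List (Letter T Q n) =>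
      (x.2.2.dropWhile isS).head? = some .E :=
    Primrec.eq.comp (rest_primrec.comp hw) (Primrec.const _)
  have h1 : PrimrecPred fun x : List (List (Letter T Q n)) × Letter T Q n × List (Letter T Q n) =>
      (isS x.2.1 = true ∧ ∃ b, x.2.2.head? = some b ∧ isS b = true ∧
        sIdx stkT b < sIdx stkT x.2.1) := by
    have := CI.fin fun y : Letter T Q n × Option (Letter T Q n) =>
      (isS y.1 = true ∧ ∃ b, y.2 = some b ∧ isS b = true ∧ sIdx stkT b < sIdx stkT y.1)
    exact this.comp (ha.pair (Primrec.list_head?.comp hw))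
  have h2 : PrimrecPred fun x : List (List (Letter T Q n)) × Letter T Q n × List (Letter T Q n) =>
      (isI0 x.2.1 = true ∧ sPart stkT 0 x.2.2 = [.s .B] ∧
        (x.2.2.dropWhile isS).head? = some .E) := by
    refine ((CI.fin fun a : Letter T Q n => isI0 a = true).comp ha).and (PrimrecPred.and ?_ hE)
    exact Primrec.eq.comp ((sPart_primrec stkT).comp (Primrec.const 0) hw) (Primrec.const _)
  have h3 : PrimrecPred fun x : List (List (Letter T Q n)) × Letter T Q n × List (Letter T Q n) =>
      (x.2.1 = .s .bot ∧ sPart stkT 1 x.2.2 = [] ∧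
        (x.2.2.dropWhile isS).head? = some .E) := by
    refine ((CI.fin fun a : Letter T Q n => a = .s .bot).comp ha).and (PrimrecPred.and ?_ hE)
    exact Primrec.eq.comp ((sPart_primrec stkT).comp (Primrec.const 1) hw) (Primrec.const _)
  have h4 : PrimrecPred fun x : List (List (Letter T Q n)) × Letter T Q n × List (Letter T Q n) =>
      (isQ0 x.2.1 = true ∧ sPart stkT 0 x.2.2 ≠ []) := by
    refine ((CI.fin fun a : Letter T Q n => isQ0 a = true).comp ha).and (PrimrecPred.not ?_)
    exact Primrec.eq.comp ((sPart_primrec stkT).comp (Primrec.const 0) hw) (Primrec.const _)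
  have h5 : PrimrecPred fun x : List (List (Letter T Q n)) × Letter T Q n × List (Letter T Q n) =>
      (∃ r ∈ x.1, r.head? = some x.2.1 ∧
        (sPart stkT (sIdx stkT (r.getD 1 .E)) x.2.2).take (r.length - 1) = r.tail) := by
    have hR : PrimrecRel fun (r : List (Letter T Q n)) (y : Letter T Q n × List (Letter T Q n)) =>
        r.head? = some y.1 ∧
        (sPart stkT (sIdx stkT (r.getD 1 .E)) y.2).take (r.length - 1) = r.tail := by
      refine PrimrecPred.and ?_ ?_
      · exact Primrec.eq.comp (Primrec.list_head?.comp Primrec.fst)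
          (Primrec.option_some.comp (Primrec.fst.comp Primrec.snd))
      · refine Primrec.eq.comp ?_ (Primrec.list_tail.comp Primrec.fst)
        refine Primrec.list_take.comp
          (Primrec.nat_sub.comp (Primrec.list_length.comp Primrec.fst) (Primrec.const 1)) ?_
        refine (sPart_primrec stkT).comp ?_ (Primrec.snd.comp Primrec.snd)
        exact (Primrec.dom_finite (sIdx stkT)).comp
          ((Primrec.list_getD (.E : Letter T Q n)).comp Primrec.fst (Primrec.const 1))
    exact hR.exists_mem_list.comp Primrec.fst Primrec.snd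
  have h6 : PrimrecPred fun x : List (List (Letter T Q n)) × Letter T Q n × List (Letter T Q n) =>
      (∃ r ∈ x.1, r = [x.2.1, .s .bot] ∧ sPart stkT 1 x.2.2 = [] ∧
        (x.2.2.dropWhile isS).head? = some .E) := by
    have hR : PrimrecRel fun (r : List (Letter T Q n)) (y : Letter T Q n × List (Letter T Q n)) =>
        r = [y.1, .s .bot] ∧ sPart stkT 1 y.2 = [] ∧ (y.2.dropWhile isS).head? = some .E := by
      refine PrimrecPred.and ?_ (PrimrecPred.and ?_ ?_)
      · exact Primrec.eq.comp Primrec.fst
          (Primrec.list_cons.comp (Primrec.fst.comp Primrec.snd) (Primrec.const _))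
      · exact Primrec.eq.comp ((sPart_primrec stkT).comp (Primrec.const 1)
          (Primrec.snd.comp Primrec.snd)) (Primrec.const _)
      · exact Primrec.eq.comp (rest_primrec.comp (Primrec.snd.comp Primrec.snd))
          (Primrec.const _)
    exact hR.exists_mem_list.comp Primrec.fst Primrec.snd
  have h7 : PrimrecPred fun x : List (List (Letter T Q n)) × Letter T Q n × List (Letter T Q n) =>
      (x.2.1 = .qh ∧ x.2.2.head? = some .E) := by
    refine ((CI.fin fun a : Letter T Q n => a = .qh).comp ha).and ?_
    exact Primrec.eq.comp (Primrec.list_head?.comp hw) (Primrec.const _)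
  have h8 : PrimrecPred fun x : List (List (Letter T Q n)) × Letter T Q n × List (Letter T Q n) =>
      (x.2.1 = .X ∧ ∃ k < x.2.2.length + 1, ∃ j < k + 1,
        x.2.2.take (k + 1) = List.replicate k .u ++ [.v] ∧
        (x.2.2.drop (k + 1 + j)).take (k + 2) = .v1 :: (List.replicate k .u1 ++ [.Z])) := by
    refine ((CI.fin fun a : Letter T Q n => a = .X).comp ha).and ?_
    have hR : PrimrecRel fun (j : ℕ) (y : ℕ × List (Letter T Q n)) =>
        y.2.take (y.1 + 1) = List.replicate y.1 .u ++ [.v] ∧
        (y.2.drop (y.1 + 1 + j)).take (y.1 + 2) = .v1 :: (List.replicate y.1 .u1 ++ [.Z]) := by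
      have hk : Primrec fun z : ℕ × ℕ × List (Letter T Q n) => z.2.1 :=
        Primrec.fst.comp Primrec.snd
      have hv : Primrec fun z : ℕ × ℕ × List (Letter T Q n) => z.2.2 :=
        Primrec.snd.comp Primrec.snd
      have hk1 : Primrec fun z : ℕ × ℕ × List (Letter T Q n) => z.2.1 + 1 :=
        Primrec.succ.comp hk
      have hk2 : Primrec fun z : ℕ × ℕ × List (Letter T Q n) => z.2.1 + 2 :=
        Primrec.succ.comp hk1
      refine PrimrecPred.and ?_ ?_
      · refine Primrec.eq.comp (Primrec.list_take.comp hk1 hv) ?_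
        exact Primrec.list_append.comp (CI.replicate.comp hk (Primrec.const _)) (Primrec.const _)
      · refine Primrec.eq.comp (Primrec.list_take.comp hk2
          (Primrec.list_drop.comp (Primrec.nat_add.comp hk1 Primrec.fst) hv)) ?_
        exact Primrec.list_cons.comp (Primrec.const _)
          (Primrec.list_append.comp (CI.replicate.comp hk (Primrec.const _)) (Primrec.const _))
    have hR2 : PrimrecRel fun (k : ℕ) (w : List (Letter T Q n)) => ∃ j < k + 1,
        w.take (k + 1) = List.replicate k .u ++ [.v] ∧
        (w.drop (k + 1 + j)).take (k + 2) = .v1 :: (List.replicate k .u1 ++ [.Z]) :=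
      CI.rbex hR (b := fun y : ℕ × List (Letter T Q n) => y.1 + 1) (Primrec.succ.comp Primrec.fst)
    exact (CI.rbex hR2 (b := fun w : List (Letter T Q n) => w.length + 1)
      (Primrec.succ.comp Primrec.list_length)).comp hw
  exact h1.or (h2.or (h3.or (h4.or (h5.or (h6.or (h7.or h8))))))

end comp

/-! ### irreducible words -/

/-- the irreducibility test -/
def IrrL {G : Type*} [Group G] (stkT : T → ℕ) (L : List (List (Letter T Q n))) (f : Fin n → G)
    (w : List (Letter T Q n)) : Prop :=
  (∀ i < w.length, ¬ HeadP stkT L ((w.drop i).getD 0 .E) (w.drop i).tail) ∧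
  ∀ i < w.length, Can f (grun (w.drop i))

theorem can_nil {G : Type*} [Group G] (f : Fin n → G) : Can f [] := by
  intro w' _
  simp [Encodable.encode_list_nil]

theorem comp_irr_iff {G : Type*} [Group G] {M : Machine T Q n} {stkT : T → ℕ}
    {L : List (List (Letter T Q n))} (hL : Lhs M stkT L) (f : Fin n → G)
    (w : List (Letter T Q n)) : Irr M f w ↔ IrrL stkT L f w := by
  induction w with
  | nil => simp only [Irr, IrrL, List.length_nil, not_lt_zero, List.drop_nil, List.getD_eq_getElem?_getD, lt_self_iff_false, not_false_eq_true, getElem?_neg, Option.getD_none, List.tail_nil, IsEmpty.forall_iff, implies_true, and_self]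
  | cons a w ih =>
    rw [Irr, ih, head_iff hL]
    simp only [IrrL, List.length_cons]
    have key : (¬ (HeadP stkT L a w ∨ ∃ p, a = .g p ∧ ¬ Can f (p :: grun w))) ↔
        ¬ HeadP stkT L a w ∧ Can f (grun (a :: w)) := by
      cases a with
      | g p => simp only [Letter.g.injEq, exists_eq_left', not_or, not_not, grun]
      | _ => simp only [reduceCtorEq, false_and, exists_false, or_false, grun, can_nil, and_true]
    rw [key]
    constructor
    · rintro ⟨⟨h1, h2⟩, h3, h4⟩
      refine ⟨?_, ?_⟩
      · intro i hi
        cases i with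
        | zero => simpa only [List.drop_zero, List.getD_eq_getElem?_getD, List.length_cons, lt_add_iff_pos_left,     Order.lt_add_one_iff, zero_le, getElem?_pos, List.getElem_cons_zero, Option.getD_some, List.tail_cons] using h3
        | succ i => simpa only [List.drop_succ_cons, List.getD_eq_getElem?_getD, List.getElem?_drop, add_zero,     List.tail_drop] using h1 i (by omega)
      · intro i hi
        cases i with
        | zero => simpa using h4
        | succ i => simpa using h2 i (by omega)
    · rintro ⟨h1, h2⟩
      refine ⟨⟨?_, ?_⟩, ?_, ?_⟩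
      · intro i hi
        simpa only [List.getD_eq_getElem?_getD, List.getElem?_drop, add_zero, List.tail_drop,     List.drop_succ_cons] using h1 (i + 1) (by omega)
      · intro i hi
        simpa using h2 (i + 1) (by omega)
      · simpa using h1 0 (by omega)
      · simpa using h2 0 (by omega)

/-- inverse word -/
def winv (w : List (Fin n × Bool)) : List (Fin n × Bool) :=
  (w.map fun p => (p.1, !p.2)).reverse

theorem ev_winv {G : Type*} [Group G] (f : Fin n → G) (w : List (Fin n × Bool)) :
    ev f (winv w) = (ev f w)⁻¹ := by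
  induction w with
  | nil => simp [ev, winv]
  | cons p w ih =>
    have h1 : winv (p :: w) = winv w ++ [(p.1, !p.2)] := by simp [winv]
    have h2 : ev f (winv w ++ [(p.1, !p.2)]) = ev f (winv w) * ev f [(p.1, !p.2)] := by
      simp [ev]
    have h3 : ev f (p :: w) = ev f [p] * ev f w := by simp [ev]
    rw [h1, h2, ih, h3, mul_inv_rev]
    congr 1
    rcases p with ⟨i, b⟩
    cases b <;> simp [ev]

theorem comp_ev_append {G : Type*} [Group G] (f : Fin n → G) (w w' : List (Fin n × Bool)) :
    ev f (w ++ w') = ev f w * ev f w' := by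
  simp [ev]

theorem can_iff {G : Type*} [Group G] (f : Fin n → G) (c : List (Fin n × Bool)) :
    Can f c ↔ ∀ k < Encodable.encode c,
      (¬ Encodable.encode (((Encodable.decode k : Option (List (Fin n × Bool)))).getD []) = k) ∨
      ¬ ev f (winv ((Encodable.decode k : Option (List (Fin n × Bool))).getD []) ++ c) = 1 := by
  constructor
  · intro h k hk
    by_contra hcon
    push Not at hcon
    obtain ⟨h1, h2⟩ := hcon
    rw [comp_ev_append, ev_winv, inv_mul_eq_one] at h2
    have := h _ h2
    omega
  · intro h w' hw'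
    by_contra hlt
    push Not at hlt
    have h1 := h _ hlt
    simp only [Encodable.encodek, Option.getD_some, not_true_eq_false, false_or] at h1
    rw [comp_ev_append, ev_winv, inv_mul_eq_one] at h1
    exact h1 hw'

theorem can_computable {G : Type*} [Group G] (f : Fin n → G)
    (hdec : ComputablePred fun w : List (Fin n × Bool) => ev f w = 1) :
    ComputablePred (Can f) := by
  have hk : Primrec fun x : List (Fin n × Bool) × ℕ =>
      ((Encodable.decode x.2 : Option (List (Fin n × Bool)))).getD [] :=
    Primrec.option_getD.comp (Primrec.decode.comp Primrec.snd) (Primrec.const [])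
  have hinv : Primrec (winv (n := n)) := by
    refine Primrec.list_reverse.comp (Primrec.list_map Primrec.id ?_)
    exact ((Primrec.dom_finite fun p : Fin n × Bool => (p.1, !p.2)).comp Primrec.snd)
  have h1 : ComputablePred fun x : List (Fin n × Bool) × ℕ =>
      (¬ Encodable.encode (((Encodable.decode x.2 : Option (List (Fin n × Bool)))).getD []) = x.2) ∨
      ¬ ev f (winv ((Encodable.decode x.2 : Option (List (Fin n × Bool))).getD []) ++ x.1) = 1 := by
    refine CI.por ?_ ?_
    · exact (PrimrecPred.not (Primrec.eq.comp (Primrec.encode.comp hk)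
        Primrec.snd)).computablePred
    · exact (CI.pcomp hdec (Primrec.list_append.comp (hinv.comp hk) Primrec.fst).to_comp).not
  exact (CI.pball h1 Computable.encode).of_eq fun c => (can_iff f c).symm

section comp2

variable [Finite T] [Finite Q] [Primcodable (Letter T Q n)]

theorem grun_primrec : Primrec (grun (T := T) (Q := Q) (n := n)) := by
  have : Finite (Letter T Q n) := Letter.finite
  have h : Primrec fun w : List (Letter T Q n) =>
      (w.takeWhile fun a => (gOf a).isSome).filterMap gOf :=
    Primrec.listFilterMap (Primrec.list_takeWhile (Primrec.dom_finite _))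
      ((Primrec.dom_finite gOf).comp Primrec.snd)
  exact h.of_eq fun w => (grun_eq w).symm

theorem irrL_computable {G : Type*} [Group G] (f : Fin n → G)
    (hdec : ComputablePred fun w : List (Fin n × Bool) => ev f w = 1) (stkT : T → ℕ)
    {lhs : ℕ → List (List (Letter T Q n))} (hl : Primrec lhs) :
    ComputablePred fun x : ℕ × List (Letter T Q n) => IrrL stkT (lhs x.1) f x.2 := by
  refine CI.pand (PrimrecPred.computablePred ?_) ?_
  · have hd : Primrec fun y : ℕ × ℕ × List (Letter T Q n) => y.2.2.drop y.1 :=
      Primrec.list_drop.comp Primrec.fst (Primrec.snd.comp Primrec.snd)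
    have hR : PrimrecRel fun (i : ℕ) (x : ℕ × List (Letter T Q n)) =>
        ¬ HeadP stkT (lhs x.1) ((x.2.drop i).getD 0 .E) (x.2.drop i).tail := by
      refine PrimrecPred.not ((headP_primrec stkT).comp (Primrec.pair
        (hl.comp (Primrec.fst.comp Primrec.snd)) (Primrec.pair ?_ ?_)))
      · exact (Primrec.list_getD (.E : Letter T Q n)).comp hd (Primrec.const 0)
      · exact Primrec.list_tail.comp hd
    exact CI.rball hR (b := fun x : ℕ × List (Letter T Q n) => x.2.length)
      (Primrec.list_length.comp Primrec.snd)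
  · refine CI.pball (p := fun (x : ℕ × List (Letter T Q n)) i => Can f (grun (x.2.drop i))) ?_
      (Primrec.list_length.comp Primrec.snd).to_comp
    exact CI.pcomp (can_computable f hdec) (grun_primrec.comp
      (Primrec.list_drop.comp Primrec.snd (Primrec.snd.comp Primrec.fst))).to_comp

end comp2

end Vale.Agent.P193.BH

end FileCompIrr

/-! file CComp -/

section FileCComp
/-!
Boone-Higman project, part C: computability of the irreducible words.
-/

namespace Vale.Agent.P193.BH

open Turing.PartrecToTM2 (Γ' K' trNat trList)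

variable {S : Type} {n L : ℕ}

theorem ccfin_K' : Finite K' := by
  let φ : K' → Fin 4
    | .main => 0
    | .rev => 1
    | .aux => 2
    | .stack => 3
  refine Finite.of_injective φ ?_
  intro a b h
  cases a <;> cases b <;> simp_all [φ]

theorem ccfin_Γ' : Finite Γ' := Finite.of_fintype Γ'

theorem ccfin_RI [Finite S] : Finite (RI S n) := by
  have : Finite (LL S n) := finite_LL
  let φ : RI S n → Bool ⊕ (Bool × Bool) ⊕ Bool ⊕ (Bool × S × Fin 3) ⊕ (Bool × S) ⊕
      (Bool × S × Option Γ') ⊕ LL S n ⊕ Unit ⊕ (Bool × K' × Option Γ') ⊕ Fin 3 ⊕ Unit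
    | .rd0 μ => .inl μ
    | .rdD μ b => .inr (.inl (μ, b))
    | .rdBot μ => .inr (.inr (.inl μ))
    | .AF μ s j => .inr (.inr (.inr (.inl (μ, s, j))))
    | .Abot μ s => .inr (.inr (.inr (.inr (.inl (μ, s)))))
    | .Rd μ s o => .inr (.inr (.inr (.inr (.inr (.inl (μ, s, o))))))
    | .prL a => .inr (.inr (.inr (.inr (.inr (.inr (.inl a))))))
    | .prE => .inr (.inr (.inr (.inr (.inr (.inr (.inr (.inl ())))))))
    | .cl b k o => .inr (.inr (.inr (.inr (.inr (.inr (.inr (.inr (.inl (b, k, o)))))))))
    | .eatF j => .inr (.inr (.inr (.inr (.inr (.inr (.inr (.inr (.inr (.inl j)))))))))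
    | .eatB => .inr (.inr (.inr (.inr (.inr (.inr (.inr (.inr (.inr (.inr ())))))))))
  have : Finite K' := ccfin_K'
  have : Finite Γ' := ccfin_Γ'
  refine Finite.of_injective φ ?_
  intro a b h
  cases a <;> cases b <;> simp_all [φ]

/-- left hand side of a rule, as a word -/
def lhsW (E : EM S) (e : LL S n ≃ Fin L) (N : ℕ) (i : RI S n) : List (LL S n) :=
  .q (ruleOf E e N (fun _ => []) i).1 :: (ruleOf E e N (fun _ => []) i).2.1.map .s

theorem lhsW_eq (E : EM S) (e : LL S n ≃ Fin L) (N : ℕ) (W : Bool → List Γ') (i : RI S n) :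
    lhsW E e N i = .q (ruleOf E e N W i).1 :: (ruleOf E e N W i).2.1.map .s := by
  cases i with
  | cl b k o => cases o <;> rfl
  | _ => rfl

theorem lhsW_primrec [Finite S] [Primcodable (LL S n)] (E : EM S) (e : LL S n ≃ Fin L)
    (i : RI S n) : Primrec fun N => lhsW E e N i := by
  by_cases hi : ∃ a, i = .prL a
  · obtain ⟨a, rfl⟩ := hi
    have h : ∀ N, lhsW E e N (.prL a) = Letter.q .pr :: (List.replicate (N + (e a : ℕ))
        (Letter.s (tl .main .bit0)) ++ [Letter.s (tl .main .bit1)]) := by
      intro N
      simp [lhsW, ruleOf]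
    refine Primrec.of_eq ?_ fun N => (h N).symm
    refine Primrec.list_cons.comp (Primrec.const _) (Primrec.list_append.comp ?_
      (Primrec.const _))
    exact CI.replicate.comp (Primrec.nat_add.comp Primrec.id (Primrec.const _)) (Primrec.const _)
  · have h : ∀ N, lhsW E e N i = lhsW E e 0 i := by
      intro N
      cases i with
      | prL a => exact absurd ⟨a, rfl⟩ hi
      | cl b k o => cases o <;> rfl
      | _ => rfl
    exact (Primrec.const (lhsW E e 0 i)).of_eq fun N => (h N).symm

theorem map_primrec {I α : Type*} [Primcodable α] (F : ℕ → I → α)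
    (hF : ∀ i, Primrec fun N => F N i) (l : List I) : Primrec fun N => l.map (F N) := by
  induction l with
  | nil => exact Primrec.const _
  | cons i l ih => exact Primrec.list_cons.comp (hF i) ih

/-- C4: irreducibility is computable, uniformly in `N` -/
theorem irr_computable [Finite S] [Primcodable (LL S n)] {G : Type*} [Group G] (f : Fin n → G)
    (hdec : ComputablePred fun w : List (Fin n × Bool) => ev f w = 1)
    (E : EM S) (e : LL S n ≃ Fin L) :
    ∃ p : ℕ → List (LL S n) → Bool, Computable₂ p ∧
      ∀ (N : ℕ) (W : Bool → List Γ') (M : Machine TT (QQ S) n),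
        M.stkT = (fun a => kidx a.1) → (∀ r, r ∈ M.rules ↔ ∃ i, ruleOf E e N W i = r) →
        ∀ w, Irr M f w ↔ p N w = true := by
  classical
  have : Finite (RI S n) := ccfin_RI
  have hfin : Fintype (RI S n) := Fintype.ofFinite _
  have : Finite TT := inferInstance
  have : Finite (QQ S) := finite_QQ
  let lhs : ℕ → List (List (LL S n)) := fun N => (Finset.univ.toList).map (lhsW E e N)
  have hl : Primrec lhs := map_primrec _ (lhsW_primrec E e) _
  have hc := irrL_computable f hdec (fun a : TT => kidx a.1) hl
  obtain ⟨p, hp, hpe⟩ := ComputablePred.computable_iff.1 hc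
  refine ⟨fun N w => p (N, w), ?_, ?_⟩
  · exact hp
  · intro N W M hstk hr w
    have hL : Lhs M (fun a : TT => kidx a.1) (lhs N) := by
      refine ⟨hstk, ?_, ?_⟩
      · intro q γ
        simp only [lhs, List.mem_map, Finset.mem_toList, Finset.mem_univ, true_and]
        constructor
        · rintro ⟨i, hi⟩
          rw [lhsW_eq E e N W i] at hi
          injection hi with h1 h2
          injection h1 with h1
          have h3 := s_injective.list_map h2
          refine ⟨(ruleOf E e N W i).2.2, (hr _).2 ⟨i, ?_⟩⟩
          rw [← h1, ← h3]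
        · rintro ⟨rhs, hrhs⟩
          obtain ⟨i, hi⟩ := (hr _).1 hrhs
          refine ⟨i, ?_⟩
          rw [lhsW_eq E e N W i, hi]
      · intro r hr'
        simp only [lhs, List.mem_map, Finset.mem_toList, Finset.mem_univ, true_and] at hr'
        obtain ⟨i, rfl⟩ := hr'
        exact ⟨_, _, rfl⟩
    rw [comp_irr_iff hL]
    have := congrFun hpe (N, w)
    simp only at this
    rw [this]

end Vale.Agent.P193.BH

end FileCComp

/-! file CMem -/

section FileCMem
/-!
Boone-Higman project, part C: `outFn` enumerates `Out1` and `Out0`.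
-/

namespace Vale.Agent.P193.BH

open Turing.PartrecToTM2 (Γ' K' trNat trList)

variable {S : Type} {n L : ℕ}

theorem tgtF_surj [Primcodable (LL S n)] (m : List (LL S n)) (k₀ : ℕ) :
    ∃ k, k₀ ≤ k ∧ tgtF k = some m := by
  refine ⟨Nat.pair (Encodable.encode m) k₀, Nat.right_le_pair _ _, ?_⟩
  simp [tgtF]

theorem outFn_true [Primcodable (LL S n)] {G : Type*} [Group G] {f : Fin n → G}
    {M : Machine TT (QQ S) n} {p : ℕ → List (LL S n) → Bool} {g : List (Fin n × Bool) → Bool}
    {N : ℕ} (hg : ∀ c, ev f c = 1 ↔ g c = true) (hp : ∀ w, Irr M f w ↔ p N w = true) {m : ℕ}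
    {w : List (LL S n)} (h : outFn p g N true m = some w) : w ∈ Out1 M f tgtF := by
  unfold outFn at h
  rcases hd : (Encodable.decode m : Option (List (Fin n × Bool) ⊕ (ℕ × List (LL S n)))) with
    _ | ⟨c | x⟩
  · simp [hd] at h
  · rw [hd] at h
    simp only [Bool.true_and, Option.ite_none_right_eq_some, Option.some.injEq] at h
    exact Or.inl ⟨c, (hg c).2 h.1, h.2.symm⟩
  · rw [hd] at h
    simp only [Option.ite_none_right_eq_some, Option.some.injEq, Bool.and_eq_true,
      decide_eq_true_eq, beq_iff_eq] at h
    obtain ⟨⟨⟨h1, h2⟩, h3⟩, h4⟩ := h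
    exact Or.inr ⟨x.1, x.2, (hp _).2 h1, h2, by simpa using h3.symm, h4.symm⟩

theorem outFn_false [Primcodable (LL S n)] {G : Type*} [Group G] {f : Fin n → G}
    {M : Machine TT (QQ S) n} {p : ℕ → List (LL S n) → Bool} {g : List (Fin n × Bool) → Bool}
    {N : ℕ} (hp : ∀ w, Irr M f w ↔ p N w = true) {m : ℕ}
    {w : List (LL S n)} (h : outFn p g N false m = some w) : w ∈ Out0 M f tgtF := by
  unfold outFn at h
  rcases hd : (Encodable.decode m : Option (List (Fin n × Bool) ⊕ (ℕ × List (LL S n)))) with
    _ | ⟨c | x⟩
  · simp [hd] at h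
  · rw [hd] at h
    simp at h
  · rw [hd] at h
    simp only [Option.ite_none_right_eq_some, Option.some.injEq, Bool.and_eq_true,
      decide_eq_true_eq, beq_iff_eq] at h
    obtain ⟨⟨⟨h1, h2⟩, h3⟩, h4⟩ := h
    exact ⟨x.1, x.2, (hp _).2 h1, h2, by simpa using h3.symm, h4.symm⟩

theorem exists_outFn_true [Primcodable (LL S n)] {G : Type*} [Group G] {f : Fin n → G}
    {M : Machine TT (QQ S) n} {p : ℕ → List (LL S n) → Bool} {g : List (Fin n × Bool) → Bool}
    {N : ℕ} (hg : ∀ c, ev f c = 1 ↔ g c = true) (hp : ∀ w, Irr M f w ↔ p N w = true)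
    {w : List (LL S n)} (h : w ∈ Out1 M f tgtF) : ∃ m, outFn p g N true m = some w := by
  rcases h with ⟨c, hc, rfl⟩ | ⟨k, m, h1, h2, h3, rfl⟩
  · refine ⟨Encodable.encode (Sum.inl c : List (Fin n × Bool) ⊕ (ℕ × List (LL S n))), ?_⟩
    unfold outFn
    rw [Encodable.encodek]
    simp [(hg c).1 hc]
  · refine ⟨Encodable.encode (Sum.inr (k, m) : List (Fin n × Bool) ⊕ (ℕ × List (LL S n))), ?_⟩
    unfold outFn
    rw [Encodable.encodek]
    simp [(hp m).1 h1, h2, h3]

theorem exists_outFn_false [Primcodable (LL S n)] {G : Type*} [Group G] {f : Fin n → G}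
    {M : Machine TT (QQ S) n} {p : ℕ → List (LL S n) → Bool} {g : List (Fin n × Bool) → Bool}
    {N : ℕ} (hp : ∀ w, Irr M f w ↔ p N w = true)
    {w : List (LL S n)} (h : w ∈ Out0 M f tgtF) : ∃ m, outFn p g N false m = some w := by
  obtain ⟨k, m, h1, h2, h3, rfl⟩ := h
  refine ⟨Encodable.encode (Sum.inr (k, m) : List (Fin n × Bool) ⊕ (ℕ × List (LL S n))), ?_⟩
  unfold outFn
  rw [Encodable.encodek]
  simp [(hp m).1 h1, h2, h3]

end Vale.Agent.P193.BH

end FileCMem

/-! file Mach -/

section FileMach
/-! part C: existence of the machine, final statement -/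

namespace Vale.Agent.P193.BH

open Turing.PartrecToTM2 (Γ' K' trNat trList)
open Nat.Partrec (Code)

/-- the program word -/
def progW (c : Code) (μ : Bool) : List Γ' :=
  trNat (Encodable.encode (c.curry (cond μ 1 0))) ++ [.cons]

theorem progW_length (c : Code) (μ : Bool) : (progW c μ).length + 12 ≤ NN c := by
  unfold progW NN
  have h0 := trNat_length_le (Encodable.encode (c.curry 0))
  have h1 := trNat_length_le (Encodable.encode (c.curry 1))
  cases μ
  · simp only [cond_false, List.length_append, List.length_singleton]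
    omega
  · simp only [cond_true, List.length_append, List.length_singleton]
    omega

/-- part C -/
theorem exists_machine {n : ℕ} {G : Type*} [Group G] (f : Fin n → G)
    (hdec : ComputablePred fun w : List (Fin n × Bool) => ev f w = 1) :
    ∃ (T Q : Type) (_ : Finite T) (_ : Finite Q) (M : Machine T Q n)
      (tgt : ℕ → Option (List (Letter T Q n))), RunProp M f tgt := by
  obtain ⟨S, hS, E, hE1, hE2⟩ := exists_EM
  obtain ⟨L, ⟨e⟩⟩ := Finite.exists_equiv_fin (LL S n)
  let _ : Primcodable (LL S n) := Primcodable.ofEquiv (Fin L) e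
  obtain ⟨p, hp, hirr⟩ := irr_computable f hdec E e
  obtain ⟨g, hg, hgw⟩ := ComputablePred.computable_iff.1 hdec
  have hgw' : ∀ c, ev f c = 1 ↔ g c = true := fun c => by
    have := congrFun hgw c
    simpa using this
  obtain ⟨c, hc⟩ := exists_fix e p hp g hg
  obtain ⟨M, hM1, hM2, hM3⟩ := exists_mach E e (NN c) (progW c) (progW_length c)
  have hirr' : ∀ w, Irr M f w ↔ p (NN c) w = true := hirr _ _ M hM1 hM2
  -- the code of the program
  have hcode : ∀ μ : Bool, Denumerable.ofNat Code (Encodable.encode (c.curry (cond μ 1 0))) =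
      c.curry (cond μ 1 0) := fun μ => Denumerable.ofNat_encode _
  have hA : ∀ (μ : Bool) (l : List Bool) (w : List (LL S n)),
      outFn p g (NN c) μ (val l - 1) = some w →
      ∃ t s, E.iter t (E.init, stOf [Encodable.encode (c.curry (cond μ 1 0)), val l]) =
        some (s, stOf [encW e (NN c) w]) ∧ E.δ s = none := by
    intro μ l w h
    apply hE1
    rw [hcode, hc]
    exact ⟨w, h, rfl⟩
  have hB : ∀ (μ : Bool) (l : List Bool) t s T,
      E.iter t (E.init, stOf [Encodable.encode (c.curry (cond μ 1 0)), val l]) = some (s, T) →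
      E.δ s = none →
      ∃ w, outFn p g (NN c) μ (val l - 1) = some w ∧ T = stOf [encW e (NN c) w] := by
    intro μ l t s T h1 h2
    obtain ⟨r, hr, hT⟩ := hE2 _ _ _ _ _ h1 h2
    rw [hcode, hc] at hr
    obtain ⟨w, hw, rfl⟩ := hr
    exact ⟨w, hw, hT⟩
  have hRH : ∀ (N : Type) [Ring N] (ρ : LL S n → N), M.Resp ρ → RH E e (NN c) (progW c) M ρ :=
    fun N _ ρ h => ⟨hM1, hM2, h⟩
  have hrun : ∀ (μ : Bool) (y : List (Fin 3)),
      (∀ (N : Type) [Ring N] (ρ : LL S n → N), M.Resp ρ →
        pr ρ (stW S n μ) * pr ρ (fw n S y) * ρ (.s .bot) = if μ then ρ .qh else 0) ∨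
      (y ≠ [] ∧ ∃ (m : ℕ) (w : List (LL S n)), outFn p g (NN c) μ m = some w ∧
        ∀ (N : Type) [Ring N] (ρ : LL S n → N), M.Resp ρ →
        pr ρ (stW S n μ) * pr ρ (fw n S y) * ρ (.s .bot) = pr ρ w * ρ .qh) := by
    intro μ y
    rcases dig_split y with ⟨l, rfl⟩ | ⟨l, y', rfl⟩
    · left
      intro N _ ρ hρ
      exact run_digits (hRH N ρ hρ) μ l
    · by_cases hh : ∃ t s T, E.iter t (E.init,
          stOf [Encodable.encode (c.curry (cond μ 1 0)), val l]) = some (s, T) ∧
          E.δ s = none ∧ t < y'.length
      · obtain ⟨t, s, T, h1, h2, h3⟩ := hh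
        obtain ⟨w, hw, rfl⟩ := hB μ l t s T h1 h2
        right
        refine ⟨by simp, _, w, hw, ?_⟩
        intro N _ ρ hρ
        rw [run_sep (hRH N ρ hρ) μ _ rfl l y']
        exact run_halt (hRH N ρ hρ) μ t _ s w h1 h2 y' h3
      · left
        intro N _ ρ hρ
        rw [run_sep (hRH N ρ hρ) μ _ rfl l y']
        refine run_out (hRH N ρ hρ) μ (E.init, stOf [Encodable.encode (c.curry (cond μ 1 0)),
          val l]) y' ?_
        intro t s T h1 h2
        by_contra hlt
        exact hh ⟨t, s, T, h1, h2, by omega⟩
  have hsurj : ∀ (μ : Bool) (m : ℕ) (w : List (LL S n)), outFn p g (NN c) μ m = some w →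
      ∃ y : List (Fin 3), ∀ (N : Type) [Ring N] (ρ : LL S n → N), M.Resp ρ →
        pr ρ (stW S n μ) * pr ρ (fw n S y) * ρ (.s .bot) = pr ρ w * ρ .qh := by
    intro μ m w h
    obtain ⟨l, hl⟩ := exists_val (Nat.succ_ne_zero m)
    have h' : outFn p g (NN c) μ (val l - 1) = some w := by rw [hl]; exact h
    obtain ⟨t, s, h1, h2⟩ := hA μ l w h'
    refine ⟨dig l ++ 0 :: List.replicate (t + 1) 0, ?_⟩
    intro N _ ρ hρ
    rw [run_sep (hRH N ρ hρ) μ _ rfl l _]
    exact run_halt (hRH N ρ hρ) μ t _ s w h1 h2 _ (by simp)
  refine ⟨TT, QQ S, inferInstance, inferInstance, M, tgtF, ?_⟩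
  constructor
  · exact tgtF_surj
  · intro y
    rw [hM3]
    rcases hrun true y with h | ⟨hy, m, w, hw, h⟩
    · refine ⟨[], Or.inl rfl, fun _ => rfl, ?_⟩
      intro N _ ρ hρ
      have := h N ρ hρ
      simp only [if_true] at this
      simp only [fw] at this
      rw [this]
      simp [pr]
    · exact ⟨w, Or.inr (outFn_true hgw' hirr' hw), fun h0 => absurd h0 hy, h⟩
  · intro y
    rw [hM3]
    rcases hrun false y with h | ⟨hy, m, w, hw, h⟩
    · left
      intro N _ ρ hρ
      have := h N ρ hρ
      simpa only [fw, Bool.false_eq_true, ↓reduceIte] using this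
    · exact Or.inr ⟨hy, w, outFn_false hirr' hw, h⟩
  · intro out hout
    rw [hM3]
    obtain ⟨m, hm⟩ := exists_outFn_true hgw' hirr' hout
    exact hsurj true m out hm
  · intro out hout
    rw [hM3]
    obtain ⟨m, hm⟩ := exists_outFn_false (g := g) hirr' hout
    exact hsurj false m out hm

end Vale.Agent.P193.BH

end FileMach
end
end

section

section


/-! file Final -/

section FileFinal
/-! assembly -/

namespace Vale.Agent.P193.BH

open TensorProduct

theorem ev_eq {n : ℕ} {G : Type*} [Group G] (f : Fin n → G) (w : List (Fin n × Bool)) :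
    ev f w = FreeGroup.lift f (FreeGroup.mk w) := by
  rw [FreeGroup.lift_mk]; rfl

theorem booneHigman {n : ℕ} {G : Type*} [Group G] (f : Fin n → G)
    (hf : Subgroup.closure (Set.range f) = ⊤)
    (hdec : ComputablePred fun w : List (Fin n × Bool) =>
      FreeGroup.lift f (FreeGroup.mk w) = 1) :
    ∃ (K : Type) (_ : Group K), IsSimpleGroup K ∧ Group.IsFinitelyPresented K ∧
      ∃ ψ : G →* K, Function.Injective ψ := by
  obtain ⟨T, Q, _, _, M, tgt, hM⟩ := exists_machine f (by simpa only [ev_eq] using hdec)
  obtain ⟨R, _, _, hRn, hRfp, ⟨S, hS⟩, ⟨ψ, hψ⟩⟩ := machineRing f hf M tgt hM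
  obtain ⟨A, _, _, hAn, hAfp, ⟨CA, hCA⟩, ⟨IA⟩⟩ := houghtonAlg
  obtain ⟨L, _, _, hLn, hLfp, ⟨CL, hCL⟩, ⟨l, hl⟩⟩ := leavitt
  -- the algebra `(R ⊗ A) ⊗ L`
  obtain ⟨C, hC⟩ := hCA.tensor hCL
  haveI : Nontrivial (A ⊗[ZMod 2] L) := nontrivial_tensor
  haveI : Nontrivial (R ⊗[ZMod 2] (A ⊗[ZMod 2] L)) := nontrivial_tensor
  obtain ⟨l1, hl1⟩ := (l.tiny_of_adjoin hl).tensor (R := A)
  obtain ⟨l2, hl2⟩ := hl1.tensor (R := R)
  obtain ⟨I1⟩ := InfSum.tensor_right (R := L) IA
  obtain ⟨I2⟩ := InfSum.tensor_left (R := R) I1
  obtain ⟨ψ', hψ'⟩ := units_tensor (R := R) (B := A ⊗[ZMod 2] L)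
  have hpi : PI (R ⊗[ZMod 2] (A ⊗[ZMod 2] L)) := hS.pi_tensor hC.pi
  have hce : CenterTriv (R ⊗[ZMod 2] (A ⊗[ZMod 2] L)) := hS.center_tensor hC.center
  have hfp : FPAlg (R ⊗[ZMod 2] (A ⊗[ZMod 2] L)) := hRfp.tensor (hAfp.tensor hLfp)
  obtain ⟨K, iK, hK1, hK2, χ, hχ⟩ := groupStep _ hfp hpi hce I2 l2 hl2
  exact ⟨K, iK, hK1, hK2, (χ.comp ψ').comp ψ, (hχ.comp hψ').comp hψ⟩

end Vale.Agent.P193.BH

end FileFinal
end
end
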